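import Vale.Agent.P060.HW.Frame

/-!
# The exact annihilator lemma
-/

open scoped Classical

noncomputable section

set_option linter.unusedSectionVars false

namespace Vale.Agent.P060.HW

open Module

/-- Dual functionals of a linearly independent family. -/
lemma an_exists_dual {ι P : Type*} [Fintype P] (S : Finset ι) (f : ι → P → F)
    (h : LinearIndependent F (fun u : S => f u)) :
    ∃ L : ι → (P → F) →ₗ[F] F, ∀ t ∈ S, ∀ u ∈ S, L t (f u) = if t = u then 1 else 0 := by
  obtain ⟨g, hg⟩ := LinearMap.exists_leftInverse_of_injective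
    (Fintype.linearCombination F (fun u : S => f u))
    (LinearMap.ker_eq_bot.2 (linearIndependent_iff_injective_fintypeLinearCombination.1 h))
  refine ⟨fun t => if ht : t ∈ S then (LinearMap.proj (⟨t, ht⟩ : S)).comp g else 0, ?_⟩
  intro t ht u hu
  have h1 := LinearMap.congr_fun hg (Pi.single (⟨u, hu⟩ : S) 1)
  rw [LinearMap.comp_apply, Fintype.linearCombination_apply_single, one_smul,
    LinearMap.id_apply] at h1
  simp only [dif_pos ht]
  rw [LinearMap.comp_apply, h1, LinearMap.proj_apply, Pi.single_apply]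
  simp only [Subtype.mk.injEq]

section

variable {N d : ℕ} {E P Om : Type} [Fintype E] [Fintype P] [Fintype Om] [NeZero N]

lemma an_lin_inj {c : Ty N d} {s s' : Fin 3} (h : lin c s = lin c s') : s = s' :=
  (Prod.mk.injEq _ _ _ _ ▸ h : _ ∧ _).1

lemma an_mem_lins {c : Ty N d} {u : Lin N} : u ∈ lins c ↔ ∃ s, lin c s = u := by
  unfold lins
  rw [Finset.mem_image]
  exact ⟨fun ⟨s, _, h⟩ => ⟨s, h⟩, fun ⟨s, h⟩ => ⟨s, Finset.mem_univ _, h⟩⟩

/-- The vector of a type as a sum over a set of lines. -/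
lemma an_gv_sum (p : Lin N → Co E P Om → F) (c : Ty N d) (S : Finset (Lin N))
    (hS : ∀ s, lin c s ∈ S) (i : Co E P Om) :
    gv p c i = ∑ u ∈ S, (if u ∈ lins c then p u i else 0) := by
  rw [← Finset.sum_filter]
  have h1 : S.filter (· ∈ lins c) = Finset.univ.image (lin c) := by
    ext u
    rw [Finset.mem_filter]
    constructor
    · exact fun h => h.2
    · intro h
      refine ⟨?_, h⟩
      obtain ⟨s, rfl⟩ := an_mem_lins.1 h
      exact hS s
  rw [h1, Finset.sum_image (fun s _ s' _ h => an_lin_inj h), gv, Finset.sum_apply]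

lemma an_sm_apply {K : Type*} (h g : K → F) (i j : K) : sm h g i j = h i * g j + g i * h j := rfl

lemma an_sgl_same {K : Type*} (inst : DecidableEq K) (w : K) :
    @Pi.single K (fun _ => F) _ inst w (1 : F) w = 1 := by
  rw [Pi.single_eq_same]

lemma an_sgl_ne {K : Type*} (inst : DecidableEq K) {w i : K} (h : i ≠ w) :
    @Pi.single K (fun _ => F) _ inst w (1 : F) i = 0 := by
  rw [Pi.single_eq_of_ne h]

/-- The entries of a trivial tensor that we need. -/
lemma Nn_entries (fr : Frame N d E Om) (p : Lin N → Co E P Om → F) (h : Ext fr p) (a : Ty N d)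
    {Q : Matrix (Co E P Om) (Co E P Om) F} (hQ : Q ∈ (dsg fr p h).Nn a) :
    ∃ (x : Om → Ty N d → F) (y : Co E P Om → F),
      (∀ w b, x w b ≠ 0 → w ∈ fr.U b) ∧
      (∀ i j : E ⊕ P, Q (Sum.inl i) (Sum.inl j) =
        y (Sum.inl i) * gv p a (Sum.inl j) + gv p a (Sum.inl i) * y (Sum.inl j)) ∧
      (∀ w ∉ fr.U a, ∀ j : E ⊕ P, Q (Sum.inr w) (Sum.inl j) =
        y (Sum.inr w) * gv p a (Sum.inl j) + gv p a (Sum.inr w) * y (Sum.inl j)
          + ∑ b, x w b * gv p b (Sum.inl j)) := by
  unfold Design.Nn at hQ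
  induction hQ using Submodule.span_induction with
  | mem Q hQ =>
    rcases hQ with (⟨c, w0, hw0, rfl⟩ | ⟨w0, hw0, v, rfl⟩) | ⟨v, rfl⟩
    · obtain ⟨w1, hw1, rfl⟩ := Finset.mem_image.1 hw0
      refine ⟨fun w b => if w = w1 ∧ b = c then 1 else 0, 0, ?_, ?_, ?_⟩
      · intro w b hwb
        by_cases hh : w = w1 ∧ b = c
        · rw [hh.1, hh.2]; exact hw1
        · exact absurd (if_neg hh) hwb
      · intro i j
        rw [an_sm_apply, an_sgl_ne _ Sum.inl_ne_inr, an_sgl_ne _ Sum.inl_ne_inr]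
        simp
      · intro w _ j
        rw [an_sm_apply, an_sgl_ne _ Sum.inl_ne_inr]
        by_cases hh : w = w1
        · subst hh
          rw [an_sgl_same]
          rw [Finset.sum_eq_single c]
          · simp [dsg]
          · intro b _ hb
            simp [hb]
          · intro h'; exact absurd (Finset.mem_univ _) h'
        · rw [an_sgl_ne _ (fun h' => hh (Sum.inr_injective h'))]
          simp [hh]
    · obtain ⟨w1, hw1, rfl⟩ := Finset.mem_image.1 hw0
      refine ⟨0, 0, ?_, ?_, ?_⟩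
      · intro w b hwb
        exact absurd rfl hwb
      · intro i j
        rw [an_sm_apply, an_sgl_ne _ Sum.inl_ne_inr, an_sgl_ne _ Sum.inl_ne_inr]
        simp
      · intro w hw j
        rw [an_sm_apply, an_sgl_ne _ Sum.inl_ne_inr, an_sgl_ne _ (fun h' => hw (by
          rw [Sum.inr_injective h']; exact hw1))]
        simp
    · refine ⟨0, v, ?_, ?_, ?_⟩
      · intro w b hwb
        exact absurd rfl hwb
      · intro i j
        rfl
      · intro w hw j
        rw [an_sm_apply]
        simp [dsg]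
  | zero =>
    refine ⟨0, 0, fun w b hwb => absurd rfl hwb, fun i j => by simp, fun w _ j => by simp⟩
  | add A B _ _ hA hB =>
    obtain ⟨x, y, h1, h2, h3⟩ := hA
    obtain ⟨x', y', h1', h2', h3'⟩ := hB
    refine ⟨x + x', y + y', ?_, ?_, ?_⟩
    · intro w b hwb
      by_cases hx : x w b = 0
      · by_cases hx' : x' w b = 0
        · rw [Pi.add_apply, Pi.add_apply, hx, hx', add_zero] at hwb
          exact absurd rfl hwb
        · exact h1' _ _ hx'
      · exact h1 _ _ hx
    · intro i j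
      rw [Matrix.add_apply, h2, h2', Pi.add_apply, Pi.add_apply]
      ring
    · intro w hw j
      rw [Matrix.add_apply, h3 w hw, h3' w hw, Pi.add_apply, Pi.add_apply]
      have e1 : ∑ b, (x + x') w b * gv p b (Sum.inl j) =
          ∑ b, x w b * gv p b (Sum.inl j) + ∑ b, x' w b * gv p b (Sum.inl j) := by
        rw [← Finset.sum_add_distrib]
        exact Finset.sum_congr rfl fun b _ => by
          rw [Pi.add_apply, Pi.add_apply, add_mul]
      rw [e1]
      ring
  | smul r A _ hA =>
    obtain ⟨x, y, h1, h2, h3⟩ := hA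
    refine ⟨r • x, r • y, ?_, ?_, ?_⟩
    · intro w b hwb
      refine h1 w b fun hx => hwb ?_
      rw [Pi.smul_apply, Pi.smul_apply, hx, smul_zero]
    · intro i j
      rw [Matrix.smul_apply, h2, Pi.smul_apply, Pi.smul_apply]
      simp only [smul_eq_mul]
      ring
    · intro w hw j
      rw [Matrix.smul_apply, h3 w hw, Pi.smul_apply, Pi.smul_apply]
      have e1 : ∑ b, (r • x) w b * gv p b (Sum.inl j) =
          r * ∑ b, x w b * gv p b (Sum.inl j) := by
        rw [Finset.mul_sum]
        exact Finset.sum_congr rfl fun b _ => by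
          rw [Pi.smul_apply, Pi.smul_apply, smul_eq_mul, mul_assoc]
      rw [e1]
      simp only [smul_eq_mul]
      ring

lemma an_sum_sm {K : Type*} (z p : Lin N → K → F) (S : Finset (Lin N)) (i j : K) :
    (∑ u ∈ S, sm (z u) (p u)) i j = ∑ u ∈ S, (z u i * p u j + p u i * z u j) := by
  rw [Matrix.sum_apply]
  rfl

end

theorem an : AN := by
  intro N d E P Om _ _ _ _ fr p h a S haS hli hli2 z hz
  obtain ⟨x, y, hx, h1, h2⟩ := Nn_entries fr p h a hz
  -- the corrected vectors
  obtain ⟨zz, hzz⟩ : ∃ zz : Lin N → Co E P Om → F,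
      ∀ u i, zz u i = z u i - if u ∈ lins a then y i else 0 := ⟨_, fun u i => rfl⟩
  have k1 : ∀ i j : Co E P Om, y i * gv p a j + gv p a i * y j =
      ∑ u ∈ S, ((if u ∈ lins a then y i else 0) * p u j + p u i * (if u ∈ lins a then y j else 0)) := by
    intro i j
    rw [an_gv_sum p a S haS, an_gv_sum p a S haS, Finset.mul_sum, Finset.sum_mul,
      ← Finset.sum_add_distrib]
    refine Finset.sum_congr rfl fun u _ => ?_
    split_ifs <;> ring
  have g1 : ∀ i j : E ⊕ P, ∑ u ∈ S, (zz u (Sum.inl i) * p u (Sum.inl j)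
      + p u (Sum.inl i) * zz u (Sum.inl j)) = 0 := by
    intro i j
    have e1 := h1 i j
    rw [an_sum_sm, k1, ← sub_eq_zero, ← Finset.sum_sub_distrib] at e1
    rw [← e1]
    refine Finset.sum_congr rfl fun u _ => ?_
    rw [hzz, hzz]
    ring
  have g2 : ∀ w ∉ fr.U a, ∀ j : E ⊕ P, ∑ u ∈ S, (zz u (Sum.inr w) * p u (Sum.inl j)
      + p u (Sum.inr w) * zz u (Sum.inl j)) = ∑ b, x w b * gv p b (Sum.inl j) := by
    intro w hw j
    have e1 := h2 w hw j
    rw [an_sum_sm, k1, ← sub_eq_iff_eq_add', ← Finset.sum_sub_distrib] at e1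
    rw [← e1]
    refine Finset.sum_congr rfl fun u _ => ?_
    rw [hzz, hzz]
    ring
  obtain ⟨L, hL⟩ := an_exists_dual S (fun u => fun j : P => p u (Sum.inl (Sum.inr j))) hli
  obtain ⟨pp, hpp⟩ : ∃ pp : Lin N → P → F, ∀ u, pp u = fun j : P => p u (Sum.inl (Sum.inr j)) :=
    ⟨_, fun u => rfl⟩
  obtain ⟨zp, hzp⟩ : ∃ zp : Lin N → P → F, ∀ u, zp u = fun j : P => zz u (Sum.inl (Sum.inr j)) :=
    ⟨_, fun u => rfl⟩
  have hL' : ∀ t ∈ S, ∀ u ∈ S, L t (pp u) = if t = u then 1 else 0 := by
    intro t ht u hu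
    rw [hpp, hL t ht u hu]
    congr
  -- the coefficients
  have g3 : ∀ v ∈ S, ∀ i : E ⊕ P, zz v (Sum.inl i) = - ∑ u ∈ S, L v (zp u) * p u (Sum.inl i) := by
    intro v hv i
    have e1 : ∑ u ∈ S, (zz u (Sum.inl i) • pp u + p u (Sum.inl i) • zp u) = 0 := by
      funext j
      rw [Finset.sum_apply, Pi.zero_apply, ← g1 i (Sum.inr j)]
      refine Finset.sum_congr rfl fun u _ => ?_
      rw [hpp, hzp]
      rfl
    have e2 := congrArg (L v) e1
    rw [map_sum, map_zero] at e2
    have e3 : ∑ u ∈ S, (L v) (zz u (Sum.inl i) • pp u + p u (Sum.inl i) • zp u) =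
        zz v (Sum.inl i) + ∑ u ∈ S, L v (zp u) * p u (Sum.inl i) := by
      rw [show zz v (Sum.inl i) = ∑ u ∈ S, zz u (Sum.inl i) * (if v = u then 1 else 0) by
        rw [Finset.sum_eq_single v]
        · rw [if_pos rfl, mul_one]
        · intro u _ hu
          rw [if_neg (Ne.symm hu), mul_zero]
        · intro h'; exact absurd hv h', ← Finset.sum_add_distrib]
      refine Finset.sum_congr rfl fun u hu => ?_
      rw [map_add, map_smul, map_smul, hL' v hv u hu, smul_eq_mul, smul_eq_mul]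
      ring
    rw [e3] at e2
    linear_combination e2
  have g4 : ∀ v ∈ S, ∀ u ∈ S, L v (zp u) = - L u (zp v) := by
    intro v hv u hu
    have e1 : zp u = - ∑ t ∈ S, L u (zp t) • pp t := by
      funext j
      rw [hzp, Pi.neg_apply, Finset.sum_apply]
      show zz u (Sum.inl (Sum.inr j)) = _
      rw [g3 u hu]
      congr 1
      refine Finset.sum_congr rfl fun t _ => ?_
      rw [hpp]
      rfl
    rw [e1, map_neg, map_sum]
    congr 1
    rw [Finset.sum_eq_single v]
    · rw [map_smul, hL' v hv v hv, if_pos rfl, smul_eq_mul, mul_one]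
    · intro t ht htv
      rw [map_smul, hL' v hv t ht, if_neg (Ne.symm htv), smul_zero]
    · intro h'; exact absurd hv h'
  obtain ⟨c, hc⟩ : ∃ c : Lin N → Lin N → F,
      ∀ u v, c u v = if u ∈ S ∧ v ∈ S then - L u (zp v) else 0 := ⟨_, fun u v => rfl⟩
  have hcanti : ∀ u v, c u v = - c v u := by
    intro u v
    rw [hc, hc]
    by_cases huv : u ∈ S ∧ v ∈ S
    · rw [if_pos huv, if_pos huv.symm, g4 u huv.1 v huv.2]
    · rw [if_neg huv, if_neg (fun h' => huv h'.symm), neg_zero]
  have g5 : ∀ v ∈ S, ∀ i : E ⊕ P, zz v (Sum.inl i) = ∑ u ∈ S, c v u * p u (Sum.inl i) := by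
    intro v hv i
    rw [g3 v hv i, ← Finset.sum_neg_distrib]
    refine Finset.sum_congr rfl fun u hu => ?_
    rw [hc, if_pos ⟨hv, hu⟩]
    ring
  -- the rows
  obtain ⟨ζ, hζ⟩ : ∃ ζ : Om → Lin N → F,
      ∀ w u, ζ w u = zz u (Sum.inr w) - ∑ v ∈ S, c u v * p v (Sum.inr w) := ⟨_, fun w u => rfl⟩
  have g6 : ∀ w ∉ fr.U a, ∀ j : E ⊕ P, ∑ u ∈ S, ζ w u * p u (Sum.inl j) =
      ∑ b, x w b * gv p b (Sum.inl j) := by
    intro w hw j
    rw [← g2 w hw j, Finset.sum_add_distrib]
    have e1 : ∑ u ∈ S, p u (Sum.inr w) * zz u (Sum.inl j) =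
        - ∑ u ∈ S, (∑ v ∈ S, c u v * p v (Sum.inr w)) * p u (Sum.inl j) := by
      have e2 : ∀ u ∈ S, p u (Sum.inr w) * zz u (Sum.inl j) =
          ∑ v ∈ S, p u (Sum.inr w) * (c u v * p v (Sum.inl j)) := by
        intro u hu
        rw [g5 u hu j, Finset.mul_sum]
      rw [Finset.sum_congr rfl e2, Finset.sum_comm, ← Finset.sum_neg_distrib]
      refine Finset.sum_congr rfl fun v _ => ?_
      rw [Finset.sum_mul, ← Finset.sum_neg_distrib]
      refine Finset.sum_congr rfl fun u _ => ?_
      rw [hcanti u v]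
      ring
    rw [e1, ← sub_eq_add_neg, ← Finset.sum_sub_distrib]
    refine Finset.sum_congr rfl fun u _ => ?_
    rw [hζ]
    ring
  have g7 : ∀ w ∉ fr.U a, ∀ t ∈ S ∪ rowLines fr w, (if t ∈ S then ζ w t else 0) =
      ∑ b, x w b * (if t ∈ lins b then 1 else 0) := by
    intro w hw t ht
    obtain ⟨L2, hL2⟩ := an_exists_dual (S ∪ rowLines fr w)
      (fun u => fun j : P => p u (Sum.inl (Sum.inr j))) (hli2 w hw)
    have hL2' : ∀ u ∈ S ∪ rowLines fr w, L2 t (pp u) = if t = u then 1 else 0 := by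
      intro u hu
      rw [hpp, hL2 t ht u hu]
      congr
    have e1 : ∑ u ∈ S, ζ w u • pp u = ∑ b, x w b • ∑ s, pp (lin b s) := by
      funext j
      rw [Finset.sum_apply, Finset.sum_apply]
      have e2 := g6 w hw (Sum.inr j)
      have e3 : ∀ u, (ζ w u • pp u) j = ζ w u * p u (Sum.inl (Sum.inr j)) := by
        intro u; rw [hpp]; rfl
      have e4 : ∀ b, (x w b • ∑ s, pp (lin b s)) j = x w b * gv p b (Sum.inl (Sum.inr j)) := by
        intro b
        rw [Pi.smul_apply, Finset.sum_apply, gv, Finset.sum_apply, smul_eq_mul]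
        congr 1
        exact Finset.sum_congr rfl fun s _ => by rw [hpp]
      rw [Finset.sum_congr rfl fun u _ => e3 u, Finset.sum_congr rfl fun b _ => e4 b]
      exact e2
    have e5 := congrArg (L2 t) e1
    rw [map_sum, map_sum] at e5
    have e6 : ∑ u ∈ S, L2 t (ζ w u • pp u) = if t ∈ S then ζ w t else 0 := by
      split_ifs with hts
      · rw [Finset.sum_eq_single t]
        · rw [map_smul, hL2' t ht, if_pos rfl, smul_eq_mul, mul_one]
        · intro u hu hut
          rw [map_smul, hL2' u (Finset.mem_union_left _ hu), if_neg (Ne.symm hut), smul_zero]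
        · intro h'; exact absurd hts h'
      · refine Finset.sum_eq_zero fun u hu => ?_
        rw [map_smul, hL2' u (Finset.mem_union_left _ hu), if_neg (fun h' : t = u => hts (h' ▸ hu)),
          smul_zero]
    rw [e6] at e5
    rw [e5]
    refine Finset.sum_congr rfl fun b _ => ?_
    rw [map_smul, smul_eq_mul]
    by_cases hxb : x w b = 0
    · rw [hxb, zero_mul, zero_mul]
    · congr 1
      rw [map_sum]
      have hmem : ∀ s, lin b s ∈ S ∪ rowLines fr w := by
        intro s
        refine Finset.mem_union_right _ (Finset.mem_biUnion.2 ⟨b, ?_, an_mem_lins.2 ⟨s, rfl⟩⟩)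
        rw [Finset.mem_filter]
        exact ⟨Finset.mem_univ _, hx w b hxb⟩
      rw [Finset.sum_congr rfl fun s _ => hL2' (lin b s) (hmem s)]
      split_ifs with htb
      · obtain ⟨s, rfl⟩ := an_mem_lins.1 htb
        rw [Finset.sum_eq_single s]
        · rw [if_pos rfl]
        · intro s' _ hs'
          rw [if_neg (fun h' => hs' (an_lin_inj h').symm)]
        · intro h'; exact absurd (Finset.mem_univ _) h'
      · refine Finset.sum_eq_zero fun s _ => ?_
        rw [if_neg (fun h' => htb (an_mem_lins.2 ⟨s, h'.symm⟩))]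
  have g8 : ∀ w ∉ fr.U a, ∀ b, x w b ≠ 0 → ∀ s, lin b s ∈ S := by
    intro w hw b hxb s
    by_contra hs
    have hmem : lin b s ∈ S ∪ rowLines fr w := by
      refine Finset.mem_union_right _ (Finset.mem_biUnion.2 ⟨b, ?_, an_mem_lins.2 ⟨s, rfl⟩⟩)
      rw [Finset.mem_filter]
      exact ⟨Finset.mem_univ _, hx w b hxb⟩
    have e1 := g7 w hw (lin b s) hmem
    rw [if_neg hs, Finset.sum_eq_single b] at e1
    · rw [if_pos (an_mem_lins.2 ⟨s, rfl⟩), mul_one] at e1
      exact hxb e1.symm
    · intro b' _ hb'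
      by_cases hxb' : x w b' = 0
      · rw [hxb', zero_mul]
      · rw [if_neg, mul_zero]
        intro hl
        obtain ⟨s', hs'⟩ := an_mem_lins.1 hl
        have hss : s' = s := (Prod.mk.injEq _ _ _ _ ▸ hs' : _ ∧ _).1
        subst hss
        have hln : ln b' s' = ln b s' := (Prod.mk.injEq _ _ _ _ ▸ hs' : _ ∧ _).2
        exact fr.line_disj b' b w (hx w b' hxb') (hx w b hxb) hb' s' hln
    · intro h'; exact absurd (Finset.mem_univ _) h'
  refine ⟨y, c, fun w b => if w ∈ fr.U a then 0 else x w b, hcanti, ?_, ?_, ?_, ?_⟩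
  · intro u v hu
    rw [hc, if_neg (fun h' => hu h'.1)]
  · intro w b hwb
    by_cases hw : w ∈ fr.U a
    · exact absurd (if_pos hw) hwb
    · have hwb' : x w b ≠ 0 := by
        have e1 : (if w ∈ fr.U a then 0 else x w b) ≠ 0 := hwb
        rwa [if_neg hw] at e1
      exact ⟨hx w b hwb', g8 w hw b hwb'⟩
  · intro u hu j
    have e1 := g5 u hu j
    rw [hzz] at e1
    linear_combination e1
  · intro u hu w hw
    have e1 := g7 w hw u (Finset.mem_union_left _ hu)
    rw [if_pos hu, hζ, hzz] at e1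
    simp only [if_neg hw]
    linear_combination e1

end Vale.Agent.P060.HW
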