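import Mathlib

/-! Averages over cosets of submodules: a function which is nearly measurable with respect to
few functionals on the slices of three independent pasts is nearly measurable with respect to
few functionals. -/

namespace Vale.Agent.P060.HW

open Finset Module

section Avg

variable {F V : Type*} [Field F] [AddCommGroup V] [Module F V] [Fintype V]

open Classical in
/-- The finite set of elements of a submodule. -/
noncomputable def carr (U : Submodule F V) : Finset V := univ.filter fun x => x ∈ U

theorem mem_carr {U : Submodule F V} {x : V} : x ∈ carr U ↔ x ∈ U := by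
  simp [carr]

theorem carr_nonempty (U : Submodule F V) : (carr U).Nonempty := ⟨0, mem_carr.mpr U.zero_mem⟩

theorem carr_card_pos (U : Submodule F V) : (0 : ℝ) < (carr U).card :=
  Nat.cast_pos.mpr (Finset.card_pos.mpr (carr_nonempty U))

/-- Average of `f` over the coset `x + U`. -/
noncomputable def avg (U : Submodule F V) (f : V → ℝ) (x : V) : ℝ :=
  (∑ u ∈ carr U, f (x + u)) / (carr U).card

theorem avg_comm (U W : Submodule F V) (f : V → ℝ) :
    avg U (avg W f) = avg W (avg U f) := by
  funext x
  simp only [avg]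
  rw [← Finset.sum_div, ← Finset.sum_div, Finset.sum_comm, div_div, div_div, mul_comm]
  congr 1
  refine Finset.sum_congr rfl fun w _ => Finset.sum_congr rfl fun u _ => ?_
  rw [add_right_comm]

theorem avg_of_inv {U : Submodule F V} {g : V → ℝ} (h : ∀ x, ∀ u ∈ U, g (x + u) = g x) :
    avg U g = g := by
  funext x
  rw [avg, Finset.sum_congr rfl fun u hu => h x u (mem_carr.mp hu), Finset.sum_const,
    nsmul_eq_mul, mul_div_assoc, mul_comm, div_mul_cancel₀ _ (carr_card_pos U).ne']

theorem avg_inv (U : Submodule F V) (f : V → ℝ) {x u : V} (hu : u ∈ U) :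
    avg U f (x + u) = avg U f x := by
  rw [avg, avg]
  congr 1
  refine Finset.sum_bij (fun v _ => u + v) ?_ ?_ ?_ ?_
  · intro v hv
    exact mem_carr.mpr (U.add_mem hu (mem_carr.mp hv))
  · intro v _ w _ h
    exact add_left_cancel h
  · intro w hw
    exact ⟨-u + w, mem_carr.mpr (U.add_mem (U.neg_mem hu) (mem_carr.mp hw)), by
      rw [add_neg_cancel_left]⟩
  · intro v _
    rw [add_assoc]

omit [Fintype V] in
theorem inv_sup {U W : Submodule F V} {g : V → ℝ} (h : ∀ x, ∀ u ∈ U, g (x + u) = g x)
    (h' : ∀ x, ∀ u ∈ W, g (x + u) = g x) : ∀ x, ∀ u ∈ U ⊔ W, g (x + u) = g x := by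
  intro x u hu
  obtain ⟨a, ha, b, hb, rfl⟩ := Submodule.mem_sup.mp hu
  rw [← add_assoc, h' _ _ hb, h _ _ ha]

theorem avg_avg (U W : Submodule F V) (f : V → ℝ) :
    avg U (avg W f) = avg (U ⊔ W) f := by
  have h1 : avg (U ⊔ W) (avg U (avg W f)) = avg U (avg W f) := by
    apply avg_of_inv
    apply inv_sup
    · intro x u hu
      exact avg_inv _ _ hu
    · intro x u hu
      rw [avg_comm]
      exact avg_inv _ _ hu
  rw [← h1, avg_comm (U ⊔ W) U, avg_comm (U ⊔ W) W]
  rw [avg_of_inv (U := W), avg_of_inv (U := U)]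
  · intro x u hu
    exact avg_inv _ _ (Submodule.mem_sup_left hu)
  · intro x u hu
    exact avg_inv _ _ (Submodule.mem_sup_right hu)

theorem avg_sub (U : Submodule F V) (f g : V → ℝ) (x : V) :
    avg U (fun y => f y - g y) x = avg U f x - avg U g x := by
  rw [avg, avg, avg, Finset.sum_sub_distrib, sub_div]

theorem abs_avg_le (U : Submodule F V) (f : V → ℝ) (x : V) :
    |avg U f x| ≤ avg U (fun y => |f y|) x := by
  rw [avg, avg, abs_div, abs_of_pos (carr_card_pos U)]
  exact div_le_div_of_nonneg_right (Finset.abs_sum_le_sum_abs _ _) (carr_card_pos U).le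

theorem avg_le_of_le (U : Submodule F V) {f : V → ℝ} {B : ℝ} (h : ∀ x, f x ≤ B) (x : V) :
    avg U f x ≤ B := by
  rw [avg, div_le_iff₀ (carr_card_pos U)]
  calc ∑ u ∈ carr U, f (x + u) ≤ ∑ _u ∈ carr U, B := Finset.sum_le_sum fun u _ => h _
    _ = B * (carr U).card := by rw [Finset.sum_const, nsmul_eq_mul, mul_comm]

/-- A field of submodules contained in `N` and constant on the cosets of `N`. -/
structure IsField (N : Submodule F V) (U : V → Submodule F V) : Prop where
  le : ∀ x, U x ≤ N
  inv : ∀ x, ∀ n ∈ N, U (x + n) = U x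

omit [Fintype V] in
theorem isField_const {N U : Submodule F V} (h : U ≤ N) : IsField N fun _ => U :=
  ⟨fun _ => h, fun _ _ _ => rfl⟩

omit [Fintype V] in
theorem IsField.sup {N : Submodule F V} {U W : V → Submodule F V} (hU : IsField N U)
    (hW : IsField N W) : IsField N fun x => U x ⊔ W x :=
  ⟨fun x => sup_le (hU.le x) (hW.le x), fun x n hn => by rw [hU.inv x n hn, hW.inv x n hn]⟩

omit [Fintype V] in
theorem IsField.inf_left {N : Submodule F V} {U : V → Submodule F V} (hU : IsField N U)
    (M : Submodule F V) : IsField N fun x => U x ⊓ M :=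
  ⟨fun x => inf_le_left.trans (hU.le x), fun x n hn => by rw [hU.inv x n hn]⟩

omit [Fintype V] in
theorem IsField.inf_both {N : Submodule F V} {U : V → Submodule F V} (hU : IsField N U)
    (M : Submodule F V) : IsField (N ⊓ M) fun x => U x ⊓ M :=
  ⟨fun x => inf_le_inf_right _ (hU.le x), fun x n hn => by rw [hU.inv x n hn.1]⟩

/-- Averages over the cosets `x + U x`. -/
noncomputable def favg (U : V → Submodule F V) (f : V → ℝ) (x : V) : ℝ := avg (U x) f x

theorem favg_favg {N : Submodule F V} {U W : V → Submodule F V} (hU : IsField N U)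
    (hW : IsField N W) (f : V → ℝ) :
    favg U (favg W f) = favg (fun x => U x ⊔ W x) f := by
  funext x
  have h1 : favg U (favg W f) x = avg (U x) (avg (W x) f) x := by
    rw [favg, avg, avg]
    congr 1
    refine Finset.sum_congr rfl fun u hu => ?_
    rw [favg, hW.inv x u (hU.le x (mem_carr.mp hu))]
  rw [h1, avg_avg]
  rfl

theorem sum_favg {N : Submodule F V} {U : V → Submodule F V} (hU : IsField N U) (g : V → ℝ) :
    ∑ x, favg U g x = ∑ x, g x := by
  classical
  have h1 : ∀ x, favg U g x = ∑ u, if u ∈ U x then g (x + u) / (carr (U x)).card else 0 := by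
    intro x
    rw [favg, avg, Finset.sum_div, carr, Finset.sum_filter]
  have h2 : ∀ u : V, (∑ x, if u ∈ U x then g (x + u) / (carr (U x)).card else 0) =
      ∑ y, if u ∈ U y then g y / (carr (U y)).card else 0 := by
    intro u
    refine Fintype.sum_equiv (Equiv.addRight u) _ _ fun x => ?_
    change _ = if u ∈ U (x + u) then g (x + u) / (carr (U (x + u))).card else 0
    by_cases h : u ∈ U x
    · rw [hU.inv x u (hU.le x h)]
    · rw [if_neg h]
      by_cases h' : u ∈ U (x + u)
      · exfalso
        apply h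
        have h3 := hU.inv (x + u) (-u) (N.neg_mem (hU.le _ h'))
        rw [add_neg_cancel_right] at h3
        rwa [h3]
      · rw [if_neg h']
  rw [Finset.sum_congr rfl fun x _ => h1 x, Finset.sum_comm,
    Finset.sum_congr rfl fun u _ => h2 u, Finset.sum_comm]
  refine Finset.sum_congr rfl fun y _ => ?_
  rw [← Finset.sum_filter, Finset.sum_const, nsmul_eq_mul]
  have : (univ.filter fun u => u ∈ U y) = carr (U y) := rfl
  rw [this, mul_div_assoc', mul_comm, mul_div_assoc, div_self (carr_card_pos _).ne', mul_one]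

theorem l1_favg_le {N : Submodule F V} {U : V → Submodule F V} (hU : IsField N U) (g : V → ℝ) :
    ∑ x, |favg U g x| ≤ ∑ x, |g x| := by
  rw [← sum_favg hU fun y => |g y|]
  exact Finset.sum_le_sum fun x _ => abs_avg_le _ _ _

omit [AddCommGroup V] in
theorem l1_triangle (f g h : V → ℝ) :
    ∑ x, |f x - h x| ≤ ∑ x, |f x - g x| + ∑ x, |g x - h x| := by
  rw [← Finset.sum_add_distrib]
  exact Finset.sum_le_sum fun x _ => abs_sub_le _ _ _

theorem favg_sub (U : V → Submodule F V) (f g : V → ℝ) (x : V) :
    favg U f x - favg U g x = favg U (fun y => f y - g y) x := by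
  rw [favg, favg, favg, avg_sub]

theorem l1_favg_sub_le {N : Submodule F V} {U : V → Submodule F V} (hU : IsField N U)
    (f g : V → ℝ) : ∑ x, |favg U f x - favg U g x| ≤ ∑ x, |f x - g x| := by
  rw [Finset.sum_congr rfl fun x _ => by rw [favg_sub U f g x]]
  exact l1_favg_le hU _

/-- A smaller field of submodules doubles the error. -/
theorem l1_refine {N : Submodule F V} {U W : V → Submodule F V} (hU : IsField N U)
    (hW : IsField N W) (hWU : ∀ x, W x ≤ U x) (f : V → ℝ) {e : ℝ}
    (h : ∑ x, |f x - favg U f x| ≤ e) : ∑ x, |f x - favg W f x| ≤ 2 * e := by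
  have h1 : favg W (favg U f) = favg U f := by
    rw [favg_favg hW hU]
    funext x
    rw [favg, favg, sup_eq_right.mpr (hWU x)]
  have h2 : ∑ x, |favg U f x - favg W f x| ≤ e := by
    refine le_trans ?_ h
    calc ∑ x, |favg U f x - favg W f x| = ∑ x, |favg W f x - favg W (favg U f) x| := by
          rw [h1]
          exact Finset.sum_congr rfl fun x _ => abs_sub_comm _ _
      _ ≤ ∑ x, |f x - favg U f x| := l1_favg_sub_le hW _ _
  linarith [l1_triangle f (favg U f) (favg W f)]

/-- Two fields of submodules for the same `N`. -/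
theorem l1_sup {N : Submodule F V} {U W : V → Submodule F V} (hU : IsField N U)
    (hW : IsField N W) (f : V → ℝ) {e e' : ℝ}
    (h : ∑ x, |f x - favg U f x| ≤ e) (h' : ∑ x, |f x - favg W f x| ≤ e') :
    ∑ x, |f x - favg (fun x => U x ⊔ W x) f x| ≤ e + e' := by
  rw [← favg_favg hU hW]
  have h2 : ∑ x, |favg U f x - favg U (favg W f) x| ≤ e' :=
    (l1_favg_sub_le hU _ _).trans h'
  linarith [l1_triangle f (favg U f) (favg U (favg W f))]

end Avg

end Vale.Agent.P060.HW
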