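import Vale.Agent.P060.HW.Good
import Vale.Agent.P060.HW.Pasts

/-!
# Design H3: statements TV, TVLS, OVERLAP, OUT-A
-/

open scoped Classical

noncomputable section

set_option linter.unusedSectionVars false

namespace Vale.Agent.P060.HW

open Module

/-- The law of the four test values. -/
def tlaw {K : Type*} [Fintype K] (w : Matrix K K F → Matrix K K F → ℝ) (g g' : K → F)
    (m : Fin 4 → K → F) : ℝ := ∑ B, ∑ B', if tv g g' B B' = m then w B B' else 0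

/-- The directions killed by all trivial functionals and all cut functionals. -/
def Design.Zab {K T : Type*} [Fintype K] (δ : Design K T) (a a' b b' : T) :
    Submodule F (Fin 4 → K → F) where
  carrier := {m | ∀ z, TrivPsi δ a a' b b' z → ∑ i, z i ⬝ᵥ m i = 0}
  zero_mem' := by intro z _; simp
  add_mem' := by
    intro m n hm hn z hz
    simp only [Pi.add_apply, dotProduct_add, Finset.sum_add_distrib, hm z hz, hn z hz, add_zero]
  smul_mem' := by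
    intro c m hm z hz
    simp only [Pi.smul_apply, dotProduct_smul, ← Finset.smul_sum, hm z hz, smul_zero]

/-- The L1-distance of the law of the test values to its average along `Zab`. -/
def tdist {K T : Type*} [Fintype K] (δ : Design K T) (a a' : T)
    (w : Matrix K K F → Matrix K K F → ℝ) (β : T × T) : ℝ :=
  ∑ m, |tlaw w (δ.g β.1) (δ.g β.2) m
    - avg (δ.Zab a a' β.1 β.2) (tlaw w (δ.g β.1) (δ.g β.2)) m|

/-- A subcoupling of types with marginals at most `M₀` times uniform, without equal pairs. -/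
structure TCoup {T : Type*} [Fintype T] (M₀ : ℝ) (ρ : T × T → ℝ) : Prop where
  nonneg : ∀ β, 0 ≤ ρ β
  ne : ∀ b, ρ (b, b) = 0
  left : ∀ b, (∑ b', ρ (b, b')) * Fintype.card T ≤ M₀
  right : ∀ b', (∑ b, ρ (b, b')) * Fintype.card T ≤ M₀

/-- TV: `η` depends only on `E, C, ε`; then `D₀` large, `d` large, `θ` small, `k` large: the pairs
without large nontrivial coefficient and with test values far from the average have small mass. -/
def TV : Prop := ∀ (ψ : AddChar F ℂ), ψ ≠ 0 → ∀ (E : Type) [Fintype E] (C ε : ℝ), 0 < ε →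
  ∃ η > (0 : ℝ), ∃ D₁ : ℕ, ∀ D₀ ≥ D₁, ∃ d₁ : ℕ, ∀ d ≥ d₁, ∃ C₁ : ℝ, ∃ θ > (0 : ℝ), ∃ k₀ : ℕ,
  ∀ (N : ℕ) (P Om : Type) [Fintype P] [Fintype Om] [NeZero N] (fr : Frame N d E Om),
  k₀ ≤ Fintype.card P → Sizes fr P D₀ θ C₁ →
  ∃ G : Set (Dz fr P), 20 * Nat.card (Gᶜ : Set (Dz fr P)) ≤ Nat.card (Dz fr P) ∧ ∀ p ∈ G, ∀ (a a' : Ty N d) (ι ι' : Bool), a ≠ a' →
    ∀ w, PLaw (dsg fr p.1 p.2) a a' ι ι' (2521 ^ (C * Fintype.card P)) ((Fintype.card P : ℝ) ^ C) w →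
    ∀ ρ, TCoup 8 ρ →
      ∑ β, (if ε < tdist (dsg fr p.1 p.2) a a' w β ∧ ¬ BadC ψ (dsg fr p.1 p.2) a a' w η β
        then ρ β else 0) ≤ ε

/-- TVLS: the combination of TV and LS. -/
def TVLS : Prop := ∀ (E : Type) [Fintype E] (C ε : ℝ), 0 < ε → ∃ D₁ : ℕ, ∀ D₀ ≥ D₁,
  ∃ d₁ : ℕ, ∀ d ≥ d₁, ∃ C₁ : ℝ, ∃ θ > (0 : ℝ), ∃ k₀ : ℕ,
  ∀ (N : ℕ) (P Om : Type) [Fintype P] [Fintype Om] [NeZero N] (fr : Frame N d E Om),
  k₀ ≤ Fintype.card P → Sizes fr P D₀ θ C₁ →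
  ∃ G : Set (Dz fr P), 10 * Nat.card (Gᶜ : Set (Dz fr P)) ≤ Nat.card (Dz fr P) ∧ ∀ p ∈ G,
    ∀ (a a' : Ty N d) (ι ι' : Bool), a ≠ a' →
    ∀ w, PLaw (dsg fr p.1 p.2) a a' ι ι' (2521 ^ (C * Fintype.card P)) ((Fintype.card P : ℝ) ^ C) w →
    ∀ ρ, TCoup 8 ρ → ∑ β, (if ε < tdist (dsg fr p.1 p.2) a a' w β then ρ β else 0) ≤ ε

/-- LDFAM: a set of pairs of mass `> ε` contains a line-disjoint family of `≥ ε N / 1000` pairs. -/
def LDFam : Prop := ∀ (N d : ℕ) [NeZero N], 0 < d → 2 * d ≤ N → ∀ (ρ : Ty N d × Ty N d → ℝ),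
  TCoup 8 ρ → ∀ (A : Finset (Ty N d × Ty N d)) (ε : ℝ), ε < ∑ β ∈ A, ρ β →
  ∃ 𝓕 ⊆ A, LD 𝓕 ∧ (∀ β ∈ 𝓕, β.1 ≠ β.2) ∧ ε * N / 1000 ≤ (𝓕.card : ℝ)

/-- The conflict of test values: `m` are the test values of `(x, x')` at `(b, b')`, `n` those of
`(y, y')` at `(a, a')`. -/
def ConfT {K T : Type*} [Fintype K] (δ : Design K T) (m n : Fin 4 → K → F) : Prop :=
  let D : (K → F) → Prop := fun v => ∃ t ∈ δ.E, ∃ u ∈ Y, v = Pi.single t u
  D (m 0 - n 0) ∧ D (m 1 - n 2) ∧ D (m 2 - n 1) ∧ D (m 3 - n 3)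

/-- The cut functionals of test values: both values are outside `Y`. -/
def UncutT {K : Type*} [Fintype K] (ga ga' : K → F) (m : Fin 4 → K → F) : Prop :=
  ga' ⬝ᵥ m 0 - ga ⬝ᵥ m 2 ∉ Y ∧ ga' ⬝ᵥ m 1 - ga ⬝ᵥ m 3 ∉ Y

/-- OVERLAP.  For line-disjoint pairs `(a, a')`, `(b, b')` of different types with joint values onto
`Y × Y`: if both laws of test values are close to their averages and uncut with probability at least
`1/400`, then the conflict probability is at least `2521 ^ (-(4 |K| + c))`. -/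
def Overlap : Prop := ∃ c : ℕ, ∃ ε > (0 : ℝ), ∀ (N d : ℕ) (E P Om : Type) [Fintype E] [Fintype P]
  [Fintype Om] [NeZero N] (fr : Frame N d E Om) (p : Lin N → Co E P Om → F) (h : Ext fr p)
  (κ : ℕ), 12 ≤ κ → (∀ w, 12 + (rowLines fr w).card ≤ κ) → Ev1 p κ →
  ∀ (a a' b b' : Ty N d), a ≠ a' → b ≠ b' → Disjoint (lins2 (a, a')) (lins2 (b, b')) →
  JointOnto fr a b → JointOnto fr a b' → JointOnto fr a' b → JointOnto fr a' b' →
  ∀ (ι₁ ι₁' ι₂ ι₂' : Bool) (Λ M : ℝ) (w w' : _ → _ → ℝ),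
    PLaw (dsg fr p h) a a' ι₁ ι₁' Λ M w → PLaw (dsg fr p h) b b' ι₂ ι₂' Λ M w' →
    tdist (dsg fr p h) a a' w (b, b') ≤ ε → tdist (dsg fr p h) b b' w' (a, a') ≤ ε →
    1 / 400 ≤ ∑ m, (if UncutT (gv p a) (gv p a') m then tlaw w (gv p b) (gv p b') m else 0) →
    1 / 400 ≤ ∑ n, (if UncutT (gv p b) (gv p b') n then tlaw w' (gv p a) (gv p a') n else 0) →
    ((2521 : ℝ) ^ (4 * Fintype.card (Co E P Om) + c))⁻¹ ≤
      ∑ m, ∑ n, (if ConfT (dsg fr p h) m n then tlaw w (gv p b) (gv p b') m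
        * tlaw w' (gv p a) (gv p a') n else 0)

/-- OUT-A: a law `q` of vertices with bounded KL has adjacency mass at least `2521 ^ (-(2 |K|))`. -/
def NotOutA : Prop := ∀ C : ℝ, ∃ D₁ : ℕ, ∀ D₀ ≥ D₁, ∀ (d : ℕ) (E : Type) [Fintype E], 0 < d →
  ∃ θ > (0 : ℝ), ∃ k₀ : ℕ, ∀ (N : ℕ) (P Om : Type) [Fintype P] [Fintype Om] [NeZero N]
  (fr : Frame N d E Om) (p : Lin N → Co E P Om → F) (h : Ext fr p), k₀ ≤ Fintype.card P →
  Sizes fr P D₀ θ 0 → (∀ κ : ℕ, κ ≤ 20 * Fintype.card P / (D₀ + 20) ^ 2 → Ev1 p κ) →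
  (∀ w, 12 + (rowLines fr w).card ≤ 5 * Fintype.card P / (D₀ + 20) ^ 2) →
  ¬ OutA (dsg fr p h).Adj C ((2521 : ℝ) ^ (2 * Fintype.card (Co E P Om)))⁻¹

end Vale.Agent.P060.HW
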