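import Vale.Agent.P060.HW.Strong
import Vale.Agent.P060.HW.Blocks

/-!
P060-HW (TV part): good pairs of types have an alignment; the mass of the bad pairs is small.
-/

open scoped Classical

noncomputable section

set_option linter.unusedSectionVars false

namespace Vale.Agent.P060.HW

namespace Align

open Finset Strong

variable {N d : ℕ} [NeZero N]

lemma lin_injective (c : Ty N d) : Function.Injective (lin c) := fun s s' h =>
  congrArg Prod.fst h

lemma lin_eq_iff {c c' : Ty N d} {s t : Fin 3} : lin c s = lin c' t ↔ s = t ∧ ln c s = ln c' t := by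
  unfold lin
  rw [Prod.mk.injEq]

/-- two types with two common lines are equal -/
lemma lin_linear (hd : 2 * d ≤ N) (c c' : Ty N d) (s s' t t' : Fin 3) (hs : s ≠ s')
    (h : lin c s = lin c' t) (h' : lin c s' = lin c' t') : c = c' := by
  obtain ⟨rfl, h1⟩ := lin_eq_iff.1 h
  obtain ⟨rfl, h2⟩ := lin_eq_iff.1 h'
  exact Combi.eq_of_share_two hd hs h1 h2

/-- every line is in at most `d` types -/
lemma card_types_of_line (u : Lin N) :
    (univ.filter fun c : Ty N d => ∃ s, lin c s = u).card ≤ d := by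
  have h : (univ.filter fun c : Ty N d => ∃ s, lin c s = u).card ≤ (univ : Finset (Fin d)).card := by
    refine Finset.card_le_card_of_injOn (fun c => c.2) (fun c _ => by simp) ?_
    intro c hc c' hc' h
    simp only [coe_filter, mem_univ, true_and, Set.mem_ofPred_eq] at hc hc'
    obtain ⟨s, hs⟩ := hc
    obtain ⟨s', hs'⟩ := hc'
    have h1 : lin c s = lin c' s' := hs.trans hs'.symm
    obtain ⟨rfl, h2⟩ := lin_eq_iff.1 h1
    exact Combi.eq_of_share_of_dir h2 h
  simpa using h

/-- **Alignment.** Two different types which are not bad: third lines `q, q'` and a splitting of the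
other lines such that no two lines of different groups are equal or strongly correlated; a common
line of the two types is the third line of both. -/
theorem exists_alignment (hd : 2 * d ≤ N) (S : Lin N → Lin N → Prop)
    (hsymm : ∀ u v, S u v → S v u) (D : ℕ) {b b' : Ty N d} (hne : b ≠ b')
    (hb : b ∉ bad (lin (N := N) (d := d)) S D) (hb' : b' ∉ bad (lin (N := N) (d := d)) S D) :
    ∃ i j q i' j' q' : Fin 3, i ≠ j ∧ i ≠ q ∧ j ≠ q ∧ i' ≠ j' ∧ i' ≠ q' ∧ j' ≠ q' ∧
      (∀ s t, lin b s = lin b' t → s = q ∧ t = q') ∧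
      ¬ S (lin b i) (lin b j) ∧ ¬ S (lin b' i') (lin b' j') ∧
      ¬ S (lin b i) (lin b' j') ∧ ¬ S (lin b j) (lin b' i') := by
  obtain ⟨h1, h2, σ, hσ⟩ := exists_grouping hsymm lin_injective D hb hb'
  -- the third line
  obtain ⟨q, hq⟩ : ∃ q : Fin 3, ∀ s t, lin b s = lin b' t → s = q ∧ t = σ q := by
    by_cases hsh : ∃ s t, lin b s = lin b' t
    · obtain ⟨s, t, hst⟩ := hsh
      refine ⟨s, fun s' t' h => ?_⟩
      have hss : s' = s := by
        by_contra hs
        exact hne (lin_linear hd b b' s' s t' t hs h hst)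
      exact ⟨hss, by rw [← hss]; exact hσ _ _ (Or.inl h)⟩
    · push Not at hsh
      exact ⟨0, fun s t h => absurd h (hsh s t)⟩
  obtain ⟨i, j, hij, hiq, hjq⟩ : ∃ i j : Fin 3, i ≠ j ∧ i ≠ q ∧ j ≠ q := by
    fin_cases q
    · exact ⟨1, 2, by decide, by decide, by decide⟩
    · exact ⟨0, 2, by decide, by decide, by decide⟩
    · exact ⟨0, 1, by decide, by decide, by decide⟩
  refine ⟨i, j, q, σ i, σ j, σ q, hij, hiq, hjq, fun h => hij (σ.injective h),
    fun h => hiq (σ.injective h), fun h => hjq (σ.injective h), hq, h1 i j hij,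
    h2 _ _ fun h => hij (σ.injective h), ?_, ?_⟩
  · intro h
    exact hij (σ.injective (hσ _ _ (Or.inr h))).symm
  · intro h
    exact hij (σ.injective (hσ _ _ (Or.inr h)))

/-- the number of bad types, in terms of the number of strong pairs -/
theorem card_bad_le (hd : 2 * d ≤ N) (S : Lin N → Lin N → Prop) (D : ℕ) (hD : 0 < D) {s : ℝ}
    (hs : ((strongPairs S).card : ℝ) ≤ s * N) :
    ((bad (lin (N := N) (d := d)) S D).card : ℝ) ≤ (d * s / D + s + 3 * D ^ 2) * N := by
  have hlin := lin_linear (N := N) (d := d) hd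
  have h1 : ((bad1 (lin (N := N) (d := d)) S D).card : ℝ) * D ≤ d * (strongPairs S).card := by
    exact_mod_cast card_bad1_mul_le (line := lin (N := N) (d := d)) (S := S) d D card_types_of_line
  have h2 : ((bad2 (lin (N := N) (d := d)) S).card : ℝ) ≤ (strongPairs S).card := by
    exact_mod_cast card_bad2_le hlin
  have h3 : ((bad3 (lin (N := N) (d := d)) S D).card : ℝ) ≤ 3 * N * D ^ 2 := by
    have := card_bad3_le (S := S) hlin D
    rw [Fintype.card_prod, Fintype.card_fin, ZMod.card] at this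
    exact_mod_cast this
  have h4 : (bad (lin (N := N) (d := d)) S D).card ≤ (bad1 (lin (N := N) (d := d)) S D).card +
      (bad2 (lin (N := N) (d := d)) S).card + (bad3 (lin (N := N) (d := d)) S D).card := by
    unfold bad
    exact (Finset.card_union_le _ _).trans (Nat.add_le_add_right (Finset.card_union_le _ _) _)
  have h5 : ((bad (lin (N := N) (d := d)) S D).card : ℝ) ≤
      (bad1 (lin (N := N) (d := d)) S D).card + (bad2 (lin (N := N) (d := d)) S).card
        + (bad3 (lin (N := N) (d := d)) S D).card := by exact_mod_cast h4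
  have hD' : (0 : ℝ) < D := by exact_mod_cast hD
  have h6 : ((bad1 (lin (N := N) (d := d)) S D).card : ℝ) ≤ d * (s * N) / D := by
    rw [le_div_iff₀ hD']
    exact h1.trans (mul_le_mul_of_nonneg_left hs (Nat.cast_nonneg d))
  have h7 : (d : ℝ) * (s * N) / D = d * s / D * N := by ring
  calc _ ≤ d * (s * N) / D + s * N + 3 * N * D ^ 2 := by linarith
    _ = _ := by rw [h7]; ring

/-- **The mass of the pairs with a bad member is small**, `D` and `d₁` depend only on `s, ε, M₀`. -/
theorem exists_params {s ε M₀ : ℝ} (hs : 0 ≤ s) (hε : 0 < ε) (hM : 0 ≤ M₀) :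
    ∃ D d₁ : ℕ, ∀ d ≥ d₁, ∀ (N : ℕ) [NeZero N], 2 * d ≤ N → ∀ S : Lin N → Lin N → Prop,
      ((strongPairs S).card : ℝ) ≤ s * N → ∀ ρ : Ty N d × Ty N d → ℝ, TCoup M₀ ρ →
      ∑ β, (if β.1 ∈ bad (lin (N := N) (d := d)) S D ∨ β.2 ∈ bad (lin (N := N) (d := d)) S D
        then ρ β else 0) ≤ ε := by
  obtain ⟨D, hD⟩ := exists_nat_ge (6 * M₀ * s / ε + 1)
  obtain ⟨d₁, hd₁⟩ := exists_nat_ge (6 * M₀ * (s + 3 * D ^ 2) / ε + 1)
  have hD1 : (1 : ℝ) ≤ D := by
    have : 0 ≤ 6 * M₀ * s / ε := by positivity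
    linarith
  have hDpos : 0 < D := by exact_mod_cast (lt_of_lt_of_le one_pos hD1)
  refine ⟨D, d₁, ?_⟩
  intro d hd N _ hdN S hS ρ hρ
  have hdd : (d₁ : ℝ) ≤ d := by exact_mod_cast hd
  have hd1 : (1 : ℝ) ≤ d := by
    have : 0 ≤ 6 * M₀ * (s + 3 * D ^ 2) / ε := by positivity
    linarith
  have hNpos : (0 : ℝ) < N := by exact_mod_cast Nat.pos_of_ne_zero (NeZero.ne N)
  set Bd := bad (lin (N := N) (d := d)) S D with hBd
  have hcard : (Fintype.card (Ty N d) : ℝ) = N * d := by
    rw [Fintype.card_prod, ZMod.card, Fintype.card_fin]; push_cast; ring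
  have hNd : (0 : ℝ) < N * d := by positivity
  have h1 := mass_bad_le Bd (fun b b' => ρ (b, b')) (M₀ / (N * d)) (fun b b' => hρ.nonneg _)
    (fun b => by
      rw [le_div_iff₀ hNd, ← hcard]; exact hρ.left b)
    (fun b' => by
      rw [le_div_iff₀ hNd, ← hcard]; exact hρ.right b')
  have h2 : ∑ β : Ty N d × Ty N d, (if β.1 ∈ Bd ∨ β.2 ∈ Bd then ρ β else 0) =
      ∑ b, ∑ b', (if b ∈ Bd ∨ b' ∈ Bd then ρ (b, b') else 0) := by
    rw [Fintype.sum_prod_type]
  rw [h2]
  refine h1.trans ?_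
  have h3 := card_bad_le (d := d) hdN S D hDpos hS
  have h4 : 2 * (M₀ / (N * d)) * (Bd.card : ℝ) ≤
      2 * (M₀ / (N * d)) * ((d * s / D + s + 3 * D ^ 2) * N) :=
    mul_le_mul_of_nonneg_left h3 (by positivity)
  refine h4.trans ?_
  have h5 : 2 * (M₀ / (N * d)) * ((d * s / D + s + 3 * D ^ 2) * N) =
      2 * M₀ * s / D + 2 * M₀ * (s + 3 * D ^ 2) / d := by
    field_simp
    ring
  rw [h5]
  have h6 : 2 * M₀ * s / D ≤ ε / 3 := by
    rw [div_le_iff₀ (by linarith)]
    have h7 : 6 * M₀ * s / ε ≤ D := by linarith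
    rw [div_le_iff₀ hε] at h7
    linarith
  have h8 : 2 * M₀ * (s + 3 * D ^ 2) / d ≤ ε / 3 := by
    rw [div_le_iff₀ (by linarith)]
    have h7 : 6 * M₀ * (s + 3 * D ^ 2) / ε ≤ d := by linarith
    rw [div_le_iff₀ hε] at h7
    linarith
  linarith

/-- Markov: the number of strong pairs of a nonnegative correlation function. -/
theorem card_strongPairs_mul_le {J : Lin N → Lin N → ℝ} (hJ : ∀ u v, 0 ≤ J u v) (θ : ℝ) :
    ((strongPairs fun u v => θ ≤ J u v).card : ℝ) * θ ≤ ∑ u, ∑ v, J u v := by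
  unfold strongPairs
  rw [← Fintype.sum_prod_type (f := fun p : Lin N × Lin N => J p.1 p.2)]
  calc _ = ∑ p ∈ univ.filter (fun p : Lin N × Lin N => θ ≤ J p.1 p.2), θ := by simp
    _ ≤ ∑ p ∈ univ.filter (fun p : Lin N × Lin N => θ ≤ J p.1 p.2), J p.1 p.2 :=
        Finset.sum_le_sum fun p hp => (Finset.mem_filter.1 hp).2
    _ ≤ _ := Finset.sum_le_sum_of_subset_of_nonneg (Finset.filter_subset _ _)
        fun p _ _ => hJ p.1 p.2

end Align

end Vale.Agent.P060.HW
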