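import Vale.Agent.P060.HW.Frame

/-!
# Annihilators of the direction spaces

`AnnDirect`, `AnnConverse`, `Unif` of `Frame.lean`.
-/

open scoped Classical

noncomputable section

namespace Vale.Agent.P060.HW

open Module

section pairing

variable {K : Type*} [Fintype K]

lemma ann_pr_add (Q Q' B : Matrix K K F) : pr (Q + Q') B = pr Q B + pr Q' B := by
  unfold pr
  rw [← Finset.sum_add_distrib]
  refine Finset.sum_congr rfl fun i _ => ?_
  rw [← Finset.sum_add_distrib]
  exact Finset.sum_congr rfl fun j _ => by rw [Matrix.add_apply, add_mul]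

lemma ann_pr_smul (c : F) (Q B : Matrix K K F) : pr (c • Q) B = c * pr Q B := by
  unfold pr
  rw [Finset.mul_sum]
  refine Finset.sum_congr rfl fun i _ => ?_
  rw [Finset.mul_sum]
  exact Finset.sum_congr rfl fun j _ => by rw [Matrix.smul_apply, smul_eq_mul, mul_assoc]

lemma ann_pr_zero (B : Matrix K K F) : pr 0 B = 0 := by
  unfold pr
  exact Finset.sum_eq_zero fun i _ => Finset.sum_eq_zero fun j _ => by simp

lemma ann_pr_add_right (Q B B' : Matrix K K F) : pr Q (B + B') = pr Q B + pr Q B' := by
  unfold pr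
  rw [← Finset.sum_add_distrib]
  refine Finset.sum_congr rfl fun i _ => ?_
  rw [← Finset.sum_add_distrib]
  exact Finset.sum_congr rfl fun j _ => by rw [Matrix.add_apply, mul_add]

lemma ann_pr_smul_right (c : F) (Q B : Matrix K K F) : pr Q (c • B) = c * pr Q B := by
  unfold pr
  rw [Finset.mul_sum]
  refine Finset.sum_congr rfl fun i _ => ?_
  rw [Finset.mul_sum]
  exact Finset.sum_congr rfl fun j _ => by rw [Matrix.smul_apply, smul_eq_mul]; ring

/-- the pairing as a linear map in the first argument -/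
def ann_prL (B : Matrix K K F) : Matrix K K F →ₗ[F] F where
  toFun := fun Q => pr Q B
  map_add' := fun Q Q' => ann_pr_add Q Q' B
  map_smul' := fun c Q => ann_pr_smul c Q B

/-- the pairing as a linear map in the second argument -/
def ann_prR (Q : Matrix K K F) : Matrix K K F →ₗ[F] F where
  toFun := fun B => pr Q B
  map_add' := fun B B' => ann_pr_add_right Q B B'
  map_smul' := fun c B => ann_pr_smul_right c Q B

lemma ann_pr_transpose (Q B : Matrix K K F) : pr Q B.transpose = pr Q.transpose B := by
  unfold pr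
  rw [Finset.sum_comm]
  exact Finset.sum_congr rfl fun i _ => Finset.sum_congr rfl fun j _ => rfl

/-- the pairing of a symmetric product with a symmetric matrix -/
lemma ann_pr_sm {B : Matrix K K F} (hB : B.IsSymm) (u v : K → F) :
    pr (sm u v) B = 2 * (u ⬝ᵥ (B.mulVec v)) := by
  have h1 : pr (sm u v) B = (∑ i, ∑ j, u i * v j * B i j) + ∑ i, ∑ j, v i * u j * B i j := by
    unfold pr sm
    rw [← Finset.sum_add_distrib]
    refine Finset.sum_congr rfl fun i _ => ?_
    rw [← Finset.sum_add_distrib]
    refine Finset.sum_congr rfl fun j _ => ?_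
    rw [Matrix.add_apply, Matrix.vecMulVec_apply, Matrix.vecMulVec_apply, add_mul]
  have h2 : (∑ i, ∑ j, v i * u j * B i j) = ∑ i, ∑ j, u i * v j * B i j := by
    rw [Finset.sum_comm]
    refine Finset.sum_congr rfl fun i _ => Finset.sum_congr rfl fun j _ => ?_
    have h3 : B j i = B i j := by
      have := congrFun (congrFun hB i) j
      rwa [Matrix.transpose_apply] at this
    rw [h3]; ring
  have h4 : (∑ i, ∑ j, u i * v j * B i j) = u ⬝ᵥ (B.mulVec v) := by
    unfold dotProduct Matrix.mulVec dotProduct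
    refine Finset.sum_congr rfl fun i _ => ?_
    rw [Finset.mul_sum]
    exact Finset.sum_congr rfl fun j _ => by ring
  rw [h1, h2, h4]; ring

/-- every linear functional on matrices is a pairing -/
lemma ann_exists_pr (f : Matrix K K F →ₗ[F] F) : ∃ M : Matrix K K F, ∀ Q, f Q = pr Q M := by
  refine ⟨fun i j => f (Matrix.single i j 1), fun Q => ?_⟩
  conv_lhs => rw [Matrix.matrix_eq_sum_single Q]
  rw [map_sum]
  unfold pr
  refine Finset.sum_congr rfl fun i _ => ?_
  rw [map_sum]
  refine Finset.sum_congr rfl fun j _ => ?_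
  have h1 : Matrix.single i j (Q i j) = Q i j • (Matrix.single i j (1 : F)) := by
    rw [Matrix.smul_single, smul_eq_mul, mul_one]
  rw [h1, map_smul, smul_eq_mul]

end pairing

lemma ann_two_ne : (2 : F) ≠ 0 := by decide

theorem annDirect : AnnDirect := by
  intro K T _ δ a Q hQ B hB
  have hBs : B.IsSymm := hB.1.1
  have hle : δ.Nn a ≤ LinearMap.ker (ann_prL B) := by
    unfold Design.Nn
    rw [Submodule.span_le]
    rintro Q ((⟨c, w, hw, rfl⟩ | ⟨w, hw, v, rfl⟩) | ⟨v, rfl⟩)
    · show pr (sm (Pi.single w 1) (δ.g c)) B = 0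
      rw [ann_pr_sm hBs, single_dotProduct, one_mul, hB.1.2 c w hw, mul_zero]
    · show pr (sm (Pi.single w 1) v) B = 0
      rw [ann_pr_sm hBs, single_dotProduct, one_mul]
      have h1 : (B.mulVec v) w = 0 := by
        unfold Matrix.mulVec dotProduct
        refine Finset.sum_eq_zero fun j _ => ?_
        show B w j * v j = 0
        rw [hB.2.1 w hw j, zero_mul]
      rw [h1, mul_zero]
    · show pr (sm v (δ.g a)) B = 0
      rw [ann_pr_sm hBs, hB.2.2, dotProduct_zero, mul_zero]
  exact hle hQ

theorem annConverse : AnnConverse := by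
  intro K T _ δ a Q hQs hQ
  by_contra hcon
  obtain ⟨f, hf, hS⟩ := Submodule.exists_le_ker_of_notMem hcon
  obtain ⟨M, hM⟩ := ann_exists_pr f
  have hN : ∀ X ∈ δ.Nn a, pr X M = 0 := fun X hX => by
    rw [← hM]; exact LinearMap.mem_ker.1 (hS hX)
  set B : Matrix K K F := M + M.transpose with hBdef
  have hBs : B.IsSymm := by
    rw [hBdef]; exact Matrix.isSymm_add_transpose_self M
  have hpB : ∀ X : Matrix K K F, X.IsSymm → pr X B = 2 * pr X M := by
    intro X hX
    have hX' : X.transpose = X := hX
    rw [hBdef, ann_pr_add_right, ann_pr_transpose, hX', two_mul]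
  have hsm : ∀ u v : K → F, (sm u v).IsSymm := by
    intro u v
    show (sm u v).transpose = sm u v
    ext i j
    simp only [sm, Matrix.transpose_apply, Matrix.add_apply, Matrix.vecMulVec_apply]
    ring
  have hkey : ∀ u v : K → F, sm u v ∈ δ.Nn a → u ⬝ᵥ (B.mulVec v) = 0 := by
    intro u v huv
    have h1 := hpB _ (hsm u v)
    rw [hN _ huv, mul_zero, ann_pr_sm hBs] at h1
    exact (mul_eq_zero.1 h1).resolve_left ann_two_ne
  have hBD : B ∈ δ.Dir a := by
    rw [Design.mem_Dir, Design.mem_Com]
    refine ⟨⟨hBs, fun c w hw => ?_⟩, fun w hw v => ?_, ?_⟩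
    · have h1 := hkey (Pi.single w 1) (δ.g c)
        (Submodule.subset_span (Or.inl (Or.inl ⟨c, w, hw, rfl⟩)))
      rwa [single_dotProduct, one_mul] at h1
    · have h1 := hkey (Pi.single w 1) (Pi.single v 1)
        (Submodule.subset_span (Or.inl (Or.inr ⟨w, hw, _, rfl⟩)))
      rw [single_dotProduct, one_mul, Matrix.mulVec_single_one] at h1
      exact h1
    · funext i
      have h1 := hkey (Pi.single i 1) (δ.g a) (Submodule.subset_span (Or.inr ⟨_, rfl⟩))
      rwa [single_dotProduct, one_mul] at h1
  have h2 := hQ B hBD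
  rw [hpB Q hQs] at h2
  have h3 := (mul_eq_zero.1 h2).resolve_left ann_two_ne
  exact hf ((hM Q).trans h3)

/-- fibres of a surjective linear map onto `F ^ R` -/
lemma ann_card_fiber {V : Type*} [AddCommGroup V] [Module F V] (R : ℕ)
    (Φ : V →ₗ[F] (Fin R → F)) (hΦ : Function.Surjective Φ) (v : Fin R → F) :
    Nat.card {B : V // Φ B = v} * 2521 ^ R = Nat.card V := by
  obtain ⟨s, hs⟩ := Φ.exists_rightInverse_of_surjective (LinearMap.range_eq_top.2 hΦ)
  have hs' : ∀ w, Φ (s w) = w := fun w => LinearMap.congr_fun hs w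
  have e : ({B : V // Φ B = v} × (Fin R → F)) ≃ V :=
    { toFun := fun x => x.1.1 + s x.2
      invFun := fun B => (⟨B - s (Φ B - v), by rw [map_sub, hs']; abel⟩, Φ B - v)
      left_inv := by
        rintro ⟨⟨B, hB⟩, w⟩
        have h1 : Φ (B + s w) - v = w := by rw [map_add, hB, hs']; abel
        refine Prod.ext (Subtype.ext ?_) h1
        show B + s w - s (Φ (B + s w) - v) = B
        rw [h1]; abel
      right_inv := by
        intro B
        show B - s (Φ B - v) + s (Φ B - v) = B
        abel }
  rw [← Nat.card_congr e, Nat.card_prod]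
  congr 1
  rw [Nat.card_eq_fintype_card, Fintype.card_fun, ZMod.card, Fintype.card_fin]

theorem unif : Unif := by
  intro K T _ δ a R Q hQs hQ v
  let Φ : δ.Dir a →ₗ[F] (Fin R → F) :=
    LinearMap.pi fun i => (ann_prR (Q i)).comp (δ.Dir a).subtype
  have hΦ : ∀ (B : δ.Dir a) (i : Fin R), Φ B i = pr (Q i) (B : Matrix K K F) := fun B i => rfl
  have hsurj : Function.Surjective Φ := by
    rw [← LinearMap.range_eq_top]
    by_contra hne
    obtain ⟨f, hf, hle⟩ := Submodule.exists_le_ker_of_lt_top _ (lt_top_iff_ne_top.2 hne)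
    let c : Fin R → F := fun i => f (fun j => if i = j then 1 else 0)
    have hfc : ∀ t : Fin R → F, f t = ∑ i, t i * c i := fun t => by
      rw [LinearMap.pi_apply_eq_sum_univ f t]; rfl
    have hsum : (∑ i, c i • Q i) ∈ δ.Nn a := by
      refine annConverse K T δ a _ ?_ fun B hB => ?_
      · show (∑ i, c i • Q i).transpose = ∑ i, c i • Q i
        rw [Matrix.transpose_sum]
        refine Finset.sum_congr rfl fun i _ => ?_
        rw [Matrix.transpose_smul, hQs i]
      · have h1 : Φ ⟨B, hB⟩ ∈ LinearMap.range Φ := ⟨_, rfl⟩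
        have h2 : f (Φ ⟨B, hB⟩) = 0 := hle h1
        rw [hfc] at h2
        have h3 : pr (∑ i, c i • Q i) B = ∑ i, c i * pr (Q i) B := by
          have h4 : ann_prL B (∑ i, c i • Q i) = ∑ i, c i * ann_prL B (Q i) := by
            rw [map_sum]
            exact Finset.sum_congr rfl fun i _ => by rw [map_smul, smul_eq_mul]
          exact h4
        rw [h3, ← h2]
        exact Finset.sum_congr rfl fun i _ => by rw [hΦ, mul_comm]
    have hzero : ∑ i, c i • (δ.Nn a).mkQ (Q i) = 0 := by
      have h5 : (δ.Nn a).mkQ (∑ i, c i • Q i) = 0 := by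
        rw [Submodule.mkQ_apply, Submodule.Quotient.mk_eq_zero]
        exact hsum
      rw [map_sum] at h5
      rw [← h5]
      exact Finset.sum_congr rfl fun i _ => by rw [map_smul]
    have hc0 := Fintype.linearIndependent_iff.1 hQ c hzero
    refine hf (LinearMap.ext fun t => ?_)
    rw [hfc]
    simp [hc0]
  have h6 := ann_card_fiber R Φ hsurj v
  rw [← h6]
  congr 1
  refine Nat.card_congr (Equiv.subtypeEquivRight fun B => ?_)
  constructor
  · intro h
    funext i
    rw [hΦ]; exact h i
  · intro h i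
    rw [← hΦ, h]

end Vale.Agent.P060.HW
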