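import Vale.Agent.P060.HW.Frame

/-!
# Atoms of `B h₁ + B' h₃` : only the cut directions survive
-/

open scoped Classical

noncomputable section

set_option linter.unusedSectionVars false

namespace Vale.Agent.P060.HW

open Module Finset

theorem two_ne_zero_F : (2 : F) ≠ 0 := by decide

section Gen

variable {K : Type*} [Fintype K]

lemma sm_entry (u v : K → F) (i j : K) : sm u v i j = u i * v j + v i * u j := by
  simp [sm, Matrix.vecMulVec_apply]

lemma sm_symm' (u v : K → F) : (sm u v).IsSymm := by
  ext i j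
  rw [Matrix.transpose_apply, sm_entry, sm_entry]
  ring

lemma sm_comm' (u v : K → F) : sm u v = sm v u := by
  ext i j
  rw [sm_entry, sm_entry]
  ring

lemma sm_sub_right (u v w : K → F) : sm u (v - w) = sm u v - sm u w := by
  ext i j
  simp only [sm_entry, Matrix.sub_apply, Pi.sub_apply]
  ring

lemma sm_smul_right (c : F) (u v : K → F) : sm u (c • v) = c • sm u v := by
  ext i j
  simp only [sm_entry, Matrix.smul_apply, Pi.smul_apply, smul_eq_mul]
  ring

lemma sm_add_left (u v w : K → F) : sm (u + v) w = sm u w + sm v w := by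
  ext i j
  simp only [sm_entry, Matrix.add_apply, Pi.add_apply]
  ring

lemma sm_add_right (u v w : K → F) : sm u (v + w) = sm u v + sm u w := by
  ext i j
  simp only [sm_entry, Matrix.add_apply, Pi.add_apply]
  ring

lemma sm_smul_left (c : F) (u v : K → F) : sm (c • u) v = c • sm u v := by
  ext i j
  simp only [sm_entry, Matrix.smul_apply, Pi.smul_apply, smul_eq_mul]
  ring

lemma pr_sm (u v : K → F) {B : Matrix K K F} (hB : B.IsSymm) :
    pr (sm u v) B = 2 * dotProduct u (B.mulVec v) := by
  have h1 : pr (sm u v) B = dotProduct u (B.mulVec v) + dotProduct v (B.mulVec u) := by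
    unfold pr
    simp only [sm_entry, dotProduct, Matrix.mulVec, Finset.mul_sum]
    rw [← Finset.sum_add_distrib]
    refine Finset.sum_congr rfl fun i _ => ?_
    rw [← Finset.sum_add_distrib]
    exact Finset.sum_congr rfl fun j _ => by ring
  rw [h1, Design.symm_dot hB v u]
  ring

/-- Fibres of a surjective linear map between finite spaces. -/
lemma card_fibre {M M' : Type*} [AddCommGroup M] [Module F M] [Fintype M] [AddCommGroup M']
    [Module F M'] [Fintype M'] (f : M →ₗ[F] M') (hf : Function.Surjective f) (y : M') :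
    Fintype.card M' * (Finset.univ.filter fun x => f x = y).card = Fintype.card M := by
  have h1 : ∀ z, (Finset.univ.filter fun x => f x = z).card =
      (Finset.univ.filter fun x => f x = y).card := fun z =>
    AddMonoidHom.card_fiber_eq_of_mem_range f.toAddMonoidHom (hf z) (hf y)
  have h2 : Fintype.card M = ∑ z : M', (Finset.univ.filter fun x => f x = z).card := by
    rw [← Finset.card_univ]
    exact Finset.card_eq_sum_card_fiberwise fun x _ => Finset.mem_univ _
  rw [h2, Finset.sum_congr rfl fun z _ => h1 z, Finset.sum_const, smul_eq_mul, Finset.card_univ]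

end Gen

variable {N d : ℕ} {E P Om : Type} [Fintype E] [Fintype P] [Fintype Om] [NeZero N]
variable {fr : Frame N d E Om} {p : Lin N → Co E P Om → F}

/-- The coordinate vector of a row in `Om`. -/
def eo (w : Om) : Co E P Om → F := Sum.elim (fun _ => 0) (fun w' => if w' = w then 1 else 0)

omit [Fintype E] [Fintype P] [Fintype Om] in
lemma single_eo (inst : DecidableEq (Co E P Om)) (w : Om) :
    @Pi.single (Co E P Om) (fun _ => F) _ inst (Sum.inr w) (1 : F) = eo w := by
  funext i
  rcases i with i | i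
  · simp [eo]
  · by_cases hi : i = w
    · subst hi; simp [eo]
    · simp [eo, hi]

/-- The normal form of a trivial tensor. -/
lemma nn_form (h : Ext fr p) (a' : Ty N d) {Q : Matrix (Co E P Om) (Co E P Om) F}
    (hQ : Q ∈ (dsg fr p h).Nn a') :
    ∃ (R : Om → Co E P Om → F) (x : Om → Ty N d → F) (v : Co E P Om → F),
      (∀ w c, x w c ≠ 0 → w ∈ fr.U c) ∧
      (∀ w ∉ fr.U a', R w = ∑ c, x w c • gv p c) ∧
      Q = ∑ w, sm (eo w) (R w) + sm v (gv p a') := by
  unfold Design.Nn at hQ
  induction hQ using Submodule.span_induction with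
  | mem Q hQ =>
    rcases hQ with (⟨c, w0, hw0, rfl⟩ | ⟨w0, hw0, v, rfl⟩) | ⟨v, rfl⟩
    · obtain ⟨w, hw, rfl⟩ := Finset.mem_image.1 hw0
      refine ⟨fun w' => if w' = w then gv p c else 0,
        fun w' c' => if w' = w ∧ c' = c then 1 else 0, 0, ?_, ?_, ?_⟩
      · intro w' c' hx
        by_cases h1 : w' = w ∧ c' = c
        · rw [h1.1, h1.2]; exact hw
        · simp [h1] at hx
      · intro w' _
        by_cases h1 : w' = w
        · simp [h1]
        · simp [h1]
      · rw [Finset.sum_eq_single w]
        · rw [single_eo]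
          ext i j
          simp only [if_true, Matrix.add_apply, sm_entry, Pi.zero_apply, zero_mul, mul_zero,
            add_zero]
          rfl
        · intro w' _ hw'
          ext i j
          simp [sm_entry, hw']
        · intro h'; exact absurd (Finset.mem_univ _) h'
    · obtain ⟨w, hw, rfl⟩ := Finset.mem_image.1 hw0
      refine ⟨fun w' => if w' = w then v else 0, 0, 0, ?_, ?_, ?_⟩
      · intro w' c' hx; simp at hx
      · intro w' hw'
        have : w' ≠ w := fun h1 => hw' (h1 ▸ hw)
        simp [this]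
      · rw [Finset.sum_eq_single w]
        · rw [single_eo]
          ext i j
          simp only [if_true, Matrix.add_apply, sm_entry, Pi.zero_apply, zero_mul, mul_zero,
            add_zero]
        · intro w' _ hw'
          ext i j
          simp [sm_entry, hw']
        · intro h'; exact absurd (Finset.mem_univ _) h'
    · refine ⟨0, 0, v, ?_, ?_, ?_⟩
      · intro w' c' hx; simp at hx
      · intro w' _; simp
      · ext i j
        simp only [Matrix.add_apply, Matrix.sum_apply, sm_entry, Pi.zero_apply, zero_mul, mul_zero,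
          add_zero, Finset.sum_const_zero, zero_add]
        rfl
  | zero =>
    refine ⟨0, 0, 0, ?_, ?_, ?_⟩
    · intro w' c' hx; simp at hx
    · intro w' _; simp
    · ext i j
      simp [Matrix.sum_apply, sm_entry]
  | add Q Q' _ _ hQ hQ' =>
    obtain ⟨R, x, v, h1, h2, h3⟩ := hQ
    obtain ⟨R', x', v', h1', h2', h3'⟩ := hQ'
    refine ⟨R + R', x + x', v + v', ?_, ?_, ?_⟩
    · intro w c hx
      by_contra hw
      have e1 : x w c = 0 := by_contra fun h4 => hw (h1 w c h4)
      have e2 : x' w c = 0 := by_contra fun h4 => hw (h1' w c h4)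
      exact hx (by simp [e1, e2])
    · intro w hw
      rw [Pi.add_apply, h2 w hw, h2' w hw, ← Finset.sum_add_distrib]
      exact Finset.sum_congr rfl fun c _ => by simp [add_smul]
    · rw [h3, h3', sm_add_left]
      simp only [Pi.add_apply, sm_add_right, Finset.sum_add_distrib]
      abel
  | smul t Q _ hQ =>
    obtain ⟨R, x, v, h1, h2, h3⟩ := hQ
    refine ⟨t • R, t • x, t • v, ?_, ?_, ?_⟩
    · intro w c hx
      refine h1 w c fun h4 => hx ?_
      simp [h4]
    · intro w hw
      rw [Pi.smul_apply, h2 w hw, Finset.smul_sum]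
      exact Finset.sum_congr rfl fun c _ => by simp [mul_smul]
    · rw [h3, sm_smul_left, smul_add, Finset.smul_sum]
      simp only [Pi.smul_apply, sm_smul_right]

lemma sum_eo (f : Om → F) (i : Co E P Om) :
    ∑ w, (eo w : Co E P Om → F) i * f w = Sum.elim (fun _ => (0 : F)) f i := by
  rcases i with i | i
  · simp [eo]
  · simp [eo]

/-- Entries of the normal form. -/
lemma form_entry (R : Om → Co E P Om → F) (v g : Co E P Om → F) (i j : Co E P Om) :
    (∑ w, sm (eo w) (R w) + sm v g : Matrix _ _ F) i j =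
      (Sum.elim (fun _ => (0 : F)) (fun w => R w j) i) +
      (Sum.elim (fun _ => (0 : F)) (fun w => R w i) j) + (v i * g j + g i * v j) := by
  rw [Matrix.add_apply, Matrix.sum_apply, sm_entry]
  simp only [sm_entry, Finset.sum_add_distrib]
  rw [sum_eo (fun w => R w j) i]
  have : ∑ w, R w i * (eo w : Co E P Om → F) j = Sum.elim (fun _ => (0 : F)) (fun w => R w i) j := by
    rw [← sum_eo (fun w => R w i) j]
    exact Finset.sum_congr rfl fun w _ => mul_comm _ _
  rw [this]


omit [Fintype E] [Fintype P] [Fintype Om] in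
lemma ac_mem_lins {c : Ty N d} {s : Fin 3} {i : ZMod N} : ((s, i) : Lin N) ∈ lins c ↔ i = ln c s := by
  unfold lins lin
  rw [Finset.mem_image]
  constructor
  · rintro ⟨s', -, h⟩
    have h1 : s' = s := congrArg Prod.fst h
    have h2 := congrArg Prod.snd h
    subst h1
    exact h2.symm
  · rintro rfl
    exact ⟨s, Finset.mem_univ _, rfl⟩

omit [Fintype E] [Fintype P] [Fintype Om] in
lemma lin_mem_lins {c c' : Ty N d} {s : Fin 3} : lin c s ∈ lins c' ↔ ln c s = ln c' s := ac_mem_lins

omit [Fintype E] [Fintype P] [Fintype Om] in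
lemma gv_eq_sum (c : Ty N d) : gv p c = ∑ u ∈ lins c, p u := by
  unfold gv lins
  rw [Finset.sum_image]
  intro s _ s' _ h
  exact congrArg Prod.fst h

lemma exists_good {B1 B2 : Fin 3 → Prop} (h1 : ∀ s s', s ≠ s' → B1 s → B1 s' → False)
    (h2 : ∀ s s', s ≠ s' → B2 s → B2 s' → False) : ∃ s, ¬ B1 s ∧ ¬ B2 s := by
  by_contra hc
  push Not at hc
  have a1 := h1 0 1 (by decide)
  have a2 := h1 0 2 (by decide)
  have a3 := h1 1 2 (by decide)
  have b1 := h2 0 1 (by decide)
  have b2 := h2 0 2 (by decide)
  have b3 := h2 1 2 (by decide)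
  have c1 := hc 0
  have c2 := hc 1
  have c3 := hc 2
  tauto

lemma two_rows (a' : Ty N d) {w w' : Om} (hw : w ∉ fr.U a') (hw' : w' ∉ fr.U a')
    (hP : LinearIndependent F
      (fun u : (lins a' ∪ rowLines fr w ∪ rowLines fr w' : Finset (Lin N)) =>
        fun j : P => p u (Sum.inl (Sum.inr j))))
    (X : Ty N d → F) (hX : ∀ c, X c ≠ 0 → w ∈ fr.U c ∨ w' ∈ fr.U c) (z : F)
    (h0 : ∀ j : P, ∑ c, X c * gv p c (Sum.inl (Sum.inr j)) +
      z * gv p a' (Sum.inl (Sum.inr j)) = 0) :
    z = 0 ∧ ∀ c, X c = 0 := by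
  set T : Finset (Lin N) := lins a' ∪ rowLines fr w ∪ rowLines fr w' with hT
  set κ : Lin N → F := fun u => ∑ c, X c * (if u ∈ lins c then 1 else 0) +
    z * (if u ∈ lins a' then 1 else 0) with hκ
  have hsub : ∀ c, X c ≠ 0 → lins c ⊆ T := by
    intro c hc u hu
    rcases hX c hc with h1 | h1
    · refine Finset.mem_union_left _ (Finset.mem_union_right _ ?_)
      exact Finset.mem_biUnion.2 ⟨c, Finset.mem_filter.2 ⟨Finset.mem_univ _, h1⟩, hu⟩
    · refine Finset.mem_union_right _ ?_
      exact Finset.mem_biUnion.2 ⟨c, Finset.mem_filter.2 ⟨Finset.mem_univ _, h1⟩, hu⟩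
  have hsub' : lins a' ⊆ T := fun u hu => Finset.mem_union_left _ (Finset.mem_union_left _ hu)
  have hgv : ∀ c : Ty N d, lins c ⊆ T → ∀ j : P, ∑ u ∈ T, (if u ∈ lins c then (1 : F) else 0) *
      p u (Sum.inl (Sum.inr j)) = gv p c (Sum.inl (Sum.inr j)) := by
    intro c hc j
    rw [gv_eq_sum, Finset.sum_apply]
    simp only [ite_mul, one_mul, zero_mul]
    rw [← Finset.sum_filter]
    refine Finset.sum_congr ?_ fun _ _ => rfl
    ext u
    rw [Finset.mem_filter]
    exact ⟨fun h1 => h1.2, fun h1 => ⟨hc h1, h1⟩⟩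
  have hsum : ∀ j : P, ∑ u ∈ T, κ u * p u (Sum.inl (Sum.inr j)) = 0 := by
    intro j
    rw [← h0 j]
    simp only [hκ, add_mul, Finset.sum_mul, Finset.sum_add_distrib]
    congr 1
    · rw [Finset.sum_comm]
      refine Finset.sum_congr rfl fun c _ => ?_
      by_cases hc : X c = 0
      · simp [hc]
      · rw [← hgv c (hsub c hc) j, Finset.mul_sum]
        exact Finset.sum_congr rfl fun u _ => by ring
    · rw [← hgv a' hsub' j, Finset.mul_sum]
      exact Finset.sum_congr rfl fun u _ => by ring
  have hzero : ∀ u ∈ T, κ u = 0 := by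
    intro u hu
    have h1 := Fintype.linearIndependent_iff.1 hP (fun u => κ u) (by
      funext j
      rw [Finset.sum_apply]
      simp only [Pi.smul_apply, smul_eq_mul, Pi.zero_apply]
      rw [← hsum j]
      exact Finset.sum_coe_sort T fun u => κ u * p u (Sum.inl (Sum.inr j)))
    exact h1 ⟨u, hu⟩
  -- the value of `κ` on a private line
  have hval : ∀ c s, X c ≠ 0 → (∀ c', X c' ≠ 0 → ln c s = ln c' s → c' = c) →
      ¬ ln c s = ln a' s → False := by
    intro c s hc h1 h2
    have h3 := hzero (lin c s) (hsub c hc (lin_mem_lins.2 rfl))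
    simp only [hκ] at h3
    rw [if_neg (fun h4 => h2 (lin_mem_lins.1 h4)), mul_zero, add_zero,
      Finset.sum_eq_single c, if_pos (lin_mem_lins.2 rfl), mul_one] at h3
    · exact hc h3
    · intro c' _ hc'
      by_cases h4 : lin c s ∈ lins c'
      · by_cases h5 : X c' = 0
        · rw [h5, zero_mul]
        · exact absurd (h1 c' h5 (lin_mem_lins.1 h4)) hc'
      · rw [if_neg h4, mul_zero]
    · intro h4; exact absurd (Finset.mem_univ _) h4
  have hone : ∀ (v v' : Om), v ∉ fr.U a' → (∀ c, X c ≠ 0 → v ∈ fr.U c ∨ v' ∈ fr.U c) →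
      ∀ c, X c ≠ 0 → v ∈ fr.U c → v' ∈ fr.U c := by
    intro v v' hv hX' c hc hvc
    by_contra hvc'
    obtain ⟨s, hs1, hs2⟩ := exists_good (B1 := fun s => ln a' s = ln c s)
      (B2 := fun s => ∃ c', v' ∈ fr.U c' ∧ ln c s = ln c' s)
      (fun s s' hss e1 e2 => fr.private_lines a' c c v s s' hv hvc hvc hss e1 e2)
      (fun s s' hss => by
        rintro ⟨c', h1, h2⟩ ⟨c'', h3, h4⟩
        exact fr.private_lines c c' c'' v' s s' hvc' h1 h3 hss h2 h4)
    refine hval c s hc (fun c' hc' h1 => ?_) (fun h1 => hs1 h1.symm)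
    rcases hX' c' hc' with h2 | h2
    · by_contra hne
      exact fr.line_disj c' c v h2 hvc hne s h1.symm
    · exact absurd ⟨c', h2, h1⟩ hs2
  have hX1 : ∀ c, X c ≠ 0 → w ∈ fr.U c := by
    intro c hc
    rcases hX c hc with h1 | h1
    · exact h1
    · exact hone w' w hw' (fun c hc => (hX c hc).symm) c hc h1
  have hX0 : ∀ c, X c = 0 := by
    intro c
    by_contra hc
    obtain ⟨s, hs1, -⟩ := exists_good (B1 := fun s => ln a' s = ln c s) (B2 := fun _ => False)
      (fun s s' hss e1 e2 => fr.private_lines a' c c w s s' hw (hX1 c hc) (hX1 c hc) hss e1 e2)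
      (fun s s' hss e1 e2 => e1)
    refine hval c s hc (fun c' hc' h1 => ?_) (fun h1 => hs1 h1.symm)
    by_contra hne
    exact fr.line_disj c' c w (hX1 c' hc') (hX1 c hc) hne s h1.symm
  refine ⟨?_, hX0⟩
  have h3 := hzero (lin a' 0) (hsub' (lin_mem_lins.2 rfl))
  simp only [hκ] at h3
  rw [if_pos (lin_mem_lins.2 rfl), mul_one] at h3
  simpa [hX0] using h3

end Vale.Agent.P060.HW
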