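import Mathlib

/-!
# Biased functionals of a random design, and atoms

Helper file for `P060` (disproof of Hadwiger's conjecture for independence number two).
`K` is a finite field, `ψ` a nontrivial additive character, `κ → K` a space of test vectors.
-/

open Finset

namespace Vale.Agent.P060.HW

section Hoeffding

theorem exp_mul_le_cosh_sinh {x : ℝ} (lam : ℝ) (h1 : -1 ≤ x) (h2 : x ≤ 1) :
    Real.exp (lam * x) ≤ Real.cosh lam + x * Real.sinh lam := by
  have hc := convexOn_exp.2 (Set.mem_univ lam) (Set.mem_univ (-lam))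
    (show 0 ≤ (1 + x) / 2 by linarith) (show 0 ≤ (1 - x) / 2 by linarith) (by ring)
  simp only [smul_eq_mul] at hc
  have e1 : (1 + x) / 2 * lam + (1 - x) / 2 * -lam = lam * x := by ring
  rw [e1] at hc
  rw [Real.cosh_eq, Real.sinh_eq]
  linarith

variable {K : Type*} [Field K] [Fintype K] [DecidableEq K]

theorem re_psi_le (ψ : AddChar K ℂ) (t : K) : (ψ t).re ≤ 1 := by
  have h := AddChar.norm_apply ψ t
  have := Complex.abs_re_le_norm (ψ t)
  rw [h] at this
  exact (abs_le.1 this).2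

theorem neg_one_le_re_psi (ψ : AddChar K ℂ) (t : K) : -1 ≤ (ψ t).re := by
  have h := AddChar.norm_apply ψ t
  have := Complex.abs_re_le_norm (ψ t)
  rw [h] at this
  exact (abs_le.1 this).1

theorem sum_re_psi {ψ : AddChar K ℂ} (hψ : ψ ≠ 0) : ∑ t : K, (ψ t).re = 0 := by
  have h : ∑ t : K, ψ t = 0 := AddChar.sum_eq_zero_iff_ne_zero.2 hψ
  have := congrArg Complex.re h
  simpa using this

/-- Hoeffding's lemma for a nontrivial additive character. -/
theorem sum_exp_psi_le {ψ : AddChar K ℂ} (hψ : ψ ≠ 0) (lam : ℝ) :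
    ∑ t : K, Real.exp (lam * (ψ t).re) ≤ (Fintype.card K : ℝ) * Real.exp (lam ^ 2 / 2) := by
  have h1 : ∑ t : K, Real.exp (lam * (ψ t).re) ≤
      ∑ t : K, (Real.cosh lam + (ψ t).re * Real.sinh lam) :=
    Finset.sum_le_sum fun t _ =>
      exp_mul_le_cosh_sinh lam (neg_one_le_re_psi ψ t) (re_psi_le ψ t)
  have h2 : ∑ t : K, (Real.cosh lam + (ψ t).re * Real.sinh lam) =
      (Fintype.card K : ℝ) * Real.cosh lam := by
    rw [Finset.sum_add_distrib, ← Finset.sum_mul, sum_re_psi hψ]
    simp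
  rw [h2] at h1
  refine h1.trans (mul_le_mul_of_nonneg_left ?_ (by positivity))
  have := Real.cosh_le_exp_half_sq lam
  simpa using this

end Hoeffding

section Fibres

/-- Sums of a function pulled back by a surjective homomorphism of finite groups. -/
theorem card_mul_sum_comp {U W : Type*} [AddCommGroup U] [Fintype U] [AddCommGroup W] [Fintype W]
    [DecidableEq W] (f : U →+ W) (hf : Function.Surjective f) (φ : W → ℝ) :
    (Fintype.card W : ℝ) * ∑ u : U, φ (f u) = (Fintype.card U : ℝ) * ∑ w : W, φ w := by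
  classical
  set c : ℕ := #{u : U | f u = 0} with hc
  have hfib : ∀ w : W, #{u : U | f u = w} = c := fun w =>
    AddMonoidHom.card_fiber_eq_of_mem_range f (hf w) (hf 0)
  have h1 : ∑ u : U, φ (f u) = (c : ℝ) * ∑ w : W, φ w := by
    rw [← Finset.sum_fiberwise_of_maps_to (s := (Finset.univ : Finset U))
      (t := (Finset.univ : Finset W)) (g := f) (fun _ _ => Finset.mem_univ _)]
    rw [Finset.mul_sum]
    refine Finset.sum_congr rfl fun w _ => ?_
    rw [Finset.sum_congr rfl (g := fun _ => φ w)]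
    · rw [Finset.sum_const, hfib w, nsmul_eq_mul]
    · intro u hu
      rw [(Finset.mem_filter.1 hu).2]
  have h2 : (Fintype.card U : ℝ) = (c : ℝ) * (Fintype.card W : ℝ) := by
    have := Finset.card_eq_sum_card_fiberwise (f := f) (s := (Finset.univ : Finset U))
      (t := (Finset.univ : Finset W)) (fun _ _ => Finset.mem_univ _)
    have h3 : Fintype.card U = ∑ w : W, c := by
      rw [← Finset.card_univ, this]
      exact Finset.sum_congr rfl fun w _ => hfib w
    rw [h3]
    simp [mul_comm]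
  rw [h1, h2]
  ring

end Fibres

section Count

variable {K : Type*} [Field K] [Fintype K] [DecidableEq K]
variable {κ : Type*} [Fintype κ] [DecidableEq κ]

/-- Linearly independent vectors give a surjective evaluation map. -/
theorem dot_surjective {n : ℕ} {z : Fin n → κ → K} (hz : LinearIndependent K z) :
    Function.Surjective (fun (u : κ → K) (l : Fin n) => z l ⬝ᵥ u) := by
  classical
  let Z : (κ → K) →ₗ[K] (Fin n → K) := (Matrix.of z).mulVecLin
  have hZ : ∀ u l, Z u l = z l ⬝ᵥ u := by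
    intro u l
    rfl
  have hrange : LinearMap.range Z = ⊤ := by
    by_contra hne
    obtain ⟨f, hf0, hf⟩ := Submodule.exists_le_ker_of_lt_top _ (lt_top_iff_ne_top.2 hne)
    apply hf0
    have hfr : ∀ t : Fin n → K, f t = ∑ l, t l * f (Pi.single l 1) := by
      intro t
      conv_lhs => rw [pi_eq_sum_univ' t]
      simp [map_sum]
    have hzero : ∑ l, f (Pi.single l 1) • z l = 0 := by
      funext i
      have h1 : f (Z (Pi.single i 1)) = 0 := by
        have := hf (LinearMap.mem_range_self Z (Pi.single i 1))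
        simpa using this
      rw [hfr] at h1
      simp only [hZ, dotProduct_single, mul_one] at h1
      simp only [Finset.sum_apply, Pi.smul_apply, smul_eq_mul, Pi.zero_apply]
      rw [← h1]
      exact Finset.sum_congr rfl fun l _ => mul_comm _ _
    have hc := (Fintype.linearIndependent_iff.1 hz) _ hzero
    apply LinearMap.ext
    intro t
    rw [hfr t]
    simp [hc]
  intro t
  obtain ⟨u, hu⟩ := (LinearMap.range_eq_top.1 hrange) t
  exact ⟨u, by rw [← hu]; rfl⟩

/-- The exponential moment of one random test vector. -/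
theorem sum_exp_dot_le {ψ : AddChar K ℂ} (hψ : ψ ≠ 0) {n : ℕ} {z : Fin n → κ → K}
    (hz : LinearIndependent K z) (lam : ℝ) :
    ∑ u : κ → K, Real.exp (lam * ∑ l, (ψ (z l ⬝ᵥ u)).re) ≤
      (Fintype.card (κ → K) : ℝ) * Real.exp (lam ^ 2 / 2 * n) := by
  classical
  let Z : (κ → K) →+ (Fin n → K) := ((Matrix.of z).mulVecLin).toAddMonoidHom
  have hsurj : Function.Surjective Z := dot_surjective hz
  have key := card_mul_sum_comp Z hsurj
    (fun t : Fin n → K => Real.exp (lam * ∑ l, (ψ (t l)).re))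
  have hpt : ∀ t : Fin n → K, Real.exp (lam * ∑ l, (ψ (t l)).re) =
      ∏ l, Real.exp (lam * (ψ (t l)).re) := by
    intro t
    rw [Finset.mul_sum, Real.exp_sum]
  have hprod : ∑ t : Fin n → K, Real.exp (lam * ∑ l, (ψ (t l)).re) =
      (∑ t : K, Real.exp (lam * (ψ t).re)) ^ n := by
    simp_rw [hpt]
    rw [← Fintype.piFinset_univ, Finset.sum_prod_piFinset (Finset.univ : Finset K)
      (fun (_ : Fin n) t => Real.exp (lam * (ψ t).re))]
    simp
  have hle : (∑ t : K, Real.exp (lam * (ψ t).re)) ^ n ≤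
      (Fintype.card (Fin n → K) : ℝ) * Real.exp (lam ^ 2 / 2 * n) := by
    have := pow_le_pow_left₀ (Finset.sum_nonneg fun t _ => (Real.exp_pos _).le)
      (sum_exp_psi_le hψ lam) n
    refine this.trans (le_of_eq ?_)
    rw [mul_pow, ← Real.exp_nat_mul]
    simp [mul_comm]
  rw [hprod] at key
  have hW : (0 : ℝ) < (Fintype.card (Fin n → K) : ℝ) := by
    exact_mod_cast Fintype.card_pos
  have hU : (0 : ℝ) ≤ (Fintype.card (κ → K) : ℝ) := by positivity
  have h3 : (Fintype.card (Fin n → K) : ℝ) *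
      ∑ u : κ → K, Real.exp (lam * ∑ l, (ψ (Z u l)).re) ≤
      (Fintype.card (Fin n → K) : ℝ) *
        ((Fintype.card (κ → K) : ℝ) * Real.exp (lam ^ 2 / 2 * n)) := by
    rw [key]
    calc (Fintype.card (κ → K) : ℝ) * (∑ t : K, Real.exp (lam * (ψ t).re)) ^ n
        ≤ (Fintype.card (κ → K) : ℝ) *
          ((Fintype.card (Fin n → K) : ℝ) * Real.exp (lam ^ 2 / 2 * n)) :=
          mul_le_mul_of_nonneg_left hle hU
      _ = _ := by ring
  exact le_of_mul_le_mul_left h3 hW

/-- `z` is `eta`-biased for the tests `G`. -/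
def BiasedAt (ψ : AddChar K ℂ) (eta : ℝ) {m : ℕ} (G : Fin m → κ → K) (z : κ → K) : Prop :=
  eta * m ≤ ∑ s, (ψ (z ⬝ᵥ G s)).re

open Classical in
/-- (1) The number of test families for which `n` given independent vectors are all biased. -/
theorem card_biased_le {ψ : AddChar K ℂ} (hψ : ψ ≠ 0) {n m : ℕ} {z : Fin n → κ → K}
    (hz : LinearIndependent K z) {eta : ℝ} (heta : 0 ≤ eta) :
    (#{G : Fin m → κ → K | ∀ l, BiasedAt ψ eta G (z l)} : ℝ) ≤
      (Fintype.card (Fin m → κ → K) : ℝ) * Real.exp (-(eta ^ 2 * m * n / 2)) := by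
  have hsum : ∑ G : Fin m → κ → K, Real.exp (eta * ∑ l, ∑ s, (ψ (z l ⬝ᵥ G s)).re) ≤
      (Fintype.card (Fin m → κ → K) : ℝ) * Real.exp (eta ^ 2 / 2 * n * m) := by
    have hpt : ∀ G : Fin m → κ → K, Real.exp (eta * ∑ l, ∑ s, (ψ (z l ⬝ᵥ G s)).re) =
        ∏ s, Real.exp (eta * ∑ l, (ψ (z l ⬝ᵥ G s)).re) := by
      intro G
      rw [Finset.sum_comm, Finset.mul_sum, Real.exp_sum]
    simp_rw [hpt]
    rw [← Fintype.piFinset_univ, Finset.sum_prod_piFinset (Finset.univ : Finset (κ → K))
      (fun (_ : Fin m) u => Real.exp (eta * ∑ l, (ψ (z l ⬝ᵥ u)).re))]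
    have := pow_le_pow_left₀ (Finset.sum_nonneg fun t _ => (Real.exp_pos _).le)
      (sum_exp_dot_le hψ hz eta) m
    simp only [Finset.prod_const, Finset.card_univ, Fintype.card_fin]
    refine this.trans (le_of_eq ?_)
    rw [mul_pow, ← Real.exp_nat_mul]
    congr 1
    · simp
    · ring_nf
  have hmark : (#{G : Fin m → κ → K | ∀ l, BiasedAt ψ eta G (z l)} : ℝ) *
      Real.exp (eta ^ 2 * m * n) ≤
      ∑ G : Fin m → κ → K, Real.exp (eta * ∑ l, ∑ s, (ψ (z l ⬝ᵥ G s)).re) := by
    rw [← nsmul_eq_mul, ← Finset.sum_const]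
    refine (Finset.sum_le_sum (fun G hG => ?_)).trans
      (Finset.sum_le_sum_of_subset_of_nonneg (Finset.subset_univ _)
        fun _ _ _ => (Real.exp_pos _).le)
    have hG' := (Finset.mem_filter.1 hG).2
    apply Real.exp_le_exp.2
    have : ∑ _l : Fin n, eta * (m : ℝ) ≤ ∑ l, ∑ s, (ψ (z l ⬝ᵥ G s)).re :=
      Finset.sum_le_sum fun l _ => hG' l
    simp only [Finset.sum_const, Finset.card_univ, Fintype.card_fin, nsmul_eq_mul] at this
    have := mul_le_mul_of_nonneg_left this heta
    nlinarith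
  have h := hmark.trans hsum
  rw [← le_div_iff₀ (Real.exp_pos _)] at h
  refine h.trans (le_of_eq ?_)
  rw [mul_div_assoc, ← Real.exp_sub]
  ring_nf

open Classical in
/-- (2) Union bound over a finite family of surjective linear maps from the design space to the
families of tests and over all independent tuples. -/
theorem card_design_le {ψ : AddChar K ℂ} (hψ : ψ ≠ 0) {n m : ℕ}
    {P : Type*} [AddCommGroup P] [Fintype P]
    {Λ : Type*} [Fintype Λ] (L : Λ → P →+ (Fin m → κ → K))
    (hL : ∀ a, Function.Surjective (L a)) {eta : ℝ} (heta : 0 ≤ eta) :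
    (#{p : P | ∃ a, ∃ z : Fin n → κ → K, LinearIndependent K z ∧
        ∀ l, BiasedAt ψ eta (L a p) (z l)} : ℝ) ≤
      (Fintype.card P : ℝ) * Fintype.card Λ * (Fintype.card (κ → K) : ℝ) ^ n *
        Real.exp (-(eta ^ 2 * m * n / 2)) := by
  have h1 : (#{p : P | ∃ a, ∃ z : Fin n → κ → K, LinearIndependent K z ∧
        ∀ l, BiasedAt ψ eta (L a p) (z l)} : ℝ) ≤
      ∑ x : Λ × (Fin n → κ → K), (#{p : P | LinearIndependent K x.2 ∧
        ∀ l, BiasedAt ψ eta (L x.1 p) (x.2 l)} : ℝ) := by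
    have : ({p : P | ∃ a, ∃ z : Fin n → κ → K, LinearIndependent K z ∧
        ∀ l, BiasedAt ψ eta (L a p) (z l)} : Finset P) ⊆
        (Finset.univ : Finset (Λ × (Fin n → κ → K))).biUnion fun x =>
          {p : P | LinearIndependent K x.2 ∧ ∀ l, BiasedAt ψ eta (L x.1 p) (x.2 l)} := by
      intro p hp
      obtain ⟨a, z, hz, hb⟩ := (Finset.mem_filter.1 hp).2
      exact Finset.mem_biUnion.2 ⟨(a, z), Finset.mem_univ _,
        Finset.mem_filter.2 ⟨Finset.mem_univ _, hz, hb⟩⟩
    exact_mod_cast (Finset.card_le_card this).trans Finset.card_biUnion_le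
  refine h1.trans ?_
  have h2 : ∀ x : Λ × (Fin n → κ → K), (#{p : P | LinearIndependent K x.2 ∧
        ∀ l, BiasedAt ψ eta (L x.1 p) (x.2 l)} : ℝ) ≤
      (Fintype.card P : ℝ) * Real.exp (-(eta ^ 2 * m * n / 2)) := by
    rintro ⟨a, z⟩
    by_cases hz : LinearIndependent K z
    · have key := card_mul_sum_comp (L a) (hL a)
        (fun G => if ∀ l, BiasedAt ψ eta G (z l) then (1 : ℝ) else 0)
      have e1 : ∑ u : P, (if ∀ l, BiasedAt ψ eta (L a u) (z l) then (1 : ℝ) else 0) =
          (#{p : P | ∀ l, BiasedAt ψ eta (L a p) (z l)} : ℝ) := by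
        rw [Finset.sum_boole]
      have e2 : ∑ G : Fin m → κ → K, (if ∀ l, BiasedAt ψ eta G (z l) then (1 : ℝ) else 0) =
          (#{G : Fin m → κ → K | ∀ l, BiasedAt ψ eta G (z l)} : ℝ) := by
        rw [Finset.sum_boole]
      simp only [e1, e2] at key
      have hW : (0 : ℝ) < (Fintype.card (Fin m → κ → K) : ℝ) := by
        exact_mod_cast Fintype.card_pos
      have hb := card_biased_le hψ (m := m) hz heta
      have h3 : (Fintype.card (Fin m → κ → K) : ℝ) *
          (#{p : P | ∀ l, BiasedAt ψ eta (L a p) (z l)} : ℝ) ≤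
          (Fintype.card (Fin m → κ → K) : ℝ) *
            ((Fintype.card P : ℝ) * Real.exp (-(eta ^ 2 * m * n / 2))) := by
        rw [key]
        calc _ ≤ (Fintype.card P : ℝ) * ((Fintype.card (Fin m → κ → K) : ℝ) *
              Real.exp (-(eta ^ 2 * m * n / 2))) :=
              mul_le_mul_of_nonneg_left hb (by positivity)
          _ = _ := by ring
      have h4 := le_of_mul_le_mul_left h3 hW
      simpa [hz] using h4
    · simp only [hz, false_and]
      simp only [Finset.filter_false, Finset.card_empty, Nat.cast_zero]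
      positivity
  refine (Finset.sum_le_sum fun x _ => h2 x).trans (le_of_eq ?_)
  simp only [Finset.sum_const, Finset.card_univ, Fintype.card_prod, nsmul_eq_mul]
  simp only [Fintype.card_fun, Fintype.card_fin]
  push_cast
  ring


end Count

section Atom

variable {K : Type*} [Field K] [Fintype K] [DecidableEq K]
variable {κ : Type*} [Fintype κ] [DecidableEq κ]

open Classical in
/-- If `S` contains no `n` linearly independent vectors then `|S| ≤ |K|^n`. -/
theorem card_le_of_no_indep {n : ℕ} (S : Set (κ → K))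
    (hS : ¬ ∃ z : Fin n → κ → K, LinearIndependent K z ∧ ∀ l, z l ∈ S) :
    (#{z : κ → K | z ∈ S} : ℝ) ≤ (Fintype.card K : ℝ) ^ n := by
  have hlt : Module.finrank K (Submodule.span K S) < n := by
    by_contra hge
    push Not at hge
    obtain ⟨b, hbS, hspan, hb⟩ := exists_linearIndependent K S
    have hfin : Finite b := Set.Finite.subset (Set.toFinite (Set.univ : Set (κ → K)))
      (Set.subset_univ b)
    let _ : Fintype b := Fintype.ofFinite b
    have hcard : Fintype.card b = Module.finrank K (Submodule.span K S) := by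
      rw [← hspan]
      have := finrank_span_eq_card hb
      rw [Subtype.range_coe] at this
      exact this.symm
    have hn : n ≤ Fintype.card b := by rw [hcard]; exact hge
    obtain ⟨e⟩ : Nonempty (Fin n ↪ b) := by
      rw [Function.Embedding.nonempty_iff_card_le]
      simpa using hn
    apply hS
    refine ⟨fun l => (e l : κ → K), hb.comp e e.injective, fun l => hbS (e l).2⟩
  have h1 : #{z : κ → K | z ∈ S} ≤ Fintype.card (Submodule.span K S) := by
    rw [← Fintype.card_subtype]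
    exact Fintype.card_le_of_injective
      (fun z => (⟨z.1, Submodule.subset_span z.2⟩ : Submodule.span K S))
      (fun a b h => Subtype.ext (by simpa using congrArg Subtype.val h))
  have h2 : Fintype.card (Submodule.span K S) =
      Fintype.card K ^ Module.finrank K (Submodule.span K S) := Module.card_eq_pow_finrank
  have h3 : #{z : κ → K | z ∈ S} ≤ Fintype.card K ^ n := by
    rw [h2] at h1
    exact h1.trans (Nat.pow_le_pow_right Fintype.card_pos hlt.le)
  exact_mod_cast h3

/-- (3) ATOM LEMMA.  A random vector `y` (law `P`) for which all tests of a good family are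
biased has an atom of size at least `(η²/2) / |K|^n`. -/
theorem exists_atom {ψ : AddChar K ℂ} {n m : ℕ} (hm : 0 < m) {G : Fin m → κ → K}
    {eta : ℝ}
    (hgood : ¬ ∃ z : Fin n → κ → K, LinearIndependent K z ∧
      ∀ l, BiasedAt ψ (eta ^ 2 / 2) G (z l))
    {P : (κ → K) → ℝ} (hP : ∀ y, 0 ≤ P y) (hP1 : ∑ y, P y = 1) (heta : 0 < eta)
    (hbias : ∀ s, eta ≤ ‖∑ y, (P y : ℂ) * ψ (y ⬝ᵥ G s)‖) :
    ∃ y, eta ^ 2 / 2 / (Fintype.card K : ℝ) ^ n ≤ P y := by
  classical
  set R : (κ → K) → ℝ := fun z => ∑ y, P (y + z) * P y with hR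
  have hR0 : ∀ z, 0 ≤ R z := fun z => Finset.sum_nonneg fun y _ => mul_nonneg (hP _) (hP _)
  have hR1 : ∑ z, R z = 1 := by
    simp only [hR]
    rw [Finset.sum_comm]
    have : ∀ y, ∑ z, P (y + z) * P y = P y := by
      intro y
      rw [← Finset.sum_mul, Fintype.sum_equiv (Equiv.addLeft y) (fun z => P (y + z)) P
        (fun z => rfl), hP1, one_mul]
    rw [Finset.sum_congr rfl fun y _ => this y, hP1]
  have hRψ : ∀ s, ∑ z, R z * (ψ (z ⬝ᵥ G s)).re = ‖∑ y, (P y : ℂ) * ψ (y ⬝ᵥ G s)‖ ^ 2 := by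
    intro s
    set E : ℂ := ∑ y, (P y : ℂ) * ψ (y ⬝ᵥ G s) with hE
    have h1 : ∑ z, (R z : ℂ) * ψ (z ⬝ᵥ G s) = E * (starRingEnd ℂ) E := by
      have h2 : ∀ z, (R z : ℂ) * ψ (z ⬝ᵥ G s) =
          ∑ y, ((P (y + z) : ℂ) * ψ ((y + z) ⬝ᵥ G s)) *
            (starRingEnd ℂ) ((P y : ℂ) * ψ (y ⬝ᵥ G s)) := by
        intro z
        simp only [hR]
        push_cast
        rw [Finset.sum_mul]
        refine Finset.sum_congr rfl fun y _ => ?_
        rw [map_mul, Complex.conj_ofReal, add_dotProduct, AddChar.map_add_eq_mul]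
        have hu : ψ (y ⬝ᵥ G s) * (starRingEnd ℂ) (ψ (y ⬝ᵥ G s)) = 1 := by
          rw [Complex.mul_conj, Complex.normSq_eq_norm_sq, AddChar.norm_apply]
          simp
        linear_combination (-(P (y + z) : ℂ) * (P y : ℂ) * ψ (z ⬝ᵥ G s)) * hu
      rw [Finset.sum_congr rfl fun z _ => h2 z, Finset.sum_comm]
      have h3 : ∀ y, ∑ z, ((P (y + z) : ℂ) * ψ ((y + z) ⬝ᵥ G s)) *
            (starRingEnd ℂ) ((P y : ℂ) * ψ (y ⬝ᵥ G s)) =
          E * (starRingEnd ℂ) ((P y : ℂ) * ψ (y ⬝ᵥ G s)) := by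
        intro y
        rw [← Finset.sum_mul, Fintype.sum_equiv (Equiv.addLeft y)
          (fun z => (P (y + z) : ℂ) * ψ ((y + z) ⬝ᵥ G s))
          (fun z => (P z : ℂ) * ψ (z ⬝ᵥ G s)) (fun z => rfl)]
      rw [Finset.sum_congr rfl fun y _ => h3 y, ← Finset.mul_sum, ← map_sum]
    have h4 : ∑ z, R z * (ψ (z ⬝ᵥ G s)).re = (∑ z, (R z : ℂ) * ψ (z ⬝ᵥ G s)).re := by
      rw [Complex.re_sum]
      exact Finset.sum_congr rfl fun z _ => by rw [Complex.re_ofReal_mul]
    rw [h4, h1, Complex.mul_conj, Complex.ofReal_re, Complex.normSq_eq_norm_sq]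
  set S : Set (κ → K) := {z | BiasedAt ψ (eta ^ 2 / 2) G z} with hSdef
  have hScard := card_le_of_no_indep (n := n) S hgood
  have hmR : (0 : ℝ) < m := by exact_mod_cast hm
  -- mass of `S` under `R`
  have hmass : eta ^ 2 / 2 ≤ ∑ z ∈ ({z : κ → K | z ∈ S} : Finset (κ → K)), R z := by
    have hlow : eta ^ 2 * m ≤ ∑ z, R z * ∑ s, (ψ (z ⬝ᵥ G s)).re := by
      have : ∑ z, R z * ∑ s, (ψ (z ⬝ᵥ G s)).re = ∑ s, ∑ z, R z * (ψ (z ⬝ᵥ G s)).re := by
        rw [Finset.sum_comm]
        exact Finset.sum_congr rfl fun z _ => Finset.mul_sum _ _ _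
      rw [this]
      have h5 : ∑ _s : Fin m, eta ^ 2 ≤ ∑ s : Fin m, ∑ z, R z * (ψ (z ⬝ᵥ G s)).re := by
        refine Finset.sum_le_sum fun s _ => ?_
        rw [hRψ s]
        exact pow_le_pow_left₀ heta.le (hbias s) 2
      simp only [Finset.sum_const, Finset.card_univ, Fintype.card_fin, nsmul_eq_mul] at h5
      linarith
    have hup : ∑ z, R z * ∑ s, (ψ (z ⬝ᵥ G s)).re ≤
        (∑ z ∈ ({z : κ → K | z ∈ S} : Finset (κ → K)), R z) * m + eta ^ 2 / 2 * m := by
      have h6 : ∀ z, R z * ∑ s, (ψ (z ⬝ᵥ G s)).re ≤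
          (if z ∈ S then R z else 0) * m + R z * (eta ^ 2 / 2 * m) := by
        intro z
        by_cases hz : z ∈ S
        · rw [if_pos hz]
          have : ∑ s, (ψ (z ⬝ᵥ G s)).re ≤ m := by
            have : ∑ s, (ψ (z ⬝ᵥ G s)).re ≤ ∑ _s : Fin m, (1 : ℝ) :=
              Finset.sum_le_sum fun s _ => re_psi_le ψ _
            simpa using this
          have h7 := mul_le_mul_of_nonneg_left this (hR0 z)
          have h8 : 0 ≤ R z * (eta ^ 2 / 2 * m) :=
            mul_nonneg (hR0 z) (by positivity)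
          linarith
        · rw [if_neg hz]
          have : ∑ s, (ψ (z ⬝ᵥ G s)).re ≤ eta ^ 2 / 2 * m := by
            have := hz
            simp only [hSdef, Set.mem_ofPred_eq, BiasedAt, not_le] at this
            exact this.le
          have h7 := mul_le_mul_of_nonneg_left this (hR0 z)
          linarith
      refine (Finset.sum_le_sum fun z _ => h6 z).trans (le_of_eq ?_)
      rw [Finset.sum_add_distrib, ← Finset.sum_mul, ← Finset.sum_mul, hR1, one_mul,
        Finset.sum_filter]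
    have h9 := hlow.trans hup
    have h10 : eta ^ 2 / 2 * m ≤
        (∑ z ∈ ({z : κ → K | z ∈ S} : Finset (κ → K)), R z) * m := by linarith
    exact le_of_mul_le_mul_right h10 hmR
  by_contra hno
  push Not at hno
  have hKpos : (0 : ℝ) < (Fintype.card K : ℝ) ^ n := by
    have : (0 : ℝ) < (Fintype.card K : ℝ) := by exact_mod_cast Fintype.card_pos
    positivity
  set a : ℝ := eta ^ 2 / 2 / (Fintype.card K : ℝ) ^ n with ha
  have ha0 : 0 < a := by positivity
  have hRlt : ∀ z, R z < a := by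
    intro z
    have h11 : R z ≤ ∑ y, P (y + z) * P y := le_rfl
    obtain ⟨y0, hy0⟩ : ∃ y0, ∀ y, P y ≤ P y0 := by
      obtain ⟨y0, -, h⟩ := Finset.exists_max_image (Finset.univ : Finset (κ → K)) P
        ⟨0, Finset.mem_univ _⟩
      exact ⟨y0, fun y => h y (Finset.mem_univ _)⟩
    have h12 : R z ≤ P y0 := by
      calc R z = ∑ y, P (y + z) * P y := rfl
        _ ≤ ∑ y, P y0 * P y := Finset.sum_le_sum fun y _ =>
            mul_le_mul_of_nonneg_right (hy0 _) (hP y)
        _ = P y0 := by rw [← Finset.mul_sum, hP1, mul_one]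
    exact h12.trans_lt (hno y0)
  have hsum : ∑ z ∈ ({z : κ → K | z ∈ S} : Finset (κ → K)), R z < eta ^ 2 / 2 := by
    rcases Finset.eq_empty_or_nonempty ({z : κ → K | z ∈ S} : Finset (κ → K)) with he | hne
    · rw [he, Finset.sum_empty]
      positivity
    · calc ∑ z ∈ ({z : κ → K | z ∈ S} : Finset (κ → K)), R z
          < ∑ _z ∈ ({z : κ → K | z ∈ S} : Finset (κ → K)), a :=
            Finset.sum_lt_sum_of_nonempty hne fun z _ => hRlt z
        _ = (#{z : κ → K | z ∈ S} : ℝ) * a := by rw [Finset.sum_const, nsmul_eq_mul]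
        _ ≤ (Fintype.card K : ℝ) ^ n * a := mul_le_mul_of_nonneg_right hScard ha0.le
        _ = eta ^ 2 / 2 := by rw [ha]; field_simp
  exact absurd hmass (not_le.2 hsum)

end Atom

section Lines

variable {K : Type*} [Field K] [Fintype K] [DecidableEq K]
variable {ι : Type*} [Fintype ι] [DecidableEq ι]

/-- A list of `m` pairs of types `b = (q s 0, q s 1)`, `b' = (q s 2, q s 3)` in which the `2m`
lines `q s 0`, `q s 2` are distinct and none of them is some `q t 1` or `q t 3`.
(Satisfied by line-disjoint quadruples, and by pairs `b, b'` sharing the line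
`q s 1 = q s 3`.) -/
def FreshQ {m : ℕ} (q : Fin m → Fin 4 → ι) : Prop :=
  (∀ s t, q s 0 = q t 0 → s = t) ∧ (∀ s t, q s 2 = q t 2 → s = t) ∧
  (∀ s t, q s 0 ≠ q t 2) ∧ (∀ s t, q s 1 ≠ q t 0 ∧ q s 1 ≠ q t 2) ∧
  (∀ s t, q s 3 ≠ q t 0 ∧ q s 3 ≠ q t 2)

/-- The tests `(p_i + p_j, p_i' + p_j')` of a list of pairs of types. -/
def tests {k m : ℕ} (q : Fin m → Fin 4 → ι) :
    (ι → Fin k → K) →+ (Fin m → (Fin k ⊕ Fin k) → K) where
  toFun p s := Sum.elim (p (q s 0) + p (q s 1)) (p (q s 2) + p (q s 3))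
  map_zero' := by
    funext s x
    cases x <;> simp
  map_add' p p' := by
    funext s x
    cases x <;> simp <;> ring

theorem tests_surjective {k m : ℕ} {q : Fin m → Fin 4 → ι} (hq : FreshQ q) :
    Function.Surjective (tests (K := K) (k := k) q) := by
  classical
  obtain ⟨h0, h2, h02, h1, h3⟩ := hq
  intro T
  refine ⟨fun i => if h : ∃ s, q s 0 = i then fun x => T h.choose (Sum.inl x)
    else if h' : ∃ s, q s 2 = i then fun x => T h'.choose (Sum.inr x) else 0, ?_⟩
  funext s x
  have e0 : ∀ h : (∃ t, q t 0 = q s 0), h.choose = s := fun h => h0 _ _ h.choose_spec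
  have e2 : ∀ h : (∃ t, q t 2 = q s 2), h.choose = s := fun h => h2 _ _ h.choose_spec
  have n20 : ¬ ∃ t, q t 0 = q s 2 := by
    rintro ⟨t, ht⟩
    exact h02 _ _ ht
  have n10 : ¬ ∃ t, q t 0 = q s 1 := by
    rintro ⟨t, ht⟩
    exact (h1 _ _).1 ht.symm
  have n12 : ¬ ∃ t, q t 2 = q s 1 := by
    rintro ⟨t, ht⟩
    exact (h1 _ _).2 ht.symm
  have n30 : ¬ ∃ t, q t 0 = q s 3 := by
    rintro ⟨t, ht⟩
    exact (h3 _ _).1 ht.symm
  have n32 : ¬ ∃ t, q t 2 = q s 3 := by
    rintro ⟨t, ht⟩
    exact (h3 _ _).2 ht.symm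
  have p0 : ∃ t, q t 0 = q s 0 := ⟨s, rfl⟩
  have p2 : ∃ t, q t 2 = q s 2 := ⟨s, rfl⟩
  cases x with
  | inl x =>
    simp only [tests, AddMonoidHom.coe_mk, ZeroHom.coe_mk, Sum.elim_inl, Pi.add_apply]
    rw [dif_pos p0, dif_neg n10, dif_neg n12, e0 p0]
    simp
  | inr x =>
    simp only [tests, AddMonoidHom.coe_mk, ZeroHom.coe_mk, Sum.elim_inr, Pi.add_apply]
    rw [dif_neg n20, dif_pos p2, dif_neg n30, dif_neg n32, e2 p2]
    simp

open Classical in
/-- (2') Union bound for lines: the number of line systems `p : ι → K^k` for which some fresh list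
of `m` pairs of types has `n` independent `eta`-biased vectors. -/
theorem card_lines_le {ψ : AddChar K ℂ} (hψ : ψ ≠ 0) (k n m : ℕ) {eta : ℝ} (heta : 0 ≤ eta) :
    (#{p : ι → Fin k → K | ∃ q : Fin m → Fin 4 → ι, FreshQ q ∧
        ∃ z : Fin n → (Fin k ⊕ Fin k) → K, LinearIndependent K z ∧
        ∀ l, BiasedAt ψ eta (tests q p) (z l)} : ℝ) ≤
      (Fintype.card (ι → Fin k → K) : ℝ) * ((Fintype.card ι : ℝ) ^ (4 * m) *
        (Fintype.card K : ℝ) ^ (2 * k * n) * Real.exp (-(eta ^ 2 * m * n / 2))) := by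
  have key := card_design_le (κ := Fin k ⊕ Fin k) (n := n) (m := m) hψ
    (Λ := {q : Fin m → Fin 4 → ι // FreshQ q}) (fun a => tests (K := K) (k := k) a.1)
    (fun a => tests_surjective a.2) heta
  have hset : ({p : ι → Fin k → K | ∃ q : Fin m → Fin 4 → ι, FreshQ q ∧
        ∃ z : Fin n → (Fin k ⊕ Fin k) → K, LinearIndependent K z ∧
        ∀ l, BiasedAt ψ eta (tests q p) (z l)} : Finset (ι → Fin k → K)) =
      ({p : ι → Fin k → K | ∃ a : {q : Fin m → Fin 4 → ι // FreshQ q},
        ∃ z : Fin n → (Fin k ⊕ Fin k) → K, LinearIndependent K z ∧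
        ∀ l, BiasedAt ψ eta (tests a.1 p) (z l)} : Finset (ι → Fin k → K)) := by
    ext p
    simp only [Finset.mem_filter, Finset.mem_univ, true_and, Subtype.exists, exists_prop]
  rw [hset]
  refine key.trans ?_
  have hΛ : (Fintype.card {q : Fin m → Fin 4 → ι // FreshQ q} : ℝ) ≤
      (Fintype.card ι : ℝ) ^ (4 * m) := by
    have : Fintype.card {q : Fin m → Fin 4 → ι // FreshQ q} ≤
        Fintype.card (Fin m → Fin 4 → ι) := Fintype.card_subtype_le _
    have h2 : Fintype.card (Fin m → Fin 4 → ι) = Fintype.card ι ^ (4 * m) := by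
      simp [Fintype.card_fun, ← pow_mul]
    rw [h2] at this
    exact_mod_cast this
  have hU : (Fintype.card ((Fin k ⊕ Fin k) → K) : ℝ) ^ n =
      (Fintype.card K : ℝ) ^ (2 * k * n) := by
    have : Fintype.card ((Fin k ⊕ Fin k) → K) = Fintype.card K ^ (2 * k) := by
      simp [Fintype.card_fun, two_mul]
    rw [this]
    push_cast
    rw [← pow_mul]
  rw [hU]
  have hpos : (0 : ℝ) ≤ (Fintype.card (ι → Fin k → K) : ℝ) := by positivity
  have hexp := (Real.exp_pos (-(eta ^ 2 * m * n / 2))).le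
  calc (Fintype.card (ι → Fin k → K) : ℝ) *
        (Fintype.card {q : Fin m → Fin 4 → ι // FreshQ q} : ℝ) *
        (Fintype.card K : ℝ) ^ (2 * k * n) * Real.exp (-(eta ^ 2 * m * n / 2))
      ≤ (Fintype.card (ι → Fin k → K) : ℝ) * ((Fintype.card ι : ℝ) ^ (4 * m)) *
        (Fintype.card K : ℝ) ^ (2 * k * n) * Real.exp (-(eta ^ 2 * m * n / 2)) := by
        gcongr
    _ = _ := by ring

end Lines

end Vale.Agent.P060.HW
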