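import Vale.Agent.P060.HW.Biased

set_option linter.all false

/-!
# Biased functionals when some coordinates of the tests are fixed

Helper file for `P060` (disproof of Hadwiger's conjecture for independence number two).
The tests of the design have a FIXED part (the coordinates in `E`, more generally an arbitrary
fixed shift) and are uniform only on the coordinates satisfying `R`.
-/

open Finset

namespace Vale.Agent.P060.HW

section Shift

variable {K : Type*} [Field K] [Fintype K] [DecidableEq K]
variable {κ : Type*} [Fintype κ] [DecidableEq κ] (R : κ → Prop) [DecidablePred R]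

/-- Extension by zero of a vector defined on the coordinates satisfying `R`. -/
def extR (u : {i // R i} → K) : κ → K := fun i => if h : R i then u ⟨i, h⟩ else 0

/-- Restriction of a vector to the coordinates satisfying `R`. -/
def resR (z : κ → K) : {i // R i} → K := fun i => z i.1

theorem dot_extR (z : κ → K) (u : {i // R i} → K) :
    z ⬝ᵥ extR R u = resR R z ⬝ᵥ u := by
  simp only [dotProduct, extR, resR]
  have h1 : ∀ i, z i * (if h : R i then u ⟨i, h⟩ else 0) =
      if h : R i then z i * u ⟨i, h⟩ else 0 := by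
    intro i
    split_ifs <;> simp
  rw [Finset.sum_congr rfl fun i _ => h1 i]
  rw [Finset.sum_dite]
  simp only [Finset.sum_const_zero, add_zero]
  refine Finset.sum_bij (fun x _ => ⟨x.1, (Finset.mem_filter.1 x.2).2⟩) ?_ ?_ ?_ ?_
  · intro a _
    exact Finset.mem_univ _
  · intro a _ b _ h
    exact Subtype.ext (by simpa using congrArg Subtype.val h)
  · intro b _
    exact ⟨⟨b.1, Finset.mem_filter.2 ⟨Finset.mem_univ _, b.2⟩⟩, Finset.mem_attach _ _, rfl⟩
  · intro a _
    rfl

open Classical in
/-- (1E) For a fixed shift `c` of the tests, `n` vectors which are independent on the random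
coordinates are simultaneously biased only for few test families. -/
theorem card_biasedE_le {ψ : AddChar K ℂ} (hψ : ψ ≠ 0) {n m : ℕ} {z : Fin n → κ → K}
    (hz : LinearIndependent K fun l => resR R (z l)) {eta : ℝ} (heta : 0 ≤ eta)
    (c : Fin m → κ → K) :
    (#{G : Fin m → {i // R i} → K | ∀ l, BiasedAt ψ eta (fun s => c s + extR R (G s)) (z l)} : ℝ) ≤
      (Fintype.card (Fin m → {i // R i} → K) : ℝ) * Real.exp (-(eta ^ 2 * m * n / 2)) := by
  have hsur := dot_surjective hz
  choose u0 hu0 using fun s : Fin m => hsur (fun l => z l ⬝ᵥ c s)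
  have hu : ∀ s l, resR R (z l) ⬝ᵥ u0 s = z l ⬝ᵥ c s := fun s l => by
    have := congrFun (hu0 s) l
    simpa using this
  have hiff : ∀ G : Fin m → {i // R i} → K,
      (∀ l, BiasedAt ψ eta (fun s => c s + extR R (G s)) (z l)) ↔
        (∀ l, BiasedAt ψ eta (G + u0) (resR R (z l))) := by
    intro G
    refine forall_congr' fun l => ?_
    simp only [BiasedAt]
    have : ∀ s, z l ⬝ᵥ (c s + extR R (G s)) = resR R (z l) ⬝ᵥ (G + u0) s := by
      intro s
      rw [dotProduct_add, dot_extR, Pi.add_apply, dotProduct_add, hu, add_comm]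
    simp only [this]
  have hcard : #{G : Fin m → {i // R i} → K |
        ∀ l, BiasedAt ψ eta (fun s => c s + extR R (G s)) (z l)} =
      #{G : Fin m → {i // R i} → K | ∀ l, BiasedAt ψ eta G (resR R (z l))} := by
    refine Finset.card_bij (fun G _ => G + u0) ?_ ?_ ?_
    · intro G hG
      exact Finset.mem_filter.2 ⟨Finset.mem_univ _, (hiff G).1 (Finset.mem_filter.1 hG).2⟩
    · intro a _ b _ h
      exact add_right_cancel h
    · intro b hb
      refine ⟨b - u0, Finset.mem_filter.2 ⟨Finset.mem_univ _, ?_⟩, sub_add_cancel _ _⟩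
      rw [hiff, sub_add_cancel]
      exact (Finset.mem_filter.1 hb).2
  rw [hcard]
  exact card_biased_le hψ hz heta

open Classical in
/-- (2E) Union bound over a finite family of surjective additive maps from the design space to the
random parts of the tests (each with its own fixed shift `c a`) and over all tuples `z` which are
independent on the random coordinates. -/
theorem card_designE_le {ψ : AddChar K ℂ} (hψ : ψ ≠ 0) {n m : ℕ}
    {P : Type*} [AddCommGroup P] [Fintype P]
    {Λ : Type*} [Fintype Λ] (L : Λ → P →+ (Fin m → {i // R i} → K))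
    (hL : ∀ a, Function.Surjective (L a)) (c : Λ → Fin m → κ → K) {eta : ℝ} (heta : 0 ≤ eta) :
    (#{p : P | ∃ a, ∃ z : Fin n → κ → K, LinearIndependent K (fun l => resR R (z l)) ∧
        ∀ l, BiasedAt ψ eta (fun s => c a s + extR R (L a p s)) (z l)} : ℝ) ≤
      (Fintype.card P : ℝ) * Fintype.card Λ * (Fintype.card (κ → K) : ℝ) ^ n *
        Real.exp (-(eta ^ 2 * m * n / 2)) := by
  have h1 : (#{p : P | ∃ a, ∃ z : Fin n → κ → K, LinearIndependent K (fun l => resR R (z l)) ∧
        ∀ l, BiasedAt ψ eta (fun s => c a s + extR R (L a p s)) (z l)} : ℝ) ≤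
      ∑ x : Λ × (Fin n → κ → K), (#{p : P | LinearIndependent K (fun l => resR R (x.2 l)) ∧
        ∀ l, BiasedAt ψ eta (fun s => c x.1 s + extR R (L x.1 p s)) (x.2 l)} : ℝ) := by
    have : ({p : P | ∃ a, ∃ z : Fin n → κ → K, LinearIndependent K (fun l => resR R (z l)) ∧
        ∀ l, BiasedAt ψ eta (fun s => c a s + extR R (L a p s)) (z l)} : Finset P) ⊆
        (Finset.univ : Finset (Λ × (Fin n → κ → K))).biUnion fun x =>
          {p : P | LinearIndependent K (fun l => resR R (x.2 l)) ∧
            ∀ l, BiasedAt ψ eta (fun s => c x.1 s + extR R (L x.1 p s)) (x.2 l)} := by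
      intro p hp
      obtain ⟨a, z, hz, hb⟩ := (Finset.mem_filter.1 hp).2
      exact Finset.mem_biUnion.2 ⟨(a, z), Finset.mem_univ _,
        Finset.mem_filter.2 ⟨Finset.mem_univ _, hz, hb⟩⟩
    exact_mod_cast (Finset.card_le_card this).trans Finset.card_biUnion_le
  refine h1.trans ?_
  have h2 : ∀ x : Λ × (Fin n → κ → K), (#{p : P | LinearIndependent K (fun l => resR R (x.2 l)) ∧
        ∀ l, BiasedAt ψ eta (fun s => c x.1 s + extR R (L x.1 p s)) (x.2 l)} : ℝ) ≤
      (Fintype.card P : ℝ) * Real.exp (-(eta ^ 2 * m * n / 2)) := by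
    rintro ⟨a, z⟩
    by_cases hz : LinearIndependent K (fun l => resR R (z l))
    · have key := card_mul_sum_comp (L a) (hL a)
        (fun G => if ∀ l, BiasedAt ψ eta (fun s => c a s + extR R (G s)) (z l)
          then (1 : ℝ) else 0)
      have e1 : ∑ u : P, (if ∀ l, BiasedAt ψ eta (fun s => c a s + extR R (L a u s)) (z l)
          then (1 : ℝ) else 0) =
          (#{p : P | ∀ l, BiasedAt ψ eta (fun s => c a s + extR R (L a p s)) (z l)} : ℝ) := by
        rw [Finset.sum_boole]
      have e2 : ∑ G : Fin m → {i // R i} → K,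
          (if ∀ l, BiasedAt ψ eta (fun s => c a s + extR R (G s)) (z l) then (1 : ℝ) else 0) =
          (#{G : Fin m → {i // R i} → K |
            ∀ l, BiasedAt ψ eta (fun s => c a s + extR R (G s)) (z l)} : ℝ) := by
        rw [Finset.sum_boole]
      simp only [e1, e2] at key
      have hW : (0 : ℝ) < (Fintype.card (Fin m → {i // R i} → K) : ℝ) := by
        exact_mod_cast Fintype.card_pos
      have hb := card_biasedE_le R hψ (m := m) hz heta (c a)
      have h3 : (Fintype.card (Fin m → {i // R i} → K) : ℝ) *
          (#{p : P | ∀ l, BiasedAt ψ eta (fun s => c a s + extR R (L a p s)) (z l)} : ℝ) ≤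
          (Fintype.card (Fin m → {i // R i} → K) : ℝ) *
            ((Fintype.card P : ℝ) * Real.exp (-(eta ^ 2 * m * n / 2))) := by
        rw [key]
        calc _ ≤ (Fintype.card P : ℝ) * ((Fintype.card (Fin m → {i // R i} → K) : ℝ) *
              Real.exp (-(eta ^ 2 * m * n / 2))) :=
              mul_le_mul_of_nonneg_left hb (by positivity)
          _ = _ := by ring
      have h4 := le_of_mul_le_mul_left h3 hW
      simpa [hz] using h4
    · simp only [hz, false_and]
      simp only [Finset.filter_false, Finset.card_empty, Nat.cast_zero]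
      positivity
  refine (Finset.sum_le_sum fun x _ => h2 x).trans (le_of_eq ?_)
  simp only [Finset.sum_const, Finset.card_univ, Fintype.card_prod, nsmul_eq_mul]
  simp only [Fintype.card_fun, Fintype.card_fin]
  push_cast
  ring

/-- Among `n + e` independent vectors there are `n` whose restrictions to the random coordinates
are independent, `e` being the number of the fixed coordinates. -/
theorem exists_indep_resR {n e : ℕ} (he : Fintype.card {i // ¬ R i} ≤ e)
    {z : Fin (n + e) → κ → K} (hz : LinearIndependent K z) :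
    ∃ g : Fin n → Fin (n + e), LinearIndependent K fun l => resR R (z (g l)) := by
  classical
  -- the restriction map
  let φ : (κ → K) →ₗ[K] ({i // R i} → K) := LinearMap.funLeft K K (fun i : {i // R i} => i.1)
  have hφ : ∀ v, φ v = resR R v := fun v => rfl
  let ρ : (κ → K) →ₗ[K] ({i // ¬ R i} → K) := LinearMap.funLeft K K (fun i : {i // ¬ R i} => i.1)
  set S : Submodule K (κ → K) := Submodule.span K (Set.range z) with hS
  have hSdim : Module.finrank K S = n + e := by
    have := finrank_span_eq_card hz
    simpa using this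
  -- the kernel of `φ` on `S` injects in the fixed coordinates
  let φS : S →ₗ[K] ({i // R i} → K) := φ.comp S.subtype
  have hker : Module.finrank K (LinearMap.ker φS) ≤ e := by
    have hinj : Function.Injective ((ρ.comp S.subtype).comp (LinearMap.ker φS).subtype) := by
      refine (injective_iff_map_eq_zero _).2 ?_
      rintro ⟨⟨v, hv⟩, hv2⟩ h
      have h1 : φ v = 0 := LinearMap.mem_ker.1 hv2
      have h2 : ρ v = 0 := h
      have : v = 0 := by
        funext i
        by_cases hi : R i
        · exact congrFun h1 ⟨i, hi⟩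
        · exact congrFun h2 ⟨i, hi⟩
      exact Subtype.ext (Subtype.ext this)
    have := LinearMap.finrank_le_finrank_of_injective hinj
    simpa using this.trans (by simpa using he)
  have hrange : n ≤ Module.finrank K (LinearMap.range φS) := by
    have := LinearMap.finrank_range_add_finrank_ker φS
    omega
  have hrange' : LinearMap.range φS = Submodule.span K (Set.range fun l => resR R (z l)) := by
    have : LinearMap.range φS = S.map φ := by
      rw [LinearMap.range_comp, Submodule.range_subtype]
    rw [this, hS, Submodule.map_span, ← Set.range_comp]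
    rfl
  obtain ⟨κ', a, ha, hspan, hli⟩ := exists_linearIndependent' K (fun l => resR R (z l))
  have hfin : Finite κ' := Finite.of_injective a ha
  let _ : Fintype κ' := Fintype.ofFinite κ'
  have hcard : n ≤ Fintype.card κ' := by
    have h1 := finrank_span_eq_card hli
    rw [hspan, ← hrange'] at h1
    omega
  obtain ⟨f⟩ : Nonempty (Fin n ↪ κ') := by
    rw [Function.Embedding.nonempty_iff_card_le]
    simpa using hcard
  exact ⟨fun l => a (f l), hli.comp f f.injective⟩

/-- (3E) ATOM LEMMA with fixed coordinates: if no `n` biased vectors are independent on the random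
coordinates, a random vector for which all tests are biased has an atom. -/
theorem exists_atomE {ψ : AddChar K ℂ} {n m e : ℕ} (he : Fintype.card {i // ¬ R i} ≤ e)
    (hm : 0 < m) {G : Fin m → κ → K} {eta : ℝ}
    (hgood : ¬ ∃ z : Fin n → κ → K, LinearIndependent K (fun l => resR R (z l)) ∧
      ∀ l, BiasedAt ψ (eta ^ 2 / 2) G (z l))
    {P : (κ → K) → ℝ} (hP : ∀ y, 0 ≤ P y) (hP1 : ∑ y, P y = 1) (heta : 0 < eta)
    (hbias : ∀ s, eta ≤ ‖∑ y, (P y : ℂ) * ψ (y ⬝ᵥ G s)‖) :
    ∃ y, eta ^ 2 / 2 / (Fintype.card K : ℝ) ^ (n + e) ≤ P y := by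
  refine exists_atom hm (n := n + e) ?_ hP hP1 heta hbias
  rintro ⟨z, hz, hb⟩
  obtain ⟨g, hg⟩ := exists_indep_resR R he hz
  exact hgood ⟨fun l => z (g l), hg, fun l => hb (g l)⟩

end Shift

section Types

variable {K : Type*} [Field K] [Fintype K] [DecidableEq K]
variable {κ : Type*} [Fintype κ] [DecidableEq κ] (R : κ → Prop) [DecidablePred R]
variable {ι : Type*} [Fintype ι] [DecidableEq ι] {T : Type*} [Fintype T]

/-- The vector of a type: the sum of its lines; the line `v` has the fixed part `e v` and the
random part `p v` on the coordinates satisfying `R`. -/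
def gvec (lines : T → Finset ι) (e : ι → κ → K) (p : ι → {i // R i} → K) (b : T) : κ → K :=
  ∑ v ∈ lines b, (e v + extR R (p v))

/-- Two lists of types such that every type of either list has a private line. -/
def FreshT (lines : T → Finset ι) {m : ℕ} (b b' : Fin m → T) : Prop :=
  ∃ f f' : Fin m → ι, (∀ s, f s ∈ lines (b s)) ∧ (∀ s, f' s ∈ lines (b' s)) ∧
    (∀ s t, f t ∈ lines (b s) → t = s) ∧ (∀ s t, f t ∉ lines (b' s)) ∧
    (∀ s t, f' t ∈ lines (b' s) → t = s) ∧ (∀ s t, f' t ∉ lines (b s))

/-- The test vector of a pair of types. -/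
def testT (lines : T → Finset ι) (e : ι → κ → K) (p : ι → {i // R i} → K) {m : ℕ}
    (b b' : Fin m → T) (s : Fin m) : κ ⊕ κ → K :=
  Sum.elim (gvec R lines e p (b s)) (gvec R lines e p (b' s))

/-- The random part of the tests. -/
def testL (lines : T → Finset ι) {m : ℕ} (b b' : Fin m → T) :
    (ι → {i // R i} → K) →+ (Fin m → {x : κ ⊕ κ // Sum.elim R R x} → K) where
  toFun p s x := match x with
    | ⟨Sum.inl i, h⟩ => ∑ v ∈ lines (b s), p v ⟨i, h⟩
    | ⟨Sum.inr i, h⟩ => ∑ v ∈ lines (b' s), p v ⟨i, h⟩
  map_zero' := by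
    funext s x
    rcases x with ⟨i | i, h⟩ <;> simp
  map_add' p q := by
    funext s x
    rcases x with ⟨i | i, h⟩ <;> simp [Finset.sum_add_distrib]

instance instDecElim : DecidablePred (Sum.elim R R) := fun x => by
  cases x <;> (simp only [Sum.elim_inl, Sum.elim_inr]; infer_instance)

theorem testT_eq (lines : T → Finset ι) (e : ι → κ → K) (p : ι → {i // R i} → K) {m : ℕ}
    (b b' : Fin m → T) (s : Fin m) :
    testT R lines e p b b' s =
      Sum.elim (∑ v ∈ lines (b s), e v) (∑ v ∈ lines (b' s), e v) +
        extR (Sum.elim R R) (testL R lines b b' p s) := by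
  funext x
  cases x with
  | inl i =>
    by_cases h : R i <;>
      simp [testT, gvec, testL, extR, Finset.sum_apply, Finset.sum_add_distrib, h]
  | inr i =>
    by_cases h : R i <;>
      simp [testT, gvec, testL, extR, Finset.sum_apply, Finset.sum_add_distrib, h]

theorem testL_surjective {lines : T → Finset ι} {m : ℕ} {b b' : Fin m → T}
    (hf : FreshT lines b b') :
    Function.Surjective (testL (K := K) R lines b b') := by
  classical
  obtain ⟨f, f', h1, h2, h3, h4, h5, h6⟩ := hf
  intro G
  refine ⟨fun v i => if h : ∃ s, f s = v then G h.choose ⟨Sum.inl i.1, i.2⟩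
    else if h' : ∃ s, f' s = v then G h'.choose ⟨Sum.inr i.1, i.2⟩ else 0, ?_⟩
  funext s x
  have e1 : ∀ h : (∃ t, f t = f s), h.choose = s := fun h =>
    h3 _ _ (h.choose_spec.symm ▸ h1 s)
  have e2 : ∀ h : (∃ t, f' t = f' s), h.choose = s := fun h =>
    h5 _ _ (h.choose_spec.symm ▸ h2 s)
  rcases x with ⟨i | i, hi⟩
  · simp only [testL, AddMonoidHom.coe_mk, ZeroHom.coe_mk]
    rw [Finset.sum_eq_single (f s)]
    · have p0 : ∃ t, f t = f s := ⟨s, rfl⟩
      rw [dif_pos p0, e1 p0]
    · intro v hv hne
      have n1 : ¬ ∃ t, f t = v := by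
        rintro ⟨t, rfl⟩
        exact hne (by rw [h3 _ _ hv])
      have n2 : ¬ ∃ t, f' t = v := by
        rintro ⟨t, rfl⟩
        exact h6 _ _ hv
      rw [dif_neg n1, dif_neg n2]
    · intro h
      exact absurd (h1 s) h
  · simp only [testL, AddMonoidHom.coe_mk, ZeroHom.coe_mk]
    rw [Finset.sum_eq_single (f' s)]
    · have p0 : ∃ t, f' t = f' s := ⟨s, rfl⟩
      have n1 : ¬ ∃ t, f t = f' s := by
        rintro ⟨t, ht⟩
        exact h4 s t (ht ▸ h2 s)
      rw [dif_neg n1, dif_pos p0, e2 p0]
    · intro v hv hne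
      have n1 : ¬ ∃ t, f t = v := by
        rintro ⟨t, rfl⟩
        exact h4 _ _ hv
      have n2 : ¬ ∃ t, f' t = v := by
        rintro ⟨t, rfl⟩
        exact hne (by rw [h5 _ _ hv])
      rw [dif_neg n1, dif_neg n2]
    · intro h
      exact absurd (h2 s) h

open Classical in
/-- (2T) Union bound for the design: the number of systems of lines for which some fresh list of
`m` pairs of types has `n` biased vectors which are independent on the random coordinates. -/
theorem card_types_le {ψ : AddChar K ℂ} (hψ : ψ ≠ 0) (lines : T → Finset ι) (e : ι → κ → K)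
    (n m : ℕ) {eta : ℝ} (heta : 0 ≤ eta) :
    (#{p : ι → {i // R i} → K | ∃ b b' : Fin m → T, FreshT lines b b' ∧
        ∃ z : Fin n → κ ⊕ κ → K, LinearIndependent K (fun l => resR (Sum.elim R R) (z l)) ∧
        ∀ l, BiasedAt ψ eta (testT R lines e p b b') (z l)} : ℝ) ≤
      (Fintype.card (ι → {i // R i} → K) : ℝ) * ((Fintype.card T : ℝ) ^ (2 * m) *
        (Fintype.card K : ℝ) ^ (2 * Fintype.card κ * n) * Real.exp (-(eta ^ 2 * m * n / 2))) := by
  have key := card_designE_le (κ := κ ⊕ κ) (Sum.elim R R) (n := n) (m := m) hψ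
    (Λ := {q : (Fin m → T) × (Fin m → T) // FreshT lines q.1 q.2})
    (fun a => testL (K := K) R lines a.1.1 a.1.2)
    (fun a => testL_surjective R a.2)
    (fun a s => Sum.elim (∑ v ∈ lines (a.1.1 s), e v) (∑ v ∈ lines (a.1.2 s), e v)) heta
  have hset : ({p : ι → {i // R i} → K | ∃ b b' : Fin m → T, FreshT lines b b' ∧
        ∃ z : Fin n → κ ⊕ κ → K, LinearIndependent K (fun l => resR (Sum.elim R R) (z l)) ∧
        ∀ l, BiasedAt ψ eta (testT R lines e p b b') (z l)} : Finset (ι → {i // R i} → K)) =
      ({p : ι → {i // R i} → K | ∃ a : {q : (Fin m → T) × (Fin m → T) // FreshT lines q.1 q.2},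
        ∃ z : Fin n → κ ⊕ κ → K, LinearIndependent K (fun l => resR (Sum.elim R R) (z l)) ∧
        ∀ l, BiasedAt ψ eta (fun s => Sum.elim (∑ v ∈ lines (a.1.1 s), e v)
          (∑ v ∈ lines (a.1.2 s), e v) + extR (Sum.elim R R) (testL R lines a.1.1 a.1.2 p s))
          (z l)} : Finset (ι → {i // R i} → K)) := by
    ext p
    simp only [Finset.mem_filter, Finset.mem_univ, true_and]
    constructor
    · rintro ⟨b, b', hf, z, hz, hb⟩
      refine ⟨⟨(b, b'), hf⟩, z, hz, fun l => ?_⟩
      have := hb l
      rw [show testT R lines e p b b' = _ from funext fun s => testT_eq R lines e p b b' s] at this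
      exact this
    · rintro ⟨⟨⟨b, b'⟩, hf⟩, z, hz, hb⟩
      refine ⟨b, b', hf, z, hz, fun l => ?_⟩
      rw [show testT R lines e p b b' = _ from funext fun s => testT_eq R lines e p b b' s]
      exact hb l
  rw [hset]
  refine key.trans ?_
  have hΛ : (Fintype.card {q : (Fin m → T) × (Fin m → T) // FreshT lines q.1 q.2} : ℝ) ≤
      (Fintype.card T : ℝ) ^ (2 * m) := by
    have h1 : Fintype.card {q : (Fin m → T) × (Fin m → T) // FreshT lines q.1 q.2} ≤
        Fintype.card ((Fin m → T) × (Fin m → T)) := Fintype.card_subtype_le _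
    have h2 : Fintype.card ((Fin m → T) × (Fin m → T)) = Fintype.card T ^ (2 * m) := by
      simp [Fintype.card_fun, two_mul, pow_add]
    rw [h2] at h1
    exact_mod_cast h1
  have hU : (Fintype.card ((κ ⊕ κ) → K) : ℝ) ^ n =
      (Fintype.card K : ℝ) ^ (2 * Fintype.card κ * n) := by
    have : Fintype.card ((κ ⊕ κ) → K) = Fintype.card K ^ (2 * Fintype.card κ) := by
      simp [Fintype.card_fun, two_mul]
    rw [this]
    push_cast
    rw [← pow_mul]
  rw [hU]
  calc (Fintype.card (ι → {i // R i} → K) : ℝ) *
        (Fintype.card {q : (Fin m → T) × (Fin m → T) // FreshT lines q.1 q.2} : ℝ) *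
        (Fintype.card K : ℝ) ^ (2 * Fintype.card κ * n) * Real.exp (-(eta ^ 2 * m * n / 2))
      ≤ (Fintype.card (ι → {i // R i} → K) : ℝ) * ((Fintype.card T : ℝ) ^ (2 * m)) *
        (Fintype.card K : ℝ) ^ (2 * Fintype.card κ * n) * Real.exp (-(eta ^ 2 * m * n / 2)) := by
        gcongr
    _ = _ := by ring

end Types

end Vale.Agent.P060.HW
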