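import Vale.Agent.P060.HW.FProj
import Vale.Agent.P060.HW.Pasts

/-!
# P060/HW: from convolutions of bounded densities to averages over a field of submodules

`conv_field`: a mixture of laws, each carried by one coset of `N` and close to the convolution of
two laws of density `≤ L / |N|`, is nearly invariant under a field of subspaces of `N` of bounded
codimension.
-/

open Finset Module
open scoped BigOperators ComplexConjugate

namespace Vale.Agent.P060.HW

section Bridge

variable {F V : Type*} [Field F] [Fintype F] [AddCommGroup V] [Module F V] [Fintype V]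

/-- The dual of a finite space is finite. -/
@[reducible] noncomputable def dualFintype (N : Submodule F V) : Fintype (Dual F N) := by
  classical
  haveI : Finite (Dual F N) := DFunLike.finite _
  exact Fintype.ofFinite _

attribute [local instance] dualFintype

open Classical in
/-- The elements of a submodule form a finite type. -/
@[reducible] noncomputable def subFintype (N : Submodule F V) : Fintype N :=
  inferInstance

attribute [local instance] subFintype

/-- The dual pair of a subspace. -/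
noncomputable def dualSys (ψ : AddChar F ℂ) (hψ : ψ ≠ 0) (N : Submodule F V) :
    CharSys (Dual F N) N where
  e ξ n := ψ (ξ n)
  add ξ η n := by rw [LinearMap.add_apply, AddChar.map_add_eq_mul]
  norm ξ n := AddChar.norm_apply ψ (ξ n)
  orth ξ hξ := by
    obtain ⟨n0, hn0⟩ : ∃ n, ξ n ≠ 0 := by
      by_contra h
      push Not at h
      exact hξ (LinearMap.ext h)
    obtain ⟨t, ht⟩ : ∃ t, ψ t ≠ 1 := by
      by_contra h
      push Not at h
      exact hψ (DFunLike.ext _ _ fun x => by rw [h x]; rfl)
    set χ : AddChar N ℂ := ψ.compAddMonoidHom ξ.toAddMonoidHom with hχ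
    have hne : χ ≠ 0 := by
      intro h0
      apply ht
      have h1 := DFunLike.congr_fun h0 ((t / ξ n0) • n0)
      have h2 : χ ((t / ξ n0) • n0) = ψ (ξ ((t / ξ n0) • n0)) := rfl
      rw [h2, map_smul, smul_eq_mul, div_mul_cancel₀ _ hn0] at h1
      rw [h1]; rfl
    exact AddChar.expect_eq_zero_iff_ne_zero.mpr hne

lemma dualSys_e (ψ : AddChar F ℂ) (hψ : ψ ≠ 0) (N : Submodule F V) (ξ : Dual F N) (n : N) :
    (dualSys ψ hψ N).e ξ n = ψ (ξ n) := rfl

/-- `h` is carried by one coset of `N` and has Fourier weight at most `B` there. -/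
def HasWeight (ψ : AddChar F ℂ) (N : Submodule F V) (h : V → ℂ) (B : ℝ) : Prop :=
  ∃ v : V, (∀ x, x - v ∉ N → h x = 0) ∧ ∃ c : Dual F N → ℂ, ∑ ξ, ‖c ξ‖ ≤ B ∧
    ∀ n : N, h (v + n) = ∑ ξ, c ξ * ψ (ξ n)

/-- Representative of a coset. -/
noncomputable def rep (N : Submodule F V) (k : V ⧸ N) : V := Quotient.out k

omit [Fintype F] [Fintype V] in
lemma mk_rep (N : Submodule F V) (k : V ⧸ N) : Submodule.Quotient.mk (rep N k) = k :=
  Quotient.out_eq k

omit [Fintype F] [Fintype V] in
lemma sub_rep_mem (N : Submodule F V) (x : V) :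
    x - rep N (Submodule.Quotient.mk x) ∈ N := by
  rw [← Submodule.Quotient.eq, mk_rep]

/-- Decomposition of the space into cosets. -/
noncomputable def cosetEquiv (N : Submodule F V) : (V ⧸ N) × N ≃ V where
  toFun p := rep N p.1 + p.2
  invFun x := (Submodule.Quotient.mk x, ⟨x - rep N (Submodule.Quotient.mk x), sub_rep_mem N x⟩)
  left_inv p := by
    obtain ⟨k, n⟩ := p
    have h1 : (Submodule.Quotient.mk (rep N k + n) : V ⧸ N) = k := by
      rw [Submodule.Quotient.mk_add, mk_rep, (Submodule.Quotient.mk_eq_zero N).mpr n.2, add_zero]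
    refine Prod.ext h1 (Subtype.ext ?_)
    show rep N k + (n : V) - rep N (Submodule.Quotient.mk (rep N k + (n : V))) = n
    rw [h1]; abel
  right_inv x := by
    show rep N (Submodule.Quotient.mk x) + (x - rep N (Submodule.Quotient.mk x)) = x
    abel

/-- Cosets are finitely many. -/
@[reducible] noncomputable def quotFintype (N : Submodule F V) : Fintype (V ⧸ N) := by
  classical
  haveI : Finite (V ⧸ N) := Quotient.finite _
  exact Fintype.ofFinite _

attribute [local instance] quotFintype

omit [Fintype F] in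
lemma sum_coset (N : Submodule F V) (f : V → ℝ) :
    ∑ x, f x = ∑ k : V ⧸ N, ∑ n : N, f (rep N k + n) := by
  rw [← (cosetEquiv N).sum_comp f, Fintype.sum_prod_type]
  rfl

omit [Fintype F] in
lemma card_eq_carr (N : Submodule F V) : (Fintype.card N : ℝ) = (carr N).card := by
  congr 1
  classical
  rw [carr, Fintype.card_subtype]

/-- Change of base point. -/
lemma HasWeight.at_rep {ψ : AddChar F ℂ} {N : Submodule F V} {h : V → ℂ} {B : ℝ}
    (hB : HasWeight ψ N h B) : ∃ k0 : V ⧸ N, ∀ k, ∃ c : Dual F N → ℂ,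
      (k ≠ k0 → c = 0) ∧ ∑ ξ, ‖c ξ‖ ≤ B ∧ ∀ n : N, h (rep N k + n) = ∑ ξ, c ξ * ψ (ξ n) := by
  classical
  obtain ⟨v, hv, c, hc, hn⟩ := hB
  have hB0 : 0 ≤ B := le_trans (Finset.sum_nonneg fun _ _ => norm_nonneg _) hc
  refine ⟨Submodule.Quotient.mk v, fun k => ?_⟩
  by_cases hk : k = Submodule.Quotient.mk v
  · have hm : rep N k - v ∈ N := by
      rw [← Submodule.Quotient.eq, mk_rep, hk]
    refine ⟨fun ξ => c ξ * ψ (ξ ⟨_, hm⟩), fun h => absurd hk h, ?_, fun n => ?_⟩
    · refine le_trans (le_of_eq ?_) hc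
      exact Finset.sum_congr rfl fun ξ _ => by rw [norm_mul, AddChar.norm_apply, mul_one]
    · have h1 : rep N k + (n : V) = v + ((⟨_, hm⟩ + n : N) : V) := by
        push_cast; abel
      rw [h1, hn]
      refine Finset.sum_congr rfl fun ξ _ => ?_
      rw [map_add, AddChar.map_add_eq_mul]; ring
  · refine ⟨0, fun _ => rfl, by simpa using hB0, fun n => ?_⟩
    simp only [Pi.zero_apply, zero_mul, Finset.sum_const_zero]
    apply hv
    intro hmem
    apply hk
    rw [← Submodule.Quotient.eq, Submodule.Quotient.mk_add, mk_rep,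
      (Submodule.Quotient.mk_eq_zero N).mpr n.2, add_zero] at hmem
    exact hmem

/-- **Bridge**: a function which is `L¹`-close to a sum of functions of small Fourier weight
(each carried by one coset of `N`) is nearly invariant under a field of subspaces of `N` of bounded
codimension. -/
theorem weight_field (ψ : AddChar F ℂ) (hψ : ψ ≠ 0) (N : Submodule F V) {ι : Type*} [Fintype ι]
    (w : ι → ℝ) (hw : ∀ i, 0 ≤ w i) (hw1 : ∑ i, w i ≤ 1) {L p e : ℝ} (hp : 0 < p)
    (h : ι → V → ℂ) (hh : ∀ i, HasWeight ψ N (h i) (L / (carr N).card * w i))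
    (P : V → ℝ) (he : ∑ x, ‖(P x : ℂ) - ∑ i, h i x‖ ≤ e) :
    ∃ U : V → Submodule F V, IsField N U ∧
      (∀ x, finrank F N ≤ finrank F (U x) + ⌊L / p⌋₊) ∧
      ∑ x, |P x - favg U P x| ≤ 2 * (e + Real.sqrt (p * L)) := by
  classical
  have hN0 : (0 : ℝ) < (carr N).card := carr_card_pos N
  choose k0 c hc0 hcB hcn using fun i => (hh i).at_rep
  -- coefficients on the coset `k`
  set a : V ⧸ N → Dual F N → ℂ := fun k ξ => ∑ i, c i k ξ with ha
  set m : V ⧸ N → ℝ := fun k => ∑ i, if k = k0 i then w i else 0 with hm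
  have hm0 : ∀ k, 0 ≤ m k := fun k => Finset.sum_nonneg fun i _ => by
    split_ifs
    · exact hw i
    · exact le_rfl
  have hmsum : ∑ k, m k ≤ 1 := by
    rw [hm, Finset.sum_comm]
    refine le_trans (le_of_eq ?_) hw1
    exact Finset.sum_congr rfl fun i _ => by rw [Finset.sum_ite_eq' univ (k0 i)]; simp
  have haW : ∀ k, ∑ ξ, ‖a k ξ‖ ≤ L * (m k / (carr N).card) := by
    intro k
    calc ∑ ξ, ‖a k ξ‖ ≤ ∑ ξ, ∑ i, ‖c i k ξ‖ := Finset.sum_le_sum fun ξ _ => norm_sum_le _ _
      _ = ∑ i, ∑ ξ, ‖c i k ξ‖ := Finset.sum_comm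
      _ ≤ ∑ i, L / (carr N).card * (if k = k0 i then w i else 0) := by
          refine Finset.sum_le_sum fun i _ => ?_
          split_ifs with hk
          · exact hcB i k
          · rw [hc0 i k hk]; simp
      _ = L * (m k / (carr N).card) := by rw [← Finset.mul_sum, hm]; ring
  have hPn : ∀ k (n : N), ∑ i, h i (rep N k + n) = ∑ ξ, a k ξ * ψ (ξ n) := by
    intro k n
    rw [Finset.sum_congr rfl fun i _ => hcn i k n, Finset.sum_comm]
    exact Finset.sum_congr rfl fun ξ _ => by rw [ha, Finset.sum_mul]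
  set S := dualSys ψ hψ N with hS
  set t : V ⧸ N → ℝ := fun k => 𝔼 n : N, ‖(P (rep N k + n) : ℂ) - ∑ ξ, a k ξ * S.e ξ n‖ with ht
  have htsum : ∑ k, (carr N).card * t k ≤ e := by
    refine le_trans (le_of_eq ?_) he
    rw [sum_coset N]
    refine Finset.sum_congr rfl fun k _ => ?_
    rw [← card_eq_carr, ht]
    simp only
    rw [Fintype.card_mul_expect]
    refine Finset.sum_congr rfl fun n _ => ?_
    rw [hPn]
    rfl
  choose T hT hTc using fun k => S.sparse_close (fun n : N => (P (rep N k + n) : ℂ)) (a k)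
    (m := m k / (carr N).card) (W := L) (p := p) (t := t k)
    (div_nonneg (hm0 k) hN0.le) hp (haW k) le_rfl
  set A : V ⧸ N → Submodule F N := fun k =>
    (Submodule.span F (T k : Set (Dual F N))).dualCoannihilator with hA
  have hAmem : ∀ k (n : N), n ∈ A k → ∀ ξ ∈ T k, ξ n = 0 := by
    intro k n hn ξ hξ
    rw [hA, Submodule.mem_dualCoannihilator] at hn
    exact hn ξ (Submodule.subset_span (by exact_mod_cast hξ))
  have hAdim : ∀ k, finrank F N ≤ finrank F (A k) + ⌊L / p⌋₊ := by
    intro k
    have h1 := Subspace.finrank_add_finrank_dualCoannihilator_eq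
      (Submodule.span F (T k : Set (Dual F N)))
    have h2 : finrank F (Submodule.span F (T k : Set (Dual F N))) ≤ (T k).card :=
      finrank_span_finset_le_card (R := F) (T k)
    have h3 := hT k
    rw [hA]
    simp only
    omega
  set U : V → Submodule F V := fun x =>
    (A (Submodule.Quotient.mk x)).map N.subtype with hU
  have hUf : IsField N U := by
    refine ⟨fun x => Submodule.map_subtype_le _ _, fun x n hn => ?_⟩
    have : (Submodule.Quotient.mk (x + n) : V ⧸ N) = Submodule.Quotient.mk x := by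
      rw [Submodule.Quotient.mk_add, (Submodule.Quotient.mk_eq_zero N).mpr hn, add_zero]
    rw [hU]; simp only [this]
  refine ⟨U, hUf, fun x => ?_, ?_⟩
  · rw [hU]
    simp only
    rw [Submodule.finrank_map_subtype_eq]
    exact hAdim _
  -- the approximating function
  set g : V → ℝ := fun x => (∑ ξ ∈ T (Submodule.Quotient.mk x),
    a (Submodule.Quotient.mk x) ξ * ψ (ξ ⟨x - rep N (Submodule.Quotient.mk x), sub_rep_mem N x⟩)).re
    with hg
  have hgrep : ∀ k (n : N), g (rep N k + n) = (∑ ξ ∈ T k, a k ξ * S.e ξ n).re := by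
    intro k n
    have h1 : (Submodule.Quotient.mk (rep N k + (n : V)) : V ⧸ N) = k := by
      rw [Submodule.Quotient.mk_add, mk_rep, (Submodule.Quotient.mk_eq_zero N).mpr n.2, add_zero]
    have h2 : ∀ (k' : V ⧸ N) (hk' : k' = k) (hmem : rep N k + (n : V) - rep N k' ∈ N),
        (∑ ξ ∈ T k', a k' ξ * ψ (ξ ⟨rep N k + (n : V) - rep N k', hmem⟩)).re
        = (∑ ξ ∈ T k, a k ξ * S.e ξ n).re := by
      intro k' hk' hmem
      subst hk'
      congr 1
      refine Finset.sum_congr rfl fun ξ _ => ?_
      have h3 : (⟨rep N k' + (n : V) - rep N k', hmem⟩ : N) = n := Subtype.ext (by simp)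
      rw [h3]; rfl
    exact h2 _ h1 _
  have hginv : ∀ x, ∀ u ∈ U x, g (x + u) = g x := by
    intro x u hu
    rw [hU] at hu
    obtain ⟨u', hu', rfl⟩ := Submodule.mem_map.mp hu
    obtain ⟨⟨k, n⟩, hkn⟩ := (cosetEquiv N).surjective x
    have hx : x = rep N k + n := hkn.symm
    have hkx : (Submodule.Quotient.mk x : V ⧸ N) = k := by
      rw [hx, Submodule.Quotient.mk_add, mk_rep, (Submodule.Quotient.mk_eq_zero N).mpr n.2,
        add_zero]
    rw [hkx] at hu'
    have h1 : x + N.subtype u' = rep N k + ((n + u' : N) : V) := by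
      rw [hx]; push_cast; rw [add_assoc]; rfl
    rw [h1, hx, hgrep, hgrep]
    congr 1
    refine Finset.sum_congr rfl fun ξ hξ => ?_
    rw [hS, dualSys_e, dualSys_e, map_add, hAmem k u' hu' ξ hξ, add_zero]
  have hfg : favg U g = g := by
    funext x
    rw [favg, avg, Finset.sum_congr rfl fun u hu => hginv x u (mem_carr.mp hu), Finset.sum_const,
      nsmul_eq_mul, mul_div_assoc, mul_comm, div_mul_cancel₀ _ (carr_card_pos _).ne']
  have hPg : ∑ x, |P x - g x| ≤ e + Real.sqrt (p * L) := by
    rw [sum_coset N]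
    calc ∑ k : V ⧸ N, ∑ n : N, |P (rep N k + n) - g (rep N k + n)|
        ≤ ∑ k : V ⧸ N, ((carr N).card * t k + m k * Real.sqrt (p * L)) := by
          refine Finset.sum_le_sum fun k _ => ?_
          have h1 : ∀ n : N, |P (rep N k + n) - g (rep N k + n)|
              ≤ ‖(P (rep N k + n) : ℂ) - ∑ ξ ∈ T k, a k ξ * S.e ξ n‖ := by
            intro n
            rw [hgrep]
            have := Complex.abs_re_le_norm ((P (rep N k + n) : ℂ) - ∑ ξ ∈ T k, a k ξ * S.e ξ n)
            rwa [Complex.sub_re, Complex.ofReal_re] at this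
          calc ∑ n : N, |P (rep N k + n) - g (rep N k + n)|
              ≤ ∑ n : N, ‖(P (rep N k + n) : ℂ) - ∑ ξ ∈ T k, a k ξ * S.e ξ n‖ :=
                Finset.sum_le_sum fun n _ => h1 n
            _ = (carr N).card * 𝔼 n : N, ‖(P (rep N k + n) : ℂ) - ∑ ξ ∈ T k, a k ξ * S.e ξ n‖ := by
                rw [← card_eq_carr, Fintype.card_mul_expect]
            _ ≤ (carr N).card * (t k + m k / (carr N).card * Real.sqrt (p * L)) :=
                mul_le_mul_of_nonneg_left (hTc k) hN0.le
            _ = (carr N).card * t k + m k * Real.sqrt (p * L) := by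
                field_simp
      _ = ∑ k : V ⧸ N, (carr N).card * t k + (∑ k, m k) * Real.sqrt (p * L) := by
          rw [Finset.sum_add_distrib, Finset.sum_mul]
      _ ≤ e + 1 * Real.sqrt (p * L) :=
          add_le_add htsum (mul_le_mul_of_nonneg_right hmsum (Real.sqrt_nonneg _))
      _ = e + Real.sqrt (p * L) := by rw [one_mul]
  have h2 : ∑ x, |g x - favg U P x| ≤ e + Real.sqrt (p * L) := by
    calc ∑ x, |g x - favg U P x| = ∑ x, |favg U g x - favg U P x| := by rw [hfg]
      _ ≤ ∑ x, |g x - P x| := l1_favg_sub_le hUf _ _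
      _ = ∑ x, |P x - g x| := Finset.sum_congr rfl fun x _ => abs_sub_comm _ _
      _ ≤ _ := hPg
  linarith [l1_triangle P g (favg U P)]

end Bridge

end Vale.Agent.P060.HW
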