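import Vale.Agent.P060.HW.Frame

/-!
# Design H3: the good-design events and the statements of the blocks LS, OVERLAP, OUT-A
-/

open scoped Classical

noncomputable section

set_option linter.unusedSectionVars false

namespace Vale.Agent.P060.HW

open Module

variable {N d : ℕ} {E P Om : Type} [Fintype E] [Fintype P] [Fintype Om] [NeZero N]

/-- Restriction of a vector to the coordinates in `P` and `Z ⊆ Om` (zero elsewhere). -/
def rz (Z : Finset Om) : (Co E P Om → F) →ₗ[F] (Co E P Om → F) where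
  toFun v := fun j => match j with
    | Sum.inl (Sum.inl _) => 0
    | Sum.inl (Sum.inr i) => v (Sum.inl (Sum.inr i))
    | Sum.inr w => if w ∈ Z then v (Sum.inr w) else 0
  map_add' u v := by
    funext j
    rcases j with (j | j) | w
    · simp
    · simp
    · simp only [Pi.add_apply]; split_ifs <;> simp
  map_smul' c v := by
    funext j
    rcases j with (j | j) | w
    · simp
    · simp
    · simp only [Pi.smul_apply, RingHom.id_apply]; split_ifs <;> simp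

/-- The two vectors of a pair of types. -/
def g2 (p : Lin N → Co E P Om → F) (β : Ty N d × Ty N d) : Fin 2 → Co E P Om → F :=
  ![gv p β.1, gv p β.2]

/-- Line-disjoint families of pairs of types. -/
def LD (𝓕 : Finset (Ty N d × Ty N d)) : Prop :=
  ∀ β ∈ 𝓕, ∀ β' ∈ 𝓕, β ≠ β' → Disjoint (lins2 β) (lins2 β')

/-- GP1: small sets of lines are independent on the coordinates in `P`. -/
def Ev1 (p : Lin N → Co E P Om → F) (κ : ℕ) : Prop :=
  ∀ S : Finset (Lin N), S.card ≤ κ →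
    LinearIndependent F (fun u : S => fun j : P => p u (Sum.inl (Sum.inr j)))

/-- The space `Λ(Z, a, J, H)`: restricted tensors of the basis `J`, restricted trivial tensors. -/
def LamZ (fr : Frame N d E Om) (p : Lin N → Co E P Om → F) (Z : Finset Om) (a : Ty N d)
    (J : Finset (Ty N d × Ty N d)) (H : Ty N d × Ty N d → Fin 2 → Co E P Om → F) :
    Submodule F (Matrix (Co E P Om) (Co E P Om) F) :=
  Submodule.span F
    ({Q | ∃ β ∈ J, Q = smm (fun i => rz Z (H β i)) (fun i => rz Z (g2 p β i))} ∪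
     {Q | ∃ c, ∃ w ∈ Z, w ∈ fr.U c ∧ Q = sm (Pi.single (Sum.inr w) 1) (rz Z (gv p c))} ∪
     {Q | ∃ v, Q = sm (rz Z v) (rz Z (gv p a))})

/-- The pair `β` is bad for the space `Λ` and the small space `W`. -/
def BadZ (p : Lin N → Co E P Om → F) (Z : Finset Om)
    (Λ : Submodule F (Matrix (Co E P Om) (Co E P Om) F)) (W : Submodule F (Co E P Om → F))
    (β : Ty N d × Ty N d) : Prop :=
  ¬ IndMod W (fun i => rz Z (g2 p β i)) ∨
  ∃ h : Fin 2 → Co E P Om → F, smm (fun i => rz Z (h i)) (fun i => rz Z (g2 p β i)) ∈ Λ ∧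
    ¬ ∃ w : Fin 2 → Co E P Om → F, (∀ i, w i ∈ W) ∧
      smm w (fun i => rz Z (g2 p β i)) = smm (fun i => rz Z (h i)) (fun i => rz Z (g2 p β i))

/-- GP3, event (i): for every small set `Z` of rows, every `a` and every basis `J` with arbitrary
vectors `H` there is a space `W` of dimension `≤ s` such that every line-disjoint family of bad pairs
which avoids the lines of `a`, `J` and of the rows in `Z` has at most `m` members. -/
def EvI (fr : Frame N d E Om) (p : Lin N → Co E P Om → F) (t R s m : ℕ) : Prop :=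
  ∀ Z : Finset Om, Z.card ≤ t → ∀ (a : Ty N d) (J : Finset (Ty N d × Ty N d))
    (H : Ty N d × Ty N d → Fin 2 → Co E P Om → F), J.card ≤ R →
    ∃ W : Submodule F (Co E P Om → F), finrank F W ≤ s ∧ (∀ v ∈ W, rz Z v = v) ∧
      ∀ 𝓕 : Finset (Ty N d × Ty N d), LD 𝓕 → (∀ β ∈ 𝓕, β.1 ≠ β.2) →
        (∀ β ∈ 𝓕, Disjoint (lins2 β) (lins a)) →
        (∀ β ∈ 𝓕, ∀ β' ∈ J, Disjoint (lins2 β) (lins2 β')) →
        (∀ β ∈ 𝓕, ∀ w ∈ Z, Disjoint (lins2 β) (rowLines fr w)) →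
        (∀ β ∈ 𝓕, BadZ p Z (LamZ fr p Z a J H) W β) → 𝓕.card ≤ m

/-- GP5: no `n₀` independent vectors are biased on a line-disjoint family of `m` pairs. -/
def EvB (ψ : AddChar F ℂ) (p : Lin N → Co E P Om → F) (d m n₀ : ℕ) (η : ℝ) : Prop :=
  ∀ fam : Fin m → Ty N d × Ty N d, (∀ s, (fam s).1 ≠ (fam s).2) →
    (∀ s s', s ≠ s' → Disjoint (lins2 (fam s)) (lins2 (fam s'))) →
    ∀ y : Fin n₀ → (Fin 2 → Co E P Om → F), LinearIndependent F y →
      ∃ l, ∑ s, (ψ (∑ i, y l i ⬝ᵥ g2 p (fam s) i)).re < η * m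

/-- GP6: every vector outside `D` is rarely cut. -/
def EvC (p : Lin N → Co E P Om → F) (d : ℕ) (ε : ℝ) : Prop :=
  ∀ v : Co E P Om → F, (¬ ∃ (t : E), ∃ u ∈ Y, v = Pi.single (Sum.inl (Sum.inl t)) u) →
    ((Finset.univ.filter fun b : Ty N d => v ⬝ᵥ gv p b ∈ Y).card : ℝ) ≤ (1 / 10 + ε) * (N * d)

/-- GP7 (a property of the frame): most pairs of types have joint values onto `Y × Y`. -/
def JointOnto (fr : Frame N d E Om) (a b : Ty N d) : Prop :=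
  ∀ u ∈ Y, ∀ v ∈ Y, ∃ t, fr.γ (ln a 1) t = u ∧ fr.γ (ln b 1) t = v

def EvJ (fr : Frame N d E Om) (ε : ℝ) : Prop :=
  ((Finset.univ.filter fun ab : Ty N d × Ty N d => ¬ JointOnto fr ab.1 ab.2).card : ℝ)
    ≤ ε * (N * d) ^ 2

/-- The sizes of a frame: `k = |P|`, `N ≈ D₀ k` lines in each family, few rows, small row classes. -/
structure Sizes (fr : Frame N d E Om) (P : Type) [Fintype P] (D₀ : ℕ) (θ C : ℝ) : Prop where
  hN : D₀ * Fintype.card P ≤ N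
  hN' : N ≤ 2 * D₀ * Fintype.card P
  hd : 2 * d ≤ N
  hOm : (Fintype.card Om : ℝ) ≤ θ * Fintype.card P
  hA : ∀ w, ((Finset.univ.filter fun c : Ty N d => w ∈ fr.U c).card : ℝ) ≤ θ * Fintype.card P
  hq : C * Real.log (Fintype.card P) ≤ fr.q
  /-- the values on `E` are equidistributed -/
  hγ : ∀ u : E → F, (∀ t, u t ∈ Y) →
    ((Finset.univ.filter fun i : ZMod N => fr.γ i = u).card : ℝ) * 140 ^ Fintype.card E = N

/-- Designs of a frame. -/
abbrev Dz (fr : Frame N d E Om) (P : Type) := {p : Lin N → Co E P Om → F // Ext fr p}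

/-- A rare event. -/
def Rare {X : Type*} (A : Set X) : Prop := 100 * Nat.card A ≤ Nat.card X

/-- EXISTENCE of (i). The bound `s` for the dimension depends only on `C'`, then `D₀` is large, then
`t` is arbitrary, then `θ` small and `k` large. -/
def ExI : Prop := ∀ C' : ℝ, ∃ s : ℕ, ∀ ε > (0 : ℝ), ∃ D₁ : ℕ, ∀ D₀ ≥ D₁, ∀ (d t : ℕ) (E : Type)
  [Fintype E], ∃ θ > (0 : ℝ), ∃ k₀ : ℕ, ∀ (N : ℕ) (P Om : Type) [Fintype P] [Fintype Om] [NeZero N]
  (fr : Frame N d E Om), k₀ ≤ Fintype.card P → Sizes fr P D₀ θ 0 →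
  Rare {p : Dz fr P | ¬ EvI fr p.1 t ⌊C' * Fintype.card P⌋₊ s ⌊ε * N⌋₊}

/-- EXISTENCE of GP1, with an explicit constant. -/
def Ex1 : Prop := ∀ (D₀ d : ℕ) (E : Type) [Fintype E],
  ∃ θ > (0 : ℝ), ∃ k₀ : ℕ, ∀ (N : ℕ) (P Om : Type) [Fintype P] [Fintype Om] [NeZero N]
  (fr : Frame N d E Om), k₀ ≤ Fintype.card P → Sizes fr P D₀ θ 0 →
  Rare {p : Dz fr P | ¬ ∀ κ : ℕ, κ ≤ 20 * Fintype.card P / (D₀ + 20) ^ 2 → Ev1 p.1 κ}

/-- EXISTENCE of GP5. -/
def ExB : Prop := ∀ (ψ : AddChar F ℂ), ψ ≠ 0 → ∀ (c η : ℝ), 0 < c → 0 < η → ∃ D₁ : ℕ, ∀ D₀ ≥ D₁,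
  ∀ (d : ℕ) (E : Type) [Fintype E], ∃ C₂ : ℝ, ∃ θ > (0 : ℝ), ∃ k₀ : ℕ, ∀ (N : ℕ) (P Om : Type)
  [Fintype P] [Fintype Om] [NeZero N] (fr : Frame N d E Om), k₀ ≤ Fintype.card P →
  Sizes fr P D₀ θ 0 →
  Rare {p : Dz fr P | ¬ ∀ m : ℕ, c * N ≤ m → EvB ψ p.1 d m ⌈C₂ * Real.log (Fintype.card P)⌉₊ η}

/-- EXISTENCE of GP6. -/
def ExC : Prop := ∀ ε > (0 : ℝ), ∃ D₁ : ℕ, ∀ D₀ ≥ D₁, ∀ (d : ℕ) (E : Type) [Fintype E], 0 < d →
  ∃ θ > (0 : ℝ), ∃ k₀ : ℕ, ∀ (N : ℕ) (P Om : Type) [Fintype P] [Fintype Om] [NeZero N]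
  (fr : Frame N d E Om), k₀ ≤ Fintype.card P → Sizes fr P D₀ θ 0 →
  Rare {p : Dz fr P | ¬ EvC p.1 d ε}

/-! ### Laws -/

/-- The forms of type `a` and bit `ι`. -/
def Design.Form {K T : Type*} [Fintype K] (δ : Design K T) (a : T) (ι : Bool) :
    Set (Matrix K K F) := {B | B - (if ι then δ.B0 a else 0) ∈ δ.Dir a}

/-- A law of a pair of forms of types `a, a'` and bits `ι, ι'` with joint density at most `Λ` and
marginal densities at most `M` with respect to the uniform laws. -/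
structure PLaw {K T : Type*} [Fintype K] (δ : Design K T) (a a' : T) (ι ι' : Bool) (Λ M : ℝ)
    (w : Matrix K K F → Matrix K K F → ℝ) : Prop where
  nonneg : ∀ B B', 0 ≤ w B B'
  sum_one : ∑ B, ∑ B', w B B' = 1
  supp : ∀ B B', w B B' ≠ 0 → B ∈ δ.Form a ι ∧ B' ∈ δ.Form a' ι'
  joint : ∀ B B', w B B' * (Nat.card (δ.Dir a) * Nat.card (δ.Dir a')) ≤ Λ
  left : ∀ B, (∑ B', w B B') * Nat.card (δ.Dir a) ≤ M
  right : ∀ B', (∑ B, w B B') * Nat.card (δ.Dir a') ≤ M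

/-- The four test values `(B g_b, B g_b', B' g_b, B' g_b')`. -/
def tv {K : Type*} [Fintype K] (g g' : K → F) (B B' : Matrix K K F) : Fin 4 → K → F :=
  ![B.mulVec g, B.mulVec g', B'.mulVec g, B'.mulVec g']

/-- The Fourier coefficient of the test values at `z`. -/
def coefT {K : Type*} [Fintype K] (ψ : AddChar F ℂ) (w : Matrix K K F → Matrix K K F → ℝ)
    (g g' : K → F) (z : Fin 4 → K → F) : ℂ :=
  ∑ B, ∑ B', (w B B' : ℂ) * ψ (∑ i, z i ⬝ᵥ tv g g' B B' i)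

/-- Trivial functionals and cut functionals. -/
def TrivPsi {K T : Type*} [Fintype K] (δ : Design K T) (a a' b b' : T) (z : Fin 4 → K → F) : Prop :=
  (∃ c c' : F, smm ![z 0, z 1] ![δ.g b, δ.g b'] - c • sm (δ.g a') (δ.g b) - c' • sm (δ.g a') (δ.g b')
    ∈ δ.Nn a) ∧
  (∃ c c' : F, smm ![z 2, z 3] ![δ.g b, δ.g b'] - c • sm (δ.g a) (δ.g b) - c' • sm (δ.g a) (δ.g b')
    ∈ δ.Nn a')

/-- The pair `β` has a large coefficient which is neither trivial nor a cut functional. -/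
def BadC {K T : Type*} [Fintype K] (ψ : AddChar F ℂ) (δ : Design K T) (a a' : T)
    (w : Matrix K K F → Matrix K K F → ℝ) (η : ℝ) (β : T × T) : Prop :=
  ∃ z : Fin 4 → K → F, η ≤ ‖coefT ψ w (δ.g β.1) (δ.g β.2) z‖ ∧ ¬ TrivPsi δ a a' β.1 β.2 z

/-- LS: in a good design there is no line-disjoint family of `≥ c N` pairs with a large coefficient
which is neither trivial nor a cut functional.  `Λ = 2521 ^ (C k)`, `M = k ^ C`. -/
def LS : Prop := ∀ (ψ : AddChar F ℂ), ψ ≠ 0 → ∀ (E : Type) [Fintype E] (C η c : ℝ), 0 < η → 0 < c →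
  ∃ D₁ : ℕ, ∀ D₀ ≥ D₁, ∀ d : ℕ, ∃ C₁ : ℝ, ∃ θ > (0 : ℝ), ∃ k₀ : ℕ, ∀ (N : ℕ) (P Om : Type)
  [Fintype P] [Fintype Om] [NeZero N] (fr : Frame N d E Om), k₀ ≤ Fintype.card P →
  Sizes fr P D₀ θ C₁ →
  ∃ G : Set (Dz fr P), 20 * Nat.card (Gᶜ : Set (Dz fr P)) ≤ Nat.card (Dz fr P) ∧ ∀ p ∈ G, ∀ (a a' : Ty N d) (ι ι' : Bool), a ≠ a' →
    ∀ w, PLaw (dsg fr p.1 p.2) a a' ι ι' (2521 ^ (C * Fintype.card P)) ((Fintype.card P : ℝ) ^ C) w →
    ∀ 𝓕 : Finset (Ty N d × Ty N d), LD 𝓕 → (∀ β ∈ 𝓕, β.1 ≠ β.2) →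
      (∀ β ∈ 𝓕, BadC ψ (dsg fr p.1 p.2) a a' w η β) → (𝓕.card : ℝ) < c * N

end Vale.Agent.P060.HW
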