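import Vale.Agent.P060.HW.Pasts2

/-! The three pasts lemma together with a bound for the Fourier coefficients. -/

namespace Vale.Agent.P060.HW

open Finset Module

section Fourier

variable {F V : Type*} [Field F] [Fintype F] [AddCommGroup V] [Module F V] [Fintype V]

/-- The Fourier coefficient of a real weight at a linear functional. -/
noncomputable def fc (ψ : AddChar F ℂ) (f : V → ℝ) (ξ : Dual F V) : ℂ :=
  ∑ y, (f y : ℂ) * ψ (ξ y)

theorem card_carr (U : Submodule F V) : (carr U).card = Fintype.card F ^ finrank F U := by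
  classical
  rw [← Module.card_eq_pow_finrank (K := F) (V := U), Fintype.card_subtype]
  rfl

omit [Fintype F] [Fintype V] in
open Classical in
/-- Orthogonality: the sum of the characters which are trivial on `U`. -/
theorem sum_ann {ψ : AddChar F ℂ} (hψ : ψ ≠ 0) (U : Submodule F V) (z : V)
    (D : Finset (Dual F V)) (hD : ∀ ξ, ξ ∈ D ↔ ξ ∈ U.dualAnnihilator) :
    ∑ ξ ∈ D, ψ (ξ z) = if z ∈ U then (D.card : ℂ) else 0 := by
  split_ifs with h
  · rw [Finset.sum_congr rfl fun ξ hξ => by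
      rw [(Submodule.mem_dualAnnihilator ξ).mp ((hD ξ).mp hξ) z h, AddChar.map_zero_eq_one]]
    rw [Finset.sum_const, nsmul_eq_mul, mul_one]
  · -- a functional which kills `U` and not `z`
    obtain ⟨ξ₀, hξ₀, hU⟩ : ∃ ξ₀ : Dual F V, ξ₀ z ≠ 0 ∧ ∀ u ∈ U, ξ₀ u = 0 := by
      obtain ⟨g, hg, hg'⟩ := Submodule.exists_le_ker_of_notMem h
      exact ⟨g, hg, fun u hu => hg' hu⟩
    obtain ⟨a, ha⟩ : ∃ a : F, ψ a ≠ 1 := AddChar.ne_zero_iff.mp hψ
    set ξ₁ : Dual F V := (a / ξ₀ z) • ξ₀ with hξ₁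
    have h1 : ξ₁ z = a := by
      rw [hξ₁, LinearMap.smul_apply, smul_eq_mul, div_mul_cancel₀ _ hξ₀]
    have h2 : ξ₁ ∈ U.dualAnnihilator := by
      rw [Submodule.mem_dualAnnihilator]
      intro u hu
      rw [hξ₁, LinearMap.smul_apply, hU u hu, smul_zero]
    have h3 : ∑ ξ ∈ D, ψ (ξ z) = ψ a * ∑ ξ ∈ D, ψ (ξ z) := by
      rw [Finset.mul_sum]
      symm
      refine Finset.sum_bij (fun ξ _ => ξ₁ + ξ) ?_ ?_ ?_ ?_
      · intro ξ hξ
        exact (hD _).mpr (Submodule.add_mem _ h2 ((hD ξ).mp hξ))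
      · intro ξ _ ξ' _ h
        exact add_left_cancel h
      · intro ξ hξ
        refine ⟨-ξ₁ + ξ, (hD _).mpr (Submodule.add_mem _ (Submodule.neg_mem _ h2)
          ((hD ξ).mp hξ)), ?_⟩
        rw [add_neg_cancel_left]
      · intro ξ _
        rw [LinearMap.add_apply, AddChar.map_add_eq_mul, h1]
    have h4 : (ψ a - 1) * ∑ ξ ∈ D, ψ (ξ z) = 0 := by
      rw [sub_mul, one_mul, ← h3, sub_self]
    exact (mul_eq_zero.mp h4).resolve_left (sub_ne_zero.mpr ha)

theorem card_ann [Fintype (Dual F V)] (U : Submodule F V)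
    (D : Finset (Dual F V)) (hD : ∀ ξ, ξ ∈ D ↔ ξ ∈ U.dualAnnihilator) :
    D.card * (carr U).card = Fintype.card V := by
  classical
  have hfin : FiniteDimensional F V := Module.Finite.of_finite
  have h1 : D.card = Fintype.card F ^ finrank F U.dualAnnihilator := by
    rw [← Module.card_eq_pow_finrank (K := F) (V := U.dualAnnihilator), Fintype.card_subtype]
    congr 1
    ext ξ
    rw [hD, Finset.mem_filter]
    simp
  rw [h1, card_carr, ← pow_add, Module.card_eq_pow_finrank (K := F) (V := V)]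
  congr 1
  have := Subspace.finrank_add_finrank_dualAnnihilator_eq U
  omega

/-- The average over the cosets of `U` in terms of the Fourier coefficients. -/
theorem avg_eq {ψ : AddChar F ℂ} (hψ : ψ ≠ 0) [Fintype (Dual F V)] (U : Submodule F V)
    (D : Finset (Dual F V)) (hD : ∀ ξ, ξ ∈ D ↔ ξ ∈ U.dualAnnihilator) (f : V → ℝ) (x : V) :
    (avg U f x : ℂ) = (∑ ξ ∈ D, fc ψ f ξ * ψ (-(ξ x))) / Fintype.card V := by
  classical
  have hV : (Fintype.card V : ℂ) ≠ 0 := Nat.cast_ne_zero.mpr Fintype.card_ne_zero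
  have hU : ((carr U).card : ℂ) ≠ 0 := by
    have := (carr_card_pos U).ne'
    exact_mod_cast this
  have h1 : ∑ ξ ∈ D, fc ψ f ξ * ψ (-(ξ x)) = ∑ y, (f y : ℂ) * ∑ ξ ∈ D, ψ (ξ (y - x)) := by
    simp only [fc, Finset.sum_mul, Finset.mul_sum]
    rw [Finset.sum_comm]
    refine Finset.sum_congr rfl fun y _ => Finset.sum_congr rfl fun ξ _ => ?_
    rw [map_sub, sub_eq_add_neg, AddChar.map_add_eq_mul, mul_assoc]
  rw [h1]
  have h2 : ∀ y, (f y : ℂ) * ∑ ξ ∈ D, ψ (ξ (y - x)) =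
      if y - x ∈ U then (f y : ℂ) * D.card else 0 := by
    intro y
    rw [sum_ann hψ U (y - x) D hD, mul_ite, mul_zero]
  rw [Finset.sum_congr rfl fun y _ => h2 y, ← Finset.sum_filter, ← Finset.sum_mul]
  have h3 : ∑ y ∈ univ.filter (fun y => y - x ∈ U), (f y : ℂ) = ∑ u ∈ carr U, (f (x + u) : ℂ) := by
    refine Finset.sum_bij (fun y _ => y - x) ?_ ?_ ?_ ?_
    · intro y hy
      exact mem_carr.mpr (Finset.mem_filter.mp hy).2
    · intro y _ y' _ h
      exact sub_left_injective h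
    · intro u hu
      refine ⟨x + u, Finset.mem_filter.mpr ⟨mem_univ _, ?_⟩, ?_⟩
      · rw [add_sub_cancel_left]
        exact mem_carr.mp hu
      · rw [add_sub_cancel_left]
    · intro y _
      rw [add_sub_cancel]
  rw [h3, avg, Complex.ofReal_div, Complex.ofReal_sum, Complex.ofReal_natCast]
  have h4 := card_ann U D hD
  have h5 : (D.card : ℂ) * (carr U).card = Fintype.card V := by exact_mod_cast h4
  rw [← h5]
  have hDc : (D.card : ℂ) ≠ 0 := by
    intro h
    rw [h, zero_mul] at h5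
    exact hV h5.symm
  field_simp

/-- If all coefficients at functionals which kill `U` and do not kill `Z` are at most `η`, then
the averages over `U` and over `U + Z` are close. -/
theorem avg_close {ψ : AddChar F ℂ} (hψ : ψ ≠ 0) (U Z : Submodule F V) (f : V → ℝ) {η : ℝ}
    (hη0 : 0 ≤ η)
    (hη : ∀ ξ : Dual F V, (∀ u ∈ U, ξ u = 0) → (¬ ∀ z ∈ Z, ξ z = 0) → ‖fc ψ f ξ‖ ≤ η) (c : ℕ)
    (hc : finrank F V ≤ finrank F U + c) :
    ∑ x, |avg U f x - avg (U ⊔ Z) f x| ≤ (Fintype.card F : ℝ) ^ c * η := by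
  classical
  have hfin : FiniteDimensional F V := Module.Finite.of_finite
  have hfd : Finite (Dual F V) := Module.finite_of_finite F
  have : Fintype (Dual F V) := Fintype.ofFinite _
  set D : Finset (Dual F V) := univ.filter fun ξ => ξ ∈ U.dualAnnihilator with hDdef
  have hD : ∀ ξ, ξ ∈ D ↔ ξ ∈ U.dualAnnihilator := fun ξ => by simp [hDdef]
  set E : Finset (Dual F V) := univ.filter fun ξ => ξ ∈ (U ⊔ Z).dualAnnihilator with hEdef
  have hE : ∀ ξ, ξ ∈ E ↔ ξ ∈ (U ⊔ Z).dualAnnihilator := fun ξ => by simp [hEdef]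
  have hED : E ⊆ D := by
    intro ξ hξ
    rw [hD]
    exact Submodule.dualAnnihilator_anti le_sup_left ((hE ξ).mp hξ)
  have hVpos : (0 : ℝ) < Fintype.card V := Nat.cast_pos.mpr Fintype.card_pos
  have hcard : (D.card : ℝ) ≤ (Fintype.card F : ℝ) ^ c := by
    have h1 := card_ann U D hD
    rw [card_carr, Module.card_eq_pow_finrank (K := F) (V := V)] at h1
    have hFpos : 0 < Fintype.card F := Fintype.card_pos
    have h2 : D.card * Fintype.card F ^ finrank F U ≤
        Fintype.card F ^ c * Fintype.card F ^ finrank F U := by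
      rw [h1, ← pow_add]
      exact Nat.pow_le_pow_right hFpos (by omega)
    have h3 := Nat.le_of_mul_le_mul_right h2 (pow_pos hFpos _)
    exact_mod_cast h3
  have hpt : ∀ x, |avg U f x - avg (U ⊔ Z) f x| ≤
      (Fintype.card F : ℝ) ^ c * η / Fintype.card V := by
    intro x
    have h1 : ((avg U f x - avg (U ⊔ Z) f x : ℝ) : ℂ) =
        (∑ ξ ∈ D \ E, fc ψ f ξ * ψ (-(ξ x))) / Fintype.card V := by
      rw [Complex.ofReal_sub, avg_eq hψ U D hD, avg_eq hψ (U ⊔ Z) E hE, ← sub_div,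
        ← Finset.sum_sdiff hED, add_sub_cancel_right]
    rw [← Real.norm_eq_abs, ← Complex.norm_real, h1, norm_div, Complex.norm_natCast]
    refine div_le_div_of_nonneg_right ?_ hVpos.le
    calc ‖∑ ξ ∈ D \ E, fc ψ f ξ * ψ (-(ξ x))‖ ≤ ∑ ξ ∈ D \ E, ‖fc ψ f ξ * ψ (-(ξ x))‖ :=
          norm_sum_le _ _
      _ ≤ ∑ _ξ ∈ D \ E, η := by
          refine Finset.sum_le_sum fun ξ hξ => ?_
          rw [norm_mul, AddChar.norm_apply, mul_one]
          rw [Finset.mem_sdiff, hD, hE] at hξ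
          have hξU : ∀ u ∈ U, ξ u = 0 := (Submodule.mem_dualAnnihilator ξ).mp hξ.1
          refine hη ξ hξU fun hZ => hξ.2 ?_
          rw [Submodule.mem_dualAnnihilator]
          intro w hw
          obtain ⟨u, hu, z, hz, rfl⟩ := Submodule.mem_sup.mp hw
          rw [map_add, hξU u hu, hZ z hz, add_zero]
      _ = ((D \ E).card : ℝ) * η := by rw [Finset.sum_const, nsmul_eq_mul]
      _ ≤ (Fintype.card F : ℝ) ^ c * η := by
          refine mul_le_mul_of_nonneg_right (le_trans ?_ hcard) hη0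
          exact_mod_cast Finset.card_le_card Finset.sdiff_subset
  calc ∑ x, |avg U f x - avg (U ⊔ Z) f x|
      ≤ ∑ _x : V, (Fintype.card F : ℝ) ^ c * η / Fintype.card V :=
        Finset.sum_le_sum fun x _ => hpt x
    _ = (Fintype.card F : ℝ) ^ c * η := by
        rw [Finset.sum_const, Finset.card_univ, nsmul_eq_mul, mul_div_assoc',
          mul_div_cancel_left₀ _ hVpos.ne']

/-- Three pasts: if all coefficients at functionals which do not kill `Z` are small, the weight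
is close to its average over the cosets of `Z`. -/
theorem three_pasts_close {ψ : AddChar F ℂ} (hψ : ψ ≠ 0) {N₁ N₂ N₃ : Submodule F V}
    (hN : N₁ ⊓ N₂ ⊔ (N₁ ⊓ N₃ ⊔ N₂ ⊓ N₃) = ⊤) {U₁ U₂ U₃ : V → Submodule F V}
    (hU₁ : IsField N₁ U₁) (hU₂ : IsField N₂ U₂) (hU₃ : IsField N₃ U₃) (R : ℕ)
    (hr₁ : ∀ x, finrank F N₁ ≤ finrank F (U₁ x) + R)
    (hr₂ : ∀ x, finrank F N₂ ≤ finrank F (U₂ x) + R)
    (hr₃ : ∀ x, finrank F N₃ ≤ finrank F (U₃ x) + R)
    (f : V → ℝ) {e B δ η : ℝ} (hδ : 0 < δ) (hB : ∀ x, |f x| ≤ B)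
    (he₁ : ∑ x, |f x - favg U₁ f x| ≤ e) (he₂ : ∑ x, |f x - favg U₂ f x| ≤ e)
    (he₃ : ∑ x, |f x - favg U₃ f x| ≤ e) (Z : Submodule F V) (hη0 : 0 ≤ η)
    (hη : ∀ ξ : Dual F V, (¬ ∀ z ∈ Z, ξ z = 0) → ‖fc ψ f ξ‖ ≤ η) (c : ℕ)
    (hc : 3 * (R * (R / δ)) ≤ c) :
    ∑ x, |f x - avg Z f x| ≤
      2 * (24 * e + 6 * B * (δ * Fintype.card V) + (Fintype.card F : ℝ) ^ c * η) := by
  obtain ⟨U, hU, hUe⟩ := three_pasts hN hU₁ hU₂ hU₃ R hr₁ hr₂ hr₃ f hδ hB he₁ he₂ he₃
  have h1 : finrank F V ≤ finrank F U + c := by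
    have : (finrank F V : ℝ) ≤ ((finrank F U + c : ℕ) : ℝ) := by
      push_cast
      linarith
    exact_mod_cast this
  have h2 := avg_close hψ U Z f hη0 (fun ξ _ h => hη ξ h) c h1
  have h3 := l1_triangle f (avg U f) (avg (U ⊔ Z) f)
  have h4 : ∑ x, |f x - favg (fun _ => U ⊔ Z) f x| ≤
      24 * e + 6 * B * (δ * Fintype.card V) + (Fintype.card F : ℝ) ^ c * η := by
    change ∑ x, |f x - avg (U ⊔ Z) f x| ≤ _
    linarith
  exact l1_refine (N := ⊤) (isField_const le_top) (isField_const le_top)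
    (fun _ => le_sup_right) f h4

end Fourier

end Vale.Agent.P060.HW
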