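import Vale.Agent.P060.HW.Frame
import Vale.Agent.P060.HW.Pasts3

/-!
# Interface of the structural part: pair laws, the observed matrix, the surviving subspace
-/

open scoped Classical

noncomputable section

set_option linter.unusedSectionVars false

namespace Vale.Agent.P060.HW

open Module

/-- Four slots: `(i, j)` is the test of the form `i` by the type `j`. -/
abbrev Sl (K : Type*) := Fin 2 → Fin 2 → K → F

namespace Design

variable {K T : Type*} [Fintype K] (δ : Design K T)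

/-- The observed matrix: the forms `B 0, B 1` tested by the types `b 0, b 1`. -/
def Mt (B : Fin 2 → Matrix K K F) (b : Fin 2 → T) : Sl K := fun i j => (B i).mulVec (δ.g (b j))

/-- The subspace which survives the trivial relations and the allowed cut functionals. -/
def ZP (a b : Fin 2 → T) : Submodule F (Sl K) where
  carrier := {m | (∀ i j, ∀ w, w ∈ δ.U (a i) ∨ w ∈ δ.U (b j) → m i j w = 0) ∧
    (∀ i i' j, dotProduct (δ.g (a i')) (m i j) = 0) ∧
    ∀ i, dotProduct (δ.g (b 0)) (m i 1) = dotProduct (δ.g (b 1)) (m i 0)}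
  zero_mem' := by
    refine ⟨fun i j w _ => rfl, fun i i' j => ?_, fun i => ?_⟩
    · rw [Pi.zero_apply, Pi.zero_apply, dotProduct_zero]
    · rw [Pi.zero_apply, Pi.zero_apply, Pi.zero_apply, dotProduct_zero, dotProduct_zero]
  add_mem' := by
    rintro m m' ⟨h1, h2, h3⟩ ⟨h1', h2', h3'⟩
    refine ⟨fun i j w hw => ?_, fun i i' j => ?_, fun i => ?_⟩
    · rw [Pi.add_apply, Pi.add_apply, Pi.add_apply, h1 i j w hw, h1' i j w hw, add_zero]
    · rw [Pi.add_apply, Pi.add_apply, dotProduct_add, h2, h2', add_zero]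
    · rw [Pi.add_apply, Pi.add_apply, Pi.add_apply, dotProduct_add, dotProduct_add, h3, h3']
  smul_mem' := by
    rintro c m ⟨h1, h2, h3⟩
    refine ⟨fun i j w hw => ?_, fun i i' j => ?_, fun i => ?_⟩
    · rw [Pi.smul_apply, Pi.smul_apply, Pi.smul_apply, h1 i j w hw, smul_zero]
    · rw [Pi.smul_apply, Pi.smul_apply, dotProduct_smul, h2, smul_zero]
    · rw [Pi.smul_apply, Pi.smul_apply, Pi.smul_apply, dotProduct_smul, dotProduct_smul, h3]

/-- A law of a pair of forms of labels `(a i, ι i)`, with joint density at most `Λ` and marginal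
densities at most `M`. -/
structure PL (a : Fin 2 → T) (ι : Fin 2 → Bool) {Ω : Type*} [Fintype Ω] (P : FinProb Ω)
    (B : Fin 2 → Ω → Matrix K K F) (Λ M : ℝ) : Prop where
  mem : ∀ ω, 0 < P.w ω → ∀ i, B i ω - (if ι i then δ.B0 (a i) else 0) ∈ δ.Dir (a i)
  joint : ∀ Q : Fin 2 → Matrix K K F, P.p (fun ω i => B i ω) Q
    ≤ Λ / ((Nat.card (δ.Dir (a 0)) : ℝ) * Nat.card (δ.Dir (a 1)))
  marg : ∀ i (Q : Matrix K K F), P.p (B i) Q ≤ M / (Nat.card (δ.Dir (a i)) : ℝ)

/-- The law of the observed matrix. -/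
def lawM {Ω : Type*} [Fintype Ω] (P : FinProb Ω) (B : Fin 2 → Ω → Matrix K K F) (b : Fin 2 → T) :
    Sl K → ℝ := P.p (fun ω => δ.Mt (fun i => B i ω) b)

/-- The law of the observed matrix is `ε`-close to its average over the surviving subspace. -/
def Close (a : Fin 2 → T) {Ω : Type*} [Fintype Ω] (P : FinProb Ω) (B : Fin 2 → Ω → Matrix K K F)
    (b : Fin 2 → T) (ε : ℝ) : Prop :=
  ∑ m, |δ.lawM P B b m - avg (δ.ZP a b) (δ.lawM P B b) m| ≤ ε

/-- The law of the observed matrix has a large coefficient which is not allowed. -/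
def Large (a : Fin 2 → T) {Ω : Type*} [Fintype Ω] (P : FinProb Ω) (B : Fin 2 → Ω → Matrix K K F)
    (b : Fin 2 → T) (ψ : AddChar F ℂ) (η : ℝ) : Prop :=
  ∃ ξ : Dual F (Sl K), (¬ ∀ z ∈ δ.ZP a b, ξ z = 0) ∧ η ≤ ‖fc ψ (δ.lawM P B b) ξ‖

end Design

end Vale.Agent.P060.HW
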