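import Vale.Agent.P060.HW.AN
import Vale.Agent.P060.HW.Good
import Vale.Agent.P060.HW.TVdefs

/-!
# Bridge: trivial and cut functionals kill the surviving subspace

For a pair of types `b ≠ b'` whose lines are disjoint from those of `a` and `a'`, in a design with
independent small sets of lines, every `z` with `TrivPsi` vanishes on `ZP`.  Hence a large
coefficient which is not allowed (`Large`) is a bad coefficient (`BadC`).
-/

open scoped Classical

noncomputable section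

set_option linter.unusedSectionVars false

namespace Vale.Agent.P060.HW

open Module

section

variable {N d : ℕ} {E P Om : Type} [Fintype E] [Fintype P] [Fintype Om] [NeZero N]

lemma br_mem_lins {c : Ty N d} {u : Lin N} : u ∈ lins c ↔ ln c u.1 = u.2 := by
  rw [an_mem_lins]
  constructor
  · rintro ⟨s, rfl⟩; rfl
  · intro h
    exact ⟨u.1, by rw [lin, h]⟩

/-- Two different types share at most one line: two lines of `b` outside `b'`. -/
lemma br_two_lines (fr : Frame N d E Om) {b b' : Ty N d} (h : b ≠ b') :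
    ∃ s s' : Fin 3, s ≠ s' ∧ lin b s ∉ lins b' ∧ lin b s' ∉ lins b' := by
  have key : ∀ s s' : Fin 3, s ≠ s' → lin b s ∉ lins b' ∨ lin b s' ∉ lins b' := by
    intro s s' hs
    by_contra hc
    push Not at hc
    rw [br_mem_lins, br_mem_lins] at hc
    exact h (fr.share_two b b' s s' hs hc.1.symm hc.2.symm)
  rcases key 0 1 (by decide) with h0 | h1
  · rcases key 1 2 (by decide) with h1 | h2
    · exact ⟨0, 1, by decide, h0, h1⟩
    · exact ⟨0, 2, by decide, h0, h2⟩
  · rcases key 0 2 (by decide) with h0 | h2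
    · exact ⟨0, 1, by decide, h0, h1⟩
    · exact ⟨1, 2, by decide, h1, h2⟩

lemma br_two_ne : (2 : F) ≠ 0 := by decide

/-- The half of the core lemma for the vector `z0` of `b`. -/
lemma br_half (fr : Frame N d E Om) (p : Lin N → Co E P Om → F)
    (a b b' : Ty N d) (S : Finset (Lin N)) (hSa : lins a ⊆ S) (hSb : lins b ⊆ S) (hSb' : lins b' ⊆ S)
    (hS : S ⊆ lins a ∪ lins b ∪ lins b')
    (hab : Disjoint (lins b) (lins a)) (hab' : Disjoint (lins b') (lins a))
    (hK : ∀ e : Lin N → F, (∀ j : P, ∑ v ∈ S, e v * p v (Sum.inl (Sum.inr j)) = 0) → ∀ v ∈ S, e v = 0)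
    (z0 z1 : Co E P Om → F) (y : Co E P Om → F) (c : Lin N → Lin N → F) (x : Om → Ty N d → F)
    (hc : ∀ u v, c u v = - c v u)
    (hx : ∀ w b, x w b ≠ 0 → w ∈ fr.U b)
    (h1 : ∀ u ∈ S, ∀ j : E ⊕ P, (if u ∈ lins b then z0 (Sum.inl j) else 0) +
      (if u ∈ lins b' then z1 (Sum.inl j) else 0) =
      (if u ∈ lins a then y (Sum.inl j) else 0) + ∑ v ∈ S, c u v * p v (Sum.inl j))
    (h2 : ∀ u ∈ S, ∀ w ∉ fr.U a, (if u ∈ lins b then z0 (Sum.inr w) else 0) +
      (if u ∈ lins b' then z1 (Sum.inr w) else 0) =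
      (if u ∈ lins a then y (Sum.inr w) else 0) + ∑ v ∈ S, c u v * p v (Sum.inr w)
        + ∑ b, x w b * (if u ∈ lins b then 1 else 0))
    {s s' t : Fin 3} (hs : s ≠ s') (hbs : lin b s ∉ lins b') (hbs' : lin b s' ∉ lins b')
    (hbt : lin b' t ∉ lins b) :
    ∃ α : F, (∀ j : E ⊕ P, z0 (Sum.inl j) = α * gv p a (Sum.inl j)
        + c (lin b s) (lin b' t) * gv p b' (Sum.inl j)) ∧
      (∀ w ∉ fr.U a, w ∉ fr.U b → z0 (Sum.inr w) = α * gv p a (Sum.inr w)
        + c (lin b s) (lin b' t) * gv p b' (Sum.inr w)) := by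
  have mb : ∀ s, lin b s ∈ lins b := fun s => an_mem_lins.2 ⟨s, rfl⟩
  have mb' : ∀ s, lin b' s ∈ lins b' := fun s => an_mem_lins.2 ⟨s, rfl⟩
  have ma : ∀ s, lin a s ∈ lins a := fun s => an_mem_lins.2 ⟨s, rfl⟩
  have hd : ∀ u, u ∈ lins b → u ∉ lins a := fun u hu hu' => Finset.disjoint_left.1 hab hu hu'
  have hd' : ∀ u, u ∈ lins b' → u ∉ lins a := fun u hu hu' => Finset.disjoint_left.1 hab' hu hu'
  -- comparison of two rows of coefficients
  have hcmp : ∀ e : Lin N → F, (∀ j : P, ∑ v ∈ S, e v * p v (Sum.inl (Sum.inr j)) = 0) →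
      ∀ v ∈ S, e v = 0 := hK
  have r1 : ∀ v ∈ S, c (lin b s) v = c (lin b s') v := by
    intro v hv
    have e1 := hK (fun v => c (lin b s) v - c (lin b s') v) (by
      intro j
      have k1 := h1 _ (hSb (mb s)) (Sum.inr j)
      have k2 := h1 _ (hSb (mb s')) (Sum.inr j)
      rw [if_pos (mb s), if_neg hbs, if_neg (hd _ (mb s))] at k1
      rw [if_pos (mb s'), if_neg hbs', if_neg (hd _ (mb s'))] at k2
      simp only [sub_mul, Finset.sum_sub_distrib]
      linear_combination k2 - k1) v hv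
    exact sub_eq_zero.1 e1
  -- lines of b outside b'
  have r2 : ∀ u ∈ lins b, u ∉ lins b' → ∀ v ∈ S, c u v = c (lin b s) v := by
    intro u hu hu' v hv
    have e1 := hK (fun v => c u v - c (lin b s) v) (by
      intro j
      have k1 := h1 _ (hSb (mb s)) (Sum.inr j)
      have k2 := h1 _ (hSb hu) (Sum.inr j)
      rw [if_pos (mb s), if_neg hbs, if_neg (hd _ (mb s))] at k1
      rw [if_pos hu, if_neg hu', if_neg (hd _ hu)] at k2
      simp only [sub_mul, Finset.sum_sub_distrib]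
      linear_combination k1 - k2) v hv
    exact sub_eq_zero.1 e1
  have r2' : ∀ u ∈ lins b', u ∉ lins b → ∀ v ∈ S, c u v = c (lin b' t) v := by
    intro u hu hu' v hv
    have e1 := hK (fun v => c u v - c (lin b' t) v) (by
      intro j
      have k1 := h1 _ (hSb' (mb' t)) (Sum.inr j)
      have k2 := h1 _ (hSb' hu) (Sum.inr j)
      rw [if_pos (mb' t), if_neg hbt, if_neg (hd' _ (mb' t))] at k1
      rw [if_pos hu, if_neg hu', if_neg (hd' _ hu)] at k2
      simp only [sub_mul, Finset.sum_sub_distrib]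
      linear_combination k1 - k2) v hv
    exact sub_eq_zero.1 e1
  have r3 : ∀ u ∈ lins b, u ∈ lins b' → ∀ v ∈ S, c u v = c (lin b s) v + c (lin b' t) v := by
    intro u hu hu' v hv
    have e1 := hK (fun v => c u v - c (lin b s) v - c (lin b' t) v) (by
      intro j
      have k0 := h1 _ (hSb (mb s)) (Sum.inr j)
      have k1 := h1 _ (hSb' (mb' t)) (Sum.inr j)
      have k2 := h1 _ (hSb hu) (Sum.inr j)
      rw [if_pos (mb s), if_neg hbs, if_neg (hd _ (mb s))] at k0
      rw [if_pos (mb' t), if_neg hbt, if_neg (hd' _ (mb' t))] at k1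
      rw [if_pos hu, if_pos hu', if_neg (hd _ hu)] at k2
      simp only [sub_mul, Finset.sum_sub_distrib]
      linear_combination k0 + k1 - k2) v hv
    linear_combination e1
  have r4 : ∀ u ∈ lins a, ∀ v ∈ S, c u v = c (lin a 0) v := by
    intro u hu v hv
    have hub : u ∉ lins b := fun h' => hd _ h' hu
    have hub' : u ∉ lins b' := fun h' => hd' _ h' hu
    have h0b : lin a 0 ∉ lins b := fun h' => hd _ h' (ma 0)
    have h0b' : lin a 0 ∉ lins b' := fun h' => hd' _ h' (ma 0)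
    have e1 := hK (fun v => c u v - c (lin a 0) v) (by
      intro j
      have k1 := h1 _ (hSa (ma 0)) (Sum.inr j)
      have k2 := h1 _ (hSa hu) (Sum.inr j)
      rw [if_pos (ma 0), if_neg h0b, if_neg h0b'] at k1
      rw [if_pos hu, if_neg hub, if_neg hub'] at k2
      simp only [sub_mul, Finset.sum_sub_distrib]
      linear_combination k1 - k2) v hv
    exact sub_eq_zero.1 e1
  have r5 : c (lin b s) (lin b s) = 0 := by
    have e1 := hc (lin b s) (lin b s)
    have e2 : (2 : F) * c (lin b s) (lin b s) = 0 := by linear_combination e1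
    exact (mul_eq_zero.1 e2).resolve_left br_two_ne
  -- the coefficients of the row
  have r6 : ∀ v ∈ S, c (lin b s) v = (if v ∈ lins a then c (lin b s) (lin a 0) else 0)
      + (if v ∈ lins b' then c (lin b s) (lin b' t) else 0) := by
    intro v hv
    by_cases hva : v ∈ lins a
    · have hvb' : v ∉ lins b' := fun h' => hd' _ h' hva
      rw [if_pos hva, if_neg hvb', add_zero, hc, r4 v hva _ (hSb (mb s)), hc (lin b s) (lin a 0)]
    · rw [if_neg hva, zero_add]
      by_cases hvb' : v ∈ lins b'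
      · rw [if_pos hvb']
        by_cases hvb : v ∈ lins b
        · rw [hc, r3 v hvb hvb' _ (hSb (mb s)), r5, hc (lin b s) (lin b' t)]
          ring
        · rw [hc, r2' v hvb' hvb _ (hSb (mb s)), hc (lin b s) (lin b' t)]
      · rw [if_neg hvb']
        have hvb : v ∈ lins b := by
          have := hS hv
          rw [Finset.mem_union, Finset.mem_union] at this
          rcases this with (h' | h') | h'
          · exact absurd h' hva
          · exact h'
          · exact absurd h' hvb'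
        rw [hc, r2 v hvb hvb' _ (hSb (mb s)), r5, neg_zero]
  have r7 : ∀ i : Co E P Om, ∑ v ∈ S, c (lin b s) v * p v i =
      c (lin b s) (lin a 0) * gv p a i + c (lin b s) (lin b' t) * gv p b' i := by
    intro i
    rw [an_gv_sum p a S (fun s => hSa (ma s)), an_gv_sum p b' S (fun s => hSb' (mb' s)),
      Finset.mul_sum, Finset.mul_sum, ← Finset.sum_add_distrib]
    refine Finset.sum_congr rfl fun v hv => ?_
    rw [r6 v hv]
    split_ifs <;> ring
  refine ⟨c (lin b s) (lin a 0), ?_, ?_⟩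
  · intro j
    have k1 := h1 _ (hSb (mb s)) j
    rw [if_pos (mb s), if_neg hbs, if_neg (hd _ (mb s)), r7] at k1
    linear_combination k1
  · intro w hwa hwb
    have k1 := h2 _ (hSb (mb s)) w hwa
    have k2 := h2 _ (hSb (mb s')) w hwa
    rw [if_pos (mb s), if_neg hbs, if_neg (hd _ (mb s)), r7] at k1
    rw [if_pos (mb s'), if_neg hbs', if_neg (hd _ (mb s')),
      Finset.sum_congr rfl (fun v hv => by rw [← r1 v hv] :
        ∀ v ∈ S, c (lin b s') v * p v (Sum.inr w) = c (lin b s) v * p v (Sum.inr w)), r7] at k2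
    have k3 : ∑ b'', x w b'' * (if lin b s ∈ lins b'' then 1 else 0) =
        ∑ b'', x w b'' * (if lin b s' ∈ lins b'' then 1 else 0) := by
      linear_combination k2 - k1
    have k4 : ∑ b'', x w b'' * (if lin b s ∈ lins b'' then (1 : F) else 0) = 0 := by
      by_contra hne
      obtain ⟨b1, -, hb1⟩ := Finset.exists_ne_zero_of_sum_ne_zero hne
      rw [k3] at hne
      obtain ⟨b2, -, hb2⟩ := Finset.exists_ne_zero_of_sum_ne_zero hne
      have q1 : x w b1 ≠ 0 := left_ne_zero_of_mul hb1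
      have q2 : x w b2 ≠ 0 := left_ne_zero_of_mul hb2
      have l1 : lin b s ∈ lins b1 := by
        by_contra h'
        rw [if_neg h', mul_zero] at hb1
        exact hb1 rfl
      have l2 : lin b s' ∈ lins b2 := by
        by_contra h'
        rw [if_neg h', mul_zero] at hb2
        exact hb2 rfl
      rw [br_mem_lins] at l1 l2
      by_cases hbb : b1 = b2
      · subst hbb
        have : b1 = b := fr.share_two b1 b s s' hs l1 l2
        subst this
        exact hwb (hx w _ q1)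
      · exact Finset.disjoint_left.1 (fr.star_disj b b1 b2 s s' hbb l1.symm l2.symm)
          (hx w _ q1) (hx w _ q2)
    rw [k4] at k1
    linear_combination k1

/-- The core lemma: the vectors `z0, z1` of a trivial tensor `z0 ⊗ g_b + z1 ⊗ g_b'`. -/
lemma br_core (fr : Frame N d E Om) (p : Lin N → Co E P Om → F) (h : Ext fr p)
    (a b b' : Ty N d) (hbb : b ≠ b') (hab : Disjoint (lins b) (lins a))
    (hab' : Disjoint (lins b') (lins a))
    (hi : LinearIndependent F (fun u : (lins a ∪ lins b ∪ lins b' : Finset (Lin N)) =>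
      fun j : P => p u (Sum.inl (Sum.inr j))))
    (hi2 : ∀ w ∉ fr.U a, LinearIndependent F
      (fun u : ((lins a ∪ lins b ∪ lins b') ∪ rowLines fr w : Finset (Lin N)) =>
        fun j : P => p u (Sum.inl (Sum.inr j))))
    (z0 z1 : Co E P Om → F)
    (hz : sm z0 (gv p b) + sm z1 (gv p b') ∈ (dsg fr p h).Nn a) :
    ∃ α α' κ : F, (∀ j : E ⊕ P, z0 (Sum.inl j) = α * gv p a (Sum.inl j) + κ * gv p b' (Sum.inl j)) ∧
      (∀ w ∉ fr.U a, w ∉ fr.U b → z0 (Sum.inr w) = α * gv p a (Sum.inr w)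
        + κ * gv p b' (Sum.inr w)) ∧
      (∀ j : E ⊕ P, z1 (Sum.inl j) = α' * gv p a (Sum.inl j) - κ * gv p b (Sum.inl j)) ∧
      (∀ w ∉ fr.U a, w ∉ fr.U b' → z1 (Sum.inr w) = α' * gv p a (Sum.inr w)
        - κ * gv p b (Sum.inr w)) := by
  obtain ⟨S, hSd⟩ : ∃ S, S = lins a ∪ lins b ∪ lins b' := ⟨_, rfl⟩
  rw [← hSd] at hi
  have hi2' : ∀ w ∉ fr.U a, LinearIndependent F
      (fun u : (S ∪ rowLines fr w : Finset (Lin N)) => fun j : P => p u (Sum.inl (Sum.inr j))) := by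
    subst hSd; exact hi2
  have hSa : lins a ⊆ S := by
    rw [hSd]; exact fun u hu => Finset.mem_union_left _ (Finset.mem_union_left _ hu)
  have hSb : lins b ⊆ S := by
    rw [hSd]; exact fun u hu => Finset.mem_union_left _ (Finset.mem_union_right _ hu)
  have hSb' : lins b' ⊆ S := by
    rw [hSd]; exact fun u hu => Finset.mem_union_right _ hu
  have mb : ∀ s, lin b s ∈ lins b := fun s => an_mem_lins.2 ⟨s, rfl⟩
  have mb' : ∀ s, lin b' s ∈ lins b' := fun s => an_mem_lins.2 ⟨s, rfl⟩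
  have ma : ∀ s, lin a s ∈ lins a := fun s => an_mem_lins.2 ⟨s, rfl⟩
  -- the sum over the lines
  have hsum : ∑ u ∈ S, sm ((if u ∈ lins b then z0 else 0) + (if u ∈ lins b' then z1 else 0)) (p u)
      = sm z0 (gv p b) + sm z1 (gv p b') := by
    ext i j
    rw [an_sum_sm, Matrix.add_apply, an_sm_apply, an_sm_apply,
      an_gv_sum p b S (fun s => hSb (mb s)), an_gv_sum p b S (fun s => hSb (mb s)),
      an_gv_sum p b' S (fun s => hSb' (mb' s)), an_gv_sum p b' S (fun s => hSb' (mb' s)),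
      Finset.mul_sum, Finset.mul_sum, Finset.sum_mul, Finset.sum_mul, ← Finset.sum_add_distrib,
      ← Finset.sum_add_distrib, ← Finset.sum_add_distrib]
    refine Finset.sum_congr rfl fun u _ => ?_
    rw [Pi.add_apply, Pi.add_apply]
    by_cases hb1 : u ∈ lins b <;> by_cases hb2 : u ∈ lins b' <;> (simp [hb1, hb2]; try ring)
  rw [← hsum] at hz
  obtain ⟨y, c, x, hc, -, hx, h1, h2⟩ := an N d E P Om fr p h a S (fun s => hSa (ma s)) hi hi2' _ hz
  have hK : ∀ e : Lin N → F, (∀ j : P, ∑ v ∈ S, e v * p v (Sum.inl (Sum.inr j)) = 0) →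
      ∀ v ∈ S, e v = 0 := by
    intro e he v hv
    obtain ⟨L, hL⟩ := an_exists_dual S (fun u => fun j : P => p u (Sum.inl (Sum.inr j))) hi
    have e1 : ∑ v ∈ S, e v • (fun j : P => p v (Sum.inl (Sum.inr j))) = 0 := by
      funext j
      rw [Finset.sum_apply]
      exact he j
    have e2 := congrArg (L v) e1
    rw [map_sum, map_zero, Finset.sum_eq_single v] at e2
    · rw [map_smul, hL v hv v hv, if_pos rfl, smul_eq_mul, mul_one] at e2
      exact e2
    · intro u hu huv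
      rw [map_smul, hL v hv u hu, if_neg (Ne.symm huv), smul_zero]
    · intro h'; exact absurd hv h'
  have h1' : ∀ u ∈ S, ∀ j : E ⊕ P, (if u ∈ lins b then z0 (Sum.inl j) else 0) +
      (if u ∈ lins b' then z1 (Sum.inl j) else 0) =
      (if u ∈ lins a then y (Sum.inl j) else 0) + ∑ v ∈ S, c u v * p v (Sum.inl j) := by
    intro u hu j
    rw [← h1 u hu j, Pi.add_apply]
    congr 1 <;> split_ifs <;> rfl
  have h2' : ∀ u ∈ S, ∀ w ∉ fr.U a, (if u ∈ lins b then z0 (Sum.inr w) else 0) +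
      (if u ∈ lins b' then z1 (Sum.inr w) else 0) =
      (if u ∈ lins a then y (Sum.inr w) else 0) + ∑ v ∈ S, c u v * p v (Sum.inr w)
        + ∑ b, x w b * (if u ∈ lins b then 1 else 0) := by
    intro u hu w hw
    rw [← h2 u hu w hw, Pi.add_apply]
    congr 1 <;> split_ifs <;> rfl
  obtain ⟨s, s', hs, hbs, hbs'⟩ := br_two_lines fr hbb
  obtain ⟨t, t', ht, hbt, hbt'⟩ := br_two_lines fr hbb.symm
  obtain ⟨α, k1, k2⟩ := br_half fr p a b b' S hSa hSb hSb' (by rw [hSd]) hab hab' hK z0 z1 y c x hc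
    (fun w b hb => (hx w b hb).1) h1' h2' hs hbs hbs' hbt
  obtain ⟨α', k3, k4⟩ := br_half fr p a b' b S hSa hSb' hSb
    (by rw [hSd, Finset.union_assoc, Finset.union_comm (lins b) (lins b'), Finset.union_assoc])
    hab' hab hK z1 z0 y c x hc
    (fun w b hb => (hx w b hb).1) (fun u hu j => by rw [add_comm]; exact h1' u hu j)
    (fun u hu w hw => by
      rw [add_comm (if u ∈ lins b' then z1 (Sum.inr w) else 0)]; exact h2' u hu w hw)
    ht hbt hbt' hbs
  refine ⟨α, α', c (lin b s) (lin b' t), k1, k2, ?_, ?_⟩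
  · intro j
    rw [k3 j, hc (lin b' t) (lin b s)]
    ring
  · intro w hwa hwb
    rw [k4 w hwa hwb, hc (lin b' t) (lin b s)]
    ring

end

section

variable {N d : ℕ} {E P Om : Type} [Fintype E] [Fintype P] [Fintype Om] [NeZero N]

lemma br_card_lins (c : Ty N d) : (lins c).card ≤ 3 := by
  unfold lins
  exact Finset.card_image_le.trans (by rw [Finset.card_univ, Fintype.card_fin])

/-- Independence of the lines of three types and of a row. -/
lemma br_indep (fr : Frame N d E Om) (p : Lin N → Co E P Om → F) (κ : ℕ) (hE : Ev1 p κ)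
    (a b b' : Ty N d) :
    (9 ≤ κ → LinearIndependent F (fun u : (lins a ∪ lins b ∪ lins b' : Finset (Lin N)) =>
      fun j : P => p u (Sum.inl (Sum.inr j)))) ∧
    (∀ w, (rowLines fr w).card + 9 ≤ κ → LinearIndependent F
      (fun u : ((lins a ∪ lins b ∪ lins b') ∪ rowLines fr w : Finset (Lin N)) =>
        fun j : P => p u (Sum.inl (Sum.inr j)))) := by
  have h1 : (lins a ∪ lins b ∪ lins b').card ≤ 9 := by
    have e1 := Finset.card_union_le (lins a ∪ lins b) (lins b')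
    have e2 := Finset.card_union_le (lins a) (lins b)
    have := br_card_lins a
    have := br_card_lins b
    have := br_card_lins b'
    omega
  refine ⟨fun h9 => hE _ (h1.trans h9), fun w hw => hE _ ?_⟩
  have e1 := Finset.card_union_le (lins a ∪ lins b ∪ lins b') (rowLines fr w)
  omega

/-- One slot: a trivial functional kills the surviving subspace. -/
lemma br_slot (fr : Frame N d E Om) (p : Lin N → Co E P Om → F) (h : Ext fr p) (κ : ℕ)
    (hE : Ev1 p κ) (h9 : 9 ≤ κ) (hκ : ∀ w, (rowLines fr w).card + 9 ≤ κ)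
    (a a' b b' : Ty N d) (hbb : b ≠ b') (hab : Disjoint (lins b) (lins a))
    (hab' : Disjoint (lins b') (lins a)) (z0 z1 m0 m1 : Co E P Om → F) (c c' : F)
    (hz : smm ![z0, z1] ![gv p b, gv p b'] - c • sm (gv p a') (gv p b)
      - c' • sm (gv p a') (gv p b') ∈ (dsg fr p h).Nn a)
    (hm0 : ∀ w, w ∈ fr.U a ∨ w ∈ fr.U b → m0 (Sum.inr w) = 0)
    (hm1 : ∀ w, w ∈ fr.U a ∨ w ∈ fr.U b' → m1 (Sum.inr w) = 0)
    (ha0 : gv p a ⬝ᵥ m0 = 0) (ha1 : gv p a ⬝ᵥ m1 = 0)
    (ha0' : gv p a' ⬝ᵥ m0 = 0) (ha1' : gv p a' ⬝ᵥ m1 = 0)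
    (hb : gv p b ⬝ᵥ m1 = gv p b' ⬝ᵥ m0) : z0 ⬝ᵥ m0 + z1 ⬝ᵥ m1 = 0 := by
  have hz' : sm (z0 - c • gv p a') (gv p b) + sm (z1 - c' • gv p a') (gv p b') ∈
      (dsg fr p h).Nn a := by
    have e1 : sm (z0 - c • gv p a') (gv p b) + sm (z1 - c' • gv p a') (gv p b') =
        smm ![z0, z1] ![gv p b, gv p b'] - c • sm (gv p a') (gv p b)
          - c' • sm (gv p a') (gv p b') := by
      unfold smm
      rw [Fin.sum_univ_two]
      ext i j
      simp only [Matrix.add_apply, Matrix.sub_apply, Matrix.smul_apply, an_sm_apply, Pi.sub_apply,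
        Pi.smul_apply, smul_eq_mul, Matrix.cons_val_zero, Matrix.cons_val_one]
      ring
    rw [e1]
    exact hz
  obtain ⟨α, α', κ', k1, k2, k3, k4⟩ := br_core fr p h a b b' hbb hab hab'
    ((br_indep fr p κ hE a b b').1 h9) (fun w _ => (br_indep fr p κ hE a b b').2 w (hκ w))
    _ _ hz'
  have q0 : (z0 - c • gv p a') ⬝ᵥ m0 = α * (gv p a ⬝ᵥ m0) + κ' * (gv p b' ⬝ᵥ m0) := by
    unfold dotProduct
    rw [Finset.mul_sum, Finset.mul_sum, ← Finset.sum_add_distrib]
    refine Finset.sum_congr rfl fun i _ => ?_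
    rcases i with j | w
    · rw [k1 j]; ring
    · by_cases hw : w ∈ fr.U a ∨ w ∈ fr.U b
      · rw [hm0 w hw]; ring
      · rw [not_or] at hw
        rw [k2 w hw.1 hw.2]; ring
  have q1 : (z1 - c' • gv p a') ⬝ᵥ m1 = α' * (gv p a ⬝ᵥ m1) - κ' * (gv p b ⬝ᵥ m1) := by
    unfold dotProduct
    rw [Finset.mul_sum, Finset.mul_sum, ← Finset.sum_sub_distrib]
    refine Finset.sum_congr rfl fun i _ => ?_
    rcases i with j | w
    · rw [k3 j]; ring
    · by_cases hw : w ∈ fr.U a ∨ w ∈ fr.U b'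
      · rw [hm1 w hw]; ring
      · rw [not_or] at hw
        rw [k4 w hw.1 hw.2]; ring
  rw [sub_dotProduct, smul_dotProduct, ha0', smul_zero, sub_zero, ha0] at q0
  rw [sub_dotProduct, smul_dotProduct, ha1', smul_zero, sub_zero, ha1] at q1
  rw [q0, q1, hb]
  ring

lemma br_dsg_g (fr : Frame N d E Om) (p : Lin N → Co E P Om → F) (h : Ext fr p) :
    (dsg fr p h).g = gv p := rfl

lemma br_dsg_U (fr : Frame N d E Om) (p : Lin N → Co E P Om → F) (h : Ext fr p) (c : Ty N d)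
    {w : Om} (hw : w ∈ fr.U c) : (Sum.inr w : Co E P Om) ∈ (dsg fr p h).U c :=
  Finset.mem_image_of_mem _ hw

/-- BRIDGE: a trivial or cut functional kills the surviving subspace. -/
theorem trivPsi_kills (fr : Frame N d E Om) (p : Lin N → Co E P Om → F) (h : Ext fr p) (κ : ℕ)
    (hE : Ev1 p κ) (h9 : 9 ≤ κ) (hκ : ∀ w, (rowLines fr w).card + 9 ≤ κ)
    (a b : Fin 2 → Ty N d) (hbb : b 0 ≠ b 1)
    (hd : ∀ i, Disjoint (lins2 (b 0, b 1)) (lins (a i)))
    (z : Fin 4 → Co E P Om → F) (hz : TrivPsi (dsg fr p h) (a 0) (a 1) (b 0) (b 1) z)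
    (m : Sl (Co E P Om)) (hm : m ∈ (dsg fr p h).ZP a b) :
    z 0 ⬝ᵥ m 0 0 + z 1 ⬝ᵥ m 0 1 + z 2 ⬝ᵥ m 1 0 + z 3 ⬝ᵥ m 1 1 = 0 := by
  obtain ⟨m1, m2, m3⟩ := hm
  rw [br_dsg_g] at m2 m3
  have hd0 : ∀ i, Disjoint (lins (b 0)) (lins (a i)) := fun i =>
    (Finset.disjoint_union_left.1 (hd i)).1
  have hd1 : ∀ i, Disjoint (lins (b 1)) (lins (a i)) := fun i =>
    (Finset.disjoint_union_left.1 (hd i)).2
  have hrow : ∀ i j w, w ∈ fr.U (a i) ∨ w ∈ fr.U (b j) → m i j (Sum.inr w) = 0 := by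
    intro i j w hw
    refine m1 i j (Sum.inr w) ?_
    rcases hw with hw | hw
    · exact Or.inl (br_dsg_U fr p h _ hw)
    · exact Or.inr (br_dsg_U fr p h _ hw)
  obtain ⟨⟨c, c', hc⟩, ⟨e, e', he⟩⟩ := hz
  rw [br_dsg_g] at hc he
  have s0 := br_slot fr p h κ hE h9 hκ (a 0) (a 1) (b 0) (b 1) hbb (hd0 0) (hd1 0) (z 0) (z 1)
    (m 0 0) (m 0 1) c c' hc (hrow 0 0) (hrow 0 1) (m2 0 0 0) (m2 0 0 1) (m2 0 1 0) (m2 0 1 1) (m3 0)
  have s1 := br_slot fr p h κ hE h9 hκ (a 1) (a 0) (b 0) (b 1) hbb (hd0 1) (hd1 1) (z 2) (z 3)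
    (m 1 0) (m 1 1) e e' he (hrow 1 0) (hrow 1 1) (m2 1 1 0) (m2 1 1 1) (m2 1 0 0) (m2 1 0 1) (m3 1)
  rw [s0, zero_add, s1]

end

/-! ### Large coefficients are bad coefficients -/

/-- The weights of a law of a pair of forms. -/
def wOf {K : Type*} {Ω : Type*} [Fintype Ω] (P : FinProb Ω) (B : Fin 2 → Ω → Matrix K K F) :
    Matrix K K F → Matrix K K F → ℝ := fun Q Q' => P.p (fun ω i => B i ω) ![Q, Q']

/-- The unit slots. -/
def brE {K : Type*} (i j : Fin 2) (k : K) : Sl K :=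
  fun i' j' k' => if i' = i ∧ j' = j ∧ k' = k then 1 else 0

/-- The vectors of a functional on the slots. -/
def brZ {K : Type*} [Fintype K] (ξ : Dual F (Sl K)) : Fin 4 → K → F :=
  ![fun k => ξ (brE 0 0 k), fun k => ξ (brE 0 1 k), fun k => ξ (brE 1 0 k), fun k => ξ (brE 1 1 k)]

lemma brZ_eq {K : Type*} [Fintype K] (ξ : Dual F (Sl K)) (m : Sl K) :
    ξ m = brZ ξ 0 ⬝ᵥ m 0 0 + brZ ξ 1 ⬝ᵥ m 0 1 + brZ ξ 2 ⬝ᵥ m 1 0 + brZ ξ 3 ⬝ᵥ m 1 1 := by
  have e1 : m = ∑ k, (m 0 0 k • brE 0 0 k + m 0 1 k • brE 0 1 k + m 1 0 k • brE 1 0 k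
      + m 1 1 k • brE 1 1 k) := by
    funext i j l
    simp only [Finset.sum_apply, Pi.add_apply, Pi.smul_apply, smul_eq_mul, brE]
    rw [Finset.sum_eq_single l]
    · fin_cases i <;> fin_cases j <;> simp
    · intro k _ hk
      simp [Ne.symm hk]
    · intro h'; exact absurd (Finset.mem_univ _) h'
  conv_lhs => rw [e1]
  rw [map_sum]
  unfold dotProduct
  rw [← Finset.sum_add_distrib, ← Finset.sum_add_distrib, ← Finset.sum_add_distrib]
  refine Finset.sum_congr rfl fun k _ => ?_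
  rw [map_add, map_add, map_add, map_smul, map_smul, map_smul, map_smul]
  simp only [smul_eq_mul, brZ, Matrix.cons_val]
  ring

section

variable {K T : Type*} [Fintype K] (δ : Design K T) {Ω : Type*} [Fintype Ω] (P : FinProb Ω)
  (B : Fin 2 → Ω → Matrix K K F)

/-- Sums against a law are sums over the sample space. -/
lemma br_sum_p {α : Type*} [Fintype α] (f : Ω → α) (g : α → ℂ) :
    ∑ x, (P.p f x : ℂ) * g x = ∑ ω, (P.w ω : ℂ) * g (f ω) := by
  have e1 : ∀ x, (P.p f x : ℂ) * g x = ∑ ω, if f ω = x then (P.w ω : ℂ) * g x else 0 := by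
    intro x
    rw [FinProb.p, Complex.ofReal_sum, Finset.sum_mul]
    refine Finset.sum_congr rfl fun ω _ => ?_
    split_ifs
    · rfl
    · rw [Complex.ofReal_zero, zero_mul]
  rw [Finset.sum_congr rfl fun x _ => e1 x, Finset.sum_comm]
  refine Finset.sum_congr rfl fun ω _ => ?_
  rw [Finset.sum_ite_eq Finset.univ (f ω), if_pos (Finset.mem_univ _)]

lemma fc_lawM (ψ : AddChar F ℂ) (b : Fin 2 → T) (ξ : Dual F (Sl K)) :
    fc ψ (δ.lawM P B b) ξ = ∑ ω, (P.w ω : ℂ) * ψ (ξ (δ.Mt (fun i => B i ω) b)) := by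
  unfold fc Design.lawM
  exact br_sum_p P (fun ω => δ.Mt (fun i => B i ω) b) (fun y => ψ (ξ y))

lemma coefT_wOf (ψ : AddChar F ℂ) (g g' : K → F) (z : Fin 4 → K → F) :
    coefT ψ (wOf P B) g g' z =
      ∑ ω, (P.w ω : ℂ) * ψ (∑ i, z i ⬝ᵥ tv g g' (B 0 ω) (B 1 ω) i) := by
  have e1 := br_sum_p P (fun ω => (fun i => B i ω : Fin 2 → Matrix K K F))
    (fun Q => ψ (∑ i, z i ⬝ᵥ tv g g' (Q 0) (Q 1) i))
  rw [← e1]
  unfold coefT wOf
  rw [← Fintype.sum_prod_type', ← (finTwoArrowEquiv (Matrix K K F)).symm.sum_comp]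
  rfl

/-- LARGE ==> BADC. -/
theorem badC_of_large {N d : ℕ} {E P' Om : Type} [Fintype E] [Fintype P'] [Fintype Om] [NeZero N]
    (fr : Frame N d E Om) (p : Lin N → Co E P' Om → F) (h : Ext fr p) (κ : ℕ)
    (hE : Ev1 p κ) (h9 : 9 ≤ κ) (hκ : ∀ w, (rowLines fr w).card + 9 ≤ κ)
    (a b : Fin 2 → Ty N d) (hbb : b 0 ≠ b 1)
    (hd : ∀ i, Disjoint (lins2 (b 0, b 1)) (lins (a i)))
    (B : Fin 2 → Ω → Matrix (Co E P' Om) (Co E P' Om) F) (ψ : AddChar F ℂ) (η : ℝ)
    (hL : (dsg fr p h).Large a P B b ψ η) :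
    BadC ψ (dsg fr p h) (a 0) (a 1) (wOf P B) η (b 0, b 1) := by
  obtain ⟨ξ, hξ, hη⟩ := hL
  refine ⟨brZ ξ, ?_, fun hT => hξ fun m hm => ?_⟩
  · rw [coefT_wOf]
    rw [fc_lawM] at hη
    refine hη.trans (le_of_eq ?_)
    congr 1
    refine Finset.sum_congr rfl fun ω _ => ?_
    rw [brZ_eq, Fin.sum_univ_four]
    rfl
  · rw [brZ_eq]
    exact trivPsi_kills fr p h κ hE h9 hκ a b hbb hd (brZ ξ) hT m hm

end

end Vale.Agent.P060.HW
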