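import Vale.Agent.P060.HW.Good
import Vale.Agent.P060.HW.Ann

/-!
# The entropy budget of a law with bounded density, and the number of biased tests
-/

open scoped Classical

noncomputable section

set_option linter.unusedSectionVars false

namespace Vale.Agent.P060.HW

open Module

namespace Budget

section Abstract

theorem card_ker_range {K : Type*} [Field K] [Finite K] {V M : Type*} [AddCommGroup V]
    [Module K V] [Module.Finite K V] [AddCommGroup M] [Module K M] [Module.Finite K M]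
    (ρ : V →ₗ[K] M) :
    Nat.card V = Nat.card (LinearMap.ker ρ) * Nat.card K ^ finrank K (LinearMap.range ρ) := by
  have h1 : Nat.card (LinearMap.ker ρ) = Nat.card K ^ finrank K (LinearMap.ker ρ) :=
    Module.natCard_eq_pow_finrank
  rw [Module.natCard_eq_pow_finrank (K := K) (V := V), h1, ← pow_add,
    ← LinearMap.finrank_range_add_finrank_ker ρ, add_comm]

/-- The rank of the restriction of a pairing. -/
theorem le_rank_restrict {K : Type*} [Field K] {V W : Type*} [AddCommGroup V]
    [Module K V] [AddCommGroup W] [Module K W] [FiniteDimensional K W]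
    (pair : V →ₗ[K] Dual K W) (N G : Submodule K W)
    (hG : ∀ Q ∈ G, (∀ v, pair v Q = 0) → Q ∈ N) :
    finrank K G ≤ finrank K (LinearMap.range ((LinearMap.lcomp K K G.subtype).comp pair)) +
      finrank K N := by
  have h1 := Subspace.finrank_add_finrank_dualCoannihilator_eq
    (LinearMap.range ((LinearMap.lcomp K K G.subtype).comp pair))
  have h2 : finrank K (Submodule.map G.subtype
      (LinearMap.range ((LinearMap.lcomp K K G.subtype).comp pair)).dualCoannihilator) ≤
      finrank K N := by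
    refine Submodule.finrank_mono ?_
    rintro _ ⟨Q, hQ, rfl⟩
    refine hG Q Q.2 fun v => ?_
    exact (Submodule.mem_dualCoannihilator Q).1 hQ
      ((LinearMap.lcomp K K G.subtype).comp pair v) ⟨v, rfl⟩
  rw [Submodule.finrank_map_subtype_eq] at h2
  rw [← h1]
  exact Nat.add_le_add_left h2 _

variable {Ω : Type*} [Fintype Ω] {K : Type*} [Field K] [Finite K] {W : Type*} [AddCommGroup W]
  [Module K W] [FiniteDimensional K W]

theorem ent_const (P : FinProb Ω) (X : Ω → Dual K W) (N : Submodule K W) (x0 : Dual K W)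
    (h : ∀ ω, 0 < P.w ω → ∀ Q ∈ N, X ω Q = x0 Q) : Lat.ent P X N = 0 := by
  unfold Lat.ent FinProb.H
  refine Finset.sum_eq_zero fun ω _ => ?_
  rcases P.w_zero_or_pos ω with h0 | h0
  · rw [h0, zero_mul]
  · have h1 : P.p (Lat.ev X N) (Lat.ev X N ω) = 1 := by
      unfold FinProb.p
      rw [← P.sum_one]
      refine Finset.sum_congr rfl fun ω' _ => ?_
      rcases P.w_zero_or_pos ω' with h2 | h2
      · rw [h2, ite_self]
      · rw [if_pos]
        rw [Lat.ev_eq_iff]
        intro Q hQ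
        rw [h ω' h2 Q hQ, h ω h0 Q hQ]
    rw [h1, Real.log_one, neg_zero, mul_zero]

/-- The entropy budget: a law on an affine space `y0 + H` with density at most `Λ` has deficit at
most `log Λ` on every `G`, relative to the functionals trivial on `H`. -/
theorem deficit {V : Type*} [AddCommGroup V] [Module K V] [Fintype V] (pair : V →ₗ[K] Dual K W)
    (P : FinProb Ω) (Y : Ω → V) (H : Submodule K V) (y0 : V)
    (Λ : ℝ) (hmem : ∀ ω, 0 < P.w ω → Y ω - y0 ∈ H) (hp : ∀ y, P.p Y y * Nat.card H ≤ Λ)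
    (N G : Submodule K W) (hN : ∀ Q ∈ N, ∀ y ∈ H, pair y Q = 0)
    (hG : ∀ Q ∈ G, (∀ y ∈ H, pair y Q = 0) → Q ∈ N) :
    Lat.D P (fun ω => pair (Y ω)) G - Lat.D P (fun ω => pair (Y ω)) N ≤ Real.log Λ := by
  have hfinG : Finite (Dual K G) := Module.finite_of_finite K
  have hfinV : Module.Finite K V := Module.Finite.of_finite
  set X : Ω → Dual K W := fun ω => pair (Y ω) with hX
  -- entropy on `N`
  have hentN : Lat.ent P X N = 0 := by
    refine ent_const P X N (pair y0) fun ω hω Q hQ => ?_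
    have := hN Q hQ _ (hmem ω hω)
    rw [map_sub, LinearMap.sub_apply] at this
    exact sub_eq_zero.1 this
  -- the restriction map
  let ρ : H →ₗ[K] Dual K G := (LinearMap.lcomp K K G.subtype).comp (pair.comp H.subtype)
  have hrank : finrank K G ≤ finrank K (LinearMap.range ρ) + finrank K N :=
    le_rank_restrict (pair.comp H.subtype) N G fun Q hQ h => hG Q hQ fun y hy => h ⟨y, hy⟩
  have hcardH := card_ker_range ρ
  have hker : 0 < Nat.card (LinearMap.ker ρ) := Nat.card_pos
  have hK : 1 < Nat.card K := Finite.one_lt_card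
  have hK0 : (0 : ℝ) < Nat.card K := by exact_mod_cast (by omega : 0 < Nat.card K)
  have hcH : (0 : ℝ) < Nat.card H := by exact_mod_cast Nat.card_pos
  have hΛ : 0 < Λ := by
    obtain ⟨ω, hω⟩ : ∃ ω, 0 < P.w ω := by
      by_contra h
      push Not at h
      have h1 : ∑ ω, P.w ω ≤ 0 := Finset.sum_nonpos fun ω _ => h ω
      rw [P.sum_one] at h1
      linarith
    exact lt_of_lt_of_le (mul_pos (P.p_pos hω Y) hcH) (hp (Y ω))
  -- the bound for the atoms of the restriction
  have hatom : ∀ e, P.p (Lat.ev X G) e ≤ Λ / (Nat.card K : ℝ) ^ finrank K (LinearMap.range ρ) := by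
    intro e
    set S : Finset V := Finset.univ.filter fun y => y - y0 ∈ H ∧
      (LinearMap.lcomp K K G.subtype).comp pair y = e with hS
    have h1 : P.p (Lat.ev X G) e ≤ ∑ y ∈ S, P.p Y y := by
      unfold FinProb.p
      rw [Finset.sum_comm]
      refine Finset.sum_le_sum fun ω _ => ?_
      rw [Finset.sum_ite_eq]
      by_cases h2 : Lat.ev X G ω = e
      · rw [if_pos h2]
        rcases P.w_zero_or_pos ω with h3 | h3
        · rw [h3]; split_ifs <;> exact le_rfl
        · rw [if_pos]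
          rw [hS, Finset.mem_filter]
          exact ⟨Finset.mem_univ _, hmem ω h3, h2⟩
      · rw [if_neg h2]
        split_ifs
        · exact P.nonneg ω
        · exact le_rfl
    have h2 : S.card ≤ Nat.card (LinearMap.ker ρ) := by
      rcases S.eq_empty_or_nonempty with h3 | ⟨φ0, hφ0⟩
      · rw [h3, Finset.card_empty]; exact Nat.zero_le _
      · rw [hS, Finset.mem_filter] at hφ0
        have hsub : ∀ φ : S, (φ : V) - φ0 ∈ H := by
          intro φ
          have h5 := (Finset.mem_filter.1 φ.2).2.1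
          have h6 := H.sub_mem h5 hφ0.2.1
          rwa [sub_sub_sub_cancel_right] at h6
        have hk : ∀ φ : S, (⟨(φ : V) - φ0, hsub φ⟩ : H) ∈ LinearMap.ker ρ := by
          intro φ
          rw [LinearMap.mem_ker]
          show (LinearMap.lcomp K K G.subtype).comp pair ((φ : V) - φ0) = 0
          rw [map_sub, (Finset.mem_filter.1 φ.2).2.2, hφ0.2.2, sub_self]
        have h4 : Nat.card S ≤ Nat.card (LinearMap.ker ρ) := by
          refine Nat.card_le_card_of_injective
            (fun φ : S => (⟨⟨(φ : V) - φ0, hsub φ⟩, hk φ⟩ : LinearMap.ker ρ)) ?_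
          intro φ φ' h5
          have h6 := congrArg (fun x : LinearMap.ker ρ => ((x : H) : V)) h5
          simp only at h6
          exact Subtype.ext (sub_left_injective h6)
        rwa [Nat.card_eq_fintype_card, Fintype.card_coe] at h4
    have h3 : ∑ φ ∈ S, P.p Y φ ≤ Nat.card (LinearMap.ker ρ) * (Λ / Nat.card H) := by
      calc ∑ φ ∈ S, P.p Y φ ≤ ∑ _φ ∈ S, Λ / Nat.card H := by
            refine Finset.sum_le_sum fun φ _ => ?_
            rw [le_div_iff₀ hcH]
            exact hp φ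
        _ = S.card * (Λ / Nat.card H) := by rw [Finset.sum_const, nsmul_eq_mul]
        _ ≤ _ := by
            refine mul_le_mul_of_nonneg_right (by exact_mod_cast h2) ?_
            exact div_nonneg hΛ.le hcH.le
    refine h1.trans (h3.trans (le_of_eq ?_))
    rw [hcardH, Nat.cast_mul, Nat.cast_pow]
    have h4 : (Nat.card (LinearMap.ker ρ) : ℝ) ≠ 0 := by exact_mod_cast hker.ne'
    have h5 : ((Nat.card K : ℝ) ^ finrank K (LinearMap.range ρ)) ≠ 0 := by positivity
    field_simp
  have hent := P.neg_log_le_H (Lat.ev X G) _ hatom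
  rw [Real.log_div hΛ.ne' (by positivity), Real.log_pow] at hent
  have hr : (finrank K G : ℝ) ≤ finrank K (LinearMap.range ρ) + finrank K N := by
    exact_mod_cast hrank
  have hlog : 0 ≤ Real.log (Nat.card K) := Real.log_nonneg (by exact_mod_cast hK.le)
  have h9 := mul_le_mul_of_nonneg_right hr hlog
  unfold Lat.D
  rw [hentN]
  unfold Lat.ent
  rw [add_mul] at h9
  linarith

end Abstract

section Spec

variable {K T : Type} [Fintype K]

/-- The probability space of a pair law. -/
def prob {δ : Design K T} {a a' : T} {ι ι' : Bool} {Λ M : ℝ}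
    {w : Matrix K K F → Matrix K K F → ℝ} (hw : PLaw δ a a' ι ι' Λ M w) :
    FinProb (Matrix K K F × Matrix K K F) where
  w := fun ω => w ω.1 ω.2
  nonneg := fun ω => hw.nonneg _ _
  sum_one := by rw [Fintype.sum_prod_type]; exact hw.sum_one

/-- The pairing of pairs of matrices. -/
def pair2 (K : Type) [Fintype K] :
    (Matrix K K F × Matrix K K F) →ₗ[F] Dual F (Matrix K K F × Matrix K K F) :=
  LinearMap.mk₂ F (fun B Q => pr Q.1 B.1 + pr Q.2 B.2)
    (fun B B' Q => by
      simp only [Prod.fst_add, Prod.snd_add, ann_pr_add_right]; ring)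
    (fun c B Q => by
      simp only [Prod.smul_fst, Prod.smul_snd, ann_pr_smul_right, smul_eq_mul]; ring)
    (fun B Q Q' => by
      simp only [Prod.fst_add, Prod.snd_add, ann_pr_add]; ring)
    (fun c B Q => by
      simp only [Prod.smul_fst, Prod.smul_snd, ann_pr_smul, smul_eq_mul]; ring)

lemma pair2_apply (B Q : Matrix K K F × Matrix K K F) :
    pair2 K B Q = pr Q.1 B.1 + pr Q.2 B.2 := rfl

lemma card_prod (S S' : Submodule F (Matrix K K F)) :
    Nat.card (S.prod S') = Nat.card S * Nat.card S' := by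
  rw [← Nat.card_prod]
  exact Nat.card_congr
    { toFun := fun x => (⟨x.1.1, x.2.1⟩, ⟨x.1.2, x.2.2⟩)
      invFun := fun x => ⟨(x.1.1, x.2.1), x.1.2, x.2.2⟩
      left_inv := fun x => rfl
      right_inv := fun x => rfl }

lemma isSymm_of_form {δ : Design K T} {a : T} {ι : Bool} {B : Matrix K K F}
    (h : B ∈ δ.Form a ι) : B.IsSymm := by
  have h1 : (B - (if ι then δ.B0 a else 0)).IsSymm := h.1.1
  have h2 : (if ι then δ.B0 a else 0 : Matrix K K F).IsSymm := by
    split_ifs
    · exact (δ.B0_mem_Com a).1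
    · exact Matrix.isSymm_zero
  have h3 := h1.add h2
  rwa [sub_add_cancel] at h3

/-- BUDGET: the deficit of a pair law relative to the trivial tensors is at most `log Λ`. -/
theorem budget {δ : Design K T} {a a' : T} {ι ι' : Bool} {Λ M : ℝ}
    {w : Matrix K K F → Matrix K K F → ℝ} (hw : PLaw δ a a' ι ι' Λ M w)
    (G : Submodule F (Matrix K K F × Matrix K K F))
    (hG : ∀ Q ∈ G, Q.1.IsSymm ∧ Q.2.IsSymm) :
    Lat.D (prob hw) (fun ω => pair2 K ω) G -
      Lat.D (prob hw) (fun ω => pair2 K ω) ((δ.Nn a).prod (δ.Nn a')) ≤ Real.log Λ := by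
  refine deficit (pair2 K) (prob hw) (fun ω => ω) ((δ.Dir a).prod (δ.Dir a'))
    (if ι then δ.B0 a else 0, if ι' then δ.B0 a' else 0) Λ ?_ ?_ _ G ?_ ?_
  · intro ω hω
    have h1 := hw.supp ω.1 ω.2 (ne_of_gt hω)
    exact ⟨h1.1, h1.2⟩
  · intro y
    have h1 : (prob hw).p (fun ω => ω) y = w y.1 y.2 := by
      unfold FinProb.p
      rw [Finset.sum_eq_single y]
      · rw [if_pos rfl]; rfl
      · intro ω _ hω; rw [if_neg hω]
      · intro h; exact absurd (Finset.mem_univ _) h
    rw [h1, card_prod, Nat.cast_mul]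
    exact hw.joint y.1 y.2
  · intro Q hQ y hy
    rw [pair2_apply, annDirect K T δ a Q.1 hQ.1 y.1 hy.1, annDirect K T δ a' Q.2 hQ.2 y.2 hy.2,
      add_zero]
  · intro Q hQ h
    refine ⟨annConverse K T δ a Q.1 (hG Q hQ).1 fun B hB => ?_,
      annConverse K T δ a' Q.2 (hG Q hQ).2 fun B hB => ?_⟩
    · have := h (B, 0) ⟨hB, Submodule.zero_mem _⟩
      rw [pair2_apply] at this
      simpa [pr] using this
    · have := h (0, B) ⟨Submodule.zero_mem _, hB⟩
      rw [pair2_apply] at this
      simpa [pr] using this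

/-- half of the tensor pair of a functional of the test values -/
def tz (g g' : K → F) (z : Fin 4 → K → F) : Matrix K K F × Matrix K K F :=
  (2⁻¹ : F) • (smm ![z 0, z 1] ![g, g'], smm ![z 2, z 3] ![g, g'])

lemma pr_smm2 {B : Matrix K K F} (hB : B.IsSymm) (u v g g' : K → F) :
    pr ((2⁻¹ : F) • smm ![u, v] ![g, g']) B = u ⬝ᵥ B.mulVec g + v ⬝ᵥ B.mulVec g' := by
  rw [ann_pr_smul]
  have h1 : smm ![u, v] ![g, g'] = sm u g + sm v g' := by
    unfold smm
    rw [Fin.sum_univ_two]
    rfl
  rw [h1, ann_pr_add, ann_pr_sm hB, ann_pr_sm hB, ← mul_add, ← mul_assoc,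
    inv_mul_cancel₀ ann_two_ne, one_mul]

/-- The functional of the test values is the pairing with `tz`. -/
lemma pair2_tz {B B' : Matrix K K F} (hB : B.IsSymm) (hB' : B'.IsSymm) (g g' : K → F)
    (z : Fin 4 → K → F) : pair2 K (B, B') (tz g g' z) = ∑ i, z i ⬝ᵥ tv g g' B B' i := by
  rw [pair2_apply]
  show pr ((2⁻¹ : F) • smm ![z 0, z 1] ![g, g']) B + pr ((2⁻¹ : F) • smm ![z 2, z 3] ![g, g']) B'
    = _
  rw [pr_smm2 hB, pr_smm2 hB', Fin.sum_univ_four]
  simp only [tv, Matrix.cons_val_zero, Matrix.cons_val_one, Matrix.cons_val]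
  ring

lemma coefT_eq {δ : Design K T} {a a' : T} {ι ι' : Bool} {Λ M : ℝ}
    {w : Matrix K K F → Matrix K K F → ℝ} (hw : PLaw δ a a' ι ι' Λ M w) (ψ : AddChar F ℂ)
    (g g' : K → F) (z : Fin 4 → K → F) :
    coefT ψ w g g' z = ∑ ω, ((prob hw).w ω : ℂ) * ψ (pair2 K ω (tz g g' z)) := by
  unfold coefT
  rw [Fintype.sum_prod_type]
  refine Finset.sum_congr rfl fun B _ => Finset.sum_congr rfl fun B' _ => ?_
  show (w B B' : ℂ) * _ = (w B B' : ℂ) * _
  by_cases h : w B B' = 0
  · rw [h, Complex.ofReal_zero, zero_mul, zero_mul]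
  · have h1 := hw.supp B B' h
    rw [pair2_tz (isSymm_of_form h1.1) (isSymm_of_form h1.2)]

lemma tz_symm (g g' : K → F) (z : Fin 4 → K → F) :
    (tz g g' z).1.IsSymm ∧ (tz g g' z).2.IsSymm := by
  have h : ∀ u v : K → F, (smm ![u, v] ![g, g']).IsSymm := by
    intro u v
    ext i j
    rw [Matrix.transpose_apply]
    simp only [smm, sm, Fin.sum_univ_two, Matrix.add_apply, Matrix.vecMulVec_apply,
      Matrix.cons_val_zero, Matrix.cons_val_one]
    ring
  exact ⟨(h _ _).smul _, (h _ _).smul _⟩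

/-- (hR), indexed form: at most `2 log Λ / η²` tests with a coefficient `≥ η` are independent
modulo the trivial tensors. -/
theorem rank_biased (hRL : RankLem) {δ : Design K T} {a a' : T} {ι ι' : Bool} {Λ M : ℝ}
    {w : Matrix K K F → Matrix K K F → ℝ} (hw : PLaw δ a a' ι ι' Λ M w) (ψ : AddChar F ℂ)
    (hψ : ψ ≠ 0) {η : ℝ} (hη : 0 ≤ η) (R : ℕ) (g g' : Fin R → K → F)
    (z : Fin R → Fin 4 → K → F)
    (hli : LinearIndependent F (fun i => ((δ.Nn a).prod (δ.Nn a')).mkQ
      (smm ![z i 0, z i 1] ![g i, g' i], smm ![z i 2, z i 3] ![g i, g' i])))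
    (hc : ∀ i, η ≤ ‖coefT ψ w (g i) (g' i) (z i)‖) :
    R * (η ^ 2 / 2) ≤ Real.log Λ := by
  have h2 : (2⁻¹ : F) ≠ 0 := inv_ne_zero ann_two_ne
  have hli' : LinearIndependent F (fun i => ((δ.Nn a).prod (δ.Nn a')).mkQ
      (tz (g i) (g' i) (z i))) := by
    have h3 := hli.units_smul (fun _ => Units.mk0 (2⁻¹ : F) h2)
    have e : (fun i => ((δ.Nn a).prod (δ.Nn a')).mkQ (tz (g i) (g' i) (z i))) =
        (fun _ : Fin R => Units.mk0 (2⁻¹ : F) h2) • fun i => ((δ.Nn a).prod (δ.Nn a')).mkQ
      (smm ![z i 0, z i 1] ![g i, g' i], smm ![z i 2, z i 3] ![g i, g' i]) := by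
      funext i
      rw [Pi.smul_apply', Units.smul_def, Units.val_mk0, ← map_smul]
      rfl
    rw [e]
    exact h3
  have h1 := hRL (Matrix K K F × Matrix K K F) (Matrix K K F × Matrix K K F) (prob hw)
    (fun ω => pair2 K ω) ψ hψ η hη ((δ.Nn a).prod (δ.Nn a')) R
    (fun i => tz (g i) (g' i) (z i)) hli' (fun i => by rw [← coefT_eq hw]; exact hc i)
  refine h1.trans (budget hw _ ?_)
  have hsymm : ∀ (a : T) (Q : Matrix K K F), Q ∈ δ.Nn a → Q.IsSymm := by
    intro a Q hQ
    unfold Design.Nn at hQ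
    induction hQ using Submodule.span_induction with
    | mem Q hQ =>
      have hsm : ∀ u v : K → F, (sm u v).IsSymm := by
        intro u v
        ext i j
        rw [Matrix.transpose_apply]
        simp only [sm, Matrix.add_apply, Matrix.vecMulVec_apply]
        ring
      rcases hQ with (⟨c, w, hw, rfl⟩ | ⟨w, hw, v, rfl⟩) | ⟨v, rfl⟩
      · exact hsm _ _
      · exact hsm _ _
      · exact hsm _ _
    | zero => exact Matrix.isSymm_zero
    | add Q Q' _ _ h h' => exact h.add h'
    | smul c Q _ h => exact h.smul c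
  let S : Submodule F (Matrix K K F × Matrix K K F) :=
    { carrier := {Q | Q.1.IsSymm ∧ Q.2.IsSymm}
      add_mem' := fun {Q Q'} h h' => ⟨h.1.add h'.1, h.2.add h'.2⟩
      zero_mem' := ⟨Matrix.isSymm_zero, Matrix.isSymm_zero⟩
      smul_mem' := fun c Q h => ⟨h.1.smul c, h.2.smul c⟩ }
  have hle : (δ.Nn a).prod (δ.Nn a') ⊔
      Submodule.span F (Set.range fun i => tz (g i) (g' i) (z i)) ≤ S := by
    refine sup_le (fun Q hQ => ⟨hsymm a _ hQ.1, hsymm a' _ hQ.2⟩) ?_
    rw [Submodule.span_le]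
    rintro _ ⟨i, rfl⟩
    exact tz_symm _ _ _
  exact fun Q hQ => hle hQ

/-- (hR) for a finite index type. -/
theorem rank_biased_fintype (hRL : RankLem) {δ : Design K T} {a a' : T} {ι ι' : Bool} {Λ M : ℝ}
    {w : Matrix K K F → Matrix K K F → ℝ} (hw : PLaw δ a a' ι ι' Λ M w) (ψ : AddChar F ℂ)
    (hψ : ψ ≠ 0) {η : ℝ} (hη : 0 ≤ η) {I : Type*} [Fintype I] (g g' : I → K → F)
    (z : I → Fin 4 → K → F)
    (hli : LinearIndependent F (fun i => ((δ.Nn a).prod (δ.Nn a')).mkQ
      (smm ![z i 0, z i 1] ![g i, g' i], smm ![z i 2, z i 3] ![g i, g' i])))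
    (hc : ∀ i, η ≤ ‖coefT ψ w (g i) (g' i) (z i)‖) :
    Fintype.card I * (η ^ 2 / 2) ≤ Real.log Λ := by
  let e := (Fintype.equivFin I).symm
  exact rank_biased hRL hw ψ hψ hη (Fintype.card I) (fun i => g (e i)) (fun i => g' (e i))
    (fun i => z (e i)) (hli.comp e e.injective) (fun i => hc _)

/-- (hR) for finite sets of pairs of types. -/
theorem rank_biased_finset (hRL : RankLem) {δ : Design K T} {a a' : T} {ι ι' : Bool} {Λ M : ℝ}
    {w : Matrix K K F → Matrix K K F → ℝ} (hw : PLaw δ a a' ι ι' Λ M w) (ψ : AddChar F ℂ)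
    (hψ : ψ ≠ 0) {η : ℝ} (hη : 0 < η) (z : T × T → Fin 4 → K → F) (J : Finset (T × T))
    (hli : LinearIndependent F (fun β : J => ((δ.Nn a).prod (δ.Nn a')).mkQ
      (smm ![z β 0, z β 1] ![δ.g (β : T × T).1, δ.g (β : T × T).2],
        smm ![z β 2, z β 3] ![δ.g (β : T × T).1, δ.g (β : T × T).2])))
    (hc : ∀ β ∈ J, η ≤ ‖coefT ψ w (δ.g β.1) (δ.g β.2) (z β)‖) :
    (J.card : ℝ) ≤ 2 * Real.log Λ / η ^ 2 := by
  have h := rank_biased_fintype hRL hw ψ hψ hη.le (fun β : J => δ.g (β : T × T).1)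
    (fun β : J => δ.g (β : T × T).2) (fun β : J => z β) hli fun β => hc β β.2
  rw [Fintype.card_coe] at h
  rw [le_div_iff₀ (by positivity)]
  linarith

end Spec

end Budget

end Vale.Agent.P060.HW
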