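import Mathlib

/-!
Set systems for the types (Design H3): Reed-Solomon words together with a residue.
-/

namespace Vale.Agent.P060.HW

open Finset Polynomial

section Word

variable {n p t q m : ℕ} [NeZero n] [Fact p.Prime]

/-- The Reed-Solomon word of an index, written with its digits in base p. -/
def word (p t : ℕ) (i : ZMod n) (x : ZMod p) : ZMod p :=
  ∑ j ∈ range t, ((i.val / p ^ j : ℕ) : ZMod p) * x ^ j

omit [NeZero n] in
theorem word_eq_eval (i : ZMod n) (x : ZMod p) :
    word p t i x = (∑ j ∈ range t, C (((i.val / p ^ j : ℕ) : ZMod p)) * X ^ j : (ZMod p)[X]).eval x := by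
  unfold word
  rw [eval_finsetSum]
  refine sum_congr rfl fun j _ => ?_
  simp

theorem digits_inj (p : ℕ) (hp : 0 < p) : ∀ (t a b : ℕ), a < p ^ t → b < p ^ t →
    (∀ j < t, (a / p ^ j) % p = (b / p ^ j) % p) → a = b := by
  intro t
  induction t with
  | zero =>
    intro a b ha hb _
    simp at ha hb
    omega
  | succ t ih =>
    intro a b ha hb h
    have h0 : a % p = b % p := by
      have := h 0 (Nat.succ_pos t)
      simpa using this
    have h1 : a / p = b / p := by
      apply ih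
      · rw [Nat.div_lt_iff_lt_mul hp]
        simpa [pow_succ] using ha
      · rw [Nat.div_lt_iff_lt_mul hp]
        simpa [pow_succ] using hb
      · intro j hj
        have := h (j + 1) (by omega)
        rw [pow_succ, Nat.mul_comm, ← Nat.div_div_eq_div_mul, ← Nat.div_div_eq_div_mul] at this
        exact this
    have e1 := Nat.div_add_mod a p
    have e2 := Nat.div_add_mod b p
    rw [← e1, ← e2, h0, h1]

theorem word_agree (hn : n ≤ p ^ t) {i j : ZMod n} (hij : i ≠ j) :
    (univ.filter fun x : ZMod p => word p t i x = word p t j x).card < t := by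
  have hp : 0 < p := (Fact.out : p.Prime).pos
  set P : (ZMod p)[X] := ∑ s ∈ range t,
    C (((i.val / p ^ s : ℕ) : ZMod p) - ((j.val / p ^ s : ℕ) : ZMod p)) * X ^ s with hP
  have hcoef : ∀ s < t, P.coeff s = ((i.val / p ^ s : ℕ) : ZMod p) - ((j.val / p ^ s : ℕ) : ZMod p) := by
    intro s hs
    rw [hP, finsetSum_coeff, sum_eq_single s]
    · rw [coeff_C_mul_X_pow, if_pos rfl]
    · intro b _ hb
      rw [coeff_C_mul_X_pow, if_neg (Ne.symm hb)]
    · intro h
      exact absurd (mem_range.2 hs) h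
  have hP0 : P ≠ 0 := by
    intro h0
    apply hij
    apply ZMod.val_injective n
    apply digits_inj p hp t _ _ (lt_of_lt_of_le (ZMod.val_lt i) hn) (lt_of_lt_of_le (ZMod.val_lt j) hn)
    intro s hs
    have := hcoef s hs
    rw [h0, coeff_zero] at this
    have h2 := (sub_eq_zero.1 this.symm)
    exact (ZMod.natCast_eq_natCast_iff' _ _ _).1 h2
  have ht : 0 < t := by
    rcases Nat.eq_zero_or_pos t with h | h
    · exfalso
      apply hP0
      rw [hP, h]
      simp
    · exact h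
  have hdeg : P.natDegree < t := by
    have : P.natDegree ≤ t - 1 := by
      apply natDegree_sum_le_of_forall_le
      intro s hs
      refine (natDegree_C_mul_X_pow_le _ _).trans ?_
      have := mem_range.1 hs
      omega
    omega
  have hev : ∀ x : ZMod p, P.eval x = word p t i x - word p t j x := by
    intro x
    rw [word, word, ← sum_sub_distrib, hP, eval_finsetSum]
    refine sum_congr rfl fun s _ => ?_
    simp [sub_mul]
  have hsub : (univ.filter fun x : ZMod p => word p t i x = word p t j x) ⊆ P.roots.toFinset := by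
    intro x hx
    rw [Multiset.mem_toFinset, mem_roots hP0, IsRoot.def, hev, sub_eq_zero]
    exact (mem_filter.1 hx).2
  calc (univ.filter fun x : ZMod p => word p t i x = word p t j x).card
      ≤ P.roots.toFinset.card := card_le_card hsub
    _ ≤ Multiset.card P.roots := Multiset.toFinset_card_le _
    _ ≤ P.natDegree := card_roots' P
    _ < t := hdeg

theorem word_fibre (ht : 0 < t) (x y : ZMod p) :
    (univ.filter fun i : ZMod n => word p t i x = y).card ≤ n / p + 1 := by
  have hp : 0 < p := (Fact.out : p.Prime).pos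
  rw [← card_range (n / p + 1)]
  apply card_le_card_of_injOn (fun i : ZMod n => i.val / p)
  · intro i _
    simp only [coe_range, Set.mem_Iio]
    have := Nat.div_le_div_right (c := p) (ZMod.val_lt i).le
    omega
  · intro i hi j hj hij
    simp only [coe_filter, mem_univ, true_and, Set.mem_ofPred_eq] at hi hj hij
    obtain ⟨t, rfl⟩ : ∃ s, t = s + 1 := ⟨t - 1, by omega⟩
    have hw : word p (t + 1) i x = word p (t + 1) j x := hi.trans hj.symm
    rw [word, word, sum_range_succ', sum_range_succ'] at hw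
    have hs : ∑ k ∈ range t, ((i.val / p ^ (k + 1) : ℕ) : ZMod p) * x ^ (k + 1)
        = ∑ k ∈ range t, ((j.val / p ^ (k + 1) : ℕ) : ZMod p) * x ^ (k + 1) := by
      refine sum_congr rfl fun k _ => ?_
      rw [pow_succ p k, Nat.mul_comm, ← Nat.div_div_eq_div_mul, ← Nat.div_div_eq_div_mul, hij]
    rw [hs] at hw
    have h0 := add_left_cancel hw
    simp only [pow_zero, Nat.div_one, mul_one] at h0
    have h1 := (ZMod.natCast_eq_natCast_iff' _ _ _).1 h0
    apply ZMod.val_injective n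
    have e1 := Nat.div_add_mod i.val p
    have e2 := Nat.div_add_mod j.val p
    rw [← e1, ← e2, h1, hij]

end Word

section Sys

variable {n p t q d : ℕ} [NeZero n] [Fact p.Prime]

/-- The symbols of the code: position, value, residue. -/
abbrev Sym (q p d : ℕ) : Type := Fin q × ZMod p × ZMod (2 * d + 1)

/-- The set of an index: graph of its word together with its residue modulo 2d+1. -/
def US (q p t : ℕ) (hd : 2 * d + 1 ∣ n) (i : ZMod n) : Finset (Sym q p d) :=
  univ.map ⟨fun x : Fin q => (x, word p t i ((x : ℕ) : ZMod p), ZMod.castHom hd (ZMod (2 * d + 1)) i),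
    fun _ _ h => (Prod.mk.inj h).1⟩

theorem mem_US (hd : 2 * d + 1 ∣ n) (i : ZMod n) (w : Sym q p d) :
    w ∈ US q p t hd i ↔ word p t i ((w.1 : ℕ) : ZMod p) = w.2.1 ∧
      ZMod.castHom hd (ZMod (2 * d + 1)) i = w.2.2 := by
  obtain ⟨x, y, z⟩ := w
  unfold US
  rw [mem_map]
  constructor
  · rintro ⟨x', _, h⟩
    have h0 : (x', word p t i ((x' : ℕ) : ZMod p), ZMod.castHom hd (ZMod (2 * d + 1)) i) = (x, y, z) := h
    rw [Prod.mk.injEq, Prod.mk.injEq] at h0
    obtain ⟨rfl, h1, h2⟩ := h0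
    exact ⟨h1, h2⟩
  · rintro ⟨h1, h2⟩
    refine ⟨x, mem_univ _, ?_⟩
    exact Prod.ext rfl (Prod.ext h1 h2)

omit [NeZero n] [Fact p.Prime] in
theorem card_US (hd : 2 * d + 1 ∣ n) (i : ZMod n) : (US q p t hd i).card = q := by
  unfold US
  rw [card_map, card_univ, Fintype.card_fin]

theorem card_US_inter (hq : q ≤ p) (hn : n ≤ p ^ t) (hd : 2 * d + 1 ∣ n) {i j : ZMod n} (hij : i ≠ j) :
    (US q p t hd i ∩ US q p t hd j).card < t := by
  refine lt_of_le_of_lt ?_ (word_agree (p := p) hn hij)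
  apply card_le_card_of_injOn (fun w : Sym q p d => ((w.1 : ℕ) : ZMod p))
  · intro w hw
    simp only [coe_inter, Set.mem_inter_iff, mem_coe, mem_US] at hw
    simp only [coe_filter, mem_univ, true_and, Set.mem_ofPred_eq]
    rw [hw.1.1, hw.2.1]
  · intro w hw w' hw' h
    simp only [coe_inter, Set.mem_inter_iff, mem_coe, mem_US] at hw hw'
    have h1 : (w.1 : ℕ) = (w'.1 : ℕ) := by
      have h2 := (ZMod.natCast_eq_natCast_iff' _ _ _).1 h
      rwa [Nat.mod_eq_of_lt (lt_of_lt_of_le w.1.2 hq), Nat.mod_eq_of_lt (lt_of_lt_of_le w'.1.2 hq)] at h2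
    have h3 : w.1 = w'.1 := Fin.ext h1
    have h4 : w.2.1 = w'.2.1 := by rw [← hw.1.1, ← hw'.1.1, h3]
    have h5 : w.2.2 = w'.2.2 := by rw [← hw.1.2, ← hw'.1.2]
    exact Prod.ext h3 (Prod.ext h4 h5)

theorem cast_ne_zero (d : ℕ) (e : ℤ) (he : e ≠ 0) (he2 : |e| ≤ 2 * d) : ((e : ℤ) : ZMod (2 * d + 1)) ≠ 0 := by
  intro h
  rw [ZMod.intCast_zmod_eq_zero_iff_dvd] at h
  have h1 := Int.le_of_dvd (abs_pos.2 he) ((dvd_abs _ _).2 h)
  push_cast at h1
  omega

theorem US_disjoint (hd : 2 * d + 1 ∣ n) (i : ZMod n) (e : ℤ) (he : e ≠ 0) (he2 : |e| ≤ 2 * d) :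
    Disjoint (US q p t hd i) (US q p t hd (i + e)) := by
  rw [Finset.disjoint_left]
  intro w h1 h2
  rw [mem_US] at h1 h2
  have h3 := h1.2.trans h2.2.symm
  rw [map_add, map_intCast] at h3
  exact cast_ne_zero d e he he2 (by simpa using h3.symm)

theorem card_US_mem (ht : 0 < t) (hd : 2 * d + 1 ∣ n) (w : Sym q p d) :
    (univ.filter fun i : ZMod n => w ∈ US q p t hd i).card ≤ n / p + 1 := by
  refine le_trans (card_le_card ?_) (word_fibre (n := n) (p := p) ht ((w.1 : ℕ) : ZMod p) w.2.1)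
  intro i hi
  rw [mem_filter] at hi ⊢
  exact ⟨mem_univ _, ((mem_US hd i w).1 hi.2).1⟩

/-- Types. -/
abbrev Typ (n d : ℕ) : Type := ZMod n × Fin d

/-- Symbols of the types. -/
abbrev Om (d q p : ℕ) : Type := Fin d × Sym q p d

/-- The set of a type. -/
def UU (q p t : ℕ) (hd : 2 * d + 1 ∣ n) (a : Typ n d) : Finset (Om d q p) :=
  (US q p t hd a.1).map ⟨fun w => (a.2, w), fun _ _ h => (Prod.mk.inj h).2⟩

/-- The three lines of a type. -/
def line (r : Fin 3) (a : Typ n d) : ZMod n := a.1 + ((r : ℕ) : ZMod n) * ((a.2 : ℕ) : ZMod n)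

theorem mem_UU (hd : 2 * d + 1 ∣ n) (a : Typ n d) (w : Om d q p) :
    w ∈ UU q p t hd a ↔ w.1 = a.2 ∧ w.2 ∈ US q p t hd a.1 := by
  obtain ⟨l, w⟩ := w
  unfold UU
  rw [mem_map]
  constructor
  · rintro ⟨w', h, h2⟩
    have h0 : (a.2, w') = (l, w) := h2
    rw [Prod.mk.injEq] at h0
    obtain ⟨h3, rfl⟩ := h0
    exact ⟨h3.symm, h⟩
  · rintro ⟨h1, h2⟩
    refine ⟨w, h2, ?_⟩
    exact Prod.ext h1.symm rfl

theorem card_UU (hd : 2 * d + 1 ∣ n) (a : Typ n d) : (UU q p t hd a).card = q := by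
  unfold UU
  rw [card_map, card_US]

theorem card_UU_inter (hq : q ≤ p) (hn : n ≤ p ^ t) (ht : 0 < t) (hd : 2 * d + 1 ∣ n) {a b : Typ n d} (hab : a ≠ b) :
    (UU q p t hd a ∩ UU q p t hd b).card < t := by
  by_cases h1 : a.1 = b.1
  · have h2 : a.2 ≠ b.2 := fun h => hab (Prod.ext h1 h)
    have : UU q p t hd a ∩ UU q p t hd b = ∅ := by
      apply Finset.eq_empty_of_forall_notMem
      intro w hw
      rw [mem_inter, mem_UU, mem_UU] at hw
      exact h2 (hw.1.1.symm.trans hw.2.1)
    rw [this, card_empty]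
    exact ht
  · refine lt_of_le_of_lt ?_ (card_US_inter (q := q) hq hn hd h1)
    apply card_le_card_of_injOn (fun w : Om d q p => w.2)
    · intro w hw
      simp only [coe_inter, Set.mem_inter_iff, mem_coe, mem_UU] at hw ⊢
      exact ⟨hw.1.2, hw.2.2⟩
    · intro w hw w' hw' h
      simp only [coe_inter, Set.mem_inter_iff, mem_coe, mem_UU] at hw hw'
      exact Prod.ext (hw.1.1.trans hw'.1.1.symm) h

/-- The types whose set contains a given symbol. -/
def AA (q p t : ℕ) (hd : 2 * d + 1 ∣ n) (w : Om d q p) : Finset (Typ n d) :=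
  univ.filter fun a => w ∈ UU q p t hd a

theorem mem_AA (hd : 2 * d + 1 ∣ n) (w : Om d q p) (a : Typ n d) :
    a ∈ AA q p t hd w ↔ w.1 = a.2 ∧ w.2 ∈ US q p t hd a.1 := by
  unfold AA
  rw [mem_filter, mem_UU]
  simp

theorem card_AA (ht : 0 < t) (hd : 2 * d + 1 ∣ n) (w : Om d q p) :
    (AA (n := n) q p t hd w).card ≤ n / p + 1 := by
  refine le_trans ?_ (card_US_mem (n := n) (p := p) (q := q) ht hd w.2)
  apply card_le_card_of_injOn (fun a : Typ n d => a.1)
  · intro a ha
    rw [mem_coe, mem_AA] at ha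
    simp only [coe_filter, mem_univ, true_and, Set.mem_ofPred_eq]
    exact ha.2
  · intro a ha b hb h
    rw [mem_coe, mem_AA] at ha hb
    exact Prod.ext h (ha.1.symm.trans hb.1)

/-- All types which contain a given symbol have the same second coordinate. -/
theorem AA_snd (hd : 2 * d + 1 ∣ n) {w : Om d q p} {a : Typ n d} (ha : a ∈ AA q p t hd w) : a.2 = w.1 :=
  ((mem_AA hd w a).1 ha).1.symm

theorem AA_fst_inj (hd : 2 * d + 1 ∣ n) {w : Om d q p} {a b : Typ n d} (ha : a ∈ AA q p t hd w)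
    (hb : b ∈ AA q p t hd w) (h : a.1 = b.1) : a = b :=
  Prod.ext h ((AA_snd hd ha).trans (AA_snd hd hb).symm)

/-- The lines of the types in `AA w` are different in each of the three families. -/
theorem AA_line_inj (hd : 2 * d + 1 ∣ n) {w : Om d q p} {a b : Typ n d} (ha : a ∈ AA q p t hd w)
    (hb : b ∈ AA q p t hd w) {r : Fin 3} (h : line r a = line r b) : a = b := by
  apply AA_fst_inj hd ha hb
  unfold line at h
  rw [AA_snd hd ha, AA_snd hd hb] at h
  exact add_right_cancel h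

omit [NeZero n] in
theorem line_sub {r s : Fin 3} {a a' b : Typ n d} (haa : a.2 = a'.2)
    (h1 : line r a = line r b) (h2 : line s a' = line s b) :
    a'.1 = a.1 + (((((s : ℕ) : ℤ) - ((r : ℕ) : ℤ)) * (((b.2 : ℕ) : ℤ) - ((a.2 : ℕ) : ℤ)) : ℤ) : ZMod n) := by
  unfold line at h1 h2
  rw [← haa] at h2
  push_cast
  have e1 : a.1 = b.1 + ((r : ℕ) : ZMod n) * ((b.2 : ℕ) : ZMod n) - ((r : ℕ) : ZMod n) * ((a.2 : ℕ) : ZMod n) := by
    rw [← h1]; ring
  have e2 : a'.1 = b.1 + ((s : ℕ) : ZMod n) * ((b.2 : ℕ) : ZMod n) - ((s : ℕ) : ZMod n) * ((a.2 : ℕ) : ZMod n) := by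
    rw [← h2]; ring
  rw [e1, e2]; ring

theorem abs_aux (r s : Fin 3) (l m : Fin d) :
    |((((s : ℕ) : ℤ) - ((r : ℕ) : ℤ)) * (((m : ℕ) : ℤ) - ((l : ℕ) : ℤ)))| ≤ 2 * d := by
  rw [abs_mul]
  have h1 : |(((s : ℕ) : ℤ) - ((r : ℕ) : ℤ))| ≤ 2 := by
    have := r.2
    have := s.2
    rw [abs_le]
    constructor <;> omega
  have h2 : |(((m : ℕ) : ℤ) - ((l : ℕ) : ℤ))| ≤ d := by
    have := l.2
    have := m.2
    rw [abs_le]
    constructor <;> omega
  calc _ ≤ 2 * (d : ℤ) := mul_le_mul h1 h2 (abs_nonneg _) (by norm_num)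

theorem ne_aux {r s : Fin 3} (hrs : r ≠ s) {l m : Fin d} (hlm : l ≠ m) :
    ((((s : ℕ) : ℤ) - ((r : ℕ) : ℤ)) * (((m : ℕ) : ℤ) - ((l : ℕ) : ℤ))) ≠ 0 := by
  apply mul_ne_zero
  · intro h
    apply hrs
    apply Fin.ext
    omega
  · intro h
    apply hlm
    apply Fin.ext
    omega

/-- A type outside `AA w` shares at most one of its three lines with the types in `AA w`. -/
theorem AA_line (hd : 2 * d + 1 ∣ n) {w : Om d q p} {a a' b : Typ n d} (ha : a ∈ AA q p t hd w)
    (ha' : a' ∈ AA q p t hd w) {r s : Fin 3} (hrs : r ≠ s)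
    (h1 : line r a = line r b) (h2 : line s a' = line s b) : b ∈ AA q p t hd w := by
  have haa : a.2 = a'.2 := (AA_snd hd ha).trans (AA_snd hd ha').symm
  by_cases hl : a.2 = b.2
  · have : a = b := by
      refine Prod.ext ?_ hl
      unfold line at h1
      rw [hl] at h1
      exact add_right_cancel h1
    rw [← this]
    exact ha
  · exfalso
    have e := line_sub haa h1 h2
    have hdis := US_disjoint (q := q) (p := p) (t := t) hd a.1 _ (ne_aux hrs hl) (abs_aux r s a.2 b.2)
    rw [← e] at hdis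
    exact Finset.disjoint_left.1 hdis ((mem_AA hd w a).1 ha).2 ((mem_AA hd w a').1 ha').2

/-- Two different types share at most one line. -/
theorem line_linear (hd : 2 * d + 1 ∣ n) {a b : Typ n d} {r s : Fin 3} (hrs : r ≠ s)
    (h1 : line r a = line r b) (h2 : line s a = line s b) : a = b := by
  by_cases hl : a.2 = b.2
  · refine Prod.ext ?_ hl
    unfold line at h1
    rw [hl] at h1
    exact add_right_cancel h1
  · exfalso
    have e := line_sub rfl h1 h2
    have e2 : (((((s : ℕ) : ℤ) - ((r : ℕ) : ℤ)) * (((b.2 : ℕ) : ℤ) - ((a.2 : ℕ) : ℤ)) : ℤ) : ZMod n) = 0 := by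
      exact (add_eq_left.1 e.symm)
    have e3 := congrArg (ZMod.castHom hd (ZMod (2 * d + 1))) e2
    rw [map_intCast, map_zero] at e3
    exact cast_ne_zero d _ (ne_aux hrs hl) (abs_aux r s a.2 b.2) e3

end Sys

end Vale.Agent.P060.HW
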