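import Vale.Agent.P060.HW.Code

/-!
Set systems for the types (Design H3), second file: types meeting a common type, degrees,
equidistributed classes, parameters.
-/

namespace Vale.Agent.P060.HW

open Finset

section Meet

variable {n p t q d : ℕ} [NeZero n] [Fact p.Prime]

omit [NeZero n] in
/-- In one family, types with the same level and a common line are equal. -/
theorem line_inj_level {a b : Typ n d} {r : Fin 3} (hl : a.2 = b.2) (h : line r a = line r b) : a = b := by
  refine Prod.ext ?_ hl
  unfold line at h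
  rw [hl] at h
  exact add_right_cancel h

/-- Two different types which meetT a common type have disjoint sets. -/
theorem UU_disjoint_of_meet (hd : 2 * d + 1 ∣ n) {a b c : Typ n d} (hab : a ≠ b) {r s : Fin 3}
    (h1 : line r a = line r c) (h2 : line s b = line s c) :
    Disjoint (UU q p t hd a) (UU q p t hd b) := by
  rw [Finset.disjoint_left]
  intro w hwa hwb
  have ha : a ∈ AA q p t hd w := (mem_AA hd w a).2 ((mem_UU hd a w).1 hwa)
  have hb : b ∈ AA q p t hd w := (mem_AA hd w b).2 ((mem_UU hd b w).1 hwb)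
  by_cases hrs : r = s
  · subst hrs
    exact hab (AA_line_inj hd ha hb (h1.trans h2.symm))
  · have hc := AA_line hd ha hb hrs h1 h2
    exact hab ((AA_line_inj hd ha hc h1).trans (AA_line_inj hd hb hc h2).symm)

/-- Two different types which share a line have disjoint sets. -/
theorem UU_disjoint_of_share (hd : 2 * d + 1 ∣ n) {a b : Typ n d} (hab : a ≠ b) {r : Fin 3}
    (h : line r a = line r b) : Disjoint (UU q p t hd a) (UU q p t hd b) :=
  UU_disjoint_of_meet hd hab (c := b) (r := r) (s := r) h rfl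

/-- If `a, c` contain the symbol `w`, every type which meets `a` is line-disjoint from `c`. -/
theorem AA_far (hd : 2 * d + 1 ∣ n) {w : Om d q p} {a b c : Typ n d} (ha : a ∈ AA q p t hd w)
    (hc : c ∈ AA q p t hd w) (hac : a ≠ c) {r : Fin 3} (h : line r a = line r b) (s : Fin 3) :
    line s c ≠ line s b := by
  intro h2
  by_cases hrs : r = s
  · subst hrs
    exact hac (AA_line_inj hd ha hc (h.trans h2.symm))
  · have hb := AA_line hd ha hc hrs h h2
    exact hac ((AA_line_inj hd ha hb h).trans (AA_line_inj hd hc hb h2).symm)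

/-- The types whose set meets the set of a given type. -/
def near (q p t : ℕ) (hd : 2 * d + 1 ∣ n) (a : Typ n d) : Finset (Typ n d) :=
  univ.filter fun c => ¬ Disjoint (UU q p t hd c) (UU q p t hd a)

theorem near_level (hd : 2 * d + 1 ∣ n) {a c : Typ n d} (hc : c ∈ near q p t hd a) :
    c.2 = a.2 ∧ ZMod.castHom hd (ZMod (2 * d + 1)) c.1 = ZMod.castHom hd (ZMod (2 * d + 1)) a.1 := by
  have h := (mem_filter.1 hc).2
  rw [Finset.not_disjoint_iff] at h
  obtain ⟨w, h1, h2⟩ := h
  rw [mem_UU, mem_US] at h1 h2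
  exact ⟨h1.1.symm.trans h2.1, h1.2.2.trans h2.2.2.symm⟩

theorem near_line_inj (hd : 2 * d + 1 ∣ n) {a c c' : Typ n d} (hc : c ∈ near q p t hd a)
    (hc' : c' ∈ near q p t hd a) {r : Fin 3} (h : line r c = line r c') : c = c' :=
  line_inj_level ((near_level hd hc).1.trans (near_level hd hc').1.symm) h

/-- A type which shares lines of two families with `near a` is in `near a`. -/
theorem near_line (hd : 2 * d + 1 ∣ n) {a b c c' : Typ n d} (hc : c ∈ near q p t hd a)
    (hc' : c' ∈ near q p t hd a) {r s : Fin 3} (hrs : r ≠ s)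
    (h1 : line r c = line r b) (h2 : line s c' = line s b) : c = b ∧ c' = b := by
  have hcc : c.2 = c'.2 := (near_level hd hc).1.trans (near_level hd hc').1.symm
  by_cases hl : c.2 = b.2
  · exact ⟨line_inj_level hl h1, line_inj_level (hcc.symm.trans hl) h2⟩
  · exfalso
    have e := line_sub hcc h1 h2
    have e2 := congrArg (ZMod.castHom hd (ZMod (2 * d + 1))) e
    rw [map_add, map_intCast, (near_level hd hc).2, (near_level hd hc').2] at e2
    exact cast_ne_zero d _ (ne_aux hrs hl) (abs_aux r s c.2 b.2) (add_eq_left.1 e2.symm)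

/-- Every line is in exactly `d` types. -/
theorem card_line (r : Fin 3) (j : ZMod n) :
    (univ.filter fun a : Typ n d => line r a = j).card = d := by
  have : (univ.filter fun a : Typ n d => line r a = j)
      = univ.image (fun l : Fin d => ((j - ((r : ℕ) : ZMod n) * ((l : ℕ) : ZMod n), l) : Typ n d)) := by
    ext a
    simp only [mem_filter, mem_univ, true_and, mem_image]
    constructor
    · intro h
      refine ⟨a.2, ?_⟩
      refine Prod.ext ?_ rfl
      rw [← h]
      unfold line
      ring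
    · rintro ⟨l, rfl⟩
      unfold line
      ring
  rw [this, card_image_of_injective, card_univ, Fintype.card_fin]
  intro l m h
  exact (Prod.mk.inj h).2

/-- The types which meetT a given type. -/
def meetT (a : Typ n d) : Finset (Typ n d) :=
  univ.filter fun b => ∃ r : Fin 3, line r b = line r a

theorem card_meetT (a : Typ n d) : (meetT a).card ≤ 3 * d := by
  have : meetT a ⊆ (univ : Finset (Fin 3)).biUnion
      fun r => univ.filter fun b : Typ n d => line r b = line r a := by
    intro b hb
    obtain ⟨r, hr⟩ := (mem_filter.1 hb).2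
    rw [mem_biUnion]
    exact ⟨r, mem_univ _, mem_filter.2 ⟨mem_univ _, hr⟩⟩
  refine (card_le_card this).trans (card_biUnion_le.trans ?_)
  rw [sum_congr rfl fun r _ => card_line (d := d) r (line r a)]
  simp

theorem card_Om (d q p : ℕ) [NeZero p] : Fintype.card (Om d q p) = d * (q * (p * (2 * d + 1))) := by
  simp [ZMod.card]

theorem card_Typ (n d : ℕ) [NeZero n] : Fintype.card (Typ n d) = n * d := by
  simp [ZMod.card]

end Meet

section Gamma

/-- Equidistributed map from the residues modulo n onto a finite type whose size divides n. -/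
theorem exists_gamma {α : Type*} [Fintype α] [DecidableEq α] [Nonempty α] (n : ℕ) [NeZero n]
    (h : Fintype.card α ∣ n) :
    ∃ γ : ZMod n → α, ∀ a, (univ.filter fun j => γ j = a).card = n / Fintype.card α := by
  classical
  obtain ⟨m, hm⟩ := h
  have hc : 0 < Fintype.card α := Fintype.card_pos
  have hn : 0 < n := Nat.pos_of_ne_zero (NeZero.ne n)
  have e1 : Fintype.card (ZMod n) = Fintype.card (α × Fin m) := by
    rw [ZMod.card, Fintype.card_prod, Fintype.card_fin, ← hm]
  let e : ZMod n ≃ α × Fin m := Fintype.equivOfCardEq e1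
  refine ⟨fun j => (e j).1, fun a => ?_⟩
  have : (univ.filter fun j : ZMod n => (e j).1 = a).card
      = (univ.filter fun x : α × Fin m => x.1 = a).card := by
    apply card_bij (fun j _ => e j)
    · intro j hj
      rw [mem_filter] at hj ⊢
      exact ⟨mem_univ _, hj.2⟩
    · intro i _ j _ hij
      exact e.injective hij
    · intro x hx
      refine ⟨e.symm x, ?_, e.apply_symm_apply x⟩
      rw [mem_filter] at hx ⊢
      refine ⟨mem_univ _, ?_⟩
      rw [e.apply_symm_apply]
      exact hx.2
  rw [this]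
  have h2 : (univ.filter fun x : α × Fin m => x.1 = a) = ({a} : Finset α) ×ˢ (univ : Finset (Fin m)) := by
    ext ⟨x, y⟩
    rw [mem_filter, mem_product, mem_singleton]
    simp
  rw [h2, card_product, card_singleton, card_univ, Fintype.card_fin, one_mul, hm,
    Nat.mul_div_cancel_left _ hc]

/-- Number of maps which are not onto. -/
theorem card_not_surj (E β : Type*) [Fintype E] [DecidableEq E] [Fintype β] [DecidableEq β] :
    (univ.filter fun f : E → β => ¬ Function.Surjective f).card
      ≤ Fintype.card β * (Fintype.card β - 1) ^ Fintype.card E := by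
  have hsub : (univ.filter fun f : E → β => ¬ Function.Surjective f)
      ⊆ (univ : Finset β).biUnion fun b => Fintype.piFinset fun _ : E => univ.erase b := by
    intro f hf
    have h := (mem_filter.1 hf).2
    unfold Function.Surjective at h
    push Not at h
    obtain ⟨b, hb⟩ := h
    rw [mem_biUnion]
    refine ⟨b, mem_univ _, ?_⟩
    rw [Fintype.mem_piFinset]
    intro a
    exact mem_erase.2 ⟨hb a, mem_univ _⟩
  refine (card_le_card hsub).trans (card_biUnion_le.trans ?_)
  have h3 : ∀ b : β, (Fintype.piFinset fun _ : E => univ.erase b).card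
      = (Fintype.card β - 1) ^ Fintype.card E := by
    intro b
    rw [Fintype.card_piFinset, prod_const, card_univ, card_erase_of_mem (mem_univ b), card_univ]
  rw [sum_congr rfl fun b _ => h3 b, sum_const, card_univ, smul_eq_mul]

/-- Pairs of residues whose classes do not cover all pairs of values. -/
theorem card_pairs_not_surj {E Y : Type*} [Fintype E] [DecidableEq E] [Fintype Y] [DecidableEq Y]
    (n : ℕ) [NeZero n] (γ : ZMod n → E → Y) (m : ℕ)
    (hγ : ∀ a, (univ.filter fun j => γ j = a).card = m) :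
    (univ.filter fun x : ZMod n × ZMod n =>
        ¬ Function.Surjective fun e => (γ x.1 e, γ x.2 e)).card
      ≤ m ^ 2 * (Fintype.card Y ^ 2 * (Fintype.card Y ^ 2 - 1) ^ Fintype.card E) := by
  classical
  set B : Finset (E → Y × Y) := univ.filter fun f => ¬ Function.Surjective f with hB
  have hBc : B.card ≤ Fintype.card Y ^ 2 * (Fintype.card Y ^ 2 - 1) ^ Fintype.card E := by
    have := card_not_surj E (Y × Y)
    rwa [Fintype.card_prod, ← pow_two] at this
  have h1 : (univ.filter fun x : ZMod n × ZMod n =>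
        ¬ Function.Surjective fun e => (γ x.1 e, γ x.2 e)).card
      ≤ ∑ f ∈ B, m ^ 2 := by
    rw [card_eq_sum_card_fiberwise (f := fun x : ZMod n × ZMod n => fun e => (γ x.1 e, γ x.2 e)) (t := B)]
    · refine sum_le_sum fun f _ => ?_
      have hsub : ((univ.filter fun x : ZMod n × ZMod n =>
          ¬ Function.Surjective fun e => (γ x.1 e, γ x.2 e)).filter
            fun x => (fun e => (γ x.1 e, γ x.2 e)) = f)
          ⊆ (univ.filter fun j => γ j = fun e => (f e).1) ×ˢ (univ.filter fun j => γ j = fun e => (f e).2) := by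
        intro x hx
        have h := (mem_filter.1 hx).2
        rw [mem_product, mem_filter, mem_filter]
        refine ⟨⟨mem_univ _, ?_⟩, ⟨mem_univ _, ?_⟩⟩
        · funext e
          have := congrFun h e
          exact congrArg Prod.fst this
        · funext e
          have := congrFun h e
          exact congrArg Prod.snd this
      refine (card_le_card hsub).trans ?_
      rw [card_product, hγ, hγ, pow_two]
    · intro x hx
      rw [mem_coe, hB, mem_filter]
      rw [mem_coe, mem_filter] at hx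
      exact ⟨mem_univ _, hx.2⟩
  refine h1.trans ?_
  rw [sum_const, smul_eq_mul, Nat.mul_comm]
  exact Nat.mul_le_mul_left _ hBc

end Gamma

section Param

/-- Parameters, without asymptotics. -/
theorem exists_param (K d y Q P : ℕ) (hy : 0 < y) :
    ∃ n t q p : ℕ, p.Prime ∧ K ≤ n ∧ n ≤ K + (2 * d + 1) * y ∧ (2 * d + 1) * y ∣ n ∧
      0 < t ∧ n ≤ p ^ t ∧ 4 * t ≤ q ∧ Q ≤ q ∧ q ≤ p ∧ P ≤ p ∧
      q ≤ max Q (4 * (Nat.log 2 (K + (2 * d + 1) * y) + 1)) ∧ p ≤ 2 * max q P := by
  set M := (2 * d + 1) * y with hM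
  have hM0 : 0 < M := Nat.mul_pos (by omega) hy
  set n := M * (K / M + 1) with hn
  have h1 : K ≤ n := by
    have := Nat.lt_mul_div_succ K hM0
    rw [hn]
    exact this.le
  have h2 : n ≤ K + M := by
    rw [hn, Nat.mul_add, Nat.mul_one]
    exact Nat.add_le_add_right (Nat.mul_div_le K M) M
  set t := Nat.log 2 n + 1 with ht
  set q := max Q (4 * t) with hq
  have hq0 : 0 < max q P := by
    apply lt_max_of_lt_left
    rw [hq]
    apply lt_max_of_lt_right
    omega
  obtain ⟨p, hp, hp1, hp2⟩ := Nat.exists_prime_lt_and_le_two_mul (max q P) hq0.ne'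
  refine ⟨n, t, q, p, hp, h1, h2, Dvd.intro _ rfl, by omega, ?_, le_max_right _ _, le_max_left _ _,
    (le_max_left _ _).trans hp1.le, (le_max_right _ _).trans hp1.le, ?_, hp2⟩
  · calc n ≤ 2 ^ t := (Nat.lt_pow_succ_log_self (by norm_num) n).le
      _ ≤ p ^ t := Nat.pow_le_pow_left hp.two_le t
  · rw [hq]
    apply max_le_max le_rfl
    apply Nat.mul_le_mul_left
    rw [ht]
    exact Nat.succ_le_succ (Nat.log_mono_right h2)

theorem natLog_le (m : ℕ) (hm : 0 < m) : (Nat.log 2 m : ℝ) ≤ 3 / 2 * Real.log m := by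
  have h1 : (2 : ℝ) ^ (Nat.log 2 m) ≤ m := by
    exact_mod_cast Nat.pow_log_le_self 2 hm.ne'
  have h2 := Real.log_le_log (by positivity) h1
  rw [Real.log_pow] at h2
  have h3 : (2 : ℝ) / 3 ≤ Real.log 2 := by
    have := Real.log_two_gt_d9
    linarith
  have h4 : (0 : ℝ) ≤ Nat.log 2 m := Nat.cast_nonneg _
  nlinarith [mul_le_mul_of_nonneg_left h3 h4]

/-- Parameters for large `k`. -/
theorem params (D0 d y : ℕ) (C eps : ℝ) (hD0 : 0 < D0) (hy : 0 < y) (heps : 0 < eps) :
    ∃ k0 : ℕ, ∀ k : ℕ, k0 ≤ k → ∃ n t q p : ℕ, p.Prime ∧ D0 * k ≤ n ∧ n ≤ 2 * (D0 * k) ∧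
      (2 * d + 1) * y ∣ n ∧ 0 < n ∧ 0 < t ∧ n ≤ p ^ t ∧ 4 * t ≤ q ∧ C * Real.log k ≤ q ∧ q ≤ p ∧
      ((n / p + 1 : ℕ) : ℝ) ≤ eps * k ∧ (q : ℝ) ≤ (|C| + 8) * Real.log k ∧
      (Fintype.card (Fin d × Fin q × Fin p × Fin (2 * d + 1)) : ℝ) ≤ Real.log k ^ 3 := by
  set M := (2 * d + 1) * y with hM
  have hM0 : 0 < M := Nat.mul_pos (by omega) hy
  set P : ℕ := ⌈4 * D0 / eps⌉₊ with hP
  have hP1 : 4 * (D0 : ℝ) / eps ≤ P := Nat.le_ceil _
  set B : ℝ := |C| + 8 with hB
  have hB8 : 8 ≤ B := by rw [hB]; have := abs_nonneg C; linarith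
  set LL : ℝ := 1 + 6 * Real.log (2 * D0) + 4 + 2 * P + 3 * (d * (2 * d + 1)) * B ^ 2 with hLL
  have hD1 : (1 : ℝ) ≤ D0 := by exact_mod_cast hD0
  have hlog : 0 ≤ Real.log (2 * (D0 : ℝ)) := Real.log_nonneg (by linarith)
  have hdn : (0 : ℝ) ≤ (d : ℝ) := Nat.cast_nonneg _
  have hPn : (0 : ℝ) ≤ (P : ℝ) := Nat.cast_nonneg _
  have hdB : 0 ≤ 3 * ((d : ℝ) * (2 * d + 1)) * B ^ 2 := by positivity
  have hev : ∀ᶠ k : ℕ in Filter.atTop, LL ≤ Real.log k :=
    (Real.tendsto_log_atTop.comp tendsto_natCast_atTop_atTop).eventually_ge_atTop LL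
  have hev2 : ∀ᶠ k : ℕ in Filter.atTop, 2 / eps ≤ (k : ℝ) :=
    tendsto_natCast_atTop_atTop.eventually_ge_atTop (2 / eps)
  have hev3 : ∀ᶠ k : ℕ in Filter.atTop, M + 1 ≤ k := Filter.eventually_ge_atTop (M + 1)
  obtain ⟨k0, hk0⟩ := Filter.eventually_atTop.1 ((hev.and hev2).and hev3)
  refine ⟨k0, fun k hk => ?_⟩
  obtain ⟨⟨hL, hk2⟩, hkM⟩ := hk0 k hk
  have hL1 : 1 ≤ Real.log k := by linarith
  have hkpos : (0 : ℝ) < k := by
    have : 0 < k := by omega
    exact_mod_cast this
  obtain ⟨n, t, q, p, hp, h1, h2, h3, ht, h4, h5, h6, h7, h8, h9, h10⟩ :=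
    exists_param (D0 * k) d y ⌈C * Real.log k⌉₊ P hy
  have hkD : k ≤ D0 * k := Nat.le_mul_of_pos_left k hD0
  have hn2 : n ≤ 2 * (D0 * k) := by
    have : n ≤ D0 * k + M := h2
    omega
  have hn0 : 0 < n := by omega
  have hq : (q : ℝ) ≤ B * Real.log k := by
    have e1 : ((max ⌈C * Real.log k⌉₊ (4 * (Nat.log 2 (D0 * k + M) + 1)) : ℕ) : ℝ) ≤ B * Real.log k := by
      rw [Nat.cast_max]
      apply max_le
      · have f1 : C * Real.log k ≤ |C| * Real.log k :=
          mul_le_mul_of_nonneg_right (le_abs_self C) (by linarith)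
        have f2 : ((⌈C * Real.log k⌉₊ : ℕ) : ℝ) ≤ |C| * Real.log k + 1 := by
          refine (Nat.cast_le.2 (Nat.ceil_mono f1)).trans ?_
          exact (Nat.ceil_lt_add_one (by positivity)).le
        rw [hB, add_mul]
        linarith
      · push_cast
        have f1 : ((Nat.log 2 (D0 * k + M) : ℕ) : ℝ) ≤ 3 / 2 * (Real.log (2 * D0) + Real.log k) := by
          refine (natLog_le _ (by omega)).trans ?_
          rw [← Real.log_mul (by positivity) hkpos.ne']
          apply mul_le_mul_of_nonneg_left _ (by norm_num)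
          apply Real.log_le_log
          · have : 0 < D0 * k + M := by omega
            exact_mod_cast this
          · have : D0 * k + M ≤ 2 * D0 * k := by
              rw [Nat.mul_assoc]
              omega
            exact_mod_cast this
        have f2 : 7 * Real.log k ≤ B * Real.log k :=
          mul_le_mul_of_nonneg_right (by linarith) (by linarith)
        linarith
    exact (Nat.cast_le.2 h9).trans e1
  have hpR : (p : ℝ) ≤ 3 * B * Real.log k := by
    have e1 : ((2 * max q P : ℕ) : ℝ) ≤ 3 * B * Real.log k := by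
      push_cast
      have e2 : max (q : ℝ) (P : ℝ) ≤ B * Real.log k := by
        apply max_le hq
        have : (8 : ℝ) * Real.log k ≤ B * Real.log k := mul_le_mul_of_nonneg_right hB8 (by linarith)
        linarith
      have e3 : 0 ≤ B * Real.log k := by positivity
      linarith
    exact (Nat.cast_le.2 h10).trans e1
  refine ⟨n, t, q, p, hp, h1, hn2, h3, hn0, ht, h4, h5, (Nat.le_ceil _).trans (Nat.cast_le.2 h6), h7,
    ?_, hq, ?_⟩
  · have hp0 : (0 : ℝ) < p := by exact_mod_cast hp.pos
    have e1 : ((n / p : ℕ) : ℝ) ≤ eps * k / 2 := by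
      refine Nat.cast_div_le.trans ?_
      rw [div_le_iff₀ hp0]
      have f1 : (n : ℝ) ≤ 2 * (D0 * k) := by exact_mod_cast hn2
      have f2 : 4 * (D0 : ℝ) / eps ≤ p := hP1.trans (Nat.cast_le.2 h8)
      rw [div_le_iff₀ heps] at f2
      have f3 : 4 * (D0 : ℝ) * k ≤ p * eps * k := mul_le_mul_of_nonneg_right f2 hkpos.le
      linarith
    have e2 : 1 ≤ eps * k / 2 := by
      rw [div_le_iff₀ heps] at hk2
      linarith
    push_cast
    linarith
  · have e1 : (Fintype.card (Fin d × Fin q × Fin p × Fin (2 * d + 1)) : ℝ)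
        = (d * (2 * d + 1)) * (q * p) := by
      simp only [Fintype.card_prod, Fintype.card_fin]
      push_cast
      ring
    rw [e1]
    have e2 : (q : ℝ) * p ≤ (B * Real.log k) * (3 * B * Real.log k) :=
      mul_le_mul hq hpR (Nat.cast_nonneg _) (by positivity)
    have e3 : ((d : ℝ) * (2 * d + 1)) * (q * p) ≤ (d * (2 * d + 1)) * ((B * Real.log k) * (3 * B * Real.log k)) :=
      mul_le_mul_of_nonneg_left e2 (by positivity)
    refine e3.trans ?_
    have e4 : ((d : ℝ) * (2 * d + 1)) * ((B * Real.log k) * (3 * B * Real.log k))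
        = (3 * (d * (2 * d + 1)) * B ^ 2) * Real.log k ^ 2 := by ring
    rw [e4, pow_succ (Real.log k) 2, mul_comm]
    apply mul_le_mul_of_nonneg_left _ (by positivity)
    linarith

end Param

end Vale.Agent.P060.HW
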