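import Mathlib

/-! Explicit combinatorics of Design H3 (types, lines, zero rows). No random vectors here. -/

namespace Vale.Agent.P060.HW.CB

/-! ### Types and their lines -/

/-- Types: index `i` in `ZMod n`, colour `l < d`. -/
abbrev Ty (n d : ℕ) := ZMod n × Fin d

/-- Index of the line of family `s` in the type `a = (i, l)`: it is `i + s l`. -/
def ln {n d : ℕ} (a : Ty n d) (s : Fin 3) : ZMod n :=
  a.1 + (((s : ℕ) * (a.2 : ℕ) : ℕ) : ZMod n)

/-- The unique type of colour `l` through the line `j` of family `s`. -/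
def tyOf {n d : ℕ} (s : Fin 3) (j : ZMod n) (l : Fin d) : Ty n d :=
  (j - (((s : ℕ) * (l : ℕ) : ℕ) : ZMod n), l)

@[simp] theorem ln_zero {n d : ℕ} (a : Ty n d) : ln a 0 = a.1 := by simp [ln]

@[simp] theorem tyOf_snd {n d : ℕ} (s : Fin 3) (j : ZMod n) (l : Fin d) :
    (tyOf s j l).2 = l := rfl

@[simp] theorem ln_tyOf {n d : ℕ} (s : Fin 3) (j : ZMod n) (l : Fin d) :
    ln (tyOf s j l) s = j := by simp [ln, tyOf]

theorem tyOf_ln {n d : ℕ} (a : Ty n d) (s : Fin 3) : tyOf s (ln a s) a.2 = a := by
  simp [ln, tyOf]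

theorem eq_tyOf {n d : ℕ} {a : Ty n d} {s : Fin 3} {j : ZMod n} (h : ln a s = j) :
    a = tyOf s j a.2 := by rw [← h, tyOf_ln]

/-- Types of the same colour are line-disjoint. -/
theorem eq_of_ln_eq_of_snd {n d : ℕ} {a b : Ty n d} {s : Fin 3} (h : ln a s = ln b s)
    (hl : a.2 = b.2) : a = b := by
  rw [← tyOf_ln a s, ← tyOf_ln b s, h, hl]

theorem tyOf_inj {n d : ℕ} (s : Fin 3) (l : Fin d) : Function.Injective
    (fun j : ZMod n => tyOf s j l) := by
  intro j j' h
  have := congrArg (fun a => ln a s) h
  simpa using this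

/-- Each line is in exactly `d` types. -/
theorem card_types_line {n d : ℕ} [NeZero n] (s : Fin 3) (j : ZMod n) :
    (Finset.univ.filter fun a : Ty n d => ln a s = j).card = d := by
  have h : (Finset.univ.filter fun a : Ty n d => ln a s = j) =
      Finset.univ.image (fun l : Fin d => (tyOf s j l : Ty n d)) := by
    ext a
    simp only [Finset.mem_filter, Finset.mem_univ, true_and, Finset.mem_image]
    constructor
    · intro h
      exact ⟨a.2, (eq_tyOf h).symm⟩
    · rintro ⟨l, rfl⟩
      simp
  rw [h, Finset.card_image_of_injective, Finset.card_univ, Fintype.card_fin]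
  intro l l' hl
  have := congrArg Prod.snd hl
  simpa using this

/-- Each colour class of types is indexed by the lines of any family. -/
theorem card_types_colour {n d : ℕ} [NeZero n] (l : Fin d) :
    (Finset.univ.filter fun a : Ty n d => a.2 = l).card = n := by
  have h : (Finset.univ.filter fun a : Ty n d => a.2 = l) =
      Finset.univ.image (fun j : ZMod n => (tyOf 0 j l : Ty n d)) := by
    ext a
    simp only [Finset.mem_filter, Finset.mem_univ, true_and, Finset.mem_image]
    constructor
    · rintro rfl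
      exact ⟨ln a 0, tyOf_ln a 0⟩
    · rintro ⟨j, rfl⟩
      simp
  rw [h, Finset.card_image_of_injective _ (tyOf_inj 0 l), Finset.card_univ, ZMod.card]

theorem card_types {n d : ℕ} [NeZero n] : Fintype.card (Ty n d) = n * d := by
  simp [Ty, ZMod.card]

/-- A small integer which vanishes modulo `n` vanishes. -/
theorem int_small_zero {n : ℕ} {x : ℤ} (hx : |x| < n) (h : (x : ZMod n) = 0) : x = 0 := by
  rw [ZMod.intCast_zmod_eq_zero_iff_dvd] at h
  exact Int.eq_zero_of_abs_lt_dvd h hx

theorem abs_mul_small {d : ℕ} (s s' : Fin 3) (l l' : Fin d) :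
    |(((s : ℕ) : ℤ) - ((s' : ℕ) : ℤ)) * (((l : ℕ) : ℤ) - ((l' : ℕ) : ℤ))| < 2 * (d : ℤ) := by
  rw [abs_mul]
  have h1 : |(((s : ℕ) : ℤ) - ((s' : ℕ) : ℤ))| ≤ 2 := by
    have := s.2
    have := s'.2
    rw [abs_le]
    omega
  have h2 : |(((l : ℕ) : ℤ) - ((l' : ℕ) : ℤ))| ≤ (d : ℤ) - 1 := by
    have := l.2
    have := l'.2
    rw [abs_le]
    omega
  have h3 : 0 ≤ |(((l : ℕ) : ℤ) - ((l' : ℕ) : ℤ))| := abs_nonneg _
  nlinarith

/-- (C1) Two different types share at most one line. -/
theorem ln_inj_two {n d : ℕ} (hn : 2 * d ≤ n) {a b : Ty n d} {s s' : Fin 3} (hss : s ≠ s')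
    (h : ln a s = ln b s) (h' : ln a s' = ln b s') : a = b := by
  have h1 : ((((((s : ℕ) : ℤ) - ((s' : ℕ) : ℤ)) * (((a.2 : ℕ) : ℤ) - ((b.2 : ℕ) : ℤ)) : ℤ)) :
      ZMod n) = 0 := by
    simp only [ln] at h h'
    push_cast at h h' ⊢
    linear_combination h - h'
  have h2 := int_small_zero (lt_of_lt_of_le (abs_mul_small s s' a.2 b.2) (by exact_mod_cast hn)) h1
  rcases mul_eq_zero.1 h2 with h3 | h3
  · exfalso
    apply hss
    apply Fin.ext
    omega
  · exact eq_of_ln_eq_of_snd h (Fin.ext (by omega))

/-- Two types meet when they share a line (or are equal). -/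
def Meets {n d : ℕ} (a b : Ty n d) : Prop := ∃ s, ln a s = ln b s

theorem Meets.refl {n d : ℕ} (a : Ty n d) : Meets a a := ⟨0, rfl⟩

theorem Meets.symm {n d : ℕ} {a b : Ty n d} (h : Meets a b) : Meets b a := by
  obtain ⟨s, hs⟩ := h
  exact ⟨s, hs.symm⟩

/-! ### Reed-Solomon words -/

/-- Word of the number `x`: the polynomial whose coefficients are the `s` lowest base-`q` digits. -/
def cw (q s x : ℕ) (t : ZMod q) : ZMod q :=
  ∑ j ∈ Finset.range s, ((x / q ^ j % q : ℕ) : ZMod q) * t ^ j

/-- Numbers below `q ^ s` are determined by their `s` lowest digits. -/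
theorem eq_of_digits {q : ℕ} (hq : 0 < q) : ∀ (s x y : ℕ), x < q ^ s → y < q ^ s →
    (∀ j < s, x / q ^ j % q = y / q ^ j % q) → x = y := by
  intro s
  induction s with
  | zero =>
    intro x y hx hy _
    simp at hx hy
    omega
  | succ s ih =>
    intro x y hx hy h
    have h0 := h 0 (Nat.succ_pos s)
    simp at h0
    have h1 : x / q = y / q := by
      apply ih
      · exact Nat.div_lt_of_lt_mul (by rw [pow_succ, mul_comm] at hx; exact hx)
      · exact Nat.div_lt_of_lt_mul (by rw [pow_succ, mul_comm] at hy; exact hy)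
      · intro j hj
        have := h (j + 1) (by omega)
        rw [Nat.div_div_eq_div_mul, Nat.div_div_eq_div_mul]
        rw [pow_succ, mul_comm] at this
        exact this
    rw [← Nat.div_add_mod x q, ← Nat.div_add_mod y q, h0, h1]

/-- Two different words agree in at most `s - 1` points. -/
theorem card_cw_eq_le {q s : ℕ} [Fact q.Prime] {x y : ℕ} (hx : x < q ^ s) (hy : y < q ^ s)
    (hxy : x ≠ y) : (Finset.univ.filter fun t : ZMod q => cw q s x t = cw q s y t).card ≤ s - 1 := by
  classical
  have hq : 0 < q := (Fact.out : q.Prime).pos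
  set p : Polynomial (ZMod q) := ∑ j ∈ Finset.range s,
    Polynomial.C (((x / q ^ j % q : ℕ) : ZMod q) - ((y / q ^ j % q : ℕ) : ZMod q)) *
      Polynomial.X ^ j with hp
  have hcoef : ∀ j < s, p.coeff j = ((x / q ^ j % q : ℕ) : ZMod q) - ((y / q ^ j % q : ℕ) : ZMod q) := by
    intro j hj
    rw [hp, Polynomial.finsetSum_coeff]
    simp only [Polynomial.coeff_C_mul, Polynomial.coeff_X_pow]
    rw [Finset.sum_eq_single j]
    · simp
    · intro b _ hb
      simp [Ne.symm hb]
    · intro h
      exact absurd (Finset.mem_range.2 hj) h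
  have hp0 : p ≠ 0 := by
    intro h0
    apply hxy
    apply eq_of_digits hq s x y hx hy
    intro j hj
    have h1 := hcoef j hj
    rw [h0, Polynomial.coeff_zero] at h1
    have h2 : ((x / q ^ j % q : ℕ) : ZMod q) = ((y / q ^ j % q : ℕ) : ZMod q) := by
      rw [eq_comm, sub_eq_zero] at h1
      exact h1
    rw [ZMod.natCast_eq_natCast_iff'] at h2
    simpa [Nat.mod_mod] using h2
  have hdeg : p.natDegree ≤ s - 1 := by
    rw [Polynomial.natDegree_le_iff_coeff_eq_zero]
    intro j hj
    rw [hp, Polynomial.finsetSum_coeff]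
    apply Finset.sum_eq_zero
    intro b hb
    have hb' : b < s := Finset.mem_range.1 hb
    rw [Polynomial.coeff_C_mul, Polynomial.coeff_X_pow, if_neg (by omega), mul_zero]
  calc (Finset.univ.filter fun t : ZMod q => cw q s x t = cw q s y t).card
      ≤ p.roots.toFinset.card := by
        apply Finset.card_le_card
        intro t ht
        rw [Finset.mem_filter] at ht
        rw [Multiset.mem_toFinset, Polynomial.mem_roots hp0, Polynomial.IsRoot.def, hp,
          Polynomial.eval_finsetSum]
        simp only [Polynomial.eval_mul, Polynomial.eval_C, Polynomial.eval_pow, Polynomial.eval_X,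
          sub_mul, Finset.sum_sub_distrib]
        rw [sub_eq_zero]
        exact ht.2
    _ ≤ Multiset.card p.roots := Multiset.toFinset_card_le _
    _ ≤ p.natDegree := Polynomial.card_roots' p
    _ ≤ s - 1 := hdeg

/-- At most `q ^ (s-1)` words have a given value at a given point. -/
theorem card_cw_value_le {q s : ℕ} [Fact q.Prime] (hs : 0 < s) (t v : ZMod q) :
    ((Finset.range (q ^ s)).filter fun x => cw q s x t = v).card ≤ q ^ (s - 1) := by
  classical
  have hq : 0 < q := (Fact.out : q.Prime).pos
  obtain ⟨s, rfl⟩ : ∃ s', s = s' + 1 := ⟨s - 1, by omega⟩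
  simp only [Nat.add_sub_cancel]
  have key : ∀ x, cw q (s + 1) x t = ((x % q : ℕ) : ZMod q) + t * cw q s (x / q) t := by
    intro x
    unfold cw
    rw [Finset.sum_range_succ']
    simp only [pow_zero, Nat.div_one, mul_one]
    rw [add_comm, Finset.mul_sum]
    congr 1
    apply Finset.sum_congr rfl
    intro j _
    rw [Nat.div_div_eq_div_mul, pow_succ q j, mul_comm (q ^ j) q, pow_succ]
    ring
  calc ((Finset.range (q ^ (s + 1))).filter fun x => cw q (s + 1) x t = v).card
      ≤ (Finset.range (q ^ s)).card := by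
        apply Finset.card_le_card_of_injOn (fun x => x / q)
        · intro x hx
          simp only [Finset.coe_filter, Finset.mem_range, Set.mem_ofPred_eq] at hx
          simp only [Finset.coe_range, Set.mem_Iio]
          apply Nat.div_lt_of_lt_mul
          rw [mul_comm, ← pow_succ]
          exact hx.1
        · intro x hx y hy hxy
          simp only [Finset.coe_filter, Finset.mem_range, Set.mem_ofPred_eq] at hx hy
          simp only at hxy
          have h1 := hx.2
          have h2 := hy.2
          rw [key] at h1 h2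
          rw [hxy] at h1
          have h3 : ((x % q : ℕ) : ZMod q) = ((y % q : ℕ) : ZMod q) := by
            have := h1.trans h2.symm
            exact add_right_cancel this
          rw [ZMod.natCast_eq_natCast_iff'] at h3
          simp only [Nat.mod_mod] at h3
          rw [← Nat.div_add_mod x q, ← Nat.div_add_mod y q, h3, hxy]
    _ = q ^ s := Finset.card_range _

end Vale.Agent.P060.HW.CB
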