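import Mathlib

/-!
P060-HW: the explicit combinatorial part of the design (no randomness).
Index sets `Om`, zero row sets `U c`, types `(i, l)`, lines.
-/

set_option autoImplicit false

namespace Vale.Agent.P060.HW.Combi

open Finset Polynomial

/-! ### Reed-Solomon words from base `Q` digits -/

section RS

variable (Q : ℕ)

/-- the `e`-th base `Q` digit of `j`, in `ZMod Q`. -/
def dig (e j : ℕ) : ZMod Q := ((j / Q ^ e : ℕ) : ZMod Q)

/-- the polynomial with the first `D` digits of `j`, evaluated at `t`. -/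
def ev (D j : ℕ) (t : ZMod Q) : ZMod Q := ∑ e ∈ range D, dig Q e j * t ^ e

lemma dig_succ (e j : ℕ) : dig Q (e + 1) j = dig Q e (j / Q) := by
  unfold dig
  rw [Nat.div_div_eq_div_mul, pow_succ, mul_comm]

lemma dig_zero (j : ℕ) : dig Q 0 j = (j : ZMod Q) := by
  simp [dig]

lemma eq_of_cast_div {j j' : ℕ} (h0 : (j : ZMod Q) = (j' : ZMod Q)) (h1 : j / Q = j' / Q) :
    j = j' := by
  have h2 : j % Q = j' % Q := (ZMod.natCast_eq_natCast_iff' j j' Q).1 h0
  rw [← Nat.div_add_mod j Q, ← Nat.div_add_mod j' Q, h1, h2]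

lemma dig_ext : ∀ (D j j' : ℕ), j < Q ^ D → j' < Q ^ D →
    (∀ e < D, dig Q e j = dig Q e j') → j = j' := by
  intro D
  induction D with
  | zero =>
    intro j j' h h' _
    simp only [pow_zero, Nat.lt_one_iff] at h h'
    omega
  | succ D ih =>
    intro j j' h h' hd
    have h0 := hd 0 (Nat.succ_pos D)
    rw [dig_zero, dig_zero] at h0
    refine eq_of_cast_div Q h0 (ih _ _ ?_ ?_ ?_)
    · exact Nat.div_lt_of_lt_mul (by rwa [pow_succ, mul_comm] at h)
    · exact Nat.div_lt_of_lt_mul (by rwa [pow_succ, mul_comm] at h')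
    · intro e he
      have := hd (e + 1) (by omega)
      rwa [dig_succ, dig_succ] at this

lemma ev_succ (D j : ℕ) (t : ZMod Q) :
    ev Q (D + 1) j t = (j : ZMod Q) + t * ev Q D (j / Q) t := by
  unfold ev
  rw [Finset.sum_range_succ']
  simp only [dig_zero, pow_zero, mul_one, dig_succ]
  rw [add_comm, Finset.mul_sum]
  congr 1
  refine Finset.sum_congr rfl fun e _ => ?_
  ring

lemma eq_of_ev_eq {D j j' : ℕ} {t : ZMod Q} (h : ev Q (D + 1) j t = ev Q (D + 1) j' t)
    (h1 : j / Q = j' / Q) : j = j' := by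
  rw [ev_succ, ev_succ, h1] at h
  exact eq_of_cast_div Q (add_right_cancel h) h1

/-- the number of `j < n` with prescribed value at `t` is at most `n / Q + 1`. -/
lemma card_ev_le (D n : ℕ) (t s : ZMod Q) :
    ((range n).filter fun j => ev Q (D + 1) j t = s).card ≤ n / Q + 1 := by
  have hinj : Set.InjOn (fun j : ℕ => j / Q)
      (((range n).filter fun j => ev Q (D + 1) j t = s : Finset ℕ) : Set ℕ) := by
    intro j hj j' hj' h
    simp only [coe_filter, mem_range, Set.mem_ofPred_eq] at hj hj'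
    exact eq_of_ev_eq Q (hj.2.trans hj'.2.symm) h
  rw [← Finset.card_image_of_injOn hinj]
  calc _ ≤ (range (n / Q + 1)).card := by
        refine Finset.card_le_card fun x hx => ?_
        simp only [mem_image, mem_filter, mem_range] at hx ⊢
        obtain ⟨j, ⟨hj, _⟩, rfl⟩ := hx
        exact Nat.lt_succ_of_le (Nat.div_le_div_right hj.le)
    _ = _ := by simp

lemma card_ev_lt (D n : ℕ) (t s : ZMod Q) (hn : 0 < n) :
    ((range n).filter fun j => ev Q (D + 1) j t = s).card ≤ (n - 1) / Q + 1 := by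
  have hinj : Set.InjOn (fun j : ℕ => j / Q)
      (((range n).filter fun j => ev Q (D + 1) j t = s : Finset ℕ) : Set ℕ) := by
    intro j hj j' hj' h
    simp only [coe_filter, mem_range, Set.mem_ofPred_eq] at hj hj'
    exact eq_of_ev_eq Q (hj.2.trans hj'.2.symm) h
  rw [← Finset.card_image_of_injOn hinj]
  calc _ ≤ (range ((n - 1) / Q + 1)).card := by
        refine Finset.card_le_card fun x hx => ?_
        simp only [mem_image, mem_filter, mem_range] at hx ⊢
        obtain ⟨j, ⟨hj, _⟩, rfl⟩ := hx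
        exact Nat.lt_succ_of_le (Nat.div_le_div_right (by omega))
    _ = _ := by simp

variable [Fact Q.Prime]

/-- two different words agree in at most `D - 1` places. -/
lemma card_agree_le (D j j' : ℕ) (hj : j < Q ^ (D + 1)) (hj' : j' < Q ^ (D + 1)) (hne : j ≠ j') :
    ((univ : Finset (ZMod Q)).filter fun t => ev Q (D + 1) j t = ev Q (D + 1) j' t).card ≤ D := by
  classical
  set p : (ZMod Q)[X] := ∑ e ∈ range (D + 1), C (dig Q e j - dig Q e j') * X ^ e with hp
  have hcoeff : ∀ e < D + 1, p.coeff e = dig Q e j - dig Q e j' := by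
    intro e he
    rw [hp, finsetSum_coeff]
    simp only [coeff_C_mul, coeff_X_pow, mul_ite, mul_one, mul_zero]
    rw [Finset.sum_ite_eq]
    simp [he]
  have hp0 : p ≠ 0 := by
    intro h0
    apply hne
    refine dig_ext Q (D + 1) j j' hj hj' fun e he => ?_
    have := hcoeff e he
    rw [h0, coeff_zero] at this
    exact (sub_eq_zero.1 this.symm)
  have hdeg : p.natDegree ≤ D := by
    rw [hp]
    refine natDegree_sum_le_of_forall_le _ _ fun e he => ?_
    refine (natDegree_C_mul_X_pow_le _ _).trans ?_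
    simp only [mem_range] at he
    omega
  have heval : ∀ t, p.eval t = ev Q (D + 1) j t - ev Q (D + 1) j' t := by
    intro t
    rw [hp, eval_finsetSum]
    unfold ev
    rw [← Finset.sum_sub_distrib]
    refine Finset.sum_congr rfl fun e _ => ?_
    simp only [eval_mul, eval_C, eval_pow, eval_X]
    ring
  calc _ ≤ p.roots.toFinset.card := by
        refine Finset.card_le_card fun t ht => ?_
        simp only [mem_filter, mem_univ, true_and] at ht
        rw [Multiset.mem_toFinset, mem_roots hp0, IsRoot.def, heval, ht, sub_self]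
    _ ≤ Multiset.card p.roots := Multiset.toFinset_card_le _
    _ ≤ p.natDegree := card_roots' p
    _ ≤ D := hdeg

end RS

/-! ### The sets `U'_i` -/

section Up

variable (Q M D N : ℕ) [Fact Q.Prime] [NeZero M] [NeZero N]

/-- the row labels of one layer -/
abbrev Om' : Type := ZMod Q × ZMod Q × ZMod M

/-- `U'_i` : graph of the word of `i / M`, together with the residue of `i` mod `M`. -/
def Up (i : ZMod N) : Finset (Om' Q M) :=
  (univ : Finset (ZMod Q)).image fun t => (t, ev Q (D + 1) (i.val / M) t, (i.val : ZMod M))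

variable {Q M D N}

lemma mem_Up {i : ZMod N} {w : Om' Q M} :
    w ∈ Up Q M D N i ↔ w.2.1 = ev Q (D + 1) (i.val / M) w.1 ∧ w.2.2 = (i.val : ZMod M) := by
  unfold Up
  simp only [mem_image, mem_univ, true_and]
  constructor
  · rintro ⟨t, rfl⟩
    exact ⟨rfl, rfl⟩
  · rintro ⟨h1, h2⟩
    exact ⟨w.1, by rw [← h1, ← h2]⟩

lemma card_Up (i : ZMod N) : (Up Q M D N i).card = Q := by
  unfold Up
  rw [Finset.card_image_of_injective _ (fun t t' h => (Prod.ext_iff.1 h).1), card_univ, ZMod.card]

lemma cast_eq_of_mem {i j : ZMod N} {w : Om' Q M} (hi : w ∈ Up Q M D N i)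
    (hj : w ∈ Up Q M D N j) : (i.val : ZMod M) = (j.val : ZMod M) :=
  (mem_Up.1 hi).2.symm.trans (mem_Up.1 hj).2

lemma card_Up_inter_le {i j : ZMod N} (hne : i ≠ j) (hN : N ≤ M * Q ^ (D + 1)) :
    (Up Q M D N i ∩ Up Q M D N j).card ≤ D := by
  classical
  by_cases hc : (i.val : ZMod M) = (j.val : ZMod M)
  · have hlt : ∀ a : ZMod N, a.val / M < Q ^ (D + 1) := fun a =>
      Nat.div_lt_of_lt_mul ((ZMod.val_lt a).trans_le hN)
    have hq : i.val / M ≠ j.val / M := by
      intro h
      exact hne (ZMod.val_injective N (eq_of_cast_div M hc h))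
    refine le_trans ?_ (card_agree_le Q D _ _ (hlt i) (hlt j) hq)
    refine Finset.card_le_card_of_injOn (fun w => w.1) ?_ ?_
    · intro w hw
      simp only [coe_inter, Set.mem_inter_iff, mem_coe] at hw
      simp only [coe_filter, mem_univ, true_and, Set.mem_ofPred_eq]
      rw [← (mem_Up.1 hw.1).1, ← (mem_Up.1 hw.2).1]
    · intro w hw w' hw' h
      simp only [coe_inter, Set.mem_inter_iff, mem_coe] at hw hw'
      have h1 := mem_Up.1 hw.1
      have h2 := mem_Up.1 hw'.1
      simp only at h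
      exact Prod.ext h (Prod.ext (by rw [h1.1, h2.1, h]) (by rw [h1.2, h2.2]))
  · rw [Finset.card_eq_zero.2 ?_]
    · exact Nat.zero_le _
    · rw [Finset.eq_empty_iff_forall_notMem]
      intro w hw
      rw [mem_inter] at hw
      exact hc (cast_eq_of_mem hw.1 hw.2)

lemma dvd_val_div (hM : M ∣ N) (i : ZMod N) : i.val / M < N / M := by
  obtain ⟨c, hc⟩ := hM
  have hMpos : 0 < M := Nat.pos_of_ne_zero (NeZero.ne M)
  have h := ZMod.val_lt i
  subst hc
  rw [Nat.mul_div_cancel_left c hMpos]
  exact Nat.div_lt_of_lt_mul h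

/-- a row belongs to few of the `U'_i`. -/
lemma card_mem_Up_le (hM : M ∣ N) (w : Om' Q M) :
    ((univ : Finset (ZMod N)).filter fun i => w ∈ Up Q M D N i).card ≤ (N / M) / Q + 1 := by
  classical
  refine le_trans ?_ (card_ev_le Q D (N / M) w.1 w.2.1)
  refine Finset.card_le_card_of_injOn (fun i : ZMod N => i.val / M) ?_ ?_
  · intro i hi
    simp only [coe_filter, mem_univ, true_and, Set.mem_ofPred_eq] at hi
    simp only [coe_filter, mem_range, Set.mem_ofPred_eq]
    exact ⟨dvd_val_div hM i, (mem_Up.1 hi).1.symm⟩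
  · intro i hi j hj h
    simp only [coe_filter, mem_univ, true_and, Set.mem_ofPred_eq] at hi hj
    exact ZMod.val_injective N (eq_of_cast_div M (cast_eq_of_mem hi hj) h)

end Up

/-! ### Types, lines, rows -/

section Types

variable {Q M D N d : ℕ} [Fact Q.Prime] [NeZero M] [NeZero N]

/-- types `(i, l)` -/
abbrev Ty (N d : ℕ) : Type := ZMod N × Fin d

/-- line number `s` of the type `c = (i, l)` is `i + s l`. -/
def ln (c : Ty N d) (s : Fin 3) : ZMod N := c.1 + ((s.val * c.2.val : ℕ) : ZMod N)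

/-- the residue of `i` mod `M` -/
def res (M : ℕ) (i : ZMod N) : ZMod M := (i.val : ZMod M)

lemma res_ln (hM : M ∣ N) (c : Ty N d) (s : Fin 3) :
    res M (ln c s) = res M c.1 + ((s.val * c.2.val : ℕ) : ZMod M) := by
  have h : ∀ i : ZMod N, res M i = ZMod.castHom hM (ZMod M) i := by
    intro i
    rw [ZMod.castHom_apply, res, ZMod.natCast_val]
  rw [h, h, ln, map_add, map_natCast]

/-- two different types share at most one line -/
lemma eq_of_share_two (hd : 2 * d ≤ N) {c c' : Ty N d} {s s' : Fin 3} (hs : s ≠ s')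
    (h : ln c s = ln c' s) (h' : ln c s' = ln c' s') : c = c' := by
  obtain ⟨i, l⟩ := c
  obtain ⟨i', l'⟩ := c'
  unfold ln at h h'
  simp only at h h'
  have hlt : ∀ a : Fin d, 2 * a.val < N := fun a => by have := a.isLt; omega
  have hlt1 : ∀ a : Fin d, a.val < N := fun a => by have := a.isLt; omega
  have key : ∀ m n : ℕ, m < N → n < N → (m : ZMod N) = (n : ZMod N) → m = n := by
    intro m n hm hn hmn
    have := (ZMod.natCast_eq_natCast_iff' m n N).1 hmn
    rwa [Nat.mod_eq_of_lt hm, Nat.mod_eq_of_lt hn] at this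
  have hl : l = l' := by
    have e1 : ((l.val : ℕ) : ZMod N) = (l'.val : ZMod N) ∨
        ((2 * l.val : ℕ) : ZMod N) = ((2 * l'.val : ℕ) : ZMod N) := by
      fin_cases s <;> fin_cases s' <;> simp at hs h h' ⊢
      · subst h; left; simpa using h'
      · subst h; right; simpa using h'
      · subst h'; left; simpa using h
      · left; linear_combination h' - h
      · subst h'; right; simpa using h
      · left; linear_combination h - h'
    rcases e1 with e | e
    · exact Fin.ext (key _ _ (hlt1 l) (hlt1 l') e)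
    · have := key _ _ (hlt l) (hlt l') e
      exact Fin.ext (by omega)
  subst hl
  rw [add_right_cancel h]

/-- same direction and a shared line : same type -/
lemma eq_of_share_of_dir {c c' : Ty N d} {s : Fin 3} (h : ln c s = ln c' s) (hl : c.2 = c'.2) :
    c = c' := by
  unfold ln at h
  rw [hl] at h
  exact Prod.ext (add_right_cancel h) hl

/-- a type `b` which shares two lines (of different families) with two types `c, c'` of the
same direction and the same residue is equal to both. -/
lemma eq_of_share_cls (hM : M ∣ N) (hMd : 2 * d ≤ M) {b c c' : Ty N d} {s s' : Fin 3}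
    (hs : s ≠ s') (hdir : c.2 = c'.2) (hres : res M c.1 = res M c'.1)
    (h : ln b s = ln c s) (h' : ln b s' = ln c' s') : b = c ∧ b = c' := by
  have hb : b.2 = c.2 := by
    have e1 := congrArg (res M) h
    have e2 := congrArg (res M) h'
    rw [res_ln hM, res_ln hM] at e1 e2
    rw [← hdir, ← hres] at e2
    have e3 : (((s.val : ℤ) - s'.val) * ((b.2.val : ℤ) - c.2.val) : ℤ) ≡ 0 [ZMOD M] := by
      rw [← ZMod.intCast_eq_intCast_iff]
      push_cast at e1 e2 ⊢
      linear_combination e1 - e2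
    have hdvd := (Int.modEq_zero_iff_dvd).1 e3
    have hb1 := b.2.isLt
    have hc1 := c.2.isLt
    have hne : ((s.val : ℤ) - s'.val) ≠ 0 := by
      intro h0
      exact hs (Fin.ext (by omega))
    have habs : |((s.val : ℤ) - s'.val) * ((b.2.val : ℤ) - c.2.val)| < M := by
      rw [abs_mul]
      have h1 : |((s.val : ℤ) - s'.val)| ≤ 2 := by
        have := s.isLt
        have := s'.isLt
        rw [abs_le]
        constructor <;> omega
      have h2 : |((b.2.val : ℤ) - c.2.val)| < d := by
        rw [abs_lt]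
        constructor <;> omega
      have h3 : (0 : ℤ) ≤ |((b.2.val : ℤ) - c.2.val)| := abs_nonneg _
      have h4 : (2 * d : ℤ) ≤ M := by exact_mod_cast hMd
      nlinarith [abs_nonneg ((s.val : ℤ) - s'.val)]
    have h0 := Int.eq_zero_of_abs_lt_dvd hdvd habs
    rcases mul_eq_zero.1 h0 with h0 | h0
    · exact absurd h0 hne
    · exact Fin.ext (by omega)
  exact ⟨eq_of_share_of_dir h hb, eq_of_share_of_dir h' (hb.trans hdir)⟩

/-- all row labels -/
abbrev Om (Q M d : ℕ) : Type := Fin d × Om' Q M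

variable (Q M D) in
/-- the zero rows of the type `c` -/
def U (c : Ty N d) : Finset (Om Q M d) := (Up Q M D N c.1).image fun w => (c.2, w)

lemma mem_U {c : Ty N d} {w : Om Q M d} :
    w ∈ U Q M D c ↔ w.1 = c.2 ∧ w.2 ∈ Up Q M D N c.1 := by
  unfold U
  simp only [mem_image]
  constructor
  · rintro ⟨x, hx, rfl⟩
    exact ⟨rfl, hx⟩
  · rintro ⟨h1, h2⟩
    exact ⟨w.2, h2, by rw [← h1]⟩

lemma dir_of_mem {c : Ty N d} {w : Om Q M d} (h : w ∈ U Q M D c) : c.2 = w.1 :=
  (mem_U.1 h).1.symm

lemma res_of_mem {c : Ty N d} {w : Om Q M d} (h : w ∈ U Q M D c) : res M c.1 = w.2.2.2 :=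
  (mem_Up.1 (mem_U.1 h).2).2.symm

/-- `|U_c| = Q`. -/
lemma card_U (c : Ty N d) : (U Q M D c).card = Q := by
  unfold U
  rw [Finset.card_image_of_injective _ (fun a b h => (Prod.ext_iff.1 h).2), card_Up]

/-- `|U_c ∩ U_c'| ≤ D` for `c ≠ c'`. -/
lemma card_U_inter_le {c c' : Ty N d} (hne : c ≠ c') (hN : N ≤ M * Q ^ (D + 1)) :
    (U Q M D c ∩ U Q M D c').card ≤ D := by
  classical
  by_cases hl : c.2 = c'.2
  · have hi : c.1 ≠ c'.1 := fun h => hne (Prod.ext h hl)
    refine le_trans ?_ (card_Up_inter_le (Q := Q) (M := M) (D := D) hi hN)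
    refine Finset.card_le_card_of_injOn (fun w => w.2) ?_ ?_
    · intro w hw
      simp only [coe_inter, Set.mem_inter_iff, mem_coe] at hw ⊢
      exact ⟨(mem_U.1 hw.1).2, (mem_U.1 hw.2).2⟩
    · intro w hw w' hw' h
      simp only [coe_inter, Set.mem_inter_iff, mem_coe] at hw hw'
      exact Prod.ext ((mem_U.1 hw.1).1.trans (mem_U.1 hw'.1).1.symm) h
  · rw [Finset.card_eq_zero.2 ?_]
    · exact Nat.zero_le _
    · rw [Finset.eq_empty_iff_forall_notMem]
      intro w hw
      rw [mem_inter] at hw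
      exact hl ((dir_of_mem hw.1).trans (dir_of_mem hw.2).symm)

/-- different types which share a line have disjoint zero rows. -/
lemma disjoint_U_of_share {c c' : Ty N d} {s : Fin 3} (hne : c ≠ c') (h : ln c s = ln c' s) :
    Disjoint (U Q M D c) (U Q M D c') := by
  rw [Finset.disjoint_left]
  intro w hw hw'
  exact hne (eq_of_share_of_dir h ((dir_of_mem hw).trans (dir_of_mem hw').symm))

/-- types whose zero rows meet : same direction and residue, and if they are different they
have no line in common. -/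
lemma cls_of_meet {c c' : Ty N d} (h : (U Q M D c ∩ U Q M D c').Nonempty) :
    c.2 = c'.2 ∧ res M c.1 = res M c'.1 ∧ (c ≠ c' → ∀ s, ln c s ≠ ln c' s) := by
  obtain ⟨w, hw⟩ := h
  rw [mem_inter] at hw
  refine ⟨(dir_of_mem hw.1).trans (dir_of_mem hw.2).symm,
    (res_of_mem hw.1).trans (res_of_mem hw.2).symm, fun hne s hs => ?_⟩
  exact hne (eq_of_share_of_dir hs ((dir_of_mem hw.1).trans (dir_of_mem hw.2).symm))

/-- the types with zero row `w`. -/
def A (D : ℕ) (w : Om Q M d) : Finset (Ty N d) := univ.filter fun c => w ∈ U Q M D c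

lemma mem_A {w : Om Q M d} {c : Ty N d} : c ∈ A (N := N) D w ↔ w ∈ U Q M D c := by
  simp [A]

lemma card_A_le (hM : M ∣ N) (w : Om Q M d) :
    (A (N := N) D w).card ≤ (N / M) / Q + 1 := by
  classical
  refine le_trans ?_ (card_mem_Up_le (Q := Q) (D := D) hM w.2)
  refine Finset.card_le_card_of_injOn (fun c => c.1) ?_ ?_
  · intro c hc
    simp only [mem_coe, mem_A] at hc
    simp only [coe_filter, mem_univ, true_and, Set.mem_ofPred_eq]
    exact (mem_U.1 hc).2
  · intro c hc c' hc' h
    simp only [mem_coe, mem_A] at hc hc'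
    exact Prod.ext h ((dir_of_mem hc).trans (dir_of_mem hc').symm)

/-- `A_w` is line-disjoint -/
lemma A_line_disjoint {w : Om Q M d} {c c' : Ty N d} (hc : c ∈ A (N := N) D w)
    (hc' : c' ∈ A (N := N) D w) (hne : c ≠ c') (s : Fin 3) : ln c s ≠ ln c' s := by
  rw [mem_A] at hc hc'
  intro h
  exact hne (eq_of_share_of_dir h ((dir_of_mem hc).trans (dir_of_mem hc').symm))

/-- a type outside `A_w` shares lines of at most one family with the types of `A_w`. -/
lemma A_private (hM : M ∣ N) (hMd : 2 * d ≤ M) {w : Om Q M d} {b c c' : Ty N d} {s s' : Fin 3}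
    (hc : c ∈ A (N := N) D w) (hc' : c' ∈ A (N := N) D w) (hb : b ∉ A (N := N) D w)
    (h : ln b s = ln c s) (h' : ln b s' = ln c' s') : s = s' := by
  by_contra hs
  have hcc := mem_A.1 hc
  have hcc' := mem_A.1 hc'
  have := eq_of_share_cls hM hMd hs ((dir_of_mem hcc).trans (dir_of_mem hcc').symm)
    ((res_of_mem hcc).trans (res_of_mem hcc').symm) h h'
  exact hb (this.1 ▸ hc)

/-- the types whose zero rows meet those of `a`. -/
def AA (D : ℕ) (a : Ty N d) (Q M : ℕ) [Fact Q.Prime] [NeZero M] : Finset (Ty N d) := by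
  classical exact univ.filter fun c => (U Q M D a ∩ U Q M D c).Nonempty

lemma mem_AA {a c : Ty N d} : c ∈ AA D a Q M ↔ (U Q M D a ∩ U Q M D c).Nonempty := by
  simp [AA]

lemma AA_cls {a c : Ty N d} (h : c ∈ AA D a Q M) : c.2 = a.2 ∧ res M c.1 = res M a.1 := by
  have := cls_of_meet (mem_AA.1 h)
  exact ⟨this.1.symm, this.2.1.symm⟩

lemma AA_line_disjoint {a c c' : Ty N d} (hc : c ∈ AA D a Q M) (hc' : c' ∈ AA D a Q M)
    (hne : c ≠ c') (s : Fin 3) : ln c s ≠ ln c' s := fun h =>
  hne (eq_of_share_of_dir h ((AA_cls hc).1.trans (AA_cls hc').1.symm))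

lemma AA_private (hM : M ∣ N) (hMd : 2 * d ≤ M) {a b c c' : Ty N d} {s s' : Fin 3}
    (hc : c ∈ AA D a Q M) (hc' : c' ∈ AA D a Q M) (hb : b ∉ AA D a Q M)
    (h : ln b s = ln c s) (h' : ln b s' = ln c' s') : s = s' := by
  by_contra hs
  have := eq_of_share_cls hM hMd hs ((AA_cls hc).1.trans (AA_cls hc').1.symm)
    ((AA_cls hc).2.trans (AA_cls hc').2.symm) h h'
  exact hb (this.1 ▸ hc)

lemma card_AA_le (hM : M ∣ N) (a : Ty N d) : (AA D a Q M).card ≤ N / M := by
  classical
  have h1 : (AA D a Q M).card ≤ (range (N / M)).card := by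
    refine Finset.card_le_card_of_injOn (fun c => c.1.val / M) ?_ ?_
    · intro c _
      simp only [coe_range, Set.mem_Iio]
      exact dvd_val_div hM c.1
    · intro c hc c' hc' h
      have h2 := AA_cls hc
      have h3 := AA_cls hc'
      exact Prod.ext (ZMod.val_injective N (eq_of_cast_div M (h2.2.trans h3.2.symm) h))
        (h2.1.trans h3.1.symm)
  simpa using h1

end Types

/-! ### Choice of the prime -/

lemma exists_Q (N X : ℕ) (hX : 4 * Nat.log 2 N + 4 ≤ X) :
    ∃ Q, Q.Prime ∧ X < Q ∧ Q ≤ 2 * X ∧ N ≤ Q ^ (Q / 4 + 1) ∧ 4 * (Q / 4) ≤ Q := by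
  obtain ⟨Q, hQ, h1, h2⟩ := Nat.exists_prime_lt_and_le_two_mul X (by omega)
  refine ⟨Q, hQ, h1, h2, ?_, Nat.mul_div_le Q 4⟩
  have h3 : N < 2 ^ (Nat.log 2 N + 1) := Nat.lt_pow_succ_log_self (by norm_num) N
  have h4 : Nat.log 2 N + 1 ≤ Q / 4 + 1 := by omega
  calc N ≤ 2 ^ (Nat.log 2 N + 1) := h3.le
    _ ≤ 2 ^ (Q / 4 + 1) := Nat.pow_le_pow_right (by norm_num) h4
    _ ≤ Q ^ (Q / 4 + 1) := Nat.pow_le_pow_left hQ.two_le _

end Vale.Agent.P060.HW.Combi
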