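import Vale.Agent.P060.HW.Count2

/-!
# Conditioning the coupling on the labels (type, bit)
-/

open scoped Classical

noncomputable section

set_option linter.unusedSectionVars false

namespace Vale.Agent.P060.HW

namespace Design

variable {K T : Type*} [Fintype K] [Fintype T] (δ : Design K T)

/-- Labels. -/
abbrev Lb (T : Type*) := T × Bool

/-- The label of a vertex. -/
def lb (x : Vtx K T) : Lb T := (x.1, x.2.1)

/-- The mass of a pair of labels. -/
def mass (ν : Vtx K T → Vtx K T → ℝ) (α : Lb T × Lb T) : ℝ :=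
  ∑ x, ∑ x', if lb x = α.1 ∧ lb x' = α.2 then ν x x' else 0

lemma mass_nonneg {ν : Vtx K T → Vtx K T → ℝ} (h0 : ∀ x y, 0 ≤ ν x y) (α : Lb T × Lb T) :
    0 ≤ mass ν α := Finset.sum_nonneg fun x _ => Finset.sum_nonneg fun x' _ => by
  split_ifs; exacts [h0 _ _, le_rfl]

lemma sum_mass (ν : Vtx K T → Vtx K T → ℝ) : ∑ α, mass ν α = ∑ x, ∑ x', ν x x' := by
  unfold mass
  rw [Finset.sum_comm]
  refine Finset.sum_congr rfl fun x _ => ?_
  rw [Finset.sum_comm]
  refine Finset.sum_congr rfl fun x' _ => ?_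
  rw [Finset.sum_eq_single (lb x, lb x')]
  · simp
  · intro α _ hα
    rw [if_neg]
    rintro ⟨h1, h2⟩
    exact hα (Prod.ext h1.symm h2.symm)
  · intro h; exact absurd (Finset.mem_univ _) h

/-- **Selection of the labels.** -/
theorem exists_types (ν : Vtx K T → Vtx K T → ℝ) (h0 : ∀ x y, 0 ≤ ν x y)
    (h1 : ∑ x, ∑ y, ν x y = 1) [Nonempty T]
    (Good : Vtx K T → Vtx K T → Vtx K T → Vtx K T → Prop)
    (hG : 1 / 40 ≤ ∑ x, ∑ x', ∑ y, ∑ y', (if Good x x' y y' then ν x x' * ν y y' else 0))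
    (Bad : Lb T × Lb T → Lb T × Lb T → Prop)
    (hBad : ∑ α, ∑ β, (if Bad α β then mass ν α * mass ν β else 0) ≤ 1 / 100) :
    ∃ α β, ¬ Bad α β ∧ 1 / (400 * (Fintype.card (Lb T) : ℝ) ^ 2) ≤ mass ν α ∧
      1 / (400 * (Fintype.card (Lb T) : ℝ) ^ 2) ≤ mass ν β ∧
      1 / 200 * (mass ν α * mass ν β) ≤ ∑ x, ∑ x', ∑ y, ∑ y',
        (if Good x x' y y' ∧ (lb x = α.1 ∧ lb x' = α.2) ∧ (lb y = β.1 ∧ lb y' = β.2)
          then ν x x' * ν y y' else 0) := by
  by_contra hcon
  push Not at hcon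
  set G : Lb T × Lb T → Lb T × Lb T → ℝ := fun α β => ∑ x, ∑ x', ∑ y, ∑ y',
        (if Good x x' y y' ∧ (lb x = α.1 ∧ lb x' = α.2) ∧ (lb y = β.1 ∧ lb y' = β.2)
          then ν x x' * ν y y' else 0) with hGdef
  set s : ℝ := 1 / (400 * (Fintype.card (Lb T) : ℝ) ^ 2) with hs
  have hcard : (0 : ℝ) < Fintype.card (Lb T) := by exact_mod_cast Fintype.card_pos
  have hm := mass_nonneg h0
  -- the total
  have htot : ∑ x, ∑ x', ∑ y, ∑ y', (if Good x x' y y' then ν x x' * ν y y' else 0)
      = ∑ α, ∑ β, G α β := by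
    have e1 : ∀ x x' y y', (if Good x x' y y' then ν x x' * ν y y' else 0)
        = ∑ α : Lb T × Lb T, ∑ β : Lb T × Lb T,
          (if Good x x' y y' ∧ (lb x = α.1 ∧ lb x' = α.2) ∧ (lb y = β.1 ∧ lb y' = β.2)
          then ν x x' * ν y y' else 0) := by
      intro x x' y y'
      rw [Finset.sum_eq_single (lb x, lb x'), Finset.sum_eq_single (lb y, lb y')]
      · by_cases h : Good x x' y y' <;> simp [h]
      · intro β _ hβ
        rw [if_neg]
        rintro ⟨-, -, h3, h4⟩
        exact hβ (Prod.ext h3.symm h4.symm)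
      · intro h; exact absurd (Finset.mem_univ _) h
      · intro α _ hα
        refine Finset.sum_eq_zero fun β _ => ?_
        rw [if_neg]
        rintro ⟨-, ⟨h3, h4⟩, -⟩
        exact hα (Prod.ext h3.symm h4.symm)
      · intro h; exact absurd (Finset.mem_univ _) h
    have e2 : ∀ x x', ∑ y, ∑ y', (if Good x x' y y' then ν x x' * ν y y' else 0)
        = ∑ α : Lb T × Lb T, ∑ β : Lb T × Lb T, ∑ y, ∑ y',
          (if Good x x' y y' ∧ (lb x = α.1 ∧ lb x' = α.2) ∧ (lb y = β.1 ∧ lb y' = β.2)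
          then ν x x' * ν y y' else 0) := by
      intro x x'
      simp only [e1]
      rw [Finset.sum_congr rfl fun y _ => Finset.sum_comm, Finset.sum_comm]
      refine Finset.sum_congr rfl fun α _ => ?_
      rw [Finset.sum_congr rfl fun y _ => Finset.sum_comm, Finset.sum_comm]
    simp only [e2]
    rw [Finset.sum_congr rfl fun x _ => Finset.sum_comm, Finset.sum_comm]
    refine Finset.sum_congr rfl fun α _ => ?_
    rw [Finset.sum_congr rfl fun x _ => Finset.sum_comm, Finset.sum_comm]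
  have hGle : ∀ α β, G α β ≤ mass ν α * mass ν β := by
    intro α β
    unfold mass
    simp only [hGdef]
    rw [Finset.sum_mul]
    refine Finset.sum_le_sum fun x _ => ?_
    rw [Finset.sum_mul]
    refine Finset.sum_le_sum fun x' _ => ?_
    rw [Finset.mul_sum]
    refine Finset.sum_le_sum fun y _ => ?_
    rw [Finset.mul_sum]
    refine Finset.sum_le_sum fun y' _ => ?_
    by_cases ha : lb x = α.1 ∧ lb x' = α.2
    · by_cases hb : lb y = β.1 ∧ lb y' = β.2
      · rw [if_pos ha, if_pos hb]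
        split_ifs
        · exact le_rfl
        · exact mul_nonneg (h0 _ _) (h0 _ _)
      · rw [if_neg hb, mul_zero, if_neg]
        rintro ⟨-, -, h⟩; exact hb h
    · rw [if_neg ha, zero_mul, if_neg]
      rintro ⟨-, h, -⟩; exact ha h
  have hpt : ∀ α β, G α β ≤ (if Bad α β then mass ν α * mass ν β else 0)
      + s * mass ν β + s * mass ν α + 1 / 200 * (mass ν α * mass ν β) := by
    intro α β
    have hmm : 0 ≤ mass ν α * mass ν β := mul_nonneg (hm _) (hm _)
    have hs0 : 0 ≤ s := by positivity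
    have p1 : 0 ≤ s * mass ν β := mul_nonneg hs0 (hm _)
    have p2 : 0 ≤ s * mass ν α := mul_nonneg hs0 (hm _)
    have hG2 := hGle α β
    by_cases hb : Bad α β
    · rw [if_pos hb]; linarith
    · rw [if_neg hb]
      by_cases ha1 : s ≤ mass ν α
      · by_cases hb1 : s ≤ mass ν β
        · have := hcon α β hb ha1 hb1
          linarith
        · have : mass ν α * mass ν β ≤ mass ν α * s :=
            mul_le_mul_of_nonneg_left (not_le.1 hb1).le (hm _)
          linarith
      · have : mass ν α * mass ν β ≤ s * mass ν β :=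
          mul_le_mul_of_nonneg_right (not_le.1 ha1).le (hm _)
        linarith
  have hsum := Finset.sum_le_sum (s := Finset.univ) fun α _ =>
    Finset.sum_le_sum (s := Finset.univ) fun β _ => hpt α β
  rw [← htot] at hsum
  have hM : ∑ α, mass ν α = 1 := by rw [sum_mass, h1]
  have hcc : (Fintype.card (Lb T × Lb T) : ℝ) = (Fintype.card (Lb T) : ℝ) ^ 2 := by
    rw [Fintype.card_prod]; push_cast; ring
  have e3 : ∑ _α : Lb T × Lb T, ∑ β : Lb T × Lb T, s * mass ν β = 1 / 400 := by
    rw [Finset.sum_const, nsmul_eq_mul, Finset.card_univ, hcc, ← Finset.mul_sum, hM, hs]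
    field_simp
  have e4 : ∑ α : Lb T × Lb T, ∑ _β : Lb T × Lb T, s * mass ν α = 1 / 400 := by
    simp only [Finset.sum_const, nsmul_eq_mul, Finset.card_univ]
    rw [← Finset.mul_sum, hcc, ← Finset.mul_sum, hM, hs]
    field_simp
  have e5 : ∑ α : Lb T × Lb T, ∑ β : Lb T × Lb T, 1 / 200 * (mass ν α * mass ν β) = 1 / 200 := by
    simp only [← Finset.mul_sum]
    rw [hM]
    simp only [mul_one]
    rw [hM, mul_one]
  simp only [Finset.sum_add_distrib] at hsum
  rw [e3, e4, e5] at hsum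
  linarith

/-- The conditional law of the pair of vertices given the labels. -/
def condP (ν : Vtx K T → Vtx K T → ℝ) (h0 : ∀ x y, 0 ≤ ν x y) (α : Lb T × Lb T)
    (hα : 0 < mass ν α) : FinProb (Vtx K T × Vtx K T) where
  w z := if lb z.1 = α.1 ∧ lb z.2 = α.2 then ν z.1 z.2 / mass ν α else 0
  nonneg z := by
    split_ifs
    · exact div_nonneg (h0 _ _) hα.le
    · exact le_rfl
  sum_one := by
    rw [Fintype.sum_prod_type]
    have : ∀ x x' : Vtx K T, (if lb x = α.1 ∧ lb x' = α.2 then ν x x' / mass ν α else 0)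
        = (if lb x = α.1 ∧ lb x' = α.2 then ν x x' else 0) / mass ν α := by
      intro x x'; split_ifs <;> simp
    simp only [this, ← Finset.sum_div]
    exact div_self hα.ne'

lemma condP_w (ν : Vtx K T → Vtx K T → ℝ) (h0 : ∀ x y, 0 ≤ ν x y) (α : Lb T × Lb T)
    (hα : 0 < mass ν α) (z : Vtx K T × Vtx K T) : (condP ν h0 α hα).w z
      = if lb z.1 = α.1 ∧ lb z.2 = α.2 then ν z.1 z.2 / mass ν α else 0 := rfl

/-- The size of the fibres of the form map. -/
lemma card_fiber (a : T) (D : δ.Dir a) :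
    ((Finset.univ.filter (fun m : Matrix K K F => δ.proj a m = D)).card : ℝ)
      * Fintype.card (δ.Dir a) = Fintype.card (Matrix K K F) := by
  have hfib : ∀ D' : δ.Dir a, (Finset.univ.filter (fun m : Matrix K K F => δ.proj a m = D')).card
      = (Finset.univ.filter (fun m : Matrix K K F => δ.proj a m = D)).card := by
    intro D'
    refine Finset.card_bij' (fun m _ => m + ((D : Matrix K K F) - (D' : Matrix K K F)))
      (fun m _ => m - ((D : Matrix K K F) - (D' : Matrix K K F))) ?_ ?_ ?_ ?_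
    · intro m hm
      rw [Finset.mem_filter] at hm ⊢
      refine ⟨Finset.mem_univ _, ?_⟩
      rw [map_add, map_sub, hm.2, δ.proj_apply, δ.proj_apply]
      abel
    · intro m hm
      rw [Finset.mem_filter] at hm ⊢
      refine ⟨Finset.mem_univ _, ?_⟩
      rw [map_sub, map_sub, hm.2, δ.proj_apply, δ.proj_apply]
      abel
    · intro m _; simp
    · intro m _; simp
  have h := Finset.card_eq_sum_card_fiberwise (f := δ.proj a)
    (s := (Finset.univ : Finset (Matrix K K F))) (t := Finset.univ)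
    (fun _ _ => Finset.mem_coe.2 (Finset.mem_univ _))
  rw [Finset.sum_congr rfl fun D' _ => hfib D', Finset.sum_const, Finset.card_univ,
    Finset.card_univ, smul_eq_mul] at h
  rw [h]
  push_cast
  ring

lemma card_frm_le (a : T) (ι : Bool) (B : Matrix K K F) :
    ((Finset.univ.filter (fun x : Vtx K T => lb x = (a, ι) ∧ δ.frm x = B)).card : ℝ)
      * Fintype.card (δ.Dir a) ≤ Fintype.card (Matrix K K F) := by
  by_cases hB : ∃ D : δ.Dir a, (if ι then δ.B0 a else 0) + (D : Matrix K K F) = B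
  · obtain ⟨D, hD⟩ := hB
    rw [← δ.card_fiber a D]
    refine mul_le_mul_of_nonneg_right ?_ (Nat.cast_nonneg _)
    norm_cast
    refine Finset.card_le_card_of_injOn (fun x => x.2.2) ?_ ?_
    · intro x hx
      rw [Finset.mem_coe, Finset.mem_filter] at hx ⊢
      obtain ⟨-, hl, hf⟩ := hx
      refine ⟨Finset.mem_univ _, ?_⟩
      obtain ⟨x1, x2, x3⟩ := x
      simp only [lb, Prod.mk.injEq] at hl
      obtain ⟨rfl, rfl⟩ := hl
      apply Subtype.ext
      unfold frm at hf
      simp only at hf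
      rw [← hD] at hf
      exact add_left_cancel hf
    · intro x hx y hy hxy
      rw [Finset.mem_coe, Finset.mem_filter] at hx hy
      obtain ⟨-, hl, -⟩ := hx
      obtain ⟨-, hl', -⟩ := hy
      obtain ⟨x1, x2, x3⟩ := x
      obtain ⟨y1, y2, y3⟩ := y
      simp only [lb, Prod.mk.injEq] at hl hl'
      simp only at hxy
      rw [hl.1, hl.2, hl'.1, hl'.2, hxy]
  · have : Finset.univ.filter (fun x : Vtx K T => lb x = (a, ι) ∧ δ.frm x = B) = ∅ := by
      rw [Finset.filter_eq_empty_iff]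
      rintro ⟨x1, x2, x3⟩ _ ⟨hl, hf⟩
      simp only [lb, Prod.mk.injEq] at hl
      obtain ⟨rfl, rfl⟩ := hl
      exact hB ⟨δ.proj x1 x3, hf⟩
    rw [this]
    simp

lemma card_vtx : (Fintype.card (Vtx K T) : ℝ)
    = Fintype.card (Lb T) * Fintype.card (Matrix K K F) := by
  rw [Fintype.card_prod, Fintype.card_prod, Fintype.card_prod]
  push_cast
  ring

/-- Pointwise bound for the joint law of the two forms. -/
theorem law_forms_le [Nonempty T] (ν : Vtx K T → Vtx K T → ℝ) (h0 : ∀ x y, 0 ≤ ν x y) {Λ : ℝ}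
    (hΛ : ∀ x y, ν x y * (Fintype.card (Vtx K T) : ℝ) ^ 2 ≤ Λ) (α : Lb T × Lb T)
    (hα : 0 < mass ν α) (hα' : 1 / (400 * (Fintype.card (Lb T) : ℝ) ^ 2) ≤ mass ν α)
    (B B' : Matrix K K F) :
    (condP ν h0 α hα).p (fun z => (δ.frm z.1, δ.frm z.2)) (B, B')
      ≤ 400 * Λ / (Fintype.card (δ.Dir α.1.1) * Fintype.card (δ.Dir α.2.1)) := by
  have hL : (0 : ℝ) < Fintype.card (Lb T) := by exact_mod_cast Fintype.card_pos
  have hMat : (0 : ℝ) < Fintype.card (Matrix K K F) := by exact_mod_cast Fintype.card_pos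
  have hD1 : (0 : ℝ) < Fintype.card (δ.Dir α.1.1) := by exact_mod_cast Fintype.card_pos
  have hD2 : (0 : ℝ) < Fintype.card (δ.Dir α.2.1) := by exact_mod_cast Fintype.card_pos
  have hN : (0 : ℝ) < Fintype.card (Vtx K T) := by rw [card_vtx]; positivity
  have hΛ0 : 0 ≤ Λ := by
    obtain ⟨x⟩ : Nonempty (Vtx K T) := ⟨(Classical.arbitrary T, true, 0)⟩
    exact (mul_nonneg (h0 x x) (by positivity)).trans (hΛ x x)
  set A1 := Finset.univ.filter (fun x : Vtx K T => lb x = (α.1.1, α.1.2) ∧ δ.frm x = B) with hA1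
  set A2 := Finset.univ.filter (fun x : Vtx K T => lb x = (α.2.1, α.2.2) ∧ δ.frm x = B') with hA2
  have c1 := δ.card_frm_le α.1.1 α.1.2 B
  have c2 := δ.card_frm_le α.2.1 α.2.2 B'
  rw [← hA1] at c1
  rw [← hA2] at c2
  have hsum : (condP ν h0 α hα).p (fun z => (δ.frm z.1, δ.frm z.2)) (B, B')
      ≤ ∑ _z ∈ A1 ×ˢ A2, Λ / (Fintype.card (Vtx K T) : ℝ) ^ 2 / mass ν α := by
    have e1 : (condP ν h0 α hα).p (fun z => (δ.frm z.1, δ.frm z.2)) (B, B')
        = ∑ z ∈ A1 ×ˢ A2, ν z.1 z.2 / mass ν α := by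
      unfold FinProb.p
      simp only [condP_w]
      rw [← Finset.sum_subset (Finset.subset_univ (A1 ×ˢ A2))]
      · refine Finset.sum_congr rfl fun z hz => ?_
        rw [Finset.mem_product, hA1, hA2, Finset.mem_filter, Finset.mem_filter] at hz
        obtain ⟨⟨-, h1, h2⟩, -, h3, h4⟩ := hz
        have h5 : (δ.frm z.1, δ.frm z.2) = (B, B') := by rw [h2, h4]
        rw [if_pos h5, if_pos ⟨h1, h3⟩]
      · intro z _ hz
        by_cases hf : (δ.frm z.1, δ.frm z.2) = (B, B')
        · rw [if_pos hf]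
          rw [Prod.mk.injEq] at hf
          rw [if_neg]
          rintro ⟨h1, h2⟩
          apply hz
          rw [Finset.mem_product, hA1, hA2, Finset.mem_filter, Finset.mem_filter]
          exact ⟨⟨Finset.mem_univ _, h1, hf.1⟩, Finset.mem_univ _, h2, hf.2⟩
        · rw [if_neg hf]
    rw [e1]
    refine Finset.sum_le_sum fun z _ => ?_
    refine div_le_div_of_nonneg_right ?_ hα.le
    rw [le_div_iff₀ (by positivity)]
    exact hΛ _ _
  refine hsum.trans ?_
  rw [Finset.sum_const, nsmul_eq_mul, Finset.card_product]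
  push_cast
  rw [le_div_iff₀ (mul_pos hD1 hD2)]
  have e2 : (A1.card : ℝ) * A2.card * (Λ / (Fintype.card (Vtx K T) : ℝ) ^ 2 / mass ν α)
      * (Fintype.card (δ.Dir α.1.1) * Fintype.card (δ.Dir α.2.1))
      = ((A1.card : ℝ) * Fintype.card (δ.Dir α.1.1)) * (A2.card * Fintype.card (δ.Dir α.2.1))
        * (Λ / (Fintype.card (Vtx K T) : ℝ) ^ 2 / mass ν α) := by ring
  rw [e2]
  have e3 : ((A1.card : ℝ) * Fintype.card (δ.Dir α.1.1)) * (A2.card * Fintype.card (δ.Dir α.2.1))
      ≤ Fintype.card (Matrix K K F) * Fintype.card (Matrix K K F) :=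
    mul_le_mul c1 c2 (by positivity) hMat.le
  refine (mul_le_mul_of_nonneg_right e3 (by positivity)).trans ?_
  rw [card_vtx]
  have e4 : (Fintype.card (Matrix K K F) : ℝ) * Fintype.card (Matrix K K F)
      * (Λ / (Fintype.card (Lb T) * Fintype.card (Matrix K K F)) ^ 2 / mass ν α)
      = Λ * (1 / ((Fintype.card (Lb T) : ℝ) ^ 2 * mass ν α)) := by
    field_simp
  rw [e4, mul_comm 400 Λ]
  refine mul_le_mul_of_nonneg_left ?_ hΛ0
  rw [div_le_iff₀ (by positivity)]
  rw [div_le_iff₀ (by positivity)] at hα'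
  linarith

/-- Pointwise bound for the law of the first form. -/
theorem law_frm_le [Nonempty T] (ν : Vtx K T → Vtx K T → ℝ) (h0 : ∀ x y, 0 ≤ ν x y)
    (hm : ∀ x, (∑ y, ν x y) * (Fintype.card (Vtx K T) : ℝ) ≤ 4) (α : Lb T × Lb T)
    (hα : 0 < mass ν α) (hα' : 1 / (400 * (Fintype.card (Lb T) : ℝ) ^ 2) ≤ mass ν α)
    (B : Matrix K K F) :
    (condP ν h0 α hα).p (fun z => δ.frm z.1) B
      ≤ 1600 * Fintype.card (Lb T) / Fintype.card (δ.Dir α.1.1) := by
  have hL : (0 : ℝ) < Fintype.card (Lb T) := by exact_mod_cast Fintype.card_pos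
  have hMat : (0 : ℝ) < Fintype.card (Matrix K K F) := by exact_mod_cast Fintype.card_pos
  have hD1 : (0 : ℝ) < Fintype.card (δ.Dir α.1.1) := by exact_mod_cast Fintype.card_pos
  have hN : (0 : ℝ) < Fintype.card (Vtx K T) := by rw [card_vtx]; positivity
  set A1 := Finset.univ.filter (fun x : Vtx K T => lb x = (α.1.1, α.1.2) ∧ δ.frm x = B) with hA1
  have c1 := δ.card_frm_le α.1.1 α.1.2 B
  rw [← hA1] at c1
  have hsum : (condP ν h0 α hα).p (fun z => δ.frm z.1) B
      ≤ ∑ _x ∈ A1, 4 / (Fintype.card (Vtx K T) : ℝ) / mass ν α := by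
    have e1 : (condP ν h0 α hα).p (fun z => δ.frm z.1) B
        ≤ ∑ x ∈ A1, (∑ y, ν x y) / mass ν α := by
      unfold FinProb.p
      simp only [condP_w]
      rw [Fintype.sum_prod_type, ← Finset.sum_subset (Finset.subset_univ A1)]
      · refine Finset.sum_le_sum fun x hx => ?_
        rw [Finset.sum_div]
        refine Finset.sum_le_sum fun y _ => ?_
        simp only
        split_ifs
        · exact le_rfl
        · exact div_nonneg (h0 _ _) hα.le
        · exact div_nonneg (h0 _ _) hα.le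
      · intro x _ hx
        refine Finset.sum_eq_zero fun y _ => ?_
        simp only
        by_cases hf : δ.frm x = B
        · rw [if_pos hf, if_neg]
          rintro ⟨h1, -⟩
          apply hx
          rw [hA1, Finset.mem_filter]
          exact ⟨Finset.mem_univ _, h1, hf⟩
        · rw [if_neg hf]
    refine e1.trans (Finset.sum_le_sum fun x _ => ?_)
    refine div_le_div_of_nonneg_right ?_ hα.le
    rw [le_div_iff₀ hN]
    exact hm x
  refine hsum.trans ?_
  rw [Finset.sum_const, nsmul_eq_mul, le_div_iff₀ hD1]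
  have e2 : (A1.card : ℝ) * (4 / (Fintype.card (Vtx K T) : ℝ) / mass ν α)
      * Fintype.card (δ.Dir α.1.1)
      = ((A1.card : ℝ) * Fintype.card (δ.Dir α.1.1))
        * (4 / (Fintype.card (Vtx K T) : ℝ) / mass ν α) := by ring
  rw [e2]
  refine (mul_le_mul_of_nonneg_right c1 (by positivity)).trans ?_
  rw [card_vtx]
  have e4 : (Fintype.card (Matrix K K F) : ℝ)
      * (4 / (Fintype.card (Lb T) * Fintype.card (Matrix K K F)) / mass ν α)
      = 4 / (Fintype.card (Lb T) * mass ν α) := by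
    field_simp
  rw [e4, div_le_iff₀ (by positivity)]
  rw [div_le_iff₀ (by positivity)] at hα'
  nlinarith

lemma mass_swap (ν : Vtx K T → Vtx K T → ℝ) (hsy : ∀ x y, ν x y = ν y x) (α : Lb T × Lb T) :
    mass ν α.swap = mass ν α := by
  unfold mass
  rw [Finset.sum_comm]
  refine Finset.sum_congr rfl fun x _ => Finset.sum_congr rfl fun x' _ => ?_
  rw [hsy x' x]
  refine if_congr ?_ rfl rfl
  simp only [Prod.fst_swap, Prod.snd_swap]
  tauto

end Design

end Vale.Agent.P060.HW
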