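import Mathlib

/-! Counting lemma for rank-two symmetric tensors in a subspace of matrices. -/

namespace Vale.Agent.P060.HW

open Module Submodule

section

variable {F ι : Type*} [Field F] [Fintype ι] [DecidableEq ι]

/-- The symmetric product of two vectors, as a matrix. -/
def sm (h g : ι → F) : Matrix ι ι F := Matrix.vecMulVec h g + Matrix.vecMulVec g h

omit [DecidableEq ι] in
theorem sm_mulVec (h g v : ι → F) :
    (sm h g).mulVec v = (g ⬝ᵥ v) • h + (h ⬝ᵥ v) • g := by
  ext i
  simp only [sm, Pi.add_apply, Pi.smul_apply, smul_eq_mul, Matrix.mulVec, Matrix.add_apply,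
    Matrix.vecMulVec_apply, dotProduct, Finset.sum_mul]
  rw [← Finset.sum_add_distrib]
  exact Finset.sum_congr rfl fun j _ => by ring

/-- A separating vector for the dot product. -/
theorem exists_sep {S : Submodule F (ι → F)} {x : ι → F} (hx : x ∉ S) :
    ∃ v : ι → F, (∀ s ∈ S, s ⬝ᵥ v = 0) ∧ x ⬝ᵥ v = 1 := by
  obtain ⟨f, hf, hS⟩ := Submodule.exists_le_ker_of_notMem hx
  have key : ∀ y : ι → F, y ⬝ᵥ (fun i => f (fun j => if i = j then 1 else 0)) = f y := by
    intro y
    rw [LinearMap.pi_apply_eq_sum_univ f y]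
    simp [dotProduct]
  refine ⟨(f x)⁻¹ • fun i => f (fun j => if i = j then 1 else 0), ?_, ?_⟩
  · intro s hs
    rw [dotProduct_smul, key, LinearMap.mem_ker.1 (hS hs), smul_zero]
  · rw [dotProduct_smul, key, smul_eq_mul, inv_mul_cancel₀ hf]

/-- The span of all entries of a sequence of pairs. -/
def spn {j : ℕ} (p : Fin j → (ι → F) × (ι → F)) : Submodule F (ι → F) :=
  span F (Set.range fun x : Fin j × Bool => if x.2 then (p x.1).1 else (p x.1).2)

/-- The tensor of a sequence of pairs. -/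
def tn {j : ℕ} (p : Fin j → (ι → F) × (ι → F)) : Matrix ι ι F := ∑ i, sm (p i).1 (p i).2

omit [Fintype ι] [DecidableEq ι] in
theorem mem_spn {j : ℕ} (p : Fin j → (ι → F) × (ι → F)) (i : Fin j) :
    (p i).1 ∈ spn p ∧ (p i).2 ∈ spn p :=
  ⟨subset_span ⟨(i, true), by simp⟩, subset_span ⟨(i, false), by simp⟩⟩

omit [Fintype ι] [DecidableEq ι] in
theorem finrank_spn {j : ℕ} (p : Fin j → (ι → F) × (ι → F)) : finrank F (spn p) ≤ 2 * j := by
  refine (finrank_range_le_card _).trans ?_
  simp [mul_comm]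

omit [Fintype ι] [DecidableEq ι] in
theorem tn_cons {j : ℕ} (q : (ι → F) × (ι → F)) (p : Fin j → (ι → F) × (ι → F)) :
    tn (Fin.cons q p : Fin (j + 1) → (ι → F) × (ι → F)) = sm q.1 q.2 + tn p := by
  simp [tn, Fin.sum_univ_succ]

omit [DecidableEq ι] in
theorem tn_mulVec_zero {j : ℕ} (p : Fin j → (ι → F) × (ι → F)) {v : ι → F}
    (hv : ∀ s ∈ spn p, s ⬝ᵥ v = 0) : (tn p).mulVec v = 0 := by
  rw [tn, Matrix.sum_mulVec]
  refine Finset.sum_eq_zero fun i _ => ?_
  rw [sm_mulVec, hv _ (mem_spn p i).1, hv _ (mem_spn p i).2]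
  simp

omit [DecidableEq ι] in
theorem tn_mulVec_mem {j : ℕ} (p : Fin j → (ι → F) × (ι → F)) (v : ι → F) :
    (tn p).mulVec v ∈ spn p := by
  rw [tn, Matrix.sum_mulVec]
  refine sum_mem fun i _ => ?_
  rw [sm_mulVec]
  exact add_mem (smul_mem _ _ (mem_spn p i).1) (smul_mem _ _ (mem_spn p i).2)

/-- Freshness: every pair is independent of the later ones. -/
def Fresh : {j : ℕ} → (Fin j → (ι → F) × (ι → F)) → Prop
  | 0, _ => True
  | _ + 1, p => Fresh (Fin.tail p) ∧ (p 0).2 ∉ spn (Fin.tail p) ∧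
      (p 0).1 ∉ spn (Fin.tail p) ⊔ span F {(p 0).2}

theorem mem_range {j : ℕ} : ∀ {p : Fin j → (ι → F) × (ι → F)}, Fresh p → ∀ i : Fin j,
    (∃ v, (tn p).mulVec v = (p i).1) ∧ ∃ v, (tn p).mulVec v = (p i).2 := by
  induction j with
  | zero => intro p _ i; exact i.elim0
  | succ j ih =>
    intro p hp i
    obtain ⟨h0, h1, h2⟩ := hp
    have hT : tn p = sm (p 0).1 (p 0).2 + tn (Fin.tail p) := by
      conv_lhs => rw [← Fin.cons_self_tail p]
      exact tn_cons _ _
    have h3 : (p 0).2 ∉ spn (Fin.tail p) ⊔ span F {(p 0).1} := by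
      intro h
      obtain ⟨s, hs, c, hc, hsum⟩ := Submodule.mem_sup.1 h
      obtain ⟨a, rfl⟩ := mem_span_singleton.1 hc
      by_cases ha : a = 0
      · rw [ha, zero_smul, add_zero] at hsum
        exact h1 (hsum ▸ hs)
      · apply h2
        have : (p 0).1 = a⁻¹ • (-s) + a⁻¹ • (p 0).2 := by
          rw [← hsum, ← smul_add, neg_add_cancel_left, smul_smul, inv_mul_cancel₀ ha, one_smul]
        rw [this]
        exact add_mem (mem_sup_left (smul_mem _ _ (neg_mem hs)))
          (mem_sup_right (smul_mem _ _ (mem_span_singleton_self _)))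
    have e1 : ∃ v, (tn p).mulVec v = (p 0).1 := by
      obtain ⟨v, hv, hv1⟩ := exists_sep h3
      refine ⟨v, ?_⟩
      rw [hT, Matrix.add_mulVec, sm_mulVec, hv1,
        hv _ (mem_sup_right (mem_span_singleton_self _)),
        tn_mulVec_zero _ (fun s hs => hv s (mem_sup_left hs))]
      simp
    have e2 : ∃ v, (tn p).mulVec v = (p 0).2 := by
      obtain ⟨v, hv, hv1⟩ := exists_sep h2
      refine ⟨v, ?_⟩
      rw [hT, Matrix.add_mulVec, sm_mulVec, hv1,
        hv _ (mem_sup_right (mem_span_singleton_self _)),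
        tn_mulVec_zero _ (fun s hs => hv s (mem_sup_left hs))]
      simp
    have e3 : ∀ x, (∃ w, (tn (Fin.tail p)).mulVec w = x) → ∃ v, (tn p).mulVec v = x := by
      rintro x ⟨w, rfl⟩
      obtain ⟨v1, hv1⟩ := e1
      obtain ⟨v2, hv2⟩ := e2
      refine ⟨w - ((p 0).2 ⬝ᵥ w) • v1 - ((p 0).1 ⬝ᵥ w) • v2, ?_⟩
      rw [Matrix.mulVec_sub, Matrix.mulVec_sub, Matrix.mulVec_smul, Matrix.mulVec_smul, hv1, hv2,
        hT, Matrix.add_mulVec, sm_mulVec]
      abel
    refine Fin.cases ⟨e1, e2⟩ (fun l => ?_) i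
    have := ih h0 l
    exact ⟨e3 _ this.1, e3 _ this.2⟩

variable [Fintype F]

/-- The bad vectors `g` with respect to the space `W`. -/
def Bad (Lam : Submodule F (Matrix ι ι F)) (W : Submodule F (ι → F)) : Set (ι → F) :=
  {g | g ∉ W ∧ ∃ h, h ∉ W ⊔ span F {g} ∧ sm h g ∈ Lam}

theorem exists_fresh (Lam : Submodule F (Matrix ι ι F)) (B : ℕ) : ∀ j : ℕ,
    (∀ W : Submodule F (ι → F), finrank F W ≤ 2 * (j - 1) → B ≤ (Bad Lam W).ncard) →
    ∃ S : Finset (Fin j → (ι → F) × (ι → F)), B ^ j ≤ S.card ∧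
      ∀ p ∈ S, Fresh p ∧ tn p ∈ Lam := by
  classical
  intro j
  induction j with
  | zero =>
    intro _
    refine ⟨Finset.univ, by simp, fun p _ => ⟨trivial, ?_⟩⟩
    simp [tn, Lam.zero_mem]
  | succ j ih =>
    intro hB
    obtain ⟨S, hS, hp⟩ := ih (fun W hW => hB W (by omega))
    have hch : ∀ x : (_ : Fin j → (ι → F) × (ι → F)) × (ι → F), ∃ h : ι → F,
        x.2 ∈ Bad Lam (spn x.1) → h ∉ spn x.1 ⊔ span F {x.2} ∧ sm h x.2 ∈ Lam := by
      intro x
      by_cases hx : x.2 ∈ Bad Lam (spn x.1)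
      · obtain ⟨h, hh⟩ := hx.2
        exact ⟨h, fun _ => hh⟩
      · exact ⟨0, fun h => absurd h hx⟩
    choose H hH using hch
    let Q : Finset ((_ : Fin j → (ι → F) × (ι → F)) × (ι → F)) :=
      S.sigma fun p => (Bad Lam (spn p)).toFinset
    let f : ((_ : Fin j → (ι → F) × (ι → F)) × (ι → F)) → (Fin (j + 1) → (ι → F) × (ι → F)) :=
      fun x => Fin.cons (H x, x.2) x.1
    have hf : Function.Injective f := by
      rintro ⟨p, g⟩ ⟨p', g'⟩ h
      have h1 := congrFun h 0
      have h2 : Fin.tail (f ⟨p, g⟩) = Fin.tail (f ⟨p', g'⟩) := by rw [h]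
      simp only [f, Fin.cons_zero, Prod.mk.injEq] at h1
      simp only [f, Fin.tail_cons] at h2
      obtain rfl := h2
      obtain rfl := h1.2
      rfl
    refine ⟨Q.image f, ?_, ?_⟩
    · rw [Finset.card_image_of_injective _ hf, Finset.card_sigma, pow_succ]
      calc B ^ j * B ≤ S.card * B := Nat.mul_le_mul_right _ hS
        _ = ∑ p ∈ S, B := by rw [Finset.sum_const, smul_eq_mul]
        _ ≤ _ := by
          refine Finset.sum_le_sum fun p _ => ?_
          rw [← Set.ncard_eq_toFinset_card']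
          exact hB _ ((finrank_spn p).trans (by omega))
    · intro p hpQ
      obtain ⟨x, hx, rfl⟩ := Finset.mem_image.1 hpQ
      obtain ⟨hx1, hx2⟩ := Finset.mem_sigma.1 hx
      rw [Set.mem_toFinset] at hx2
      have h3 := hH x hx2
      have h4 := hp _ hx1
      refine ⟨?_, ?_⟩
      · refine ⟨?_, ?_, ?_⟩
        · simpa [f, Fin.tail_cons] using h4.1
        · simpa [f, Fin.tail_cons] using hx2.1
        · simpa [f, Fin.tail_cons] using h3.1
      · rw [tn_cons]
        exact add_mem h3.2 h4.2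

/-- The counting lemma. -/
theorem count (Lam : Submodule F (Matrix ι ι F)) {D j B : ℕ} (hD : finrank F Lam ≤ D)
    (hB : ∀ W : Submodule F (ι → F), finrank F W ≤ 2 * (j - 1) → B ≤ (Bad Lam W).ncard) :
    B ^ j ≤ Fintype.card F ^ (D + 4 * j ^ 2) := by
  classical
  obtain ⟨S, hS, hp⟩ := exists_fresh Lam B j hB
  have hq : 0 < Fintype.card F := Fintype.card_pos
  have hfib : ∀ T ∈ S.image tn, (S.filter fun p => tn p = T).card ≤
      Fintype.card F ^ (4 * j ^ 2) := by
    intro T hT
    obtain ⟨p0, hp0, rfl⟩ := Finset.mem_image.1 hT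
    let R : Finset (ι → F) := Finset.univ.filter fun x => x ∈ spn p0
    have hR : R.card ≤ Fintype.card F ^ (2 * j) := by
      have h1 : R.card = Fintype.card (spn p0) := by
        rw [Fintype.card_subtype]
      rw [h1, Module.card_eq_pow_finrank (K := F) (V := spn p0)]
      exact Nat.pow_le_pow_right hq (finrank_spn p0)
    have hsub : (S.filter fun p => tn p = tn p0) ⊆
        Fintype.piFinset fun _ : Fin j => R ×ˢ R := by
      intro p hpp
      obtain ⟨hpS, hpT⟩ := Finset.mem_filter.1 hpp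
      rw [Fintype.mem_piFinset]
      intro i
      obtain ⟨⟨v, hv⟩, ⟨w, hw⟩⟩ := mem_range (hp p hpS).1 i
      rw [Finset.mem_product]
      constructor
      · simp only [R, Finset.mem_filter, Finset.mem_univ, true_and]
        rw [← hv, hpT]
        exact tn_mulVec_mem _ _
      · simp only [R, Finset.mem_filter, Finset.mem_univ, true_and]
        rw [← hw, hpT]
        exact tn_mulVec_mem _ _
    refine (Finset.card_le_card hsub).trans ?_
    rw [Fintype.card_piFinset]
    simp only [Finset.card_product, Finset.prod_const, Finset.card_univ, Fintype.card_fin]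
    calc (R.card * R.card) ^ j ≤ (Fintype.card F ^ (2 * j) * Fintype.card F ^ (2 * j)) ^ j :=
          Nat.pow_le_pow_left (Nat.mul_le_mul hR hR) _
      _ = Fintype.card F ^ (4 * j ^ 2) := by
          rw [← pow_add, ← pow_mul]; congr 1; ring
  have h1 := Finset.card_le_mul_card_image (f := tn) S _ hfib
  have h2 : (S.image tn).card ≤ Fintype.card F ^ D := by
    have h3 : (S.image tn) ⊆ Finset.univ.filter fun x => x ∈ Lam := by
      intro T hT
      obtain ⟨p, hpS, rfl⟩ := Finset.mem_image.1 hT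
      exact Finset.mem_filter.2 ⟨Finset.mem_univ _, (hp p hpS).2⟩
    refine (Finset.card_le_card h3).trans ?_
    have h4 : (Finset.univ.filter fun x => x ∈ Lam).card = Fintype.card Lam := by
      rw [Fintype.card_subtype]
    rw [h4, Module.card_eq_pow_finrank (K := F) (V := Lam)]
    exact Nat.pow_le_pow_right hq hD
  calc B ^ j ≤ S.card := hS
    _ ≤ Fintype.card F ^ (4 * j ^ 2) * (S.image tn).card := h1
    _ ≤ Fintype.card F ^ (4 * j ^ 2) * Fintype.card F ^ D := Nat.mul_le_mul_left _ h2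
    _ = _ := by rw [← pow_add, add_comm]

/-- Consequence: a space `W` of bounded dimension such that, for all but few `g`, every `h`
with `h.g` in `Lam` lies in `W + <g>`. -/
theorem exists_W (Lam : Submodule F (Matrix ι ι F)) {D j B : ℕ} (hD : finrank F Lam ≤ D)
    (hj : Fintype.card F ^ (D + 4 * j ^ 2) < B ^ j) :
    ∃ (W : Submodule F (ι → F)) (E : Finset (ι → F)), finrank F W ≤ 2 * (j - 1) ∧
      E.card < B + Fintype.card F ^ (2 * (j - 1)) ∧
      ∀ g ∉ E, ∀ h, sm h g ∈ Lam → h ∈ W ⊔ span F {g} := by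
  classical
  have h1 : ∃ W : Submodule F (ι → F), finrank F W ≤ 2 * (j - 1) ∧ (Bad Lam W).ncard < B := by
    by_contra hcon
    exact absurd (count Lam hD fun W hW => not_lt.1 fun h => hcon ⟨W, hW, h⟩) (not_le.2 hj)
  obtain ⟨W, hW, hWB⟩ := h1
  refine ⟨W, (Bad Lam W).toFinset ∪ Finset.univ.filter (fun x => x ∈ W), hW, ?_, ?_⟩
  · refine (Finset.card_union_le _ _).trans_lt ?_
    have h2 : (Finset.univ.filter fun x => x ∈ W).card ≤ Fintype.card F ^ (2 * (j - 1)) := by
      have h4 : (Finset.univ.filter fun x => x ∈ W).card = Fintype.card W := by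
        rw [Fintype.card_subtype]
      rw [h4, Module.card_eq_pow_finrank (K := F) (V := W)]
      exact Nat.pow_le_pow_right Fintype.card_pos hW
    rw [← Set.ncard_eq_toFinset_card']
    omega
  · intro g hg h hh
    rw [Finset.mem_union, not_or, Set.mem_toFinset, Finset.mem_filter] at hg
    by_contra hcon
    exact hg.1 ⟨fun hgW => hg.2 ⟨Finset.mem_univ _, hgW⟩, h, hcon, hh⟩

end

end Vale.Agent.P060.HW
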