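import Vale.Agent.P060.HW.Host

/-!
# The final count: cross pairs which are not cut
-/

open scoped Classical

noncomputable section

namespace Vale.Agent.P060.HW

/-- Abstract count: mass of cross-cross configurations without any of the four cuts. -/
lemma count_abs {Z : Type*} [Fintype Z] (w : Z → ℝ) (hw : ∀ z, 0 ≤ w z)
    (C : Z → Prop) {m q : ℝ} (hm : ∑ z, (if C z then w z else 0) = m)
    (c1 c2 : Z → Z → Prop)
    (h1 : ∀ z, w z ≠ 0 → C z → ∑ z', (if c1 z z' then w z' else 0) ≤ q)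
    (h2 : ∀ z, w z ≠ 0 → C z → ∑ z', (if c2 z z' then w z' else 0) ≤ q) :
    m * m - 4 * (m * q) ≤ ∑ z, ∑ z', (if C z ∧ C z' ∧ ¬ c1 z z' ∧ ¬ c2 z z' ∧ ¬ c1 z' z ∧ ¬ c2 z' z
      then w z * w z' else 0) := by
  have e0 : ∑ z, ∑ z', (if C z ∧ C z' then w z * w z' else 0) = m * m := by
    rw [← hm, Finset.sum_mul_sum]
    refine Finset.sum_congr rfl fun z _ => Finset.sum_congr rfl fun z' _ => ?_
    by_cases hz : C z <;> by_cases hz' : C z' <;> simp [hz, hz']
  have key : ∀ c : Z → Z → Prop, (∀ z, w z ≠ 0 → C z → ∑ z', (if c z z' then w z' else 0) ≤ q) →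
      ∑ z, ∑ z', (if C z ∧ c z z' then w z * w z' else 0) ≤ m * q := by
    intro c hc
    rw [← hm, Finset.sum_mul]
    refine Finset.sum_le_sum fun z _ => ?_
    by_cases hz : C z
    · simp only [hz, true_and, if_true]
      rcases (hw z).eq_or_lt with h0 | h0
      · rw [← h0]; simp
      · have h3 := mul_le_mul_of_nonneg_left (hc z h0.ne' hz) h0.le
        refine le_trans (le_of_eq ?_) h3
        rw [Finset.mul_sum]
        exact Finset.sum_congr rfl fun z' _ => by split_ifs <;> simp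
    · simp [hz]
  have key' : ∀ c : Z → Z → Prop, (∀ z, w z ≠ 0 → C z → ∑ z', (if c z z' then w z' else 0) ≤ q) →
      ∑ z, ∑ z', (if C z' ∧ c z' z then w z * w z' else 0) ≤ m * q := by
    intro c hc
    rw [Finset.sum_comm]
    refine le_trans (le_of_eq ?_) (key c hc)
    refine Finset.sum_congr rfl fun z _ => Finset.sum_congr rfl fun z' _ => ?_
    split_ifs
    · ring
    · rfl
  have a1 := key c1 h1
  have a2 := key c2 h2
  have a3 := key' c1 h1
  have a4 := key' c2 h2
  have hpt : ∀ z z', (if C z ∧ C z' then w z * w z' else 0)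
      ≤ (if C z ∧ C z' ∧ ¬ c1 z z' ∧ ¬ c2 z z' ∧ ¬ c1 z' z ∧ ¬ c2 z' z then w z * w z' else 0)
        + (if C z ∧ c1 z z' then w z * w z' else 0) + (if C z ∧ c2 z z' then w z * w z' else 0)
        + (if C z' ∧ c1 z' z then w z * w z' else 0)
        + (if C z' ∧ c2 z' z then w z * w z' else 0) := by
    intro z z'
    have h0 : 0 ≤ w z * w z' := mul_nonneg (hw z) (hw z')
    by_cases hz : C z <;> by_cases hz' : C z' <;> by_cases b1 : c1 z z' <;>
      by_cases b2 : c2 z z' <;> by_cases b3 : c1 z' z <;> by_cases b4 : c2 z' z <;>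
      simp only [hz, hz', b1, b2, b3, b4, and_true, and_false,
        not_true_eq_false, not_false_eq_true, if_true, if_false] <;> linarith
  have hsum := Finset.sum_le_sum (s := Finset.univ) fun z _ =>
    Finset.sum_le_sum (s := Finset.univ) fun z' _ => hpt z z'
  simp only [Finset.sum_add_distrib] at hsum
  rw [e0] at hsum
  linarith

namespace Design

variable {K T : Type*} [Fintype K] [Fintype T] (δ : Design K T)

/-- Same-type mass is at most one half, up to small errors. -/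
lemma same_mass [Nonempty T] (ν : Vtx K T → Vtx K T → ℝ) (h0 : ∀ x y, 0 ≤ ν x y)
    (h2 : ∀ x y, ν x y ≠ 0 → ¬ δ.Adj x y) {ε I : ℝ}
    (hm : ∑ x, |∑ y, ν x y - 1 / (Fintype.card (Vtx K T) : ℝ)| ≤ ε)
    (hc : ∑ x, ∑ x', ∑ y, ∑ y', (if δ.Adj x y ∧ δ.Adj x y' ∧ δ.Adj x' y ∧ δ.Adj x' y'
      then ν x x' * ν y y' else 0) ≤ I) :
    ∑ x, ∑ x', (if x.1 = x'.1 then ν x x' else 0)
      ≤ 1 / 2 + ε + Fintype.card T * Real.sqrt I := by
  set N : ℝ := (Fintype.card (Vtx K T) : ℝ) with hN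
  have hKne : Nonempty (Vtx K T) := ⟨(Classical.arbitrary T, true, 0)⟩
  have hN0 : 0 < N := by rw [hN]; exact_mod_cast Fintype.card_pos
  set S : T → Bool → ℝ := fun a b => ∑ x, ∑ x',
    (if (x.1 = a ∧ x.2.1 = b) ∧ (x'.1 = a ∧ x'.2.1 = b) then ν x x' else 0) with hS
  have hS0 : ∀ a b, 0 ≤ S a b := fun a b => Finset.sum_nonneg fun x _ =>
    Finset.sum_nonneg fun x' _ => by split_ifs; exacts [h0 _ _, le_rfl]
  -- decomposition of the same-type mass
  have hdec : ∑ x, ∑ x', (if x.1 = x'.1 then ν x x' else 0) = ∑ a, (S a true + S a false) := by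
    have e1 : ∀ x x', (if x.1 = x'.1 then ν x x' else 0)
        = ∑ a, ((if (x.1 = a ∧ x.2.1 = true) ∧ (x'.1 = a ∧ x'.2.1 = true) then ν x x' else 0)
          + (if (x.1 = a ∧ x.2.1 = false) ∧ (x'.1 = a ∧ x'.2.1 = false) then ν x x' else 0)) := by
      intro x x'
      by_cases hx : x.1 = x'.1
      · rw [if_pos hx, Finset.sum_eq_single x.1]
        · by_cases hb : x.2.1 = x'.2.1
          · cases hx1 : x.2.1
            · rw [hx1] at hb
              simp [← hb, ← hx]
            · rw [hx1] at hb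
              simp [← hb, ← hx]
          · have hν : ν x x' = 0 := by
              by_contra h
              exact h2 _ _ h (δ.adj_of_bit hx hb)
            simp [hν]
        · intro a _ ha
          simp [Ne.symm ha]
        · intro h; exact absurd (Finset.mem_univ _) h
      · rw [if_neg hx]
        symm
        refine Finset.sum_eq_zero fun a _ => ?_
        rw [if_neg, if_neg, add_zero]
        · rintro ⟨⟨h1, -⟩, h2, -⟩; exact hx (h1.trans h2.symm)
        · rintro ⟨⟨h1, -⟩, h2, -⟩; exact hx (h1.trans h2.symm)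
    simp only [e1]
    rw [Finset.sum_congr rfl fun x _ => Finset.sum_comm, Finset.sum_comm]
    refine Finset.sum_congr rfl fun a _ => ?_
    simp only [Finset.sum_add_distrib]
    rfl
  -- the product is small
  have hprod : ∀ a, S a true * S a false ≤ I := by
    intro a
    refine le_trans ?_ hc
    have e1 : S a true * S a false = ∑ x, ∑ x', ∑ y, ∑ y',
        (if (x.1 = a ∧ x.2.1 = true) ∧ (x'.1 = a ∧ x'.2.1 = true) then ν x x' else 0)
        * (if (y.1 = a ∧ y.2.1 = false) ∧ (y'.1 = a ∧ y'.2.1 = false) then ν y y' else 0) := by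
      simp only [hS]
      rw [Finset.sum_mul]
      refine Finset.sum_congr rfl fun x _ => ?_
      rw [Finset.sum_mul]
      refine Finset.sum_congr rfl fun x' _ => ?_
      rw [Finset.mul_sum]
      refine Finset.sum_congr rfl fun y _ => ?_
      rw [Finset.mul_sum]
    rw [e1]
    refine Finset.sum_le_sum fun x _ => Finset.sum_le_sum fun x' _ => Finset.sum_le_sum
      fun y _ => Finset.sum_le_sum fun y' _ => ?_
    by_cases hx : (x.1 = a ∧ x.2.1 = true) ∧ (x'.1 = a ∧ x'.2.1 = true)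
    · by_cases hy : (y.1 = a ∧ y.2.1 = false) ∧ (y'.1 = a ∧ y'.2.1 = false)
      · have hadj : ∀ u v : Vtx K T, (u.1 = a ∧ u.2.1 = true) → (v.1 = a ∧ v.2.1 = false) →
            δ.Adj u v := fun u v hu hv =>
          δ.adj_of_bit (hu.1.trans hv.1.symm) (by rw [hu.2, hv.2]; simp)
        rw [if_pos hx, if_pos hy, if_pos ⟨hadj _ _ hx.1 hy.1, hadj _ _ hx.1 hy.2,
          hadj _ _ hx.2 hy.1, hadj _ _ hx.2 hy.2⟩]
      · rw [if_neg hy, mul_zero]
        split_ifs
        · exact mul_nonneg (h0 _ _) (h0 _ _)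
        · exact le_rfl
    · rw [if_neg hx, zero_mul]
      split_ifs
      · exact mul_nonneg (h0 _ _) (h0 _ _)
      · exact le_rfl
  -- marginals
  set M : T → Bool → ℝ := fun a b => ∑ x, (if x.1 = a ∧ x.2.1 = b then ∑ y, ν x y else 0) with hM
  set Δ : T → Bool → ℝ := fun a b => ∑ x, (if x.1 = a ∧ x.2.1 = b then
    |∑ y, ν x y - 1 / N| else 0) with hΔ
  have hΔ0 : ∀ a b, 0 ≤ Δ a b := fun a b => Finset.sum_nonneg fun x _ => by
    split_ifs; exacts [abs_nonneg _, le_rfl]
  have hSM : ∀ a b, S a b ≤ M a b := by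
    intro a b
    refine Finset.sum_le_sum fun x _ => ?_
    split_ifs with hx
    · refine Finset.sum_le_sum fun x' _ => ?_
      split_ifs; exacts [le_rfl, h0 _ _]
    · exact Finset.sum_nonpos fun x' _ => by simp [hx]
  have hcardab : ∀ a b, ((Finset.univ.filter (fun x : Vtx K T => x.1 = a ∧ x.2.1 = b)).card : ℝ)
      = N / (2 * Fintype.card T) := by
    intro a b
    have e1 : (Finset.univ.filter (fun x : Vtx K T => x.1 = a ∧ x.2.1 = b))
        = ({a} : Finset T) ×ˢ (({b} : Finset Bool) ×ˢ (Finset.univ : Finset (Matrix K K F))) := by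
      ext x
      simp only [Finset.mem_filter, Finset.mem_univ, true_and, Finset.mem_product,
        Finset.mem_singleton, and_true]
    have hT : (0 : ℝ) < Fintype.card T := by exact_mod_cast Fintype.card_pos
    rw [e1, Finset.card_product, Finset.card_product, hN, Fintype.card_prod, Fintype.card_prod]
    simp only [Finset.card_singleton, Fintype.card_bool, Finset.card_univ]
    push_cast
    field_simp
  have hMΔ : ∀ a b, M a b ≤ 1 / (2 * Fintype.card T) + Δ a b := by
    intro a b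
    have e1 : (1 : ℝ) / (2 * Fintype.card T)
        = ∑ x : Vtx K T, (if x.1 = a ∧ x.2.1 = b then 1 / N else 0) := by
      rw [← Finset.sum_filter, Finset.sum_const, nsmul_eq_mul, hcardab]
      field_simp
    rw [e1, ← Finset.sum_add_distrib]
    refine Finset.sum_le_sum fun x _ => ?_
    split_ifs
    · have := le_abs_self (∑ y, ν x y - 1 / N)
      linarith
    · simp
  have hsumΔ : ∑ a, (Δ a true + Δ a false) ≤ ε := by
    refine le_trans (le_of_eq ?_) hm
    have e1 : ∀ x : Vtx K T, |∑ y, ν x y - 1 / N|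
        = ∑ a, ((if x.1 = a ∧ x.2.1 = true then |∑ y, ν x y - 1 / N| else 0)
          + (if x.1 = a ∧ x.2.1 = false then |∑ y, ν x y - 1 / N| else 0)) := by
      intro x
      rw [Finset.sum_eq_single x.1]
      · cases x.2.1 <;> simp
      · intro a _ ha
        simp [Ne.symm ha]
      · intro h; exact absurd (Finset.mem_univ _) h
    rw [Finset.sum_congr rfl fun x _ => e1 x, Finset.sum_comm]
    refine Finset.sum_congr rfl fun a _ => ?_
    simp only [hΔ, Finset.sum_add_distrib]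
  -- conclusion
  have hfin : ∀ a, S a true + S a false
      ≤ 1 / (2 * Fintype.card T) + (Δ a true + Δ a false) + Real.sqrt I := by
    intro a
    have hmin : min (S a true) (S a false) ≤ Real.sqrt I := by
      apply Real.le_sqrt_of_sq_le
      refine le_trans ?_ (hprod a)
      have h3 : 0 ≤ min (S a true) (S a false) := le_min (hS0 _ _) (hS0 _ _)
      rw [sq]
      exact mul_le_mul (min_le_left _ _) (min_le_right _ _) h3 (hS0 _ _)
    have hmax : max (S a true) (S a false) ≤ 1 / (2 * Fintype.card T) + (Δ a true + Δ a false) := by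
      refine max_le ?_ ?_
      · have := (hSM a true).trans (hMΔ a true)
        linarith [hΔ0 a false]
      · have := (hSM a false).trans (hMΔ a false)
        linarith [hΔ0 a true]
    have := min_add_max (S a true) (S a false)
    linarith
  rw [hdec]
  refine (Finset.sum_le_sum fun a _ => hfin a).trans ?_
  rw [Finset.sum_add_distrib, Finset.sum_add_distrib, Finset.sum_const, Finset.sum_const,
    nsmul_eq_mul, nsmul_eq_mul, Finset.card_univ]
  have hT : (0 : ℝ) < Fintype.card T := by exact_mod_cast Fintype.card_pos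
  have e2 : (Fintype.card T : ℝ) * (1 / (2 * Fintype.card T)) = 1 / 2 := by field_simp
  rw [e2]
  linarith

/-- The mass of `{y : type y ∈ B}` under the marginal. -/
lemma marg_types [Nonempty T] (ν : Vtx K T → Vtx K T → ℝ) {ε ρ : ℝ}
    (hm : ∑ x, |∑ y, ν x y - 1 / (Fintype.card (Vtx K T) : ℝ)| ≤ ε) (B : T → Prop)
    (hB : ((Finset.univ.filter B).card : ℝ) ≤ ρ * Fintype.card T) :
    ∑ x, (if B x.1 then ∑ y, ν x y else 0) ≤ ρ + ε := by
  set N : ℝ := (Fintype.card (Vtx K T) : ℝ) with hN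
  have hKne : Nonempty (Vtx K T) := ⟨(Classical.arbitrary T, true, 0)⟩
  have hN0 : 0 < N := by rw [hN]; exact_mod_cast Fintype.card_pos
  have hT : (0 : ℝ) < Fintype.card T := by exact_mod_cast Fintype.card_pos
  have h1 : ∀ x : Vtx K T, (if B x.1 then ∑ y, ν x y else 0)
      ≤ (if B x.1 then 1 / N else 0) + |∑ y, ν x y - 1 / N| := by
    intro x
    have := le_abs_self (∑ y, ν x y - 1 / N)
    split_ifs
    · linarith
    · have := abs_nonneg (∑ y, ν x y - 1 / N)
      linarith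
  refine (Finset.sum_le_sum fun x _ => h1 x).trans ?_
  rw [Finset.sum_add_distrib]
  refine add_le_add ?_ hm
  rw [← Finset.sum_filter, Finset.sum_const, nsmul_eq_mul]
  have e1 : (Finset.univ.filter (fun x : Vtx K T => B x.1))
      = (Finset.univ.filter B) ×ˢ (Finset.univ : Finset (Bool × Matrix K K F)) := by
    ext x
    simp only [Finset.mem_filter, Finset.mem_univ, true_and, Finset.mem_product, and_true]
  rw [e1, Finset.card_product, hN, Fintype.card_prod (α := T)]
  push_cast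
  rw [Finset.card_univ]
  have hq : (0 : ℝ) < Fintype.card (Bool × Matrix K K F) := by exact_mod_cast Fintype.card_pos
  rw [mul_one_div, mul_comm (Fintype.card T : ℝ), mul_comm ((Finset.univ.filter B).card : ℝ),
    mul_div_mul_left _ _ hq.ne', div_le_iff₀ hT]
  exact hB

/-- **Final count.** If each nonadjacent cross pair cuts at most a fraction `ρ` of the types, then
the product measure of cross-cross configurations without any cut is bounded below. -/
theorem final_count [Nonempty T] (ν : Vtx K T → Vtx K T → ℝ) (h0 : ∀ x y, 0 ≤ ν x y)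
    (h1 : ∑ x, ∑ y, ν x y = 1) (hsy : ∀ x y, ν x y = ν y x)
    (h2 : ∀ x y, ν x y ≠ 0 → ¬ δ.Adj x y) {ε I ρ : ℝ}
    (hm : ∑ x, |∑ y, ν x y - 1 / (Fintype.card (Vtx K T) : ℝ)| ≤ ε)
    (hc : ∑ x, ∑ x', ∑ y, ∑ y', (if δ.Adj x y ∧ δ.Adj x y' ∧ δ.Adj x' y ∧ δ.Adj x' y'
      then ν x x' * ν y y' else 0) ≤ I)
    (Cut : Vtx K T → Vtx K T → T → Prop)
    (hcut : ∀ x x', ν x x' ≠ 0 → x.1 ≠ x'.1 →
      ((Finset.univ.filter (fun b => Cut x x' b)).card : ℝ) ≤ ρ * Fintype.card T)
    (hρ1 : ρ ≤ 1 / 10 + ε) (hε1 : ε ≤ 1 / 2000)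
    (hIε : Fintype.card T * Real.sqrt I ≤ ε) :
    1 / 40 ≤ ∑ x, ∑ x', ∑ y, ∑ y', (if x.1 ≠ x'.1 ∧ y.1 ≠ y'.1 ∧ ¬ Cut x x' y.1 ∧ ¬ Cut x x' y'.1
      ∧ ¬ Cut y y' x.1 ∧ ¬ Cut y y' x'.1 then ν x x' * ν y y' else 0) := by
  have hsame := same_mass δ ν h0 h2 hm hc
  obtain ⟨C, hC⟩ : ∃ C : Vtx K T × Vtx K T → Prop, ∀ z, C z ↔ z.1.1 ≠ z.2.1 :=
    ⟨_, fun _ => Iff.rfl⟩
  set w : Vtx K T × Vtx K T → ℝ := fun z => ν z.1 z.2 with hw
  set m : ℝ := ∑ z, (if C z then w z else 0) with hmdef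
  have hmlow : 1 / 2 - 2 * ε ≤ m := by
    have e1 : m + ∑ x : Vtx K T, ∑ x' : Vtx K T, (if x.1 = x'.1 then ν x x' else 0) = 1 := by
      rw [hmdef, Fintype.sum_prod_type, ← Finset.sum_add_distrib, ← h1]
      refine Finset.sum_congr rfl fun x _ => ?_
      rw [← Finset.sum_add_distrib]
      refine Finset.sum_congr rfl fun x' _ => ?_
      by_cases h : x.1 = x'.1 <;> simp [hC, hw, h]
    linarith
  have hm1 : m ≤ 1 := by
    rw [← h1, hmdef, Fintype.sum_prod_type]
    refine Finset.sum_le_sum fun x _ => Finset.sum_le_sum fun x' _ => ?_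
    split_ifs
    · exact le_rfl
    · exact h0 _ _
  set c1 : Vtx K T × Vtx K T → Vtx K T × Vtx K T → Prop := fun z z' => Cut z.1 z.2 z'.1.1 with hc1
  set c2 : Vtx K T × Vtx K T → Vtx K T × Vtx K T → Prop := fun z z' => Cut z.1 z.2 z'.2.1 with hc2
  have hb1 : ∀ z, w z ≠ 0 → C z → ∑ z', (if c1 z z' then w z' else 0) ≤ ρ + ε := by
    intro z hz hCz
    refine le_trans (le_of_eq ?_) (marg_types ν hm (fun b => Cut z.1 z.2 b) (hcut _ _ hz ((hC z).1 hCz)))
    rw [Fintype.sum_prod_type]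
    refine Finset.sum_congr rfl fun x _ => ?_
    by_cases h : Cut z.1 z.2 x.1 <;> simp [hc1, hw, h]
  have hb2 : ∀ z, w z ≠ 0 → C z → ∑ z', (if c2 z z' then w z' else 0) ≤ ρ + ε := by
    intro z hz hCz
    refine le_trans (le_of_eq ?_) (marg_types ν hm (fun b => Cut z.1 z.2 b) (hcut _ _ hz ((hC z).1 hCz)))
    rw [Fintype.sum_prod_type, Finset.sum_comm]
    refine Finset.sum_congr rfl fun x _ => ?_
    by_cases h : Cut z.1 z.2 x.1
    · simp only [hc2, hw, h, if_true]
      exact Finset.sum_congr rfl fun y _ => hsy _ _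
    · simp [hc2, h]
  have hfin := count_abs w (fun z => h0 _ _) C hmdef.symm c1 c2 hb1 hb2
  have hval : 1 / 40 ≤ m * m - 4 * (m * (ρ + ε)) := by
    have e1 : m * m - 4 * (m * (ρ + ε)) = m * (m - 4 * (ρ + ε)) := by ring
    rw [e1]
    have h3 : 9 / 100 ≤ m - 4 * (ρ + ε) := by linarith
    have h4 : 49 / 100 ≤ m := by linarith
    calc (1 : ℝ) / 40 ≤ 49 / 100 * (9 / 100) := by norm_num
      _ ≤ m * (m - 4 * (ρ + ε)) := mul_le_mul h4 h3 (by norm_num) (by linarith)
  refine hval.trans (hfin.trans (le_of_eq ?_))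
  rw [Fintype.sum_prod_type]
  refine Finset.sum_congr rfl fun x _ => Finset.sum_congr rfl fun x' _ => ?_
  rw [Fintype.sum_prod_type]
  refine Finset.sum_congr rfl fun y _ => Finset.sum_congr rfl fun y' _ => ?_
  have hiff : (C (x, x') ∧ C (y, y') ∧ ¬ c1 (x, x') (y, y') ∧ ¬ c2 (x, x') (y, y') ∧
      ¬ c1 (y, y') (x, x') ∧ ¬ c2 (y, y') (x, x')) ↔
      (x.1 ≠ x'.1 ∧ y.1 ≠ y'.1 ∧ ¬ Cut x x' y.1 ∧ ¬ Cut x x' y'.1
      ∧ ¬ Cut y y' x.1 ∧ ¬ Cut y y' x'.1) := by
    rw [hC, hC]
  by_cases h : x.1 ≠ x'.1 ∧ y.1 ≠ y'.1 ∧ ¬ Cut x x' y.1 ∧ ¬ Cut x x' y'.1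
      ∧ ¬ Cut y y' x.1 ∧ ¬ Cut y y' x'.1
  · rw [if_pos h, if_pos (hiff.2 h)]
  · rw [if_neg h, if_neg (fun h' => h (hiff.1 h'))]

end Design

end Vale.Agent.P060.HW
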