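import Vale.Agent.P060.HW.Count

/-! Counting lemma for tuples of vectors. -/

namespace Vale.Agent.P060.HW

open Module Submodule

section

variable {F ι : Type*} [Field F] [Fintype ι] [DecidableEq ι] {d : ℕ}

/-- The tensor of two tuples. -/
def smm (h g : Fin d → ι → F) : Matrix ι ι F := ∑ i, sm (h i) (g i)

omit [DecidableEq ι] in
theorem smm_mulVec (h g : Fin d → ι → F) (v : ι → F) :
    (smm h g).mulVec v = (∑ i, (g i ⬝ᵥ v) • h i) + ∑ i, (h i ⬝ᵥ v) • g i := by
  rw [smm, Matrix.sum_mulVec, ← Finset.sum_add_distrib]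
  exact Finset.sum_congr rfl fun i _ => sm_mulVec _ _ _

/-- Independence modulo a subspace. -/
def IndMod (S : Submodule F (ι → F)) (g : Fin d → ι → F) : Prop :=
  ∀ c : Fin d → F, (∑ i, c i • g i) ∈ S → c = 0

/-- Prescribed values on a tuple which is independent modulo `S`. -/
theorem exists_vals {S : Submodule F (ι → F)} {g : Fin d → ι → F} (hg : IndMod S g)
    (t : Fin d → F) : ∃ w : ι → F, (∀ s ∈ S, s ⬝ᵥ w = 0) ∧ ∀ i, g i ⬝ᵥ w = t i := by
  classical
  let P : Submodule F (ι → F) :=
    { carrier := {w | ∀ s ∈ S, s ⬝ᵥ w = 0}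
      add_mem' := fun {a b} ha hb s hs => by rw [dotProduct_add, ha s hs, hb s hs, add_zero]
      zero_mem' := fun s _ => dotProduct_zero s
      smul_mem' := fun c a ha s hs => by rw [dotProduct_smul, ha s hs, smul_zero] }
  let Φ : (ι → F) →ₗ[F] (Fin d → F) :=
    { toFun := fun w i => g i ⬝ᵥ w
      map_add' := fun a b => by ext i; simp [dotProduct_add]
      map_smul' := fun c a => by ext i; simp [dotProduct_smul] }
  have htop : P.map Φ = ⊤ := by
    by_contra hne
    obtain ⟨f, hf, hle⟩ := Submodule.exists_le_ker_of_lt_top _ (lt_top_iff_ne_top.2 hne)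
    let c : Fin d → F := fun i => f (fun j => if i = j then 1 else 0)
    have hfc : ∀ t : Fin d → F, f t = ∑ i, t i * c i := fun t => by
      rw [LinearMap.pi_apply_eq_sum_univ f t]; rfl
    have hc : c ≠ 0 := by
      intro h0
      refine hf (LinearMap.ext fun t => ?_)
      rw [hfc, h0]
      simp
    have hnot : (∑ i, c i • g i) ∉ S := fun h => hc (hg c h)
    obtain ⟨v, hv, hv1⟩ := exists_sep hnot
    have h1 : f (Φ v) = 0 := hle (Submodule.mem_map_of_mem (show v ∈ P from hv))
    rw [hfc] at h1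
    have h2 : (∑ i, c i • g i) ⬝ᵥ v = ∑ i, (Φ v) i * c i := by
      rw [sum_dotProduct]
      refine Finset.sum_congr rfl fun i _ => ?_
      rw [smul_dotProduct, smul_eq_mul, mul_comm]
      rfl
    rw [h2, h1] at hv1
    exact zero_ne_one hv1
  have ht : t ∈ P.map Φ := by rw [htop]; trivial
  obtain ⟨w, hw, hwt⟩ := ht
  exact ⟨w, hw, fun i => congrFun hwt i⟩

/-- Sequences of pairs of tuples. -/
abbrev Sq (F ι : Type*) (d j : ℕ) := Fin j → (Fin d → ι → F) × (Fin d → ι → F)

/-- The span of all entries of a sequence. -/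
def spd {j : ℕ} (p : Sq F ι d j) : Submodule F (ι → F) :=
  span F (Set.range fun x : (Fin j × Fin d) × Bool =>
    if x.2 then (p x.1.1).1 x.1.2 else (p x.1.1).2 x.1.2)

omit [Fintype ι] [DecidableEq ι] in
theorem mem_spd {j : ℕ} (p : Sq F ι d j) (l : Fin j) (i : Fin d) :
    (p l).1 i ∈ spd p ∧ (p l).2 i ∈ spd p :=
  ⟨subset_span ⟨((l, i), true), by simp⟩, subset_span ⟨((l, i), false), by simp⟩⟩

omit [Fintype ι] [DecidableEq ι] in
theorem finrank_spd {j : ℕ} (p : Sq F ι d j) : finrank F (spd p) ≤ 2 * d * j := by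
  refine (finrank_range_le_card _).trans ?_
  simp only [Fintype.card_prod, Fintype.card_fin, Fintype.card_bool]
  exact le_of_eq (by ring)

/-- The tensor of a sequence. -/
def tnd {j : ℕ} (p : Sq F ι d j) : Matrix ι ι F := ∑ l, smm (p l).1 (p l).2

omit [Fintype ι] [DecidableEq ι] in
theorem tnd_succ {j : ℕ} (p : Sq F ι d (j + 1)) :
    tnd p = smm (p 0).1 (p 0).2 + tnd (Fin.tail p) := by
  simp [tnd, Fin.sum_univ_succ, Fin.tail]

omit [DecidableEq ι] in
theorem tnd_zero {j : ℕ} (p : Sq F ι d j) {v : ι → F} (hv : ∀ s ∈ spd p, s ⬝ᵥ v = 0) :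
    (tnd p).mulVec v = 0 := by
  rw [tnd, Matrix.sum_mulVec]
  refine Finset.sum_eq_zero fun l _ => ?_
  rw [smm_mulVec, Finset.sum_eq_zero, Finset.sum_eq_zero, add_zero]
  · intro i _; rw [hv _ (mem_spd p l i).1, zero_smul]
  · intro i _; rw [hv _ (mem_spd p l i).2, zero_smul]

omit [DecidableEq ι] in
theorem tnd_mem {j : ℕ} (p : Sq F ι d j) (v : ι → F) : (tnd p).mulVec v ∈ spd p := by
  rw [tnd, Matrix.sum_mulVec]
  refine sum_mem fun l _ => ?_
  rw [smm_mulVec]
  exact add_mem (sum_mem fun i _ => smul_mem _ _ (mem_spd p l i).1)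
    (sum_mem fun i _ => smul_mem _ _ (mem_spd p l i).2)

/-- Freshness. -/
def Frd : {j : ℕ} → Sq F ι d j → Prop
  | 0, _ => True
  | _ + 1, p => Frd (Fin.tail p) ∧ IndMod (spd (Fin.tail p)) (p 0).2 ∧
      ∃ i, (p 0).1 i ∉ spd (Fin.tail p) ⊔ span F (Set.range (p 0).2)

/-- The span of the second tuples with index below `l`. -/
def low {j : ℕ} (G : Fin j → Fin d → ι → F) (l : ℕ) : Submodule F (ι → F) :=
  span F {x | ∃ m : Fin j, (m : ℕ) < l ∧ ∃ i, G m i = x}

/-- The column space. -/
def col (T : Matrix ι ι F) : Submodule F (ι → F) := LinearMap.range T.mulVecLin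

theorem key {j : ℕ} : ∀ {p : Sq F ι d j}, Frd p → ∀ l : Fin j, ∃ c : Fin d → F, c ≠ 0 ∧
    (∑ i, c i • (p l).2 i) ∈ col (tnd p) ⊔ low (fun m => (p m).2) l := by
  induction j with
  | zero => intro p _ l; exact l.elim0
  | succ j ih =>
    intro p hp l
    obtain ⟨h0, h1, i0, h2⟩ := hp
    refine Fin.cases ?_ (fun l => ?_) l
    · obtain ⟨v, hv, hv1⟩ := exists_sep h2
      refine ⟨fun i => (p 0).1 i ⬝ᵥ v, ?_, mem_sup_left ⟨v, ?_⟩⟩
      · intro h
        have := congrFun h i0
        simp only [Pi.zero_apply] at this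
        rw [hv1] at this
        exact one_ne_zero this
      · rw [Matrix.mulVecLin_apply, tnd_succ, Matrix.add_mulVec, smm_mulVec,
          tnd_zero _ (fun s hs => hv s (mem_sup_left hs)), add_zero, Finset.sum_eq_zero, zero_add]
        intro i _
        rw [hv _ (mem_sup_right (subset_span ⟨i, rfl⟩)), zero_smul]
    · obtain ⟨c, hc, hmem⟩ := ih h0 l
      refine ⟨c, hc, ?_⟩
      obtain ⟨y, ⟨w, hw⟩, z, hz, hyz⟩ := Submodule.mem_sup.1 hmem
      obtain ⟨w', hw', hw2⟩ := exists_vals h1 (fun i => -((p 0).2 i ⬝ᵥ w))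
      have e1 : (∑ i, c i • (p l.succ).2 i) = (∑ i, c i • (Fin.tail p l).2 i) := rfl
      rw [e1, ← hyz, ← hw, Matrix.mulVecLin_apply]
      have e2 : (tnd p).mulVec (w + w') = (tnd (Fin.tail p)).mulVec w +
          ∑ i, ((p 0).1 i ⬝ᵥ (w + w')) • (p 0).2 i := by
        rw [tnd_succ, Matrix.add_mulVec, smm_mulVec, Matrix.mulVec_add (tnd (Fin.tail p)),
          tnd_zero _ hw', add_zero, Finset.sum_eq_zero, zero_add, add_comm]
        intro i _
        rw [dotProduct_add, hw2, add_neg_cancel, zero_smul]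
      have e3 : (tnd (Fin.tail p)).mulVec w = (tnd p).mulVec (w + w') +
          (-∑ i, ((p 0).1 i ⬝ᵥ (w + w')) • (p 0).2 i) := by
        rw [e2]; abel
      rw [e3]
      refine add_mem (add_mem (mem_sup_left ⟨_, rfl⟩) (mem_sup_right (neg_mem ?_)))
        (mem_sup_right ?_)
      · refine sum_mem fun i _ => smul_mem _ _ (subset_span ⟨0, ?_, i, rfl⟩)
        simp
      · have hle : low (fun m => (Fin.tail p m).2) l ≤ low (fun m => (p m).2) (l.succ : ℕ) := by
          refine span_mono ?_
          rintro x ⟨m, hm, i, rfl⟩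
          refine ⟨m.succ, ?_, i, rfl⟩
          simpa using hm
        exact hle hz

variable [Fintype F]

theorem card_sub (S : Submodule F (ι → F)) [DecidablePred (· ∈ S)] {s : ℕ}
    (hs : finrank F S ≤ s) : (Finset.univ.filter (· ∈ S)).card ≤ Fintype.card F ^ s := by
  classical
  have h1 : (Finset.univ.filter (· ∈ S)).card = Fintype.card S := by
    rw [Fintype.card_subtype]
  rw [h1, Module.card_eq_pow_finrank (K := F) (V := S)]
  exact Nat.pow_le_pow_right Fintype.card_pos hs

/-- Tuples with a nontrivial combination in a given space. -/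
theorem card_dep (S : Submodule F (ι → F)) {s : ℕ} (hs : finrank F S ≤ s)
    (Q : Finset (Fin d → ι → F)) (hQ : ∀ g ∈ Q, ∃ c : Fin d → F, c ≠ 0 ∧ (∑ i, c i • g i) ∈ S) :
    Q.card ≤ Fintype.card F ^ (d + s + Fintype.card ι * (d - 1)) := by
  classical
  have hcov : Q ⊆ (Finset.univ.filter fun c : Fin d → F => c ≠ 0).biUnion
      (fun c => Finset.univ.filter fun g : Fin d → ι → F => (∑ i, c i • g i) ∈ S) := by
    intro g hg
    obtain ⟨c, hc, hm⟩ := hQ g hg
    exact Finset.mem_biUnion.2 ⟨c, by simpa using hc, by simpa using hm⟩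
  refine (Finset.card_le_card hcov).trans (Finset.card_biUnion_le.trans ?_)
  have hone : ∀ c ∈ (Finset.univ.filter fun c : Fin d → F => c ≠ 0),
      (Finset.univ.filter fun g : Fin d → ι → F => (∑ i, c i • g i) ∈ S).card ≤
        Fintype.card F ^ (s + Fintype.card ι * (d - 1)) := by
    intro c hc
    simp only [Finset.mem_filter, Finset.mem_univ, true_and] at hc
    obtain ⟨i0, hi0⟩ : ∃ i0, c i0 ≠ 0 := by
      by_contra h
      push Not at h
      exact hc (funext h)
    let f : (Fin d → ι → F) → (ι → F) × ({i : Fin d // i ≠ i0} → ι → F) :=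
      fun g => (∑ i, c i • g i, fun i => g i)
    have hmaps : ∀ g ∈ (Finset.univ.filter fun g : Fin d → ι → F => (∑ i, c i • g i) ∈ S),
        f g ∈ (Finset.univ.filter (· ∈ S)) ×ˢ
          (Finset.univ : Finset ({i : Fin d // i ≠ i0} → ι → F)) := by
      intro g hg
      simp only [Finset.mem_filter, Finset.mem_univ, true_and] at hg
      simp only [f, Finset.mem_product, Finset.mem_filter, Finset.mem_univ, true_and, and_true]
      exact hg
    have hinj : Set.InjOn f (Finset.univ.filter fun g : Fin d → ι → F =>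
        (∑ i, c i • g i) ∈ S : Finset (Fin d → ι → F)) := by
      intro g _ g' _ h
      simp only [f, Prod.mk.injEq] at h
      have h2 : ∀ i, i ≠ i0 → g i = g' i := fun i hi => congrFun h.2 ⟨i, hi⟩
      have h3 := h.1
      rw [← Finset.add_sum_erase Finset.univ (fun i => c i • g i) (Finset.mem_univ i0),
        ← Finset.add_sum_erase Finset.univ (fun i => c i • g' i) (Finset.mem_univ i0)] at h3
      have h4 : ∑ i ∈ Finset.univ.erase i0, c i • g i =
          ∑ i ∈ Finset.univ.erase i0, c i • g' i :=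
        Finset.sum_congr rfl fun i hi => by rw [h2 i (Finset.ne_of_mem_erase hi)]
      rw [h4] at h3
      have h5 : g i0 = g' i0 := smul_right_injective _ hi0 (add_right_cancel h3)
      funext i
      by_cases hi : i = i0
      · rw [hi, h5]
      · exact h2 i hi
    refine (Finset.card_le_card_of_injOn f hmaps hinj).trans ?_
    rw [Finset.card_product, pow_add]
    refine Nat.mul_le_mul (card_sub S hs) ?_
    have hcard : Fintype.card {i : Fin d // i ≠ i0} = d - 1 := by
      rw [Fintype.card_subtype_compl]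
      simp
    rw [Finset.card_univ, Fintype.card_fun, Fintype.card_fun, hcard, ← pow_mul]
  refine (Finset.sum_le_card_nsmul _ _ _ hone).trans ?_
  rw [smul_eq_mul, add_assoc, pow_add _ d]
  refine Nat.mul_le_mul_right _ ?_
  refine (Finset.card_filter_le _ _).trans ?_
  rw [Finset.card_univ, Fintype.card_fun, Fintype.card_fin]

omit [Fintype F] [Fintype ι] [DecidableEq ι] in
theorem finrank_low {j : ℕ} (G : Fin j → Fin d → ι → F) (l : ℕ) :
    finrank F (low G l) ≤ d * j := by
  have h1 : {x | ∃ m : Fin j, (m : ℕ) < l ∧ ∃ i, G m i = x} ⊆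
      Set.range (fun x : Fin j × Fin d => G x.1 x.2) := by
    rintro x ⟨m, _, i, rfl⟩
    exact ⟨(m, i), rfl⟩
  have h2 : Module.Finite F (span F (Set.range (fun x : Fin j × Fin d => G x.1 x.2))) :=
    Module.Finite.span_of_finite F (Set.finite_range _)
  have h3 : finrank F (low G l) ≤
      finrank F (span F (Set.range (fun x : Fin j × Fin d => G x.1 x.2))) :=
    Submodule.finrank_mono (span_mono h1)
  refine h3.trans ((finrank_range_le_card _).trans ?_)
  simp [mul_comm]

/-- The number of second parts. -/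
theorem card_seq (R : Submodule F (ι → F)) {ρ J : ℕ} (hR : finrank F R ≤ ρ) : ∀ j, j ≤ J →
    ∀ Q : Finset (Fin j → Fin d → ι → F),
    (∀ G ∈ Q, ∀ l : Fin j, ∃ c : Fin d → F, c ≠ 0 ∧ (∑ i, c i • G l i) ∈ R ⊔ low G l) →
    Q.card ≤ (Fintype.card F ^ (d + (ρ + d * J) + Fintype.card ι * (d - 1))) ^ j := by
  classical
  intro j
  induction j with
  | zero =>
    intro _ Q _
    rw [pow_zero]
    exact Finset.card_le_one.2 fun a _ b _ => Subsingleton.elim a b
  | succ j ih =>
    intro hj Q hQ
    have hinit := ih (by omega) (Q.image Fin.init) (by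
      intro G hG l
      obtain ⟨G', hG', rfl⟩ := Finset.mem_image.1 hG
      obtain ⟨c, hc, hm⟩ := hQ G' hG' l.castSucc
      refine ⟨c, hc, ?_⟩
      have hle : low G' (l.castSucc : ℕ) ≤ low (Fin.init G') (l : ℕ) := by
        refine span_mono ?_
        rintro x ⟨m, hm, i, rfl⟩
        have hml : (m : ℕ) < j := lt_of_lt_of_le hm (by simp)
        exact ⟨⟨m, hml⟩, hm, i, rfl⟩
      exact sup_le_sup_left hle R hm)
    have hfib : ∀ G0 ∈ Q.image Fin.init, (Q.filter fun G => Fin.init G = G0).card ≤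
        Fintype.card F ^ (d + (ρ + d * J) + Fintype.card ι * (d - 1)) := by
      intro G0 hG0
      have hinj : Set.InjOn (fun G : Fin (j + 1) → Fin d → ι → F => G (Fin.last j))
          (Q.filter fun G => Fin.init G = G0 : Finset _) := by
        intro G hG G' hG' h
        have e1 := (Finset.mem_filter.1 hG).2
        have e2 := (Finset.mem_filter.1 hG').2
        rw [← Fin.snoc_init_self G, ← Fin.snoc_init_self G', e1, e2]
        simp only at h
        rw [h]
      rw [← Finset.card_image_of_injOn hinj]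
      refine card_dep (R ⊔ span F (Set.range fun x : Fin j × Fin d => G0 x.1 x.2)) ?_ _ ?_
      · refine (Submodule.finrank_add_le_finrank_add_finrank _ _).trans
          (add_le_add hR ((finrank_range_le_card _).trans ?_))
        simp only [Fintype.card_prod, Fintype.card_fin]
        rw [mul_comm]
        exact Nat.mul_le_mul_left _ (by omega)
      · intro g hg
        obtain ⟨G, hG, rfl⟩ := Finset.mem_image.1 hg
        obtain ⟨hGQ, hG0'⟩ := Finset.mem_filter.1 hG
        obtain ⟨c, hc, hm⟩ := hQ G hGQ (Fin.last j)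
        refine ⟨c, hc, ?_⟩
        have hle : low G ((Fin.last j : Fin (j + 1)) : ℕ) ≤
            span F (Set.range fun x : Fin j × Fin d => G0 x.1 x.2) := by
          refine span_mono ?_
          rintro x ⟨m, hm, i, rfl⟩
          refine ⟨(⟨m, by simpa using hm⟩, i), ?_⟩
          rw [← hG0']
          rfl
        exact sup_le_sup_left hle R hm
    have h1 := Finset.card_le_mul_card_image (f := Fin.init) Q _ hfib
    rw [pow_succ']
    exact h1.trans (Nat.mul_le_mul_left _ hinit)

/-- The bad tuples with respect to the space `W`. -/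
def Bdd (Lam : Submodule F (Matrix ι ι F)) (W : Submodule F (ι → F)) : Set (Fin d → ι → F) :=
  {g | IndMod W g ∧ ∃ h : Fin d → ι → F, (∃ i, h i ∉ W ⊔ span F (Set.range g)) ∧ smm h g ∈ Lam}

theorem exists_frd (Lam : Submodule F (Matrix ι ι F)) (B : ℕ) : ∀ j : ℕ,
    (∀ W : Submodule F (ι → F), finrank F W ≤ 2 * d * (j - 1) →
      B ≤ (Bdd (d := d) Lam W).ncard) →
    ∃ S : Finset (Sq F ι d j), B ^ j ≤ S.card ∧ (∀ p ∈ S, Frd p ∧ tnd p ∈ Lam) ∧
      Set.InjOn (fun (p : Sq F ι d j) l => (p l).2) S := by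
  classical
  intro j
  induction j with
  | zero =>
    intro _
    refine ⟨Finset.univ, by simp, fun p _ => ⟨trivial, ?_⟩, fun a _ b _ _ =>
      Subsingleton.elim a b⟩
    simp [tnd, Lam.zero_mem]
  | succ j ih =>
    intro hB
    obtain ⟨S, hS, hp, hI⟩ := ih (fun W hW => hB W (hW.trans (Nat.mul_le_mul_left _ (by omega))))
    have hch : ∀ x : (_ : Sq F ι d j) × (Fin d → ι → F), ∃ h : Fin d → ι → F,
        x.2 ∈ Bdd Lam (spd x.1) → (∃ i, h i ∉ spd x.1 ⊔ span F (Set.range x.2)) ∧
          smm h x.2 ∈ Lam := by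
      intro x
      by_cases hx : x.2 ∈ Bdd Lam (spd x.1)
      · obtain ⟨h, hh⟩ := hx.2
        exact ⟨h, fun _ => hh⟩
      · exact ⟨0, fun h => absurd h hx⟩
    choose H hH using hch
    let Q : Finset ((_ : Sq F ι d j) × (Fin d → ι → F)) :=
      S.sigma fun p => (Bdd Lam (spd p)).toFinset
    let f : ((_ : Sq F ι d j) × (Fin d → ι → F)) → Sq F ι d (j + 1) :=
      fun x => Fin.cons (H x, x.2) x.1
    have hf2 : Set.InjOn (fun x l => (f x l).2) (Q : Set _) := by
      rintro ⟨p, g⟩ hx ⟨p', g'⟩ hx' h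
      have h1 := congrFun h 0
      simp only [f, Fin.cons_zero] at h1
      have h2 : (fun l => (p l).2) = fun l => (p' l).2 := by
        funext l
        have := congrFun h l.succ
        simpa only [f, Fin.cons_succ] using this
      have h3 : p = p' := hI (Finset.mem_sigma.1 hx).1 (Finset.mem_sigma.1 hx').1 h2
      subst h3
      subst h1
      rfl
    have hf : Set.InjOn f (Q : Set _) := by
      intro x hx x' hx' h
      exact hf2 hx hx' (by simp only [h])
    refine ⟨Q.image f, ?_, ?_, ?_⟩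
    · rw [Finset.card_image_of_injOn hf, Finset.card_sigma, pow_succ]
      calc B ^ j * B ≤ S.card * B := Nat.mul_le_mul_right _ hS
        _ = ∑ p ∈ S, B := by rw [Finset.sum_const, smul_eq_mul]
        _ ≤ _ := by
          refine Finset.sum_le_sum fun p _ => ?_
          rw [← Set.ncard_eq_toFinset_card']
          exact hB _ ((finrank_spd p).trans (by simp))
    · intro p hpQ
      obtain ⟨x, hx, rfl⟩ := Finset.mem_image.1 hpQ
      obtain ⟨hx1, hx2⟩ := Finset.mem_sigma.1 hx
      rw [Set.mem_toFinset] at hx2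
      have h3 := hH x hx2
      have h4 := hp _ hx1
      refine ⟨⟨?_, ?_, ?_⟩, ?_⟩
      · simpa [f, Fin.tail_cons] using h4.1
      · simpa [f, Fin.tail_cons] using hx2.1
      · simpa [f, Fin.tail_cons] using h3.1
      · rw [tnd_succ]
        simpa [f, Fin.tail_cons] using add_mem h3.2 h4.2
    · intro p hp1 p' hp1' h
      obtain ⟨x, hx, rfl⟩ := Finset.mem_image.1 hp1
      obtain ⟨x', hx', rfl⟩ := Finset.mem_image.1 hp1'
      rw [hf2 hx hx' h]

/-- The counting lemma for tuples. -/
theorem countd (Lam : Submodule F (Matrix ι ι F)) {D j B : ℕ} (hD : finrank F Lam ≤ D)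
    (hB : ∀ W : Submodule F (ι → F), finrank F W ≤ 2 * d * (j - 1) →
      B ≤ (Bdd (d := d) Lam W).ncard) :
    B ^ j ≤ Fintype.card F ^ (D + (d + 3 * d * j + Fintype.card ι * (d - 1)) * j) := by
  classical
  obtain ⟨S, hS, hp, hI⟩ := exists_frd Lam B j hB
  have hfib : ∀ T ∈ S.image tnd, (S.filter fun p => tnd p = T).card ≤
      Fintype.card F ^ ((d + 3 * d * j + Fintype.card ι * (d - 1)) * j) := by
    intro T hT
    obtain ⟨p0, hp0, rfl⟩ := Finset.mem_image.1 hT
    have hR : finrank F (col (tnd p0)) ≤ 2 * d * j := by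
      refine le_trans (Submodule.finrank_mono ?_) (finrank_spd p0)
      rintro _ ⟨v, rfl⟩
      exact tnd_mem p0 v
    have hinj : Set.InjOn (fun (p : Sq F ι d j) l => (p l).2)
        (S.filter fun p => tnd p = tnd p0 : Finset _) :=
      hI.mono (Finset.coe_subset.2 (Finset.filter_subset _ _))
    rw [← Finset.card_image_of_injOn hinj]
    have h1 := card_seq (d := d) (col (tnd p0)) hR j le_rfl
      ((S.filter fun p => tnd p = tnd p0).image fun (p : Sq F ι d j) l => (p l).2) (by
        intro G hG l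
        obtain ⟨p, hpp, rfl⟩ := Finset.mem_image.1 hG
        obtain ⟨hpS, hpT⟩ := Finset.mem_filter.1 hpp
        have := key (hp p hpS).1 l
        rwa [hpT] at this)
    refine h1.trans (le_of_eq ?_)
    rw [← pow_mul]
    congr 2
    ring
  have h1 := Finset.card_le_mul_card_image (f := tnd) S _ hfib
  have h2 : (S.image tnd).card ≤ Fintype.card F ^ D := by
    have h3 : (S.image tnd) ⊆ Finset.univ.filter fun x => x ∈ Lam := by
      intro T hT
      obtain ⟨p, hpS, rfl⟩ := Finset.mem_image.1 hT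
      exact Finset.mem_filter.2 ⟨Finset.mem_univ _, (hp p hpS).2⟩
    refine (Finset.card_le_card h3).trans ?_
    have h4 : (Finset.univ.filter fun x => x ∈ Lam).card = Fintype.card Lam := by
      rw [Fintype.card_subtype]
    rw [h4, Module.card_eq_pow_finrank (K := F) (V := Lam)]
    exact Nat.pow_le_pow_right Fintype.card_pos hD
  calc B ^ j ≤ S.card := hS
    _ ≤ _ * (S.image tnd).card := h1
    _ ≤ _ * Fintype.card F ^ D := Nat.mul_le_mul_left _ h2
    _ = _ := by rw [← pow_add, add_comm]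

/-- Consequence: a space `W` of bounded dimension such that, for all but few tuples `g`, every
tuple `h` with `∑ h_i . g_i` in `Lam` has all its entries in `W + span g`. -/
theorem exists_Wd (Lam : Submodule F (Matrix ι ι F)) {D j B : ℕ} (hD : finrank F Lam ≤ D)
    (hj : Fintype.card F ^ (D + (d + 3 * d * j + Fintype.card ι * (d - 1)) * j) < B ^ j) :
    ∃ (W : Submodule F (ι → F)) (E : Finset (Fin d → ι → F)), finrank F W ≤ 2 * d * (j - 1) ∧
      E.card < B + Fintype.card F ^ (d + 2 * d * (j - 1) + Fintype.card ι * (d - 1)) ∧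
      ∀ g ∉ E, IndMod W g ∧ ∀ h : Fin d → ι → F, smm h g ∈ Lam →
        ∀ i, h i ∈ W ⊔ span F (Set.range g) := by
  classical
  have h1 : ∃ W : Submodule F (ι → F), finrank F W ≤ 2 * d * (j - 1) ∧
      (Bdd (d := d) Lam W).ncard < B := by
    by_contra hcon
    exact absurd (countd Lam hD fun W hW => not_lt.1 fun h => hcon ⟨W, hW, h⟩) (not_le.2 hj)
  obtain ⟨W, hW, hWB⟩ := h1
  refine ⟨W, (Bdd Lam W).toFinset ∪ Finset.univ.filter (fun g => ¬ IndMod W g), hW, ?_, ?_⟩
  · refine (Finset.card_union_le _ _).trans_lt ?_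
    have h2 : (Finset.univ.filter fun g : Fin d → ι → F => ¬ IndMod W g).card ≤
        Fintype.card F ^ (d + 2 * d * (j - 1) + Fintype.card ι * (d - 1)) := by
      refine card_dep W hW _ fun g hg => ?_
      have h3 := (Finset.mem_filter.1 hg).2
      unfold IndMod at h3
      push Not at h3
      obtain ⟨c, hc1, hc2⟩ := h3
      exact ⟨c, hc2, hc1⟩
    rw [← Set.ncard_eq_toFinset_card']
    omega
  · intro g hg
    rw [Finset.mem_union, not_or, Set.mem_toFinset, Finset.mem_filter] at hg
    have h5 : IndMod W g := by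
      by_contra hcon
      exact hg.2 ⟨Finset.mem_univ _, hcon⟩
    refine ⟨h5, fun h hh i => ?_⟩
    by_contra hcon
    exact hg.1 ⟨h5, h, ⟨i, hcon⟩, hh⟩

end

end Vale.Agent.P060.HW
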