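import Vale.Agent.P060.HW.CountD

/-! Counting lemma without quadratic parts. -/

namespace Vale.Agent.P060.HW

open Module Submodule

section Squares

variable {F ι : Type*} [Field F] [Fintype ι] [DecidableEq ι] [Fintype F]

omit [DecidableEq ι] [Fintype F] in
theorem sq_mulVec {j : ℕ} (u : Fin j → ι → F) (v : ι → F) :
    (∑ l, Matrix.vecMulVec (u l) (u l)).mulVec v = ∑ l, (u l ⬝ᵥ v) • u l := by
  rw [Matrix.sum_mulVec]
  refine Finset.sum_congr rfl fun l _ => ?_
  ext i
  simp only [Matrix.mulVec, dotProduct, Matrix.vecMulVec_apply, Pi.smul_apply, smul_eq_mul,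
    Finset.sum_mul]
  exact Finset.sum_congr rfl fun m _ => by ring

omit [Fintype ι] [DecidableEq ι] [Fintype F] in
theorem indMod_bot {j : ℕ} {u : Fin j → ι → F} (hu : LinearIndependent F u) :
    IndMod (⊥ : Submodule F (ι → F)) u := by
  intro c hc
  rw [Submodule.mem_bot] at hc
  exact funext (Fintype.linearIndependent_iff.mp hu c hc)

open Classical in
/-- Independent sequences from a set. -/
theorem card_indep_ge (S : Finset (ι → F)) (J : ℕ) : ∀ j, j ≤ J →
    (S.card - Fintype.card F ^ J) ^ j ≤
      (Finset.univ.filter fun u : Fin j → ι → F => (∀ l, u l ∈ S) ∧ LinearIndependent F u).card := by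
  intro j
  induction j with
  | zero =>
    intro _
    rw [pow_zero]
    refine Nat.one_le_iff_ne_zero.mpr (Finset.card_ne_zero.mpr ⟨Fin.elim0, ?_⟩)
    exact Finset.mem_filter.mpr ⟨Finset.mem_univ _, fun l => l.elim0, linearIndependent_empty_type⟩
  | succ j ih =>
    intro hj
    have ih' := ih (Nat.le_of_succ_le hj)
    set A := Finset.univ.filter fun u : Fin j → ι → F =>
      (∀ l, u l ∈ S) ∧ LinearIndependent F u with hA
    -- the extensions
    let X : Finset ((_ : Fin j → ι → F) × (ι → F)) :=
      A.sigma fun u => S.filter fun x => x ∉ span F (Set.range u)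
    have h1 : A.card * (S.card - Fintype.card F ^ J) ≤ X.card := by
      rw [Finset.card_sigma, ← smul_eq_mul]
      refine Finset.card_nsmul_le_sum _ _ _ fun u _ => ?_
      have h2 : (Finset.univ.filter fun x => x ∈ span F (Set.range u)).card ≤
          Fintype.card F ^ J := by
        refine (card_sub _ (s := j) ?_).trans (Nat.pow_le_pow_right Fintype.card_pos
          (Nat.le_of_succ_le hj))
        exact (finrank_range_le_card _).trans (by simp)
      have h3 : S.card ≤ (S.filter fun x => x ∉ span F (Set.range u)).card +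
          (Finset.univ.filter fun x => x ∈ span F (Set.range u)).card := by
        rw [← Finset.card_filter_add_card_filter_not (s := S)
          (fun x => x ∉ span F (Set.range u))]
        refine Nat.add_le_add_left (Finset.card_le_card fun x hx => ?_) _
        rw [Finset.mem_filter, not_not] at hx
        exact Finset.mem_filter.mpr ⟨Finset.mem_univ _, hx.2⟩
      omega
    have h4 : X.card ≤ (Finset.univ.filter fun u : Fin (j + 1) → ι → F =>
        (∀ l, u l ∈ S) ∧ LinearIndependent F u).card := by
      refine Finset.card_le_card_of_injOn (fun q => (Fin.cons q.2 q.1 : Fin (j + 1) → ι → F))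
        ?_ ?_
      · rintro ⟨u, x⟩ hq
        obtain ⟨hu, hx⟩ := Finset.mem_sigma.mp (Finset.mem_coe.mp hq)
        obtain ⟨-, hu1, hu2⟩ := Finset.mem_filter.mp hu
        obtain ⟨hx1, hx2⟩ := Finset.mem_filter.mp hx
        refine Finset.mem_coe.mpr (Finset.mem_filter.mpr ⟨Finset.mem_univ _, ?_, ?_⟩)
        · intro l
          refine Fin.cases ?_ (fun l => ?_) l
          · simpa using hx1
          · simpa using hu1 l
        · exact linearIndependent_finCons.mpr ⟨hu2, hx2⟩
      · rintro ⟨u, x⟩ _ ⟨u', x'⟩ _ h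
        have h5 : (Fin.cons x u : Fin (j + 1) → ι → F) = Fin.cons x' u' := h
        have h6 := Fin.cons_inj.mp h5
        rw [h6.1, h6.2]
    calc (S.card - Fintype.card F ^ J) ^ (j + 1)
        = (S.card - Fintype.card F ^ J) ^ j * (S.card - Fintype.card F ^ J) := pow_succ _ _
      _ ≤ A.card * (S.card - Fintype.card F ^ J) := Nat.mul_le_mul_right _ ih'
      _ ≤ X.card := h1
      _ ≤ _ := h4

open Classical in
/-- The number of squares in a space of matrices. -/
theorem card_sq_lt (L : Submodule F (Matrix ι ι F)) {D J B : ℕ} (hD : finrank F L ≤ D)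
    (hB : Fintype.card F ^ (D + J * J) < B ^ J) :
    (Finset.univ.filter fun u : ι → F => Matrix.vecMulVec u u ∈ L).card <
      B + Fintype.card F ^ J := by
  set S := Finset.univ.filter fun u : ι → F => Matrix.vecMulVec u u ∈ L with hS
  by_contra hcon
  rw [not_lt] at hcon
  have h1 := card_indep_ge S J J le_rfl
  have h2 : B ^ J ≤ (S.card - Fintype.card F ^ J) ^ J := Nat.pow_le_pow_left (by omega) J
  set A := Finset.univ.filter fun u : Fin J → ι → F =>
    (∀ l, u l ∈ S) ∧ LinearIndependent F u with hA
  let th : (Fin J → ι → F) → Matrix ι ι F := fun u => ∑ l, Matrix.vecMulVec (u l) (u l)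
  have hfib : ∀ T ∈ A.image th, (A.filter fun u => th u = T).card ≤
      Fintype.card F ^ (J * J) := by
    intro T hT
    obtain ⟨u0, hu0, rfl⟩ := Finset.mem_image.mp hT
    have hR : finrank F (LinearMap.range (th u0).mulVecLin) ≤ J := by
      have h3 : LinearMap.range (th u0).mulVecLin ≤ span F (Set.range u0) := by
        rintro _ ⟨v, rfl⟩
        rw [Matrix.mulVecLin_apply, sq_mulVec]
        exact sum_mem fun l _ => smul_mem _ _ (subset_span ⟨l, rfl⟩)
      exact (Submodule.finrank_mono h3).trans ((finrank_range_le_card _).trans (by simp))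
    have h4 : (A.filter fun u => th u = th u0) ⊆
        Fintype.piFinset fun _ : Fin J =>
          Finset.univ.filter fun x => x ∈ LinearMap.range (th u0).mulVecLin := by
      intro u hu
      obtain ⟨huA, hut⟩ := Finset.mem_filter.mp hu
      obtain ⟨-, -, hind⟩ := Finset.mem_filter.mp huA
      rw [Fintype.mem_piFinset]
      intro l
      refine Finset.mem_filter.mpr ⟨Finset.mem_univ _, ?_⟩
      obtain ⟨v, -, hv⟩ := exists_vals (indMod_bot hind) (Pi.single l 1)
      refine ⟨v, ?_⟩
      rw [Matrix.mulVecLin_apply, ← hut, sq_mulVec, Finset.sum_eq_single l]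
      · rw [hv, Pi.single_eq_same, one_smul]
      · intro m _ hm
        rw [hv, Pi.single_eq_of_ne hm, zero_smul]
      · intro h
        exact absurd (Finset.mem_univ _) h
    refine (Finset.card_le_card h4).trans ?_
    rw [Fintype.card_piFinset, Finset.prod_const, Finset.card_univ, Fintype.card_fin, pow_mul]
    exact Nat.pow_le_pow_left (card_sub _ hR) J
  have h5 := Finset.card_le_mul_card_image (f := th) A _ hfib
  have h6 : (A.image th).card ≤ Fintype.card F ^ D := by
    have h7 : A.image th ⊆ Finset.univ.filter fun x => x ∈ L := by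
      intro T hT
      obtain ⟨u, hu, rfl⟩ := Finset.mem_image.mp hT
      obtain ⟨-, huS, -⟩ := Finset.mem_filter.mp hu
      refine Finset.mem_filter.mpr ⟨Finset.mem_univ _, sum_mem fun l _ => ?_⟩
      exact (Finset.mem_filter.mp (huS l)).2
    refine (Finset.card_le_card h7).trans ?_
    have h8 : (Finset.univ.filter fun x => x ∈ L).card = Fintype.card L := by
      rw [Fintype.card_subtype]
    rw [h8, Module.card_eq_pow_finrank (K := F) (V := L)]
    exact Nat.pow_le_pow_right Fintype.card_pos hD
  have h9 : B ^ J ≤ Fintype.card F ^ (D + J * J) := by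
    calc B ^ J ≤ (S.card - Fintype.card F ^ J) ^ J := h2
      _ ≤ A.card := h1
      _ ≤ Fintype.card F ^ (J * J) * (A.image th).card := h5
      _ ≤ Fintype.card F ^ (J * J) * Fintype.card F ^ D := Nat.mul_le_mul_left _ h6
      _ = Fintype.card F ^ (D + J * J) := by rw [← pow_add, add_comm]
  exact absurd hB (not_lt.mpr h9)

end Squares

section Quadratic

variable {F ι : Type*} [Field F] [Fintype ι] [DecidableEq ι] {d : ℕ}

/-- A quadratic expression in a tuple of vectors. -/
def qf (A : Matrix (Fin d) (Fin d) F) (g : Fin d → ι → F) : Matrix ι ι F :=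
  ∑ i, ∑ j, A i j • Matrix.vecMulVec (g i) (g j)

omit [DecidableEq ι] [Fintype ι] in
theorem qf_apply (A : Matrix (Fin d) (Fin d) F) (g : Fin d → ι → F) (x y : ι) :
    qf A g x y = ∑ i, ∑ j, A i j * (g i x * g j y) := by
  simp only [qf, Matrix.sum_apply, Matrix.smul_apply, Matrix.vecMulVec_apply, smul_eq_mul]

omit [DecidableEq ι] [Fintype ι] in
/-- Shifting all vectors by multiples of one vector and completing the square. -/
theorem qf_shift (A : Matrix (Fin d) (Fin d) F) (hA : ∀ i j, A i j = A j i) (a : Fin d → F)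
    {c : F} (hc : c = ∑ i, ∑ j, A i j * (a i * a j)) (hc0 : c ≠ 0) (g : Fin d → ι → F) :
    ∃ m : ι → F, ∃ θ : Matrix ι ι F, ∀ u : ι → F,
      qf A (fun i => g i + a i • u) = c • Matrix.vecMulVec (u + m) (u + m) + θ := by
  refine ⟨fun x => c⁻¹ * ∑ i, ∑ j, A i j * (a i * g j x),
    qf A g - c • Matrix.vecMulVec (fun x => c⁻¹ * ∑ i, ∑ j, A i j * (a i * g j x))
      (fun x => c⁻¹ * ∑ i, ∑ j, A i j * (a i * g j x)), fun u => ?_⟩
  ext x y
  rw [qf_apply]
  simp only [Matrix.add_apply, Matrix.sub_apply, Matrix.smul_apply, Matrix.vecMulVec_apply,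
    smul_eq_mul, Pi.add_apply, Pi.smul_apply, qf_apply]
  set p := ∑ i, ∑ j, A i j * (a i * g j x) with hp
  set q := ∑ i, ∑ j, A i j * (a i * g j y) with hq
  have hp' : ∑ i, ∑ j, A i j * (g i x * a j) = p := by
    rw [hp, Finset.sum_comm]
    refine Finset.sum_congr rfl fun i _ => Finset.sum_congr rfl fun j _ => ?_
    rw [hA j i]
    ring
  have e1 : ∑ i, ∑ j, A i j * ((g i x + a i * u x) * (g j y + a j * u y)) =
      ∑ i, ∑ j, A i j * (g i x * g j y) + u y * p + u x * q + u x * u y * c := by
    rw [← hp', hq, hc, Finset.mul_sum, Finset.mul_sum, Finset.mul_sum, ← Finset.sum_add_distrib,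
      ← Finset.sum_add_distrib, ← Finset.sum_add_distrib]
    refine Finset.sum_congr rfl fun i _ => ?_
    rw [Finset.mul_sum, Finset.mul_sum, Finset.mul_sum, ← Finset.sum_add_distrib,
      ← Finset.sum_add_distrib, ← Finset.sum_add_distrib]
    refine Finset.sum_congr rfl fun j _ => ?_
    ring
  rw [e1]
  field_simp
  ring

/-- A nonzero symmetric matrix has a nonzero value. -/
theorem exists_val_ne (h2 : (2 : F) ≠ 0) {A : Matrix (Fin d) (Fin d) F}
    (hA : ∀ i j, A i j = A j i) (hA0 : A ≠ 0) :
    ∃ a : Fin d → F, ∑ i, ∑ j, A i j * (a i * a j) ≠ 0 := by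
  by_contra hcon
  push Not at hcon
  apply hA0
  have h1 : ∀ k, A k k = 0 := by
    intro k
    have := hcon (Pi.single k 1)
    simpa [Pi.single_apply] using this
  ext k l
  have h3 := hcon (Pi.single k 1 + Pi.single l 1)
  have h4 : ∑ i, ∑ j, A i j * ((Pi.single k 1 + Pi.single l 1 : Fin d → F) i *
      (Pi.single k 1 + Pi.single l 1 : Fin d → F) j) = A k k + A k l + A l k + A l l := by
    simp only [Pi.add_apply, Pi.single_apply, mul_add, mul_ite, mul_one, mul_zero,
      Finset.sum_add_distrib, Finset.sum_ite_eq', Finset.mem_univ, if_true]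
    ring
  rw [h4, h1 k, h1 l, hA l k] at h3
  have h5 : (2 : F) * A k l = 0 := by
    rw [two_mul]
    simpa using h3
  simpa using (mul_eq_zero.mp h5).resolve_left h2

variable [Fintype F]

open Classical in
/-- The number of tuples whose quadratic expression lies in a space of matrices. -/
theorem card_qf_le (h2 : (2 : F) ≠ 0) (L : Submodule F (Matrix ι ι F)) {D J B : ℕ}
    (hD : finrank F L ≤ D) (hB : Fintype.card F ^ (D + 1 + J * J) < B ^ J)
    {A : Matrix (Fin d) (Fin d) F} (hA : ∀ i j, A i j = A j i) (hA0 : A ≠ 0) :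
    (Finset.univ.filter fun g : Fin d → ι → F => qf A g ∈ L).card ≤
      Fintype.card F ^ (Fintype.card ι * (d - 1)) * (B + Fintype.card F ^ J) := by
  obtain ⟨a, ha⟩ := exists_val_ne h2 hA hA0
  set c := ∑ i, ∑ j, A i j * (a i * a j) with hc
  -- for every tuple few shifts are bad
  have hfew : ∀ g : Fin d → ι → F,
      (Finset.univ.filter fun u : ι → F => qf A (fun i => g i + a i • u) ∈ L).card ≤
        B + Fintype.card F ^ J := by
    intro g
    obtain ⟨m, θ, hm⟩ := qf_shift A hA a hc ha g
    have hD' : finrank F ↥(L ⊔ span F {θ}) ≤ D + 1 := by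
      refine (Submodule.finrank_add_le_finrank_add_finrank _ _).trans ?_
      exact Nat.add_le_add hD ((finrank_span_le_card _).trans (by simp))
    refine le_trans ?_ (card_sq_lt (L ⊔ span F {θ}) hD' hB).le
    refine Finset.card_le_card_of_injOn (fun u => u + m) ?_ ?_
    · intro u hu
      have h3 := (Finset.mem_filter.mp (Finset.mem_coe.mp hu)).2
      rw [hm u] at h3
      refine Finset.mem_coe.mpr (Finset.mem_filter.mpr ⟨Finset.mem_univ _, ?_⟩)
      have h4 : Matrix.vecMulVec (u + m) (u + m) =
          c⁻¹ • ((c • Matrix.vecMulVec (u + m) (u + m) + θ) - θ) := by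
        rw [add_sub_cancel_right, smul_smul, inv_mul_cancel₀ ha, one_smul]
      change Matrix.vecMulVec (u + m) (u + m) ∈ L ⊔ span F {θ}
      rw [h4]
      exact smul_mem _ _ (sub_mem (mem_sup_left h3)
        (mem_sup_right (subset_span rfl)))
    · intro u _ v _ h
      exact add_right_cancel h
  -- double counting
  have hdc : (Finset.univ.filter fun g : Fin d → ι → F => qf A g ∈ L).card *
      Fintype.card (ι → F) = ∑ g : Fin d → ι → F,
      (Finset.univ.filter fun u : ι → F => qf A (fun i => g i + a i • u) ∈ L).card := by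
    simp_rw [Finset.card_filter]
    rw [Finset.sum_comm]
    have h5 : ∀ u : ι → F, (∑ g : Fin d → ι → F,
        if qf A (fun i => g i + a i • u) ∈ L then 1 else 0) =
        ∑ g : Fin d → ι → F, if qf A g ∈ L then 1 else 0 := by
      intro u
      exact Fintype.sum_equiv (Equiv.addRight fun i => a i • u) _ _ fun g => rfl
    rw [Finset.sum_congr rfl fun u _ => h5 u, Finset.sum_const, Finset.card_univ, smul_eq_mul,
      mul_comm]
  have hd : 0 < d := by
    rcases Nat.eq_zero_or_pos d with h | h
    · subst h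
      exact absurd (Subsingleton.elim A 0) hA0
    · exact h
  have hle : (Finset.univ.filter fun g : Fin d → ι → F => qf A g ∈ L).card *
      Fintype.card (ι → F) ≤ Fintype.card F ^ (Fintype.card ι * (d - 1)) *
        (B + Fintype.card F ^ J) * Fintype.card (ι → F) := by
    rw [hdc]
    refine (Finset.sum_le_card_nsmul _ _ _ fun g _ => hfew g).trans (le_of_eq ?_)
    rw [Finset.card_univ, smul_eq_mul, Fintype.card_fun, Fintype.card_fun, Fintype.card_fin,
      ← pow_mul]
    have h6 : Fintype.card F ^ (Fintype.card ι * d) =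
        Fintype.card F ^ (Fintype.card ι * (d - 1)) * Fintype.card F ^ Fintype.card ι := by
      rw [← pow_add]
      congr 1
      obtain ⟨e, rfl⟩ := Nat.exists_eq_succ_of_ne_zero hd.ne'
      rw [Nat.succ_sub_one, Nat.mul_succ]
    rw [h6]
    ring
  exact Nat.le_of_mul_le_mul_right hle Fintype.card_pos

omit [Fintype ι] [DecidableEq ι] [Fintype F] in
/-- Splitting off the combination of the vectors `g`. -/
theorem smm_split (w g : Fin d → ι → F) (A : Matrix (Fin d) (Fin d) F) :
    smm (fun i => w i + ∑ j, A i j • g j) g = smm w g + qf (A + A.transpose) g := by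
  ext x y
  have h1 : ∀ (h g : Fin d → ι → F), smm h g x y = ∑ i, (h i x * g i y + g i x * h i y) := by
    intro h g
    simp [smm, sm, Matrix.sum_apply, Matrix.vecMulVec_apply]
  rw [Matrix.add_apply, h1, h1, qf_apply]
  simp only [Pi.add_apply, Finset.sum_apply, Pi.smul_apply, smul_eq_mul, Matrix.add_apply,
    Matrix.transpose_apply]
  have h2 : ∑ i, ∑ j, (A i j + A j i) * (g i x * g j y) =
      ∑ i, ((∑ j, A i j * g j x) * g i y + g i x * ∑ j, A i j * g j y) := by
    have h3 : ∑ i, (∑ j, A i j * g j x) * g i y = ∑ i, ∑ j, A j i * (g i x * g j y) := by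
      rw [Finset.sum_comm]
      refine Finset.sum_congr rfl fun i _ => ?_
      rw [Finset.sum_mul]
      exact Finset.sum_congr rfl fun j _ => by ring
    rw [Finset.sum_add_distrib, h3, ← Finset.sum_add_distrib]
    refine Finset.sum_congr rfl fun i _ => ?_
    rw [Finset.mul_sum, ← Finset.sum_add_distrib]
    exact Finset.sum_congr rfl fun j _ => by ring
  rw [h2, ← Finset.sum_add_distrib]
  exact Finset.sum_congr rfl fun i _ => by ring

open Classical in
/-- The counting lemma without quadratic parts: for all but few tuples `g`, every tuple `h` with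
`∑ h_i . g_i` in `Lam` may be replaced by a tuple from `W`. -/
theorem exists_Wq (h2 : (2 : F) ≠ 0) (Lam : Submodule F (Matrix ι ι F)) {D j B J B' : ℕ}
    (hD : finrank F Lam ≤ D)
    (hj : Fintype.card F ^ (D + (d + 3 * d * j + Fintype.card ι * (d - 1)) * j) < B ^ j)
    (hJ : Fintype.card F ^ (D + d * Fintype.card ι + 1 + J * J) < B' ^ J) :
    ∃ (W : Submodule F (ι → F)) (E : Finset (Fin d → ι → F)), finrank F W ≤ 2 * d * (j - 1) ∧
      E.card ≤ (B + Fintype.card F ^ (d + 2 * d * (j - 1) + Fintype.card ι * (d - 1))) +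
        Fintype.card F ^ (2 * d * (j - 1) * d + d * d) *
          (Fintype.card F ^ (Fintype.card ι * (d - 1)) * (B' + Fintype.card F ^ J)) ∧
      ∀ g ∉ E, IndMod W g ∧ ∀ h : Fin d → ι → F, smm h g ∈ Lam →
        ∃ w : Fin d → ι → F, (∀ i, w i ∈ W) ∧ smm w g = smm h g := by
  obtain ⟨W, E, hW, hE, hg⟩ := exists_Wd Lam hD hj
  -- the enlarged spaces
  let big : (Fin d → W) → Submodule F (Matrix ι ι F) := fun w =>
    Lam ⊔ span F (Set.range fun q : Fin d × ι => sm (w q.1 : ι → F) (Pi.single q.2 1))
  have hbig : ∀ w, finrank F (big w) ≤ D + d * Fintype.card ι := by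
    intro w
    refine (Submodule.finrank_add_le_finrank_add_finrank _ _).trans (Nat.add_le_add hD ?_)
    refine (finrank_range_le_card _).trans (le_of_eq ?_)
    rw [Fintype.card_prod, Fintype.card_fin]
  have hsm : ∀ (w : Fin d → W) (g : Fin d → ι → F),
      smm (fun i => (w i : ι → F)) g ∈ big w := by
    intro w g
    refine sum_mem fun i _ => mem_sup_right ?_
    have h3 : sm (w i : ι → F) (g i) = ∑ m, g i m • sm (w i : ι → F) (Pi.single m 1) := by
      ext x y
      simp only [sm, Matrix.add_apply, Matrix.vecMulVec_apply, Matrix.sum_apply,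
        Matrix.smul_apply, smul_eq_mul, Pi.single_apply, mul_add, Finset.sum_add_distrib]
      simp [mul_comm]
    rw [h3]
    exact sum_mem fun m _ => smul_mem _ _ (subset_span ⟨(i, m), rfl⟩)
  let P : Finset ((Fin d → W) × Matrix (Fin d) (Fin d) F) :=
    Finset.univ.filter fun q => (∀ i j, q.2 i j = q.2 j i) ∧ q.2 ≠ 0
  let E' : Finset (Fin d → ι → F) := E ∪ P.biUnion fun q =>
    Finset.univ.filter fun g => qf q.2 g ∈ big q.1
  refine ⟨W, E', hW, ?_, ?_⟩
  · refine (Finset.card_union_le _ _).trans (Nat.add_le_add hE.le ?_)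
    refine Finset.card_biUnion_le.trans ((Finset.sum_le_card_nsmul _ _
      (Fintype.card F ^ (Fintype.card ι * (d - 1)) * (B' + Fintype.card F ^ J))
      fun q hq => ?_).trans ?_)
    · obtain ⟨-, hq1, hq2⟩ := Finset.mem_filter.mp hq
      exact card_qf_le h2 (big q.1) (hbig q.1) hJ hq1 hq2
    · rw [smul_eq_mul]
      refine Nat.mul_le_mul_right _ ((Finset.card_filter_le _ _).trans ?_)
      have h3 : Fintype.card (Matrix (Fin d) (Fin d) F) = Fintype.card F ^ (d * d) := by
        change Fintype.card (Fin d → Fin d → F) = _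
        rw [Fintype.card_fun, Fintype.card_fun, Fintype.card_fin, ← pow_mul]
      rw [Finset.card_univ, Fintype.card_prod, Fintype.card_fun, Fintype.card_fin, h3,
        Module.card_eq_pow_finrank (K := F) (V := W), ← pow_mul, ← pow_add]
      refine Nat.pow_le_pow_right Fintype.card_pos ?_
      exact Nat.add_le_add_right (Nat.mul_le_mul_right _ hW) _
  · intro g hgE
    rw [Finset.mem_union, not_or] at hgE
    obtain ⟨hind, hh⟩ := hg g hgE.1
    refine ⟨hind, fun h hmem => ?_⟩
    have h4 := hh h hmem
    have h5 : ∀ i, ∃ w ∈ W, ∃ a : Fin d → F, w + ∑ j, a j • g j = h i := by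
      intro i
      obtain ⟨w, hw, z, hz, hwz⟩ := mem_sup.mp (h4 i)
      obtain ⟨a, ha⟩ := (mem_span_range_iff_exists_fun F).mp hz
      exact ⟨w, hw, a, by rw [ha, hwz]⟩
    choose w hw A hA using h5
    have h6 : h = fun i => w i + ∑ j, A i j • g j := (funext hA).symm
    have h7 := smm_split w g (Matrix.of A)
    have h8 : smm h g = smm w g + qf (Matrix.of A + (Matrix.of A).transpose) g := by
      rw [h6]
      exact h7
    by_cases h9 : Matrix.of A + (Matrix.of A).transpose = 0
    · refine ⟨w, hw, ?_⟩
      rw [h8, h9]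
      simp [qf]
    · exfalso
      apply hgE.2
      refine Finset.mem_biUnion.mpr ⟨(fun i => ⟨w i, hw i⟩,
        Matrix.of A + (Matrix.of A).transpose), ?_, ?_⟩
      · refine Finset.mem_filter.mpr ⟨Finset.mem_univ _, fun i j => ?_, h9⟩
        simp [add_comm]
      · refine Finset.mem_filter.mpr ⟨Finset.mem_univ _, ?_⟩
        have h10 : qf (Matrix.of A + (Matrix.of A).transpose) g = smm h g - smm w g := by
          rw [h8, add_sub_cancel_left]
        change qf (Matrix.of A + (Matrix.of A).transpose) g ∈ big fun i => ⟨w i, hw i⟩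
        rw [h10]
        exact sub_mem (mem_sup_left hmem) (hsm (fun i => ⟨w i, hw i⟩) g)

end Quadratic

end Vale.Agent.P060.HW
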