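import Mathlib

/-! Greedy splitting: a large class of tests on which every row is almost constant. -/

namespace Vale.Agent.P060.HW

open Finset

section Energy

variable {T O A A₀ : Type*} [Fintype T] [Fintype O]

open Classical in
/-- The tests with the same base label and the same rows in `Z`. -/
noncomputable def cls (c₀ : T → A₀) (h : T → O → A) (Z : Finset O) (t : T) : Finset T :=
  univ.filter fun s => c₀ s = c₀ t ∧ ∀ w ∈ Z, h s w = h t w

/-- The sum of the squares of the sizes of the classes. -/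
noncomputable def energy (c₀ : T → A₀) (h : T → O → A) (Z : Finset O) : ℝ :=
  ∑ t, ((cls c₀ h Z t).card : ℝ)

theorem mem_cls {c₀ : T → A₀} {h : T → O → A} {Z : Finset O} {t s : T} :
    s ∈ cls c₀ h Z t ↔ c₀ s = c₀ t ∧ ∀ w ∈ Z, h s w = h t w := by
  simp [cls]

theorem self_mem_cls (c₀ : T → A₀) (h : T → O → A) (Z : Finset O) (t : T) :
    t ∈ cls c₀ h Z t := mem_cls.mpr ⟨rfl, fun _ _ => rfl⟩

theorem cls_eq {c₀ : T → A₀} {h : T → O → A} {Z : Finset O} {t s : T}
    (hs : s ∈ cls c₀ h Z t) : cls c₀ h Z s = cls c₀ h Z t := by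
  obtain ⟨h1, h2⟩ := mem_cls.mp hs
  ext u
  rw [mem_cls, mem_cls, h1]
  refine and_congr_right fun _ => forall₂_congr fun w hw => ?_
  rw [h2 w hw]

theorem cls_insert_subset [DecidableEq O] (c₀ : T → A₀) (h : T → O → A) (Z : Finset O) (w : O)
    (t : T) : cls c₀ h (insert w Z) t ⊆ cls c₀ h Z t := by
  intro s hs
  obtain ⟨h1, h2⟩ := mem_cls.mp hs
  exact mem_cls.mpr ⟨h1, fun v hv => h2 v (mem_insert_of_mem hv)⟩

open Classical in
/-- Greedy splitting. -/
theorem greedy [Nonempty T] (c₀ : T → A₀) (h : T → O → A) {κ π : ℝ} (hκ : 0 < κ)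
    (hbig : ∀ Z : Finset O, κ * Z.card ≤ 1 → ∃ t, π * Fintype.card T ≤ (cls c₀ h Z t).card) :
    ∃ (T₁ : Finset T) (t₁ : T), t₁ ∈ T₁ ∧ π * Fintype.card T ≤ T₁.card ∧
      (∀ s ∈ T₁, c₀ s = c₀ t₁) ∧
      ∀ w, ∃ a : A, ((T₁.filter fun s => h s w ≠ a).card : ℝ) * π ≤ κ * Fintype.card T := by
  have hn : (0 : ℝ) < Fintype.card T := Nat.cast_pos.mpr Fintype.card_pos
  set n : ℝ := (Fintype.card T : ℝ) with hndef
  obtain ⟨Z, -, hZ⟩ := Finset.exists_min_image (univ : Finset (Finset O))
    (fun Z => energy c₀ h Z + κ * n ^ 2 * Z.card) ⟨∅, mem_univ _⟩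
  have hle : ∀ Z t, ((cls c₀ h Z t).card : ℝ) ≤ n := fun Z t => by
    rw [hndef]
    exact_mod_cast Finset.card_le_univ _
  have hE0 : 0 ≤ energy c₀ h Z := Finset.sum_nonneg fun t _ => Nat.cast_nonneg _
  have hE1 : energy c₀ h ∅ ≤ n ^ 2 := by
    calc energy c₀ h ∅ ≤ ∑ _t : T, n := Finset.sum_le_sum fun t _ => hle _ _
      _ = n ^ 2 := by rw [Finset.sum_const, card_univ, nsmul_eq_mul, ← hndef, sq]
  have hZc : κ * Z.card ≤ 1 := by
    have h1 := hZ ∅ (mem_univ _)
    rw [Finset.card_empty, Nat.cast_zero, mul_zero, add_zero] at h1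
    have h2 : κ * Z.card * n ^ 2 ≤ 1 * n ^ 2 := by
      have : κ * n ^ 2 * Z.card = κ * Z.card * n ^ 2 := by ring
      linarith
    exact le_of_mul_le_mul_right h2 (by positivity)
  obtain ⟨t, ht⟩ := hbig Z hZc
  set C := cls c₀ h Z t with hC
  have htC : t ∈ C := self_mem_cls _ _ _ _
  have hCpos : (0 : ℝ) < C.card := Nat.cast_pos.mpr (card_pos.mpr ⟨t, htC⟩)
  refine ⟨C, t, htC, ht, fun s hs => (mem_cls.mp hs).1, fun w => ?_⟩
  -- the most popular value of the row `w` on the class
  obtain ⟨s₀, hs₀, hmax⟩ := Finset.exists_max_image C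
    (fun s => (C.filter fun u => h u w = h s w).card) ⟨t, htC⟩
  refine ⟨h s₀ w, ?_⟩
  set m : ℝ := ((C.filter fun u => h u w = h s₀ w).card : ℝ) with hm
  have hsplit : ((C.filter fun s => h s w ≠ h s₀ w).card : ℝ) = C.card - m := by
    have h1 := Finset.card_filter_add_card_filter_not (s := C) (fun u => h u w = h s₀ w)
    have h2 : (((C.filter fun u => h u w = h s₀ w).card : ℝ)) +
        ((C.filter fun s => h s w ≠ h s₀ w).card : ℝ) = C.card := by exact_mod_cast h1
    rw [hm]
    linarith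
  rw [hsplit]
  have hmC : m ≤ C.card := by
    rw [hm]
    exact_mod_cast Finset.card_le_card (Finset.filter_subset _ _)
  by_cases hw : w ∈ Z
  · have h1 : m = C.card := by
      rw [hm]
      congr 2
      refine Finset.filter_true_of_mem fun u hu => ?_
      rw [(mem_cls.mp hu).2 w hw, (mem_cls.mp hs₀).2 w hw]
    rw [h1, sub_self, zero_mul]
    positivity
  · -- the energy drops by at least `C.card * (C.card - m)`
    have h1 := hZ (insert w Z) (mem_univ _)
    rw [Finset.card_insert_of_notMem hw] at h1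
    push_cast at h1
    have h2 : energy c₀ h (insert w Z) + C.card * (C.card - m) ≤ energy c₀ h Z := by
      have h3 : (C.card : ℝ) * (C.card - m) ≤
          ∑ s ∈ C, (((cls c₀ h Z s).card : ℝ) - (cls c₀ h (insert w Z) s).card) := by
        rw [← nsmul_eq_mul]
        refine Finset.card_nsmul_le_sum _ _ _ fun s hs => ?_
        rw [cls_eq hs]
        have h4 : cls c₀ h (insert w Z) s ⊆ C.filter fun u => h u w = h s w := by
          intro u hu
          refine Finset.mem_filter.mpr ⟨?_, (mem_cls.mp hu).2 w (mem_insert_self _ _)⟩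
          have h5 := cls_insert_subset c₀ h Z w s hu
          rwa [cls_eq hs] at h5
        have h5 : ((cls c₀ h (insert w Z) s).card : ℝ) ≤ m := by
          refine le_trans ?_ (Nat.cast_le.mpr (hmax s hs))
          exact_mod_cast Finset.card_le_card h4
        linarith
      have h6 : ∑ s ∈ C, (((cls c₀ h Z s).card : ℝ) - (cls c₀ h (insert w Z) s).card) ≤
          ∑ s, (((cls c₀ h Z s).card : ℝ) - (cls c₀ h (insert w Z) s).card) := by
        refine Finset.sum_le_sum_of_subset_of_nonneg (Finset.subset_univ _) fun s _ _ => ?_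
        rw [sub_nonneg]
        exact_mod_cast Finset.card_le_card (cls_insert_subset c₀ h Z w s)
      have h7 : ∑ s, (((cls c₀ h Z s).card : ℝ) - (cls c₀ h (insert w Z) s).card) =
          energy c₀ h Z - energy c₀ h (insert w Z) := Finset.sum_sub_distrib _ _
      linarith
    have h7 : (C.card : ℝ) * (C.card - m) ≤ κ * n ^ 2 := by linarith
    have h8 : π * n * (C.card - m) ≤ κ * n ^ 2 := by
      refine le_trans ?_ h7
      exact mul_le_mul_of_nonneg_right ht (by linarith)
    have h9 : (C.card - m) * π * n ≤ κ * n * n := by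
      have e1 : π * n * (C.card - m) = (C.card - m) * π * n := by ring
      have e2 : κ * n ^ 2 = κ * n * n := by ring
      rw [← e1, ← e2]
      exact h8
    exact le_of_mul_le_mul_right h9 hn

open Classical in
/-- Greedy splitting, when all but `ε` of the tests take at most `M` values. -/
theorem greedy_of_values [Nonempty T] (c₀ : T → A₀) (h : T → O → A) {κ ε : ℝ} {M : ℕ}
    (hκ : 0 < κ) (hε : ε < 1) (hM : 0 < M)
    (hval : ∀ Z : Finset O, κ * Z.card ≤ 1 → ∃ G : Finset T,
      (1 - ε) * Fintype.card T ≤ G.card ∧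
        (G.image fun t => (c₀ t, fun w : Z => h t w)).card ≤ M) :
    ∃ (T₁ : Finset T) (t₁ : T), t₁ ∈ T₁ ∧ (1 - ε) / M * Fintype.card T ≤ T₁.card ∧
      (∀ s ∈ T₁, c₀ s = c₀ t₁) ∧
      ∀ w, ∃ a : A, ((T₁.filter fun s => h s w ≠ a).card : ℝ) * ((1 - ε) / M) ≤
        κ * Fintype.card T := by
  have hMpos : (0 : ℝ) < M := Nat.cast_pos.mpr hM
  refine greedy c₀ h hκ fun Z hZ => ?_
  obtain ⟨G, hG, hGM⟩ := hval Z hZ
  set f : T → A₀ × (Z → A) := fun t => (c₀ t, fun w : Z => h t w) with hf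
  have hn : (0 : ℝ) < Fintype.card T := Nat.cast_pos.mpr Fintype.card_pos
  have hGne : G.Nonempty := by
    rw [← Finset.card_pos]
    have : (0 : ℝ) < G.card := lt_of_lt_of_le (mul_pos (by linarith) hn) hG
    exact_mod_cast this
  obtain ⟨y, hy, hmax⟩ := Finset.exists_max_image (G.image f)
    (fun y => (G.filter fun t => f t = y).card) (hGne.image f)
  obtain ⟨t, ht, rfl⟩ := Finset.mem_image.mp hy
  refine ⟨t, ?_⟩
  have h1 : G.card ≤ M * (G.filter fun s => f s = f t).card := by
    rw [Finset.card_eq_sum_card_image f G]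
    refine (Finset.sum_le_card_nsmul _ _ _ fun y hy => hmax y hy).trans ?_
    rw [smul_eq_mul]
    exact Nat.mul_le_mul_right _ hGM
  have h2 : (G.filter fun s => f s = f t) ⊆ cls c₀ h Z t := by
    intro s hs
    have h3 := (Finset.mem_filter.mp hs).2
    rw [hf, Prod.mk.injEq] at h3
    exact mem_cls.mpr ⟨h3.1, fun w hw => congrFun h3.2 ⟨w, hw⟩⟩
  have h4 : (G.card : ℝ) ≤ M * (cls c₀ h Z t).card := by
    exact_mod_cast h1.trans (Nat.mul_le_mul_left _ (Finset.card_le_card h2))
  rw [div_mul_eq_mul_div, div_le_iff₀ hMpos]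
  linarith

end Energy

end Vale.Agent.P060.HW
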