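import Mathlib

/-! Finite probability spaces and Shannon entropy (adapted from the P114 library). -/

open scoped Classical

noncomputable section

namespace Vale.Agent.P060.HW

universe u v

/-- A probability weight on a finite type. -/
structure FinProb (Ω : Type u) [Fintype Ω] where
  w : Ω → ℝ
  nonneg : ∀ ω, 0 ≤ w ω
  sum_one : ∑ ω, w ω = 1

namespace FinProb

variable {Ω : Type*} [Fintype Ω] (P : FinProb Ω) {α β γ δ : Type*}

/-- The probability that `f = a`. -/
def p (f : Ω → α) (a : α) : ℝ := ∑ ω, if f ω = a then P.w ω else 0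

/-- Expectation. -/
def E (X : Ω → ℝ) : ℝ := ∑ ω, P.w ω * X ω

/-- Shannon entropy in nats. -/
def H (f : Ω → α) : ℝ := ∑ ω, P.w ω * (-Real.log (P.p f (f ω)))

lemma p_nonneg (f : Ω → α) (a : α) : 0 ≤ P.p f a :=
  Finset.sum_nonneg fun ω _ => by split_ifs; exacts [P.nonneg ω, le_rfl]

lemma w_le_p (f : Ω → α) (ω : Ω) : P.w ω ≤ P.p f (f ω) := by
  unfold p
  have := Finset.single_le_sum (f := fun ω' => if f ω' = f ω then P.w ω' else 0)
    (s := Finset.univ) (fun i _ => by split_ifs; exacts [P.nonneg i, le_rfl])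
    (Finset.mem_univ ω)
  simpa using this

lemma w_le_one (ω : Ω) : P.w ω ≤ 1 := by
  rw [← P.sum_one]
  exact Finset.single_le_sum (fun i _ => P.nonneg i) (Finset.mem_univ ω)

lemma p_le_one (f : Ω → α) (a : α) : P.p f a ≤ 1 := by
  rw [← P.sum_one]
  exact Finset.sum_le_sum fun ω _ => by split_ifs; exacts [le_rfl, P.nonneg ω]

lemma p_pos {ω : Ω} (h : 0 < P.w ω) (f : Ω → α) : 0 < P.p f (f ω) :=
  lt_of_lt_of_le h (P.w_le_p f ω)

lemma w_zero_or_pos (ω : Ω) : P.w ω = 0 ∨ 0 < P.w ω := by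
  rcases (P.nonneg ω).eq_or_lt with h | h
  · exact Or.inl h.symm
  · exact Or.inr h

/-- `f` determines `g` on the support: probabilities of fibres are monotone. -/
lemma p_mono_of_det {f : Ω → α} {g : Ω → β} (hfg : ∀ ω ω', f ω = f ω' → g ω = g ω') (ω : Ω) :
    P.p f (f ω) ≤ P.p g (g ω) := by
  unfold p
  refine Finset.sum_le_sum fun ω' _ => ?_
  by_cases h : f ω' = f ω
  · simp [h, hfg _ _ h]
  · simp only [h, if_false]
    split_ifs
    exacts [P.nonneg ω', le_rfl]

lemma H_nonneg (f : Ω → α) : 0 ≤ P.H f := by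
  unfold H
  refine Finset.sum_nonneg fun ω _ => mul_nonneg (P.nonneg ω) ?_
  have := Real.log_nonpos (P.p_nonneg f (f ω)) (P.p_le_one f (f ω))
  linarith

/-- If `f` determines `g` then `H g ≤ H f`. -/
lemma H_le_of_det {f : Ω → α} {g : Ω → β} (hfg : ∀ ω ω', f ω = f ω' → g ω = g ω') :
    P.H g ≤ P.H f := by
  unfold H
  refine Finset.sum_le_sum fun ω _ => ?_
  rcases P.w_zero_or_pos ω with h | h
  · simp [h]
  · refine mul_le_mul_of_nonneg_left ?_ h.le
    have := Real.log_le_log (P.p_pos h f) (P.p_mono_of_det hfg ω)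
    linarith

lemma H_congr_det {f : Ω → α} {g : Ω → β} (hfg : ∀ ω ω', f ω = f ω' ↔ g ω = g ω') :
    P.H g = P.H f :=
  le_antisymm (P.H_le_of_det fun ω ω' h => (hfg ω ω').1 h)
    (P.H_le_of_det fun ω ω' h => (hfg ω ω').2 h)

/-- Sum over fibres. -/
lemma sum_fiber [DecidableEq α] (f : Ω → α) (φ : α → ℝ) :
    ∑ ω, P.w ω * φ (f ω) = ∑ a ∈ Finset.univ.image f, P.p f a * φ a := by
  have h1 : ∀ a ∈ Finset.univ.image f, P.p f a * φ a
      = ∑ ω, if f ω = a then P.w ω * φ (f ω) else 0 := by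
    intro a _
    unfold p
    rw [Finset.sum_mul]
    refine Finset.sum_congr rfl fun ω _ => ?_
    by_cases h : f ω = a
    · simp [h]
    · simp [h]
  rw [Finset.sum_congr rfl h1, Finset.sum_comm]
  refine Finset.sum_congr rfl fun ω _ => ?_
  rw [Finset.sum_ite_eq]
  simp

lemma H_eq_sum [DecidableEq α] (f : Ω → α) :
    P.H f = ∑ a ∈ Finset.univ.image f, Real.negMulLog (P.p f a) := by
  unfold H
  rw [P.sum_fiber f (fun a => -Real.log (P.p f a))]
  refine Finset.sum_congr rfl fun a _ => ?_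
  simp [Real.negMulLog]

/-- The sum of the probabilities over any finset is at most one. -/
lemma sum_p_le_one (f : Ω → α) (s : Finset α) : ∑ a ∈ s, P.p f a ≤ 1 := by
  unfold p
  rw [Finset.sum_comm, ← P.sum_one]
  refine Finset.sum_le_sum fun ω _ => ?_
  rw [Finset.sum_ite_eq]
  split_ifs
  exacts [le_rfl, P.nonneg ω]

lemma sum_p_image [DecidableEq α] (f : Ω → α) : ∑ a ∈ Finset.univ.image f, P.p f a = 1 := by
  have := P.sum_fiber f (fun _ => 1)
  simp only [mul_one] at this
  rw [← this, P.sum_one]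

lemma sum_p_pair_left [DecidableEq α] (f : Ω → α) (h : Ω → γ) (c : γ) :
    ∑ a ∈ Finset.univ.image f, P.p (fun ω => (f ω, h ω)) (a, c) = P.p h c := by
  unfold p
  rw [Finset.sum_comm]
  refine Finset.sum_congr rfl fun ω _ => ?_
  by_cases hc : h ω = c
  · rw [Finset.sum_eq_single (f ω)]
    · simp [hc]
    · intro b _ hb
      simp [Ne.symm hb]
    · intro hb
      exact absurd (Finset.mem_image_of_mem f (Finset.mem_univ ω)) hb
  · have : ∀ a, ¬ ((f ω, h ω) = (a, c)) := by
      intro a h'; exact hc (by simpa using (Prod.ext_iff.1 h').2)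
    simp [this, hc]

/-- Gibbs' inequality. -/
lemma H_le_gibbs [DecidableEq α] (f : Ω → α) (q : α → ℝ) (hq : ∀ ω, 0 < P.w ω → 0 < q (f ω))
    (hs : ∑ a ∈ Finset.univ.image f, q a ≤ 1) (hq0 : ∀ a, 0 ≤ q a) :
    P.H f ≤ ∑ ω, P.w ω * (-Real.log (q (f ω))) := by
  have key : ∑ ω, P.w ω * (Real.log (q (f ω)) - Real.log (P.p f (f ω))) ≤ 0 := by
    have h1 : ∑ ω, P.w ω * (Real.log (q (f ω)) - Real.log (P.p f (f ω)))
        ≤ ∑ ω, P.w ω * (q (f ω) / P.p f (f ω) - 1) := by
      refine Finset.sum_le_sum fun ω _ => ?_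
      rcases P.w_zero_or_pos ω with h | h
      · simp [h]
      · refine mul_le_mul_of_nonneg_left ?_ h.le
        rw [← Real.log_div (hq ω h).ne' (P.p_pos h f).ne']
        exact Real.log_le_sub_one_of_pos (div_pos (hq ω h) (P.p_pos h f))
    have h2 : ∑ ω, P.w ω * (q (f ω) / P.p f (f ω) - 1)
        = ∑ ω, P.w ω * (q (f ω) / P.p f (f ω)) - 1 := by
      simp only [mul_sub, mul_one, Finset.sum_sub_distrib, P.sum_one]
    have h3 : ∑ ω, P.w ω * (q (f ω) / P.p f (f ω)) ≤ ∑ a ∈ Finset.univ.image f, q a := by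
      rw [P.sum_fiber f (fun a => q a / P.p f a)]
      refine Finset.sum_le_sum fun a _ => ?_
      rcases (P.p_nonneg f a).eq_or_lt with h | h
      · rw [← h]; simpa using hq0 a
      · rw [mul_div_cancel₀ _ h.ne']
    linarith
  have : ∑ ω, P.w ω * (-Real.log (q (f ω))) - P.H f
      = -∑ ω, P.w ω * (Real.log (q (f ω)) - Real.log (P.p f (f ω))) := by
    unfold H
    rw [← Finset.sum_sub_distrib, ← Finset.sum_neg_distrib]
    exact Finset.sum_congr rfl fun ω _ => by ring
  linarith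

/-- Entropy is at most the log of the number of values. -/
lemma H_le_log_card (f : Ω → α) (s : Finset α) (hs : ∀ ω, f ω ∈ s) :
    P.H f ≤ Real.log s.card := by
  have hne : s.Nonempty := by
    by_contra h
    rw [Finset.not_nonempty_iff_eq_empty] at h
    have : IsEmpty Ω := ⟨fun ω => by simpa [h] using hs ω⟩
    have h1 := P.sum_one
    simp at h1
  have hc : (0 : ℝ) < s.card := by exact_mod_cast hne.card_pos
  have := P.H_le_gibbs f (fun _ => (1 : ℝ) / s.card) (fun ω _ => by positivity) (by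
    rw [Finset.sum_const, nsmul_eq_mul]
    have : (Finset.univ.image f).card ≤ s.card :=
      Finset.card_le_card (by intro a ha; obtain ⟨ω, -, rfl⟩ := Finset.mem_image.1 ha; exact hs ω)
    have h2 : ((Finset.univ.image f).card : ℝ) ≤ s.card := by exact_mod_cast this
    rw [mul_one_div]
    exact (div_le_one hc).2 h2) (fun a => by positivity)
  refine this.trans ?_
  rw [← Finset.sum_mul, P.sum_one]
  simp

/-- Strong subadditivity (submodularity). -/
lemma H_submod (f : Ω → α) (g : Ω → β) (h : Ω → γ) :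
    P.H (fun ω => (f ω, g ω, h ω)) + P.H h
      ≤ P.H (fun ω => (f ω, h ω)) + P.H (fun ω => (g ω, h ω)) := by
  set A : α × γ → ℝ := P.p (fun ω => (f ω, h ω)) with hA
  set B : β × γ → ℝ := P.p (fun ω => (g ω, h ω)) with hB
  set C : α × β × γ → ℝ := P.p (fun ω => (f ω, g ω, h ω)) with hC
  set D : γ → ℝ := P.p h with hD
  have hA0 : ∀ x, 0 ≤ A x := fun x => P.p_nonneg _ x
  have hB0 : ∀ x, 0 ≤ B x := fun x => P.p_nonneg _ x
  have hC0 : ∀ x, 0 ≤ C x := fun x => P.p_nonneg _ x
  have hD0 : ∀ x, 0 ≤ D x := fun x => P.p_nonneg _ x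
  have key : ∑ ω, P.w ω * (Real.log (A (f ω, h ω)) + Real.log (B (g ω, h ω))
      - Real.log (C (f ω, g ω, h ω)) - Real.log (D (h ω))) ≤ 0 := by
    have h1 : ∀ ω, P.w ω * (Real.log (A (f ω, h ω)) + Real.log (B (g ω, h ω))
        - Real.log (C (f ω, g ω, h ω)) - Real.log (D (h ω)))
        ≤ P.w ω * (A (f ω, h ω) * B (g ω, h ω) / (C (f ω, g ω, h ω) * D (h ω)) - 1) := by
      intro ω
      rcases P.w_zero_or_pos ω with hw | hw
      · simp [hw]
      · refine mul_le_mul_of_nonneg_left ?_ hw.le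
        have a0 : 0 < A (f ω, h ω) := P.p_pos hw (fun ω => (f ω, h ω))
        have b0 : 0 < B (g ω, h ω) := P.p_pos hw (fun ω => (g ω, h ω))
        have c0 : 0 < C (f ω, g ω, h ω) := P.p_pos hw (fun ω => (f ω, g ω, h ω))
        have d0 : 0 < D (h ω) := P.p_pos hw h
        rw [← Real.log_mul a0.ne' b0.ne', ← Real.log_div (by positivity) c0.ne',
          ← Real.log_div (by positivity) d0.ne', div_div]
        exact Real.log_le_sub_one_of_pos (by positivity)
    have h2 : ∑ ω, P.w ω * (A (f ω, h ω) * B (g ω, h ω) / (C (f ω, g ω, h ω) * D (h ω)) - 1)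
        = ∑ ω, P.w ω * (A (f ω, h ω) * B (g ω, h ω) / (C (f ω, g ω, h ω) * D (h ω))) - 1 := by
      simp only [mul_sub, mul_one, Finset.sum_sub_distrib, P.sum_one]
    have h3 : ∑ ω, P.w ω * (A (f ω, h ω) * B (g ω, h ω) / (C (f ω, g ω, h ω) * D (h ω))) ≤ 1 := by
      have e1 := P.sum_fiber (fun ω => (f ω, g ω, h ω))
        (fun x : α × β × γ => A (x.1, x.2.2) * B (x.2.1, x.2.2) / (C x * D x.2.2))
      simp only at e1
      rw [e1]
      have e2 : ∑ x ∈ Finset.univ.image (fun ω => (f ω, g ω, h ω)),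
          P.p (fun ω => (f ω, g ω, h ω)) x
            * (A (x.1, x.2.2) * B (x.2.1, x.2.2) / (C x * D x.2.2))
          ≤ ∑ x ∈ Finset.univ.image (fun ω => (f ω, g ω, h ω)),
            A (x.1, x.2.2) * B (x.2.1, x.2.2) / D x.2.2 := by
        refine Finset.sum_le_sum fun x _ => ?_
        rw [← hC]
        rcases (hC0 x).eq_or_lt with hx | hx
        · rw [← hx, zero_mul]
          exact div_nonneg (mul_nonneg (hA0 _) (hB0 _)) (hD0 _)
        · rw [mul_comm (C x) (D x.2.2), ← div_div, mul_div_cancel₀ _ hx.ne']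
      have e3 : ∑ x ∈ Finset.univ.image (fun ω => (f ω, g ω, h ω)),
            A (x.1, x.2.2) * B (x.2.1, x.2.2) / D x.2.2
          ≤ ∑ x ∈ (Finset.univ.image f) ×ˢ ((Finset.univ.image g) ×ˢ (Finset.univ.image h)),
            A (x.1, x.2.2) * B (x.2.1, x.2.2) / D x.2.2 := by
        refine Finset.sum_le_sum_of_subset_of_nonneg ?_ ?_
        · intro x hx
          obtain ⟨ω, -, rfl⟩ := Finset.mem_image.1 hx
          simp
        · intro x _ _
          exact div_nonneg (mul_nonneg (hA0 _) (hB0 _)) (hD0 _)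
      have e4 : ∑ x ∈ (Finset.univ.image f) ×ˢ ((Finset.univ.image g) ×ˢ (Finset.univ.image h)),
            A (x.1, x.2.2) * B (x.2.1, x.2.2) / D x.2.2
          = ∑ c ∈ Finset.univ.image h, D c * D c / D c := by
        rw [Finset.sum_product]
        simp_rw [Finset.sum_product]
        have : ∀ a ∈ Finset.univ.image f, ∑ b ∈ Finset.univ.image g, ∑ c ∈ Finset.univ.image h,
            A (a, c) * B (b, c) / D c = ∑ c ∈ Finset.univ.image h, A (a, c) * D c / D c := by
          intro a _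
          rw [Finset.sum_comm]
          refine Finset.sum_congr rfl fun c _ => ?_
          rw [← Finset.sum_div, ← Finset.mul_sum, hB, P.sum_p_pair_left g h c]
        rw [Finset.sum_congr rfl this, Finset.sum_comm]
        refine Finset.sum_congr rfl fun c _ => ?_
        rw [← Finset.sum_div, ← Finset.sum_mul, hA, P.sum_p_pair_left f h c]
      have e5 : ∑ c ∈ Finset.univ.image h, D c * D c / D c = 1 := by
        rw [← P.sum_p_image h]
        refine Finset.sum_congr rfl fun c _ => ?_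
        rcases (hD0 c).eq_or_lt with hx | hx
        · rw [← hD, ← hx]; simp
        · rw [mul_div_assoc, div_self hx.ne', mul_one]
      linarith
    have h4 := Finset.sum_le_sum (s := Finset.univ) fun ω _ => h1 ω
    linarith
  have e : P.H (fun ω => (f ω, h ω)) + P.H (fun ω => (g ω, h ω))
      - P.H (fun ω => (f ω, g ω, h ω)) - P.H h
      = -∑ ω, P.w ω * (Real.log (A (f ω, h ω)) + Real.log (B (g ω, h ω))
      - Real.log (C (f ω, g ω, h ω)) - Real.log (D (h ω))) := by
    unfold H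
    rw [← Finset.sum_add_distrib, ← Finset.sum_sub_distrib, ← Finset.sum_sub_distrib,
      ← Finset.sum_neg_distrib]
    refine Finset.sum_congr rfl fun ω _ => ?_
    simp only [hA, hB, hC, hD]
    ring
  linarith

lemma p_eq_zero_of_notMem {f : Ω → α} {a : α} (h : ∀ ω, f ω ≠ a) : P.p f a = 0 := by
  unfold p
  exact Finset.sum_eq_zero fun ω _ => by simp [h ω]

/-- Entropy as a sum over any finset containing the range. -/
lemma H_eq_sum_of_subset [DecidableEq α] (f : Ω → α) (s : Finset α) (hs : ∀ ω, f ω ∈ s) :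
    P.H f = ∑ a ∈ s, Real.negMulLog (P.p f a) := by
  rw [P.H_eq_sum]
  refine Finset.sum_subset ?_ ?_
  · intro a ha
    obtain ⟨ω, -, rfl⟩ := Finset.mem_image.1 ha
    exact hs ω
  · intro a _ ha
    rw [P.p_eq_zero_of_notMem, Real.negMulLog_zero]
    intro ω hω
    exact ha (hω ▸ Finset.mem_image_of_mem f (Finset.mem_univ ω))

/-- Entropy depends only on the law. -/
lemma H_eq_of_law {Ω' : Type*} [Fintype Ω'] (Q : FinProb Ω') (f : Ω → α) (g : Ω' → α)
    (h : ∀ a, P.p f a = Q.p g a) : P.H f = Q.H g := by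
  rw [P.H_eq_sum_of_subset f (Finset.univ.image f ∪ Finset.univ.image g)
    (fun ω => Finset.mem_union_left _ (Finset.mem_image_of_mem f (Finset.mem_univ ω))),
    Q.H_eq_sum_of_subset g (Finset.univ.image f ∪ Finset.univ.image g)
    (fun ω => Finset.mem_union_right _ (Finset.mem_image_of_mem g (Finset.mem_univ ω)))]
  exact Finset.sum_congr rfl fun a _ => by rw [h a]

/-- If `φ` pushes `Q` to `P`, laws of compositions agree. -/
lemma p_comp_of_map {Ω' : Type*} [Fintype Ω'] (Q : FinProb Ω') (φ : Ω' → Ω)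
    (hφ : ∀ ω, Q.p φ ω = P.w ω) (f : Ω → α) (a : α) :
    Q.p (fun x => f (φ x)) a = P.p f a := by
  unfold p
  have : ∀ ω, (if f ω = a then P.w ω else 0)
      = ∑ x, if φ x = ω then (if f ω = a then Q.w x else 0) else 0 := by
    intro ω
    by_cases h : f ω = a
    · simp only [h, if_true]
      rw [← hφ ω]; rfl
    · simp [h]
  rw [Finset.sum_congr rfl fun ω _ => this ω, Finset.sum_comm]
  refine Finset.sum_congr rfl fun x _ => ?_
  rw [Finset.sum_ite_eq]
  simp

lemma H_comp_of_map {Ω' : Type*} [Fintype Ω'] (Q : FinProb Ω') (φ : Ω' → Ω)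
    (hφ : ∀ ω, Q.p φ ω = P.w ω) (f : Ω → α) :
    Q.H (fun x => f (φ x)) = P.H f :=
  Q.H_eq_of_law P _ _ (P.p_comp_of_map Q φ hφ f)

/-- Min-entropy bound. -/
lemma neg_log_le_H (f : Ω → α) (B : ℝ) (hB : ∀ a, P.p f a ≤ B) : -Real.log B ≤ P.H f := by
  unfold H
  have : -Real.log B = ∑ ω, P.w ω * (-Real.log B) := by
    rw [← Finset.sum_mul, P.sum_one, one_mul]
  rw [this]
  refine Finset.sum_le_sum fun ω _ => ?_
  rcases P.w_zero_or_pos ω with h | h
  · simp [h]
  · refine mul_le_mul_of_nonneg_left ?_ h.le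
    have := Real.log_le_log (P.p_pos h f) (hB (f ω))
    linarith

end FinProb

end Vale.Agent.P060.HW
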