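import Vale.Agent.P060.HW.Bridge

/-!
# P060/HW: convolutions of laws of bounded density

`conv2_field`, `conv3_field`: mixtures of convolutions of two (three) laws of bounded density are
nearly invariant under a field of subspaces of bounded codimension.
-/

open Finset Module
open scoped BigOperators ComplexConjugate

namespace Vale.Agent.P060.HW

namespace CharSys

variable {X G : Type*} [AddCommGroup X] [Fintype G] (S : CharSys X G)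

/-- Bessel's inequality. -/
lemma bessel [Nonempty G] (s : Finset X) (f : G → ℂ) :
    ∑ x ∈ s, ‖S.coef f x‖ ^ 2 ≤ 𝔼 g, ‖f g‖ ^ 2 := by
  classical
  have h0 : 0 ≤ 𝔼 g, ‖f g - S.proj s f g‖ ^ 2 := expect_nonneg fun _ _ => sq_nonneg _
  have h1 : 𝔼 g, ‖f g - S.proj s f g‖ ^ 2
      = 𝔼 g, ‖f g‖ ^ 2 - ∑ x ∈ s, ‖S.coef f x‖ ^ 2 := by
    have hg : ∀ g, ‖f g - S.proj s f g‖ ^ 2 = ‖f g‖ ^ 2 + ‖S.proj s f g‖ ^ 2
        - 2 * (f g * conj (S.proj s f g)).re := by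
      intro g
      have := Complex.normSq_sub (f g) (S.proj s f g)
      rw [Complex.normSq_eq_norm_sq, Complex.normSq_eq_norm_sq, Complex.normSq_eq_norm_sq] at this
      exact this
    have hcross : 𝔼 g, (f g * conj (S.proj s f g)).re = ∑ x ∈ s, ‖S.coef f x‖ ^ 2 := by
      have h2 : ((𝔼 g, (f g * conj (S.proj s f g)) : ℂ)) = ((∑ x ∈ s, ‖S.coef f x‖ ^ 2 : ℝ) : ℂ) := by
        have h3 : ∀ g, f g * conj (S.proj s f g)
            = ∑ x ∈ s, conj (S.coef f x) * (f g * conj (S.e x g)) := by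
          intro g
          unfold proj
          rw [map_sum, Finset.mul_sum]
          exact Finset.sum_congr rfl fun x _ => by rw [map_mul]; ring
        rw [expect_congr rfl fun g _ => h3 g, expect_sum_comm, Complex.ofReal_sum]
        refine Finset.sum_congr rfl fun x _ => ?_
        rw [← mul_expect]
        change conj (S.coef f x) * S.coef f x = _
        rw [mul_comm, Complex.mul_conj']
        norm_cast
      have h4 := congrArg Complex.re h2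
      rw [Complex.ofReal_re] at h4
      rw [← h4]
      exact (Complex.re_expect _ _).symm
    have hpar : 𝔼 g, ‖S.proj s f g‖ ^ 2 = ∑ x ∈ s, ‖S.coef f x‖ ^ 2 := S.parseval s _
    rw [expect_congr rfl fun g _ => hg g, expect_sub_distrib, expect_add_distrib, ← mul_expect,
      hcross, hpar]
    ring
  rw [h1] at h0
  linarith

end CharSys

section Conv

variable {F V : Type*} [Field F] [Fintype F] [AddCommGroup V] [Module F V] [Fintype V]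

attribute [local instance] dualFintype subFintype quotFintype

lemma card_dual (N : Submodule F V) : Fintype.card (Dual F N) = Fintype.card N := by
  have h1 : Fintype.card (Dual F N) = Fintype.card F ^ finrank F (Dual F N) :=
    Module.card_eq_pow_finrank
  have h2 : Fintype.card N = Fintype.card F ^ finrank F N := Module.card_eq_pow_finrank
  rw [h1, h2, Subspace.dual_finrank_eq]

open Classical in
/-- Completeness of the characters. -/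
lemma sum_dual (ψ : AddChar F ℂ) (hψ : ψ ≠ 0) (N : Submodule F V) (n : N) :
    ∑ ξ : Dual F N, ψ (ξ n) = if n = 0 then (Fintype.card N : ℂ) else 0 := by
  split_ifs with h
  · subst h
    simp only [map_zero, AddChar.map_zero_eq_one, Finset.sum_const, nsmul_eq_mul, mul_one,
      Finset.card_univ]
    rw [card_dual]
  · obtain ⟨t, ht⟩ : ∃ t, ψ t ≠ 1 := by
      by_contra h'
      push Not at h'
      exact hψ (DFunLike.ext _ _ fun x => by rw [h' x]; rfl)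
    obtain ⟨ξ0, hξ0⟩ : ∃ ξ : Dual F N, ξ n ≠ 0 := by
      by_contra h'
      push Not at h'
      exact h ((Module.forall_dual_apply_eq_zero_iff F n).mp h')
    set ξ1 : Dual F N := (t / ξ0 n) • ξ0 with hξ1
    have h1 : ξ1 n = t := by
      rw [hξ1, LinearMap.smul_apply, smul_eq_mul, div_mul_cancel₀ _ hξ0]
    have h2 : ∑ ξ : Dual F N, ψ (ξ n) = ψ t * ∑ ξ : Dual F N, ψ (ξ n) := by
      rw [Finset.mul_sum]
      refine (Fintype.sum_equiv (Equiv.addLeft ξ1) _ _ fun ξ => ?_).symm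
      change ψ t * ψ (ξ n) = ψ ((ξ1 + ξ) n)
      rw [LinearMap.add_apply, h1, AddChar.map_add_eq_mul]
    have h3 : (1 - ψ t) * ∑ ξ : Dual F N, ψ (ξ n) = 0 := by
      rw [sub_mul, one_mul, ← h2, sub_self]
    rcases mul_eq_zero.mp h3 with h4 | h4
    · exact absurd (sub_eq_zero.mp h4).symm ht
    · exact h4

/-- Fourier inversion on `N`. -/
lemma inversion (ψ : AddChar F ℂ) (hψ : ψ ≠ 0) (N : Submodule F V) (f : N → ℂ) (n : N) :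
    f n = ∑ ξ : Dual F N, (dualSys ψ hψ N).coef f ξ * ψ (ξ n) := by
  classical
  have h1 : ∀ ξ : Dual F N, (dualSys ψ hψ N).coef f ξ * ψ (ξ n)
      = 𝔼 m, f m * ψ (ξ (n - m)) := by
    intro ξ
    unfold CharSys.coef
    rw [expect_mul]
    refine expect_congr rfl fun m _ => ?_
    rw [CharSys.conj_e, dualSys_e, mul_assoc, ← AddChar.map_add_eq_mul]
    congr 2
    rw [LinearMap.neg_apply, map_sub]; ring
  rw [Finset.sum_congr rfl fun ξ _ => h1 ξ, ← expect_sum_comm]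
  have h2 : ∀ m : N, ∑ ξ : Dual F N, f m * ψ (ξ (n - m))
      = if n = m then f m * (Fintype.card N : ℂ) else 0 := by
    intro m
    rw [← Finset.mul_sum, sum_dual ψ hψ, mul_ite, mul_zero]
    simp only [sub_eq_zero]
  rw [expect_congr rfl fun m _ => h2 m, Fintype.expect_eq_sum_div_card, Finset.sum_ite_eq]
  simp

/-- A subprobability carried by one coset of `N`. -/
structure IsLaw (N : Submodule F V) (ρ : V → ℝ) (a : V) : Prop where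
  nonneg : ∀ x, 0 ≤ ρ x
  mass : ∑ x, ρ x ≤ 1
  supp : ∀ x, ρ x ≠ 0 → x - a ∈ N

/-- Convolution. -/
noncomputable def cnv (ρ₁ ρ₂ : V → ℝ) (x : V) : ℝ := ∑ u, ρ₁ u * ρ₂ (x - u)

omit [Fintype F] in
lemma IsLaw.conv {N : Submodule F V} {ρ₁ ρ₂ : V → ℝ} {a₁ a₂ : V} (h₁ : IsLaw N ρ₁ a₁)
    (h₂ : IsLaw N ρ₂ a₂) : IsLaw N (cnv ρ₁ ρ₂) (a₁ + a₂) := by
  refine ⟨fun x => Finset.sum_nonneg fun u _ => mul_nonneg (h₁.nonneg _) (h₂.nonneg _), ?_, ?_⟩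
  · unfold cnv
    rw [Finset.sum_comm]
    have : ∀ u, ∑ x, ρ₁ u * ρ₂ (x - u) = ρ₁ u * ∑ x, ρ₂ x := by
      intro u
      rw [← Finset.mul_sum]
      congr 1
      exact Fintype.sum_equiv (Equiv.subRight u) _ _ fun x => rfl
    rw [Finset.sum_congr rfl fun u _ => this u, ← Finset.sum_mul]
    calc (∑ u, ρ₁ u) * ∑ x, ρ₂ x ≤ 1 * 1 :=
          mul_le_mul h₁.mass h₂.mass (Finset.sum_nonneg fun x _ => h₂.nonneg x) zero_le_one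
      _ = 1 := one_mul 1
  · intro x hx
    unfold cnv at hx
    obtain ⟨u, _, hu⟩ := Finset.exists_ne_zero_of_sum_ne_zero hx
    have h3 := h₁.supp u (left_ne_zero_of_mul hu)
    have h4 := h₂.supp _ (right_ne_zero_of_mul hu)
    have : x - (a₁ + a₂) = (u - a₁) + (x - u - a₂) := by abel
    rw [this]
    exact N.add_mem h3 h4

omit [Fintype F] in
lemma sum_on_coset {β : Type*} [AddCommMonoid β] (N : Submodule F V) (G : V → β) (a : V)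
    (hG : ∀ x, G x ≠ 0 → x - a ∈ N) : ∑ x, G x = ∑ m : N, G (a + m) := by
  classical
  have h1 : ∑ m : N, G (a + m) = ∑ x ∈ univ.filter (fun x => x - a ∈ N), G x := by
    refine Finset.sum_bij (fun m _ => a + (m : V)) ?_ ?_ ?_ ?_
    · intro m _
      simp
    · intro m _ m' _ h
      exact Subtype.ext (add_left_cancel h)
    · intro x hx
      rw [Finset.mem_filter] at hx
      exact ⟨⟨x - a, hx.2⟩, Finset.mem_univ _, by simp⟩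
    · intro m _
      rfl
  rw [h1]
  refine (Finset.sum_subset (Finset.filter_subset _ _) fun x _ hx => ?_).symm
  by_contra h
  exact hx (Finset.mem_filter.mpr ⟨Finset.mem_univ _, hG x h⟩)

/-- Unnormalised Fourier transform of a law on a coset of `N`. -/
noncomputable def ft (ψ : AddChar F ℂ) (hψ : ψ ≠ 0) (N : Submodule F V) (ρ : V → ℝ) (a : V)
    (ξ : Dual F N) : ℂ :=
  (Fintype.card N : ℂ) * (dualSys ψ hψ N).coef (fun m : N => (ρ (a + m) : ℂ)) ξ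

lemma ft_eq (ψ : AddChar F ℂ) (hψ : ψ ≠ 0) (N : Submodule F V) (ρ : V → ℝ) (a : V)
    (ξ : Dual F N) : ft ψ hψ N ρ a ξ = ∑ m : N, (ρ (a + m) : ℂ) * ψ (-ξ m) := by
  unfold ft CharSys.coef
  rw [Fintype.card_mul_expect]
  refine Finset.sum_congr rfl fun m _ => ?_
  rw [CharSys.conj_e, dualSys_e, LinearMap.neg_apply]

lemma norm_ft_le (ψ : AddChar F ℂ) (hψ : ψ ≠ 0) {N : Submodule F V} {ρ : V → ℝ} {a : V}
    (h : IsLaw N ρ a) (ξ : Dual F N) : ‖ft ψ hψ N ρ a ξ‖ ≤ 1 := by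
  rw [ft_eq]
  refine (norm_sum_le _ _).trans ?_
  have h1 : ∀ m : N, ‖(ρ (a + m) : ℂ) * ψ (-ξ m)‖ = ρ (a + m) := by
    intro m
    rw [norm_mul, AddChar.norm_apply, mul_one, Complex.norm_real, Real.norm_eq_abs,
      abs_of_nonneg (h.nonneg _)]
  rw [Finset.sum_congr rfl fun m _ => h1 m, ← sum_on_coset N ρ a h.supp]
  exact h.mass

lemma ft_cnv (ψ : AddChar F ℂ) (hψ : ψ ≠ 0) {N : Submodule F V} {ρ₁ ρ₂ : V → ℝ} {a₁ a₂ : V}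
    (h₁ : IsLaw N ρ₁ a₁) (ξ : Dual F N) :
    ft ψ hψ N (cnv ρ₁ ρ₂) (a₁ + a₂) ξ = ft ψ hψ N ρ₁ a₁ ξ * ft ψ hψ N ρ₂ a₂ ξ := by
  rw [ft_eq, ft_eq, ft_eq, Finset.sum_mul_sum, Finset.sum_comm' (t' := univ) (s' := fun _ => univ)
    (by simp)]
  rw [Finset.sum_comm]
  have h1 : ∀ n : N, ((cnv ρ₁ ρ₂ (a₁ + a₂ + n) : ℝ) : ℂ)
      = ∑ m : N, (ρ₁ (a₁ + m) : ℂ) * (ρ₂ (a₂ + (n - m : N)) : ℂ) := by
    intro n
    unfold cnv
    rw [sum_on_coset N _ a₁ fun u hu => h₁.supp u (left_ne_zero_of_mul hu)]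
    push_cast
    refine Finset.sum_congr rfl fun m _ => ?_
    congr 3
    abel
  have h2 : ∀ n : N, ((cnv ρ₁ ρ₂ (a₁ + a₂ + n) : ℝ) : ℂ) * ψ (-ξ n)
      = ∑ m : N, ((ρ₁ (a₁ + m) : ℂ) * ψ (-ξ m)) * ((ρ₂ (a₂ + (n - m : N)) : ℂ) * ψ (-ξ (n - m))) := by
    intro n
    rw [h1, Finset.sum_mul]
    refine Finset.sum_congr rfl fun m _ => ?_
    have : ψ (-ξ n) = ψ (-ξ m) * ψ (-ξ (n - m)) := by
      rw [← AddChar.map_add_eq_mul]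
      congr 1
      rw [map_sub]; ring
    rw [this]; ring
  rw [Finset.sum_congr rfl fun n _ => h2 n, Finset.sum_comm]
  refine Finset.sum_congr rfl fun m _ => ?_
  exact Fintype.sum_equiv (Equiv.subRight m) _ _ fun n => rfl

lemma sum_ft_sq_le (ψ : AddChar F ℂ) (hψ : ψ ≠ 0) {N : Submodule F V} {ρ : V → ℝ} {a : V} {B : ℝ}
    (h : IsLaw N ρ a) (hB0 : 0 ≤ B) (hB : ∀ x, ρ x ≤ B / (carr N).card) :
    ∑ ξ, ‖ft ψ hψ N ρ a ξ‖ ^ 2 ≤ B := by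
  classical
  have hN0 : (0 : ℝ) < Fintype.card N := by rw [card_eq_carr]; exact carr_card_pos N
  have h1 : ∑ ξ, ‖ft ψ hψ N ρ a ξ‖ ^ 2 = (Fintype.card N : ℝ) ^ 2 *
      ∑ ξ, ‖(dualSys ψ hψ N).coef (fun m : N => (ρ (a + m) : ℂ)) ξ‖ ^ 2 := by
    rw [Finset.mul_sum]
    refine Finset.sum_congr rfl fun ξ _ => ?_
    unfold ft
    rw [norm_mul, mul_pow, Complex.norm_natCast]
  have h2 := (dualSys ψ hψ N).bessel univ (fun m : N => (ρ (a + m) : ℂ))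
  have h3 : 𝔼 m : N, ‖(ρ (a + m) : ℂ)‖ ^ 2 ≤ B / (Fintype.card N : ℝ) ^ 2 := by
    rw [Fintype.expect_eq_sum_div_card, div_le_div_iff₀ hN0 (by positivity)]
    have h4 : ∑ m : N, ‖(ρ (a + m) : ℂ)‖ ^ 2 ≤ B / Fintype.card N := by
      calc ∑ m : N, ‖(ρ (a + m) : ℂ)‖ ^ 2 ≤ ∑ m : N, B / Fintype.card N * ρ (a + m) := by
            refine Finset.sum_le_sum fun m _ => ?_
            rw [Complex.norm_real, Real.norm_eq_abs, sq_abs, sq]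
            refine mul_le_mul_of_nonneg_right ?_ (h.nonneg _)
            rw [card_eq_carr]; exact hB _
        _ = B / Fintype.card N * ∑ x, ρ x := by
            rw [← Finset.mul_sum, ← sum_on_coset N ρ a h.supp]
        _ ≤ B / Fintype.card N * 1 := mul_le_mul_of_nonneg_left h.mass (by positivity)
        _ = B / Fintype.card N := mul_one _
    calc (∑ m : N, ‖(ρ (a + m) : ℂ)‖ ^ 2) * (Fintype.card N : ℝ) ^ 2
        ≤ B / Fintype.card N * (Fintype.card N : ℝ) ^ 2 :=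
          mul_le_mul_of_nonneg_right h4 (by positivity)
      _ = B * Fintype.card N := by field_simp
  rw [h1]
  calc (Fintype.card N : ℝ) ^ 2 * ∑ ξ, ‖(dualSys ψ hψ N).coef (fun m : N => (ρ (a + m) : ℂ)) ξ‖ ^ 2
      ≤ (Fintype.card N : ℝ) ^ 2 * (B / (Fintype.card N : ℝ) ^ 2) :=
        mul_le_mul_of_nonneg_left (h2.trans h3) (by positivity)
    _ = B := by field_simp

/-- Inversion for a law. -/
lemma law_inversion (ψ : AddChar F ℂ) (hψ : ψ ≠ 0) (N : Submodule F V) (ρ : V → ℝ) (a : V)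
    (n : N) : (ρ (a + n) : ℂ)
      = ∑ ξ : Dual F N, ((Fintype.card N : ℂ)⁻¹ * ft ψ hψ N ρ a ξ) * ψ (ξ n) := by
  have hN0 : (Fintype.card N : ℂ) ≠ 0 := by
    exact_mod_cast Fintype.card_ne_zero
  rw [inversion ψ hψ N (fun m : N => (ρ (a + m) : ℂ)) n]
  refine Finset.sum_congr rfl fun ξ _ => ?_
  unfold ft
  rw [inv_mul_cancel_left₀ hN0]

/-- The convolution of two laws of density `≤ L / |N|` has Fourier weight `≤ L / |N|`. -/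
theorem cnv_weight (ψ : AddChar F ℂ) (hψ : ψ ≠ 0) {N : Submodule F V} {ρ₁ ρ₂ : V → ℝ}
    {a₁ a₂ : V} {L : ℝ} (hL0 : 0 ≤ L) (h₁ : IsLaw N ρ₁ a₁) (h₂ : IsLaw N ρ₂ a₂)
    (hL₁ : ∀ x, ρ₁ x ≤ L / (carr N).card) (hL₂ : ∀ x, ρ₂ x ≤ L / (carr N).card) :
    HasWeight ψ N (fun x => ((cnv ρ₁ ρ₂ x : ℝ) : ℂ)) (L / (carr N).card) := by
  classical
  have hN0 : (0 : ℝ) < Fintype.card N := by rw [card_eq_carr]; exact carr_card_pos N
  refine ⟨a₁ + a₂, fun x hx => ?_, fun ξ => (Fintype.card N : ℂ)⁻¹ *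
    ft ψ hψ N (cnv ρ₁ ρ₂) (a₁ + a₂) ξ, ?_, fun n => law_inversion ψ hψ N _ _ n⟩
  · by_contra h
    apply hx
    apply (h₁.conv h₂).supp
    intro h0
    exact h (by simp only [h0]; simp)
  · have h3 : ∀ ξ, ‖(Fintype.card N : ℂ)⁻¹ * ft ψ hψ N (cnv ρ₁ ρ₂) (a₁ + a₂) ξ‖
        = (Fintype.card N : ℝ)⁻¹ * (‖ft ψ hψ N ρ₁ a₁ ξ‖ * ‖ft ψ hψ N ρ₂ a₂ ξ‖) := by
      intro ξ
      rw [ft_cnv ψ hψ h₁, norm_mul, norm_mul, norm_inv, Complex.norm_natCast]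
    rw [Finset.sum_congr rfl fun ξ _ => h3 ξ, ← Finset.mul_sum, ← card_eq_carr, div_eq_inv_mul]
    refine mul_le_mul_of_nonneg_left ?_ (inv_nonneg.mpr hN0.le)
    have h4 := sum_ft_sq_le ψ hψ h₁ hL0 hL₁
    have h5 := sum_ft_sq_le ψ hψ h₂ hL0 hL₂
    calc ∑ ξ, ‖ft ψ hψ N ρ₁ a₁ ξ‖ * ‖ft ψ hψ N ρ₂ a₂ ξ‖
        ≤ ∑ ξ, (‖ft ψ hψ N ρ₁ a₁ ξ‖ ^ 2 + ‖ft ψ hψ N ρ₂ a₂ ξ‖ ^ 2) / 2 := by
          refine Finset.sum_le_sum fun ξ _ => ?_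
          nlinarith [sq_nonneg (‖ft ψ hψ N ρ₁ a₁ ξ‖ - ‖ft ψ hψ N ρ₂ a₂ ξ‖)]
      _ = (∑ ξ, ‖ft ψ hψ N ρ₁ a₁ ξ‖ ^ 2 + ∑ ξ, ‖ft ψ hψ N ρ₂ a₂ ξ‖ ^ 2) / 2 := by
          rw [← Finset.sum_add_distrib, Finset.sum_div]
      _ ≤ L := by linarith

/-- Triple convolution: `L¹`-close to a function of bounded Fourier weight, provided the pairwise
convolutions have bounded density. -/
theorem cnv3_weight (ψ : AddChar F ℂ) (hψ : ψ ≠ 0) {N : Submodule F V} {ρ₁ ρ₂ ρ₃ : V → ℝ}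
    {a₁ a₂ a₃ : V} {B θ : ℝ} (hB0 : 0 ≤ B) (hθ : 0 < θ) (h₁ : IsLaw N ρ₁ a₁) (h₂ : IsLaw N ρ₂ a₂)
    (h₃ : IsLaw N ρ₃ a₃)
    (h12 : ∀ x, cnv ρ₁ ρ₂ x ≤ B / (carr N).card) (h23 : ∀ x, cnv ρ₂ ρ₃ x ≤ B / (carr N).card)
    (h13 : ∀ x, cnv ρ₁ ρ₃ x ≤ B / (carr N).card) :
    ∃ g : V → ℂ, HasWeight ψ N g (B / θ ^ 4 / (carr N).card) ∧
      ∑ x, ‖((cnv ρ₁ (cnv ρ₂ ρ₃) x : ℝ) : ℂ) - g x‖ ≤ Real.sqrt (3 * θ ^ 2 * B) := by
  classical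
  have hN0 : (0 : ℝ) < Fintype.card N := by rw [card_eq_carr]; exact carr_card_pos N
  set f₁ := fun ξ => ft ψ hψ N ρ₁ a₁ ξ with hf1
  set f₂ := fun ξ => ft ψ hψ N ρ₂ a₂ ξ with hf2
  set f₃ := fun ξ => ft ψ hψ N ρ₃ a₃ ξ with hf3
  have e12 : ∑ ξ, (‖f₁ ξ‖ * ‖f₂ ξ‖) ^ 2 ≤ B := by
    have := sum_ft_sq_le ψ hψ (h₁.conv h₂) hB0 h12
    refine le_trans (le_of_eq (Finset.sum_congr rfl fun ξ _ => ?_)) this
    rw [ft_cnv ψ hψ h₁, norm_mul]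
  have e23 : ∑ ξ, (‖f₂ ξ‖ * ‖f₃ ξ‖) ^ 2 ≤ B := by
    have := sum_ft_sq_le ψ hψ (h₂.conv h₃) hB0 h23
    refine le_trans (le_of_eq (Finset.sum_congr rfl fun ξ _ => ?_)) this
    rw [ft_cnv ψ hψ h₂, norm_mul]
  have e13 : ∑ ξ, (‖f₁ ξ‖ * ‖f₃ ξ‖) ^ 2 ≤ B := by
    have := sum_ft_sq_le ψ hψ (h₁.conv h₃) hB0 h13
    refine le_trans (le_of_eq (Finset.sum_congr rfl fun ξ _ => ?_)) this
    rw [ft_cnv ψ hψ h₁, norm_mul]
  have b1 : ∀ ξ, ‖f₁ ξ‖ ≤ 1 := fun ξ => norm_ft_le ψ hψ h₁ ξ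
  have b2 : ∀ ξ, ‖f₂ ξ‖ ≤ 1 := fun ξ => norm_ft_le ψ hψ h₂ ξ
  have b3 : ∀ ξ, ‖f₃ ξ‖ ≤ 1 := fun ξ => norm_ft_le ψ hψ h₃ ξ
  have hT : ∀ ξ, ft ψ hψ N (cnv ρ₁ (cnv ρ₂ ρ₃)) (a₁ + (a₂ + a₃)) ξ = f₁ ξ * (f₂ ξ * f₃ ξ) := by
    intro ξ
    rw [ft_cnv ψ hψ h₁, ft_cnv ψ hψ h₂]
  set A : Finset (Dual F N) := univ.filter fun ξ => θ ≤ ‖f₁ ξ‖ ∧ θ ≤ ‖f₂ ξ‖ ∧ θ ≤ ‖f₃ ξ‖ with hA
  set c : Dual F N → ℂ := fun ξ => (Fintype.card N : ℂ)⁻¹ * (f₁ ξ * (f₂ ξ * f₃ ξ)) with hc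
  set c' : Dual F N → ℂ := fun ξ => if ξ ∈ A then c ξ else 0 with hc'
  have hcn : ∀ ξ, ‖c ξ‖ = (Fintype.card N : ℝ)⁻¹ * (‖f₁ ξ‖ * (‖f₂ ξ‖ * ‖f₃ ξ‖)) := by
    intro ξ
    rw [hc]; simp only
    rw [norm_mul, norm_mul, norm_mul, norm_inv, Complex.norm_natCast]
  set v := a₁ + (a₂ + a₃) with hv
  set g : V → ℂ := fun x => if hx : x - v ∈ N then ∑ ξ, c' ξ * ψ (ξ ⟨x - v, hx⟩) else 0 with hg
  have hgn : ∀ n : N, g (v + n) = ∑ ξ, c' ξ * ψ (ξ n) := by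
    intro n
    rw [hg]; simp only
    have hmem : v + (n : V) - v ∈ N := by rw [add_sub_cancel_left]; exact n.2
    rw [dif_pos hmem]
    refine Finset.sum_congr rfl fun ξ _ => ?_
    have h0 : (⟨v + (n : V) - v, hmem⟩ : N) = n := Subtype.ext (by simp)
    rw [h0]
  refine ⟨g, ⟨v, fun x hx => by rw [hg]; simp only; rw [dif_neg hx], c', ?_, hgn⟩, ?_⟩
  · -- weight
    have hcard : (A.card : ℝ) ≤ B / θ ^ 4 := by
      rw [le_div_iff₀ (by positivity)]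
      calc (A.card : ℝ) * θ ^ 4 = ∑ ξ ∈ A, θ ^ 4 := by rw [Finset.sum_const, nsmul_eq_mul]
        _ ≤ ∑ ξ ∈ A, (‖f₁ ξ‖ * ‖f₂ ξ‖) ^ 2 := by
            refine Finset.sum_le_sum fun ξ hξ => ?_
            rw [hA, Finset.mem_filter] at hξ
            have : θ * θ ≤ ‖f₁ ξ‖ * ‖f₂ ξ‖ :=
              mul_le_mul hξ.2.1 hξ.2.2.1 hθ.le (norm_nonneg _)
            calc θ ^ 4 = (θ * θ) ^ 2 := by ring
              _ ≤ _ := by gcongr
        _ ≤ ∑ ξ, (‖f₁ ξ‖ * ‖f₂ ξ‖) ^ 2 := Finset.sum_le_sum_of_subset_of_nonneg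
            (Finset.subset_univ _) fun _ _ _ => sq_nonneg _
        _ ≤ B := e12
    calc ∑ ξ, ‖c' ξ‖ = ∑ ξ ∈ A, ‖c ξ‖ := by
          rw [hc']
          simp only [apply_ite norm, norm_zero]
          rw [Finset.sum_ite_mem, Finset.univ_inter]
      _ ≤ ∑ ξ ∈ A, (Fintype.card N : ℝ)⁻¹ := by
          refine Finset.sum_le_sum fun ξ _ => ?_
          rw [hcn]
          have : ‖f₁ ξ‖ * (‖f₂ ξ‖ * ‖f₃ ξ‖) ≤ 1 * (1 * 1) :=
            mul_le_mul (b1 ξ) (mul_le_mul (b2 ξ) (b3 ξ) (norm_nonneg _) zero_le_one)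
              (by positivity) zero_le_one
          calc _ ≤ (Fintype.card N : ℝ)⁻¹ * (1 * (1 * 1)) :=
                mul_le_mul_of_nonneg_left this (inv_nonneg.mpr hN0.le)
            _ = _ := by ring
      _ = A.card * (Fintype.card N : ℝ)⁻¹ := by rw [Finset.sum_const, nsmul_eq_mul]
      _ ≤ B / θ ^ 4 * (Fintype.card N : ℝ)⁻¹ :=
          mul_le_mul_of_nonneg_right hcard (inv_nonneg.mpr hN0.le)
      _ = B / θ ^ 4 / (carr N).card := by rw [← card_eq_carr]; rfl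
  · -- error
    have hsupp : ∀ x, ‖((cnv ρ₁ (cnv ρ₂ ρ₃) x : ℝ) : ℂ) - g x‖ ≠ 0 → x - v ∈ N := by
      intro x hx
      by_contra h
      apply hx
      have h1 : cnv ρ₁ (cnv ρ₂ ρ₃) x = 0 := by
        by_contra h2
        exact h ((h₁.conv (h₂.conv h₃)).supp x h2)
      have h2 : g x = 0 := by rw [hg]; simp only; rw [dif_neg h]
      rw [h1, h2]; simp
    rw [sum_on_coset N _ v hsupp]
    have h5 : ∀ n : N, ((cnv ρ₁ (cnv ρ₂ ρ₃) (v + n) : ℝ) : ℂ) - g (v + n)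
        = ∑ ξ ∈ univ \ A, c ξ * (dualSys ψ hψ N).e ξ n := by
      intro n
      rw [hgn, law_inversion ψ hψ N _ v n, ← Finset.sum_sub_distrib]
      have h6 : ∀ ξ, (Fintype.card N : ℂ)⁻¹ * ft ψ hψ N (cnv ρ₁ (cnv ρ₂ ρ₃)) v ξ * ψ (ξ n)
          - c' ξ * ψ (ξ n) = if ξ ∈ univ \ A then c ξ * (dualSys ψ hψ N).e ξ n else 0 := by
        intro ξ
        rw [hv, hT, dualSys_e, hc']
        simp only [Finset.mem_sdiff, Finset.mem_univ, true_and]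
        by_cases h7 : ξ ∈ A
        · rw [if_pos h7, if_neg (not_not.mpr h7), hc]; ring
        · rw [if_neg h7, if_pos h7, hc]; ring
      rw [Finset.sum_congr rfl fun ξ _ => h6 ξ, Finset.sum_ite_mem, Finset.univ_inter]
    rw [Finset.sum_congr rfl fun n _ => by rw [h5 n]]
    have h7 : ∑ n : N, ‖∑ ξ ∈ univ \ A, c ξ * (dualSys ψ hψ N).e ξ n‖
        = Fintype.card N * 𝔼 n : N, ‖∑ ξ ∈ univ \ A, c ξ * (dualSys ψ hψ N).e ξ n‖ := by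
      rw [Fintype.card_mul_expect]
    rw [h7]
    have h8 : 𝔼 n : N, ‖∑ ξ ∈ univ \ A, c ξ * (dualSys ψ hψ N).e ξ n‖
        ≤ Real.sqrt (∑ ξ ∈ univ \ A, ‖c ξ‖ ^ 2) := by
      refine (expect_le_sqrt _).trans (le_of_eq ?_)
      rw [(dualSys ψ hψ N).parseval]
    have h9 : ∑ ξ ∈ univ \ A, ‖c ξ‖ ^ 2 ≤ (Fintype.card N : ℝ)⁻¹ ^ 2 * (3 * θ ^ 2 * B) := by
      have h10 : ∀ ξ ∈ univ \ A, ‖c ξ‖ ^ 2 ≤ (Fintype.card N : ℝ)⁻¹ ^ 2 *
          (θ ^ 2 * ((‖f₁ ξ‖ * ‖f₂ ξ‖) ^ 2 + (‖f₂ ξ‖ * ‖f₃ ξ‖) ^ 2 + (‖f₁ ξ‖ * ‖f₃ ξ‖) ^ 2)) := by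
        intro ξ hξ
        rw [hcn, mul_pow]
        refine mul_le_mul_of_nonneg_left ?_ (by positivity)
        have hor : ‖f₁ ξ‖ ≤ θ ∨ ‖f₂ ξ‖ ≤ θ ∨ ‖f₃ ξ‖ ≤ θ := by
          by_contra h
          push Not at h
          rw [Finset.mem_sdiff] at hξ
          exact hξ.2 (Finset.mem_filter.mpr ⟨Finset.mem_univ _, h.1.le, h.2.1.le, h.2.2.le⟩)
        have p1 := norm_nonneg (f₁ ξ)
        have p2 := norm_nonneg (f₂ ξ)
        have p3 := norm_nonneg (f₃ ξ)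
        rcases hor with h | h | h
        · calc (‖f₁ ξ‖ * (‖f₂ ξ‖ * ‖f₃ ξ‖)) ^ 2 = ‖f₁ ξ‖ ^ 2 * (‖f₂ ξ‖ * ‖f₃ ξ‖) ^ 2 := by ring
            _ ≤ θ ^ 2 * (‖f₂ ξ‖ * ‖f₃ ξ‖) ^ 2 := by gcongr
            _ ≤ _ := by
              refine mul_le_mul_of_nonneg_left ?_ (by positivity)
              nlinarith [sq_nonneg (‖f₁ ξ‖ * ‖f₂ ξ‖), sq_nonneg (‖f₁ ξ‖ * ‖f₃ ξ‖)]
        · calc (‖f₁ ξ‖ * (‖f₂ ξ‖ * ‖f₃ ξ‖)) ^ 2 = ‖f₂ ξ‖ ^ 2 * (‖f₁ ξ‖ * ‖f₃ ξ‖) ^ 2 := by ring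
            _ ≤ θ ^ 2 * (‖f₁ ξ‖ * ‖f₃ ξ‖) ^ 2 := by gcongr
            _ ≤ _ := by
              refine mul_le_mul_of_nonneg_left ?_ (by positivity)
              nlinarith [sq_nonneg (‖f₁ ξ‖ * ‖f₂ ξ‖), sq_nonneg (‖f₂ ξ‖ * ‖f₃ ξ‖)]
        · calc (‖f₁ ξ‖ * (‖f₂ ξ‖ * ‖f₃ ξ‖)) ^ 2 = ‖f₃ ξ‖ ^ 2 * (‖f₁ ξ‖ * ‖f₂ ξ‖) ^ 2 := by ring
            _ ≤ θ ^ 2 * (‖f₁ ξ‖ * ‖f₂ ξ‖) ^ 2 := by gcongr
            _ ≤ _ := by
              refine mul_le_mul_of_nonneg_left ?_ (by positivity)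
              nlinarith [sq_nonneg (‖f₂ ξ‖ * ‖f₃ ξ‖), sq_nonneg (‖f₁ ξ‖ * ‖f₃ ξ‖)]
      refine (Finset.sum_le_sum h10).trans ?_
      rw [← Finset.mul_sum, ← Finset.mul_sum]
      refine mul_le_mul_of_nonneg_left ?_ (by positivity)
      have h11 : ∑ ξ ∈ univ \ A, ((‖f₁ ξ‖ * ‖f₂ ξ‖) ^ 2 + (‖f₂ ξ‖ * ‖f₃ ξ‖) ^ 2
          + (‖f₁ ξ‖ * ‖f₃ ξ‖) ^ 2) ≤ 3 * B := by
        calc _ ≤ ∑ ξ, ((‖f₁ ξ‖ * ‖f₂ ξ‖) ^ 2 + (‖f₂ ξ‖ * ‖f₃ ξ‖) ^ 2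
              + (‖f₁ ξ‖ * ‖f₃ ξ‖) ^ 2) := Finset.sum_le_sum_of_subset_of_nonneg
                (Finset.subset_univ _) fun _ _ _ => by positivity
          _ ≤ 3 * B := by
            rw [Finset.sum_add_distrib, Finset.sum_add_distrib]
            linarith
      calc θ ^ 2 * _ ≤ θ ^ 2 * (3 * B) := mul_le_mul_of_nonneg_left h11 (by positivity)
        _ = 3 * θ ^ 2 * B := by ring
    calc (Fintype.card N : ℝ) * 𝔼 n : N, ‖∑ ξ ∈ univ \ A, c ξ * (dualSys ψ hψ N).e ξ n‖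
        ≤ Fintype.card N * Real.sqrt ((Fintype.card N : ℝ)⁻¹ ^ 2 * (3 * θ ^ 2 * B)) :=
          mul_le_mul_of_nonneg_left (h8.trans (Real.sqrt_le_sqrt h9)) hN0.le
      _ = Real.sqrt (3 * θ ^ 2 * B) := by
          rw [Real.sqrt_mul (sq_nonneg _), Real.sqrt_sq (inv_nonneg.mpr hN0.le)]
          field_simp

lemma HasWeight.smul {ψ : AddChar F ℂ} {N : Submodule F V} {h : V → ℂ} {B : ℝ}
    (hB : HasWeight ψ N h B) {w : ℝ} (hw : 0 ≤ w) :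
    HasWeight ψ N (fun x => (w : ℂ) * h x) (B * w) := by
  obtain ⟨v, hv, c, hc, hn⟩ := hB
  refine ⟨v, fun x hx => by simp only [hv x hx, mul_zero], fun ξ => (w : ℂ) * c ξ, ?_, fun n => ?_⟩
  · have : ∀ ξ, ‖(w : ℂ) * c ξ‖ = w * ‖c ξ‖ := fun ξ => by
      rw [norm_mul, Complex.norm_real, Real.norm_eq_abs, abs_of_nonneg hw]
    rw [Finset.sum_congr rfl fun ξ _ => this ξ, ← Finset.mul_sum, mul_comm]
    exact mul_le_mul_of_nonneg_right hc hw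
  · simp only [hn, Finset.mul_sum]
    exact Finset.sum_congr rfl fun ξ _ => by ring

/-- **Two groups.** A mixture of convolutions of pairs of laws of density `≤ L / |N|`. -/
theorem conv2_field (ψ : AddChar F ℂ) (hψ : ψ ≠ 0) (N : Submodule F V) {ι : Type*} [Fintype ι]
    (w : ι → ℝ) (hw : ∀ i, 0 ≤ w i) (hw1 : ∑ i, w i ≤ 1) {L p e : ℝ} (hL : 0 ≤ L) (hp : 0 < p)
    (ρ₁ ρ₂ : ι → V → ℝ) (a₁ a₂ : ι → V) (h₁ : ∀ i, IsLaw N (ρ₁ i) (a₁ i))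
    (h₂ : ∀ i, IsLaw N (ρ₂ i) (a₂ i)) (hL₁ : ∀ i x, ρ₁ i x ≤ L / (carr N).card)
    (hL₂ : ∀ i x, ρ₂ i x ≤ L / (carr N).card)
    (P : V → ℝ) (he : ∑ x, |P x - ∑ i, w i * cnv (ρ₁ i) (ρ₂ i) x| ≤ e) :
    ∃ U : V → Submodule F V, IsField N U ∧
      (∀ x, finrank F N ≤ finrank F (U x) + ⌊L / p⌋₊) ∧
      ∑ x, |P x - favg U P x| ≤ 2 * (e + Real.sqrt (p * L)) := by
  refine weight_field ψ hψ N w hw hw1 hp
    (fun i x => (w i : ℂ) * ((cnv (ρ₁ i) (ρ₂ i) x : ℝ) : ℂ))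
    (fun i => (cnv_weight ψ hψ hL (h₁ i) (h₂ i) (hL₁ i) (hL₂ i)).smul (hw i)) P ?_
  refine le_trans (le_of_eq (Finset.sum_congr rfl fun x _ => ?_)) he
  rw [← Real.norm_eq_abs, ← Complex.norm_real]
  push_cast
  rfl

/-- **Three groups.** A mixture of triple convolutions whose pairwise convolutions have density
`≤ B / |N|`. -/
theorem conv3_field (ψ : AddChar F ℂ) (hψ : ψ ≠ 0) (N : Submodule F V) {ι : Type*} [Fintype ι]
    (w : ι → ℝ) (hw : ∀ i, 0 ≤ w i) (hw1 : ∑ i, w i ≤ 1) {B p e θ : ℝ} (hB : 0 ≤ B) (hp : 0 < p)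
    (hθ : 0 < θ) (ρ₁ ρ₂ ρ₃ : ι → V → ℝ) (a₁ a₂ a₃ : ι → V) (h₁ : ∀ i, IsLaw N (ρ₁ i) (a₁ i))
    (h₂ : ∀ i, IsLaw N (ρ₂ i) (a₂ i)) (h₃ : ∀ i, IsLaw N (ρ₃ i) (a₃ i))
    (h12 : ∀ i x, cnv (ρ₁ i) (ρ₂ i) x ≤ B / (carr N).card)
    (h23 : ∀ i x, cnv (ρ₂ i) (ρ₃ i) x ≤ B / (carr N).card)
    (h13 : ∀ i x, cnv (ρ₁ i) (ρ₃ i) x ≤ B / (carr N).card)
    (P : V → ℝ) (he : ∑ x, |P x - ∑ i, w i * cnv (ρ₁ i) (cnv (ρ₂ i) (ρ₃ i)) x| ≤ e) :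
    ∃ U : V → Submodule F V, IsField N U ∧
      (∀ x, finrank F N ≤ finrank F (U x) + ⌊B / θ ^ 4 / p⌋₊) ∧
      ∑ x, |P x - favg U P x| ≤
        2 * ((e + Real.sqrt (3 * θ ^ 2 * B)) + Real.sqrt (p * (B / θ ^ 4))) := by
  choose g hg hge using fun i => cnv3_weight ψ hψ hB hθ (h₁ i) (h₂ i) (h₃ i) (h12 i) (h23 i) (h13 i)
  refine weight_field ψ hψ N w hw hw1 hp (fun i x => (w i : ℂ) * g i x)
    (fun i => (hg i).smul (hw i)) P ?_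
  calc ∑ x, ‖(P x : ℂ) - ∑ i, (w i : ℂ) * g i x‖
      ≤ ∑ x, (|P x - ∑ i, w i * cnv (ρ₁ i) (cnv (ρ₂ i) (ρ₃ i)) x|
        + ∑ i, w i * ‖((cnv (ρ₁ i) (cnv (ρ₂ i) (ρ₃ i)) x : ℝ) : ℂ) - g i x‖) := by
        refine Finset.sum_le_sum fun x _ => ?_
        have h1 : (P x : ℂ) - ∑ i, (w i : ℂ) * g i x
            = ((P x - ∑ i, w i * cnv (ρ₁ i) (cnv (ρ₂ i) (ρ₃ i)) x : ℝ) : ℂ)
              + ∑ i, (w i : ℂ) * (((cnv (ρ₁ i) (cnv (ρ₂ i) (ρ₃ i)) x : ℝ) : ℂ) - g i x) := by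
          push_cast
          simp only [mul_sub, Finset.sum_sub_distrib]
          ring
        rw [h1]
        refine (norm_add_le _ _).trans (add_le_add (le_of_eq ?_) ?_)
        · rw [Complex.norm_real, Real.norm_eq_abs]
        · refine (norm_sum_le _ _).trans (le_of_eq (Finset.sum_congr rfl fun i _ => ?_))
          rw [norm_mul, Complex.norm_real, Real.norm_eq_abs, abs_of_nonneg (hw i)]
    _ = ∑ x, |P x - ∑ i, w i * cnv (ρ₁ i) (cnv (ρ₂ i) (ρ₃ i)) x|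
        + ∑ i, w i * ∑ x, ‖((cnv (ρ₁ i) (cnv (ρ₂ i) (ρ₃ i)) x : ℝ) : ℂ) - g i x‖ := by
        rw [Finset.sum_add_distrib, Finset.sum_comm]
        simp only [Finset.mul_sum]
    _ ≤ e + ∑ i, w i * Real.sqrt (3 * θ ^ 2 * B) :=
        add_le_add he (Finset.sum_le_sum fun i _ => mul_le_mul_of_nonneg_left (hge i) (hw i))
    _ ≤ e + 1 * Real.sqrt (3 * θ ^ 2 * B) := by
        rw [← Finset.sum_mul]
        exact add_le_add le_rfl (mul_le_mul_of_nonneg_right hw1 (Real.sqrt_nonneg _))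
    _ = e + Real.sqrt (3 * θ ^ 2 * B) := by rw [one_mul]

end Conv

end Vale.Agent.P060.HW
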