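import Vale.Agent.P060.HW.Select
import Vale.Agent.P060.HW.Conv

/-!
# P060/HW: from entropies to convolutions

Pinsker and truncation: nearly independent variables of bounded conditional relative entropy give
laws which satisfy the hypotheses of `conv2_field` and `conv3_field`.
-/

open scoped Classical
open Finset Module

noncomputable section

set_option linter.unusedSectionVars false

namespace Vale.Agent.P060.HW

lemma ec_aux_mono :
    MonotoneOn (fun h : ℝ => (h + 1) * Real.log h - 2 * (h - 1)) (Set.Ioi 0) := by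
  have hd : ∀ h : ℝ, 0 < h → HasDerivAt (fun h : ℝ => (h + 1) * Real.log h - 2 * (h - 1))
      (1 * Real.log h + (h + 1) * h⁻¹ - 2 * 1) h := by
    intro h hh
    exact ((((hasDerivAt_id h).add_const 1).mul (Real.hasDerivAt_log hh.ne')).sub
      (((hasDerivAt_id h).sub_const 1).const_mul 2))
  apply monotoneOn_of_deriv_nonneg (convex_Ioi 0)
  · intro h hh
    exact (hd h hh).continuousAt.continuousWithinAt
  · intro h hh
    rw [interior_Ioi] at hh
    exact (hd h hh).differentiableAt.differentiableWithinAt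
  · intro h hh
    rw [interior_Ioi] at hh
    rw [(hd h hh).deriv]
    have h1 := Real.one_sub_inv_le_log_of_pos hh
    have hh' : (0 : ℝ) < h := hh
    have h2 : (h + 1) * h⁻¹ = 1 + h⁻¹ := by field_simp
    rw [h2]
    linarith

lemma ec_pt (h : ℝ) (hh : 0 ≤ h) :
    3 * (h - 1) ^ 2 ≤ (2 * h + 4) * (h * Real.log h - h + 1) := by
  rcases hh.eq_or_lt with rfl | hpos
  · norm_num
  set g : ℝ → ℝ := fun h => (2 * h + 4) * (h * Real.log h - h + 1) - 3 * (h - 1) ^ 2 with hg
  have hd : ∀ h : ℝ, 0 < h → HasDerivAt g (4 * ((h + 1) * Real.log h - 2 * (h - 1))) h := by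
    intro h hh
    have h1 : HasDerivAt (fun h : ℝ => 2 * h + 4) (2 * 1) h :=
      ((hasDerivAt_id h).const_mul 2).add_const 4
    have h2 : HasDerivAt (fun h : ℝ => h * Real.log h - h + 1)
        (1 * Real.log h + h * h⁻¹ - 1) h :=
      (((hasDerivAt_id h).mul (Real.hasDerivAt_log hh.ne')).sub (hasDerivAt_id h)).add_const 1
    have h3 : HasDerivAt (fun h : ℝ => 3 * (h - 1) ^ 2) (3 * ((2 : ℕ) * (h - 1) ^ (2 - 1) * 1)) h :=
      (((hasDerivAt_id h).sub_const 1).pow 2).const_mul 3
    have h4 := (h1.mul h2).sub h3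
    have e : 2 * 1 * (h * Real.log h - h + 1) + (2 * h + 4) * (1 * Real.log h + h * h⁻¹ - 1)
        - 3 * (((2 : ℕ) : ℝ) * (h - 1) ^ (2 - 1) * 1)
        = 4 * ((h + 1) * Real.log h - 2 * (h - 1)) := by
      rw [mul_inv_cancel₀ hh.ne']
      norm_num
      ring
    rw [e] at h4
    exact h4
  have hk1 : (fun h : ℝ => (h + 1) * Real.log h - 2 * (h - 1)) 1 = 0 := by norm_num
  have hg1 : g 1 = 0 := by simp [hg]
  have key : 0 ≤ g h := by
    rcases le_total 1 h with h1 | h1
    · have hm : MonotoneOn g (Set.Ici 1) := by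
        apply monotoneOn_of_deriv_nonneg (convex_Ici 1)
        · intro y hy
          exact (hd y (lt_of_lt_of_le one_pos hy)).continuousAt.continuousWithinAt
        · intro y hy
          rw [interior_Ici] at hy
          exact (hd y (lt_trans one_pos hy)).differentiableAt.differentiableWithinAt
        · intro y hy
          rw [interior_Ici] at hy
          have hy0 : (0 : ℝ) < y := lt_trans one_pos hy
          rw [(hd y hy0).deriv]
          have := ec_aux_mono (Set.mem_Ioi.2 one_pos) (Set.mem_Ioi.2 hy0) hy.le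
          rw [hk1] at this
          have h5 : 0 ≤ (y + 1) * Real.log y - 2 * (y - 1) := this
          linarith
      have := hm (Set.mem_Ici.2 le_rfl) (Set.mem_Ici.2 h1) h1
      rw [hg1] at this
      exact this
    · have hm : AntitoneOn g (Set.Ioc 0 1) := by
        apply antitoneOn_of_deriv_nonpos (convex_Ioc 0 1)
        · intro y hy
          exact (hd y hy.1).continuousAt.continuousWithinAt
        · intro y hy
          rw [interior_Ioc] at hy
          exact (hd y hy.1).differentiableAt.differentiableWithinAt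
        · intro y hy
          rw [interior_Ioc] at hy
          rw [(hd y hy.1).deriv]
          have := ec_aux_mono (Set.mem_Ioi.2 hy.1) (Set.mem_Ioi.2 one_pos) hy.2.le
          rw [hk1] at this
          have h5 : (y + 1) * Real.log y - 2 * (y - 1) ≤ 0 := this
          linarith
      have := hm (Set.mem_Ioc.2 ⟨hpos, h1⟩) (Set.mem_Ioc.2 ⟨one_pos, le_rfl⟩) h1
      rw [hg1] at this
      exact this
  have : g h = (2 * h + 4) * (h * Real.log h - h + 1) - 3 * (h - 1) ^ 2 := rfl
  linarith

lemma ec_pt_nonneg (h : ℝ) (hh : 0 ≤ h) : 0 ≤ h * Real.log h - h + 1 := by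
  have h1 := ec_pt h hh
  have h2 : 0 ≤ (2 * h + 4) * (h * Real.log h - h + 1) := le_trans (by positivity) h1
  exact nonneg_of_mul_nonneg_right h2 (by linarith)

/-- **Pinsker's inequality.** -/
theorem pinsker_fin {α : Type*} [Fintype α] (p q : α → ℝ) (hp : ∀ a, 0 ≤ p a) (hq : ∀ a, 0 ≤ q a)
    (hp1 : ∑ a, p a = 1) (hq1 : ∑ a, q a = 1) (hac : ∀ a, q a = 0 → p a = 0) :
    (∑ a, |p a - q a|) ^ 2 ≤ 2 * ∑ a, p a * (Real.log (p a) - Real.log (q a)) := by
  have e1 : ∑ a, (2 * p a + 4 * q a) / 3 = 2 := by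
    have : ∀ a, (2 * p a + 4 * q a) / 3 = (2 / 3) * p a + (4 / 3) * q a := fun a => by ring
    rw [Finset.sum_congr rfl fun a _ => this a, Finset.sum_add_distrib, ← Finset.mul_sum,
      ← Finset.mul_sum, hp1, hq1]
    norm_num
  have e2 : ∑ a, (p a * (Real.log (p a) - Real.log (q a)) - p a + q a)
      = ∑ a, p a * (Real.log (p a) - Real.log (q a)) := by
    rw [Finset.sum_add_distrib, Finset.sum_sub_distrib, hp1, hq1]
    ring
  have hh : ∀ a, q a ≠ 0 → q a * (p a / q a * Real.log (p a / q a) - p a / q a + 1)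
      = p a * (Real.log (p a) - Real.log (q a)) - p a + q a := by
    intro a ha
    rcases (hp a).eq_or_lt with h0 | h0
    · rw [← h0]; simp
    · rw [Real.log_div h0.ne' ha]
      field_simp
  rw [← e1, ← e2]
  apply Finset.sum_sq_le_sum_mul_sum_of_sq_le_mul
  · intro a _
    have := hp a
    have := hq a
    positivity
  · intro a _
    by_cases ha : q a = 0
    · rw [hac a ha, ha]; simp
    · rw [← hh a ha]
      exact mul_nonneg (hq a) (ec_pt_nonneg _ (div_nonneg (hp a) (hq a)))
  · intro a _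
    by_cases ha : q a = 0
    · rw [hac a ha, ha]; simp
    · have hq0 : 0 < q a := lt_of_le_of_ne (hq a) (Ne.symm ha)
      have h1 := ec_pt (p a / q a) (div_nonneg (hp a) (hq a))
      have h2 : |p a - q a| ^ 2 = q a ^ 2 * (p a / q a - 1) ^ 2 := by
        rw [sq_abs]; field_simp
      rw [h2, ← hh a ha]
      have h3 : (2 * p a + 4 * q a) / 3 * (q a * (p a / q a * Real.log (p a / q a) - p a / q a + 1))
          = q a ^ 2 * ((2 * (p a / q a) + 4) * (p a / q a * Real.log (p a / q a) - p a / q a + 1) / 3)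
          := by field_simp
      rw [h3]
      refine mul_le_mul_of_nonneg_left ?_ (sq_nonneg _)
      linarith

namespace FinProb

variable {Ω : Type*} [Fintype Ω] (P : FinProb Ω) {α β τ V : Type*}

lemma sum_p_mul [Fintype α] (f : Ω → α) (φ : α → ℝ) :
    ∑ a, P.p f a * φ a = ∑ ω, P.w ω * φ (f ω) := by
  unfold p
  simp only [Finset.sum_mul, ite_mul, zero_mul]
  rw [Finset.sum_comm]
  refine Finset.sum_congr rfl fun ω _ => ?_
  rw [Finset.sum_ite_eq]
  simp

lemma sum_p [Fintype α] (f : Ω → α) : ∑ a, P.p f a = 1 := by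
  have := P.sum_p_mul f (fun _ => 1)
  simpa [P.sum_one] using this

/-- The product law of the conditional laws. -/
def pl {k : ℕ} (U : Fin k → Ω → V) (T : Ω → τ) (x : (Fin k → V) × τ) : ℝ :=
  P.p T x.2 * ∏ i, P.cond (U i) T x.2 (x.1 i)

/-- Pinsker for the joint law against the product of the conditional laws. -/
theorem tv_prod [Fintype V] [Fintype τ] {k : ℕ} (U : Fin k → Ω → V) (T : Ω → τ) {δ : ℝ}
    (hδ : ∑ i, (P.H (fun ω => (U i ω, T ω)) - P.H T)
      - (P.H (fun ω => ((fun i => U i ω : Fin k → V), T ω)) - P.H T) ≤ δ) :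
    ∑ x, |P.p (fun ω => ((fun i => U i ω : Fin k → V), T ω)) x - P.pl U T x|
      ≤ Real.sqrt (2 * δ) := by
  set f : Ω → (Fin k → V) × τ := fun ω => ((fun i => U i ω : Fin k → V), T ω) with hf
  apply Real.le_sqrt_of_sq_le
  have hq1 : ∑ x, P.pl U T x = 1 := by
    rw [Fintype.sum_prod_type_right]
    have : ∀ t, ∑ u : Fin k → V, P.pl U T (u, t) = P.p T t := by
      intro t
      unfold pl
      simp only
      rw [← Finset.mul_sum, ← Fintype.piFinset_univ, ← Finset.prod_univ_sum]
      by_cases h0 : P.p T t = 0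
      · rw [h0, zero_mul]
      · rw [Finset.prod_eq_one fun i _ => P.sum_cond (U i) T h0, mul_one]
    rw [Finset.sum_congr rfl fun t _ => this t, P.sum_p T]
  have hpos : ∀ ω, 0 < P.w ω → (0 < P.p T (T ω)) ∧ ∀ i, 0 < P.cond (U i) T (T ω) (U i ω) := by
    intro ω h0
    have a0 : 0 < P.p T (T ω) := P.p_pos h0 T
    exact ⟨a0, fun i => div_pos (P.p_pos h0 (fun ω => (U i ω, T ω))) a0⟩
  have hac : ∀ x, P.pl U T x = 0 → P.p f x = 0 := by
    intro x hx
    by_contra h
    obtain ⟨ω, h1, h2⟩ := P.exists_of_p_ne_zero h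
    obtain ⟨a0, b0⟩ := hpos ω h2
    have : 0 < P.pl U T x := by
      rw [← h1]
      unfold pl
      exact mul_pos a0 (Finset.prod_pos fun i _ => b0 i)
    linarith
  refine (pinsker_fin (P.p f) (P.pl U T) (fun x => P.p_nonneg f x)
    (fun x => mul_nonneg (P.p_nonneg _ _) (Finset.prod_nonneg fun i _ => P.cond_nonneg _ _ _ _))
    (P.sum_p f) hq1 hac).trans ?_
  refine mul_le_mul_of_nonneg_left (le_trans (le_of_eq ?_) hδ) zero_le_two
  rw [P.sum_p_mul f (fun x => Real.log (P.p f x) - Real.log (P.pl U T x))]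
  have h1 : ∀ ω, P.w ω * (Real.log (P.p f (f ω)) - Real.log (P.pl U T (f ω)))
      = (∑ i, P.w ω * (-Real.log (P.p (fun ω => (U i ω, T ω)) (U i ω, T ω))
          - -Real.log (P.p T (T ω))))
        - (P.w ω * (-Real.log (P.p f (f ω))) - P.w ω * (-Real.log (P.p T (T ω)))) := by
    intro ω
    rcases P.w_zero_or_pos ω with h0 | h0
    · simp [h0]
    · obtain ⟨a0, b0⟩ := hpos ω h0
      have h2 : Real.log (P.pl U T (f ω)) = Real.log (P.p T (T ω))
          + ∑ i, (Real.log (P.p (fun ω => (U i ω, T ω)) (U i ω, T ω)) - Real.log (P.p T (T ω))) := by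
        unfold pl
        rw [hf]
        simp only
        rw [Real.log_mul a0.ne' (Finset.prod_ne_zero_iff.mpr fun i _ => (b0 i).ne'),
          Real.log_prod fun i _ => (b0 i).ne']
        congr 1
        refine Finset.sum_congr rfl fun i _ => ?_
        unfold cond
        rw [Real.log_div (P.p_pos h0 (fun ω => (U i ω, T ω))).ne' a0.ne']
      rw [h2]
      have h3 : ∑ i, P.w ω * (-Real.log (P.p (fun ω => (U i ω, T ω)) (U i ω, T ω))
          - -Real.log (P.p T (T ω)))
          = -(P.w ω * ∑ i, (Real.log (P.p (fun ω => (U i ω, T ω)) (U i ω, T ω))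
            - Real.log (P.p T (T ω)))) := by
        rw [Finset.mul_sum, ← Finset.sum_neg_distrib]
        exact Finset.sum_congr rfl fun i _ => by ring
      rw [h3]
      ring
  rw [Finset.sum_congr rfl fun ω _ => h1 ω, Finset.sum_sub_distrib, Finset.sum_comm,
    Finset.sum_sub_distrib]
  congr 1
  refine Finset.sum_congr rfl fun i _ => ?_
  unfold H
  rw [← Finset.sum_sub_distrib]
  exact Finset.sum_congr rfl fun ω _ => by ring

end FinProb

end Vale.Agent.P060.HW
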