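import Vale.Agent.P060.HW.EntConv

/-!
# P060/HW: from entropies to fields of subspaces (two groups)

Truncation, and the combination of Pinsker, truncation and `conv2_field`.
-/

open scoped Classical
open Finset Module

noncomputable section

set_option linter.unusedSectionVars false

namespace Vale.Agent.P060.HW

lemma xlogx_trunc {L x : ℝ} (hL : 1 ≤ L) (hx : 0 ≤ x) :
    Real.log L * (if L < x then x else 0) - 1 ≤ x * Real.log x := by
  have hlog : 0 ≤ Real.log L := Real.log_nonneg hL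
  split_ifs with h
  · have h1 : Real.log L ≤ Real.log x := Real.log_le_log (by linarith) h.le
    have h2 := mul_le_mul_of_nonneg_right h1 hx
    linarith
  · rcases hx.eq_or_lt with h0 | h0
    · rw [← h0]; simp
    · have h3 := Real.one_sub_inv_le_log_of_pos h0
      have h4 := mul_le_mul_of_nonneg_left h3 h0.le
      rw [mul_sub, mul_one, mul_inv_cancel₀ h0.ne'] at h4
      linarith

lemma sum_cnv {V : Type*} [AddCommGroup V] [Fintype V] (ρ₁ ρ₂ : V → ℝ) :
    ∑ x, cnv ρ₁ ρ₂ x = (∑ x, ρ₁ x) * ∑ x, ρ₂ x := by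
  unfold cnv
  rw [Finset.sum_comm, Finset.sum_mul]
  refine Finset.sum_congr rfl fun u _ => ?_
  rw [← Finset.mul_sum]
  congr 1
  exact Fintype.sum_equiv (Equiv.subRight u) _ _ fun x => rfl

namespace FinProb

variable {Ω : Type*} [Fintype Ω] (P : FinProb Ω) {α β τ V : Type*}

/-- The average mass of the points of large conditional density. -/
theorem trunc_mass [Fintype α] (f : Ω → α) (T : Ω → τ) (S : τ → Finset α) {M L K : ℝ} (hM : 0 < M)
    (hL : 1 < L) (hS : ∀ ω, 0 < P.w ω → f ω ∈ S (T ω)) (hc : ∀ t, ((S t).card : ℝ) ≤ M)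
    (hK : Real.log M - (P.H (fun ω => (f ω, T ω)) - P.H T) ≤ K) :
    ∑ ω, P.w ω * (∑ y, if L / M < P.cond f T (T ω) y then P.cond f T (T ω) y else 0)
      ≤ (K + 1) / Real.log L := by
  have hlog : 0 < Real.log L := Real.log_pos hL
  rw [le_div_iff₀ hlog]
  have h1 := P.avg_kl f T hM
  have h2 : ∀ ω, P.w ω * (Real.log L *
      (∑ y, if L / M < P.cond f T (T ω) y then P.cond f T (T ω) y else 0) - 1)
      ≤ P.w ω * ∑ y, P.cond f T (T ω) y * Real.log (P.cond f T (T ω) y * M) := by
    intro ω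
    refine mul_le_mul_of_nonneg_left ?_ (P.nonneg ω)
    have hsupp : ∀ y, y ∉ S (T ω) → P.cond f T (T ω) y = 0 := by
      intro y hy
      by_contra h0
      obtain ⟨ω', e1, e2, e3⟩ := P.exists_of_cond_ne_zero h0
      apply hy
      rw [← e1, ← e2]
      exact hS ω' e3
    have e1 : (∑ y, if L / M < P.cond f T (T ω) y then P.cond f T (T ω) y else 0)
        = ∑ y ∈ S (T ω), if L / M < P.cond f T (T ω) y then P.cond f T (T ω) y else 0 := by
      symm
      refine Finset.sum_subset (Finset.subset_univ _) fun y _ hy => ?_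
      rw [hsupp y hy]; simp
    have e2 : (∑ y, P.cond f T (T ω) y * Real.log (P.cond f T (T ω) y * M))
        = ∑ y ∈ S (T ω), P.cond f T (T ω) y * Real.log (P.cond f T (T ω) y * M) := by
      symm
      refine Finset.sum_subset (Finset.subset_univ _) fun y _ hy => ?_
      rw [hsupp y hy]; simp
    rw [e1, e2]
    have e3 : ∀ y ∈ S (T ω), Real.log L *
        (if L / M < P.cond f T (T ω) y then P.cond f T (T ω) y else 0) - 1 / M
        ≤ P.cond f T (T ω) y * Real.log (P.cond f T (T ω) y * M) := by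
      intro y _
      have h0 := P.cond_nonneg f T (T ω) y
      have h3 := xlogx_trunc (L := L) (x := P.cond f T (T ω) y * M) hL.le (by positivity)
      have h4 := div_le_div_of_nonneg_right h3 hM.le
      have h5 : (L < P.cond f T (T ω) y * M) ↔ (L / M < P.cond f T (T ω) y) := by
        rw [div_lt_iff₀ hM]
      have h6 : (P.cond f T (T ω) y * M * Real.log (P.cond f T (T ω) y * M)) / M
          = P.cond f T (T ω) y * Real.log (P.cond f T (T ω) y * M) := by
        field_simp
      rw [h6] at h4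
      refine le_trans (le_of_eq ?_) h4
      by_cases h7 : L / M < P.cond f T (T ω) y
      · rw [if_pos h7, if_pos (h5.2 h7)]
        field_simp
      · rw [if_neg h7, if_neg (fun h => h7 (h5.1 h))]
        field_simp
        ring
    have e4 := Finset.sum_le_sum e3
    rw [Finset.sum_sub_distrib, ← Finset.mul_sum, Finset.sum_const, nsmul_eq_mul] at e4
    have e5 : ((S (T ω)).card : ℝ) * (1 / M) ≤ 1 := by
      rw [mul_one_div, div_le_one hM]
      exact hc _
    linarith
  have h3 := Finset.sum_le_sum (s := Finset.univ) fun ω _ => h2 ω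
  rw [h1] at h3
  have h4 : ∑ ω, P.w ω * (Real.log L *
      (∑ y, if L / M < P.cond f T (T ω) y then P.cond f T (T ω) y else 0) - 1)
      = (∑ ω, P.w ω * (∑ y, if L / M < P.cond f T (T ω) y then P.cond f T (T ω) y else 0))
        * Real.log L - 1 := by
    have h5 : ∀ ω, P.w ω * (Real.log L *
        (∑ y, if L / M < P.cond f T (T ω) y then P.cond f T (T ω) y else 0) - 1)
        = P.w ω * (∑ y, if L / M < P.cond f T (T ω) y then P.cond f T (T ω) y else 0) * Real.log L
          - P.w ω := fun ω => by ring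
    rw [Finset.sum_congr rfl fun ω _ => h5 ω, Finset.sum_sub_distrib, P.sum_one, Finset.sum_mul]
  rw [h4] at h3
  linarith

/-- The truncated conditional law. -/
def tr (f : Ω → α) (T : Ω → τ) (c : ℝ) (t : τ) (y : α) : ℝ :=
  if c < P.cond f T t y then 0 else P.cond f T t y

lemma tr_nonneg (f : Ω → α) (T : Ω → τ) (c : ℝ) (t : τ) (y : α) : 0 ≤ P.tr f T c t y := by
  unfold tr
  split_ifs
  exacts [le_rfl, P.cond_nonneg _ _ _ _]

lemma tr_le (f : Ω → α) (T : Ω → τ) (c : ℝ) (t : τ) (y : α) : P.tr f T c t y ≤ P.cond f T t y := by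
  unfold tr
  split_ifs
  exacts [P.cond_nonneg _ _ _ _, le_rfl]

lemma tr_le_c (f : Ω → α) (T : Ω → τ) {c : ℝ} (hc : 0 ≤ c) (t : τ) (y : α) :
    P.tr f T c t y ≤ c := by
  unfold tr
  split_ifs with h
  · exact hc
  · exact not_lt.1 h

lemma sum_cond_le [Fintype α] (f : Ω → α) (T : Ω → τ) (t : τ) : ∑ y, P.cond f T t y ≤ 1 := by
  by_cases h : P.p T t = 0
  · unfold cond
    rw [h]; simp
  · rw [P.sum_cond f T h]

lemma sum_cond_sub_tr [Fintype α] (f : Ω → α) (T : Ω → τ) (c : ℝ) (t : τ) :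
    ∑ y, (P.cond f T t y - P.tr f T c t y)
      = ∑ y, if c < P.cond f T t y then P.cond f T t y else 0 := by
  refine Finset.sum_congr rfl fun y _ => ?_
  unfold tr
  split_ifs <;> simp

lemma tr_law [AddCommGroup V] [Fintype V] {F : Type*} [Field F] [Module F V] (f : Ω → V)
    (T : Ω → τ) (N : Submodule F V) (a : τ → V) (hN : ∀ ω, 0 < P.w ω → f ω - a (T ω) ∈ N) (c : ℝ)
    (t : τ) : IsLaw N (P.tr f T c t) (a t) := by
  refine ⟨P.tr_nonneg f T c t, ?_, ?_⟩
  · exact (Finset.sum_le_sum fun y _ => P.tr_le f T c t y).trans (P.sum_cond_le f T t)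
  · intro x hx
    have h1 : P.cond f T t x ≠ 0 := by
      intro h0
      apply hx
      unfold tr
      rw [h0]; simp
    obtain ⟨ω, e1, e2, e3⟩ := P.exists_of_cond_ne_zero h1
    rw [← e1, ← e2]
    exact hN ω e3

/-- Push forward of a law. -/
lemma p_comp [Fintype α] (f : Ω → α) (g : α → β) (b : β) :
    P.p (fun ω => g (f ω)) b = ∑ a, if g a = b then P.p f a else 0 := by
  have := P.sum_p_mul f (fun a => if g a = b then 1 else 0)
  simp only [mul_ite, mul_one, mul_zero] at this
  rw [this]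
  rfl

/-- **Two groups**: the law of `X₁ + X₂ + c(T)` is close to a mixture of convolutions of laws of
bounded density. -/
theorem near_conv2 [AddCommGroup V] [Fintype V] [Fintype τ] {F : Type*} [Field F] [Module F V]
    (N : Submodule F V) (T : Ω → τ) (X₁ X₂ : Ω → V) (a₁ a₂ c : τ → V)
    (h₁ : ∀ ω, 0 < P.w ω → X₁ ω - a₁ (T ω) ∈ N) (h₂ : ∀ ω, 0 < P.w ω → X₂ ω - a₂ (T ω) ∈ N)
    {L K₁ K₂ δ : ℝ} (hL : 1 < L)
    (hK₁ : Real.log (carr N).card - (P.H (fun ω => (X₁ ω, T ω)) - P.H T) ≤ K₁)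
    (hK₂ : Real.log (carr N).card - (P.H (fun ω => (X₂ ω, T ω)) - P.H T) ≤ K₂)
    (hI : P.H (fun ω => (X₁ ω, T ω)) + P.H (fun ω => (X₂ ω, T ω))
      - P.H (fun ω => (X₁ ω, X₂ ω, T ω)) - P.H T ≤ δ) :
    ∃ ρ₁ ρ₂ : τ → V → ℝ, (∀ t, IsLaw N (ρ₁ t) (a₁ t)) ∧ (∀ t, IsLaw N (ρ₂ t) (a₂ t + c t)) ∧
      (∀ t x, ρ₁ t x ≤ L / (carr N).card) ∧ (∀ t x, ρ₂ t x ≤ L / (carr N).card) ∧
      ∑ x, |P.p (fun ω => X₁ ω + X₂ ω + c (T ω)) x - ∑ t, P.p T t * cnv (ρ₁ t) (ρ₂ t) x|
        ≤ Real.sqrt (2 * δ) + ((K₁ + 1) / Real.log L + (K₂ + 1) / Real.log L) := by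
  have hM : (0 : ℝ) < (carr N).card := carr_card_pos N
  have hc0 : 0 ≤ L / (carr N).card := by positivity
  set c₀ : ℝ := L / (carr N).card with hc₀
  have hsh : ∀ (ρ : V → ℝ) (s : V), ∑ x, ρ (x - s) = ∑ x, ρ x := fun ρ s =>
    Fintype.sum_equiv (Equiv.subRight s) _ _ fun x => rfl
  refine ⟨fun t => P.tr X₁ T c₀ t, fun t x => P.tr X₂ T c₀ t (x - c t),
    fun t => P.tr_law X₁ T N a₁ h₁ c₀ t, fun t => ?_, fun t x => P.tr_le_c _ _ hc0 _ _,
    fun t x => P.tr_le_c _ _ hc0 _ _, ?_⟩
  · have h := P.tr_law X₂ T N a₂ h₂ c₀ t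
    refine ⟨fun x => h.nonneg _, ?_, fun x hx => ?_⟩
    · rw [hsh (fun x => P.tr X₂ T c₀ t x) (c t)]
      exact h.mass
    · have := h.supp _ hx
      rw [sub_sub, add_comm (c t)] at this
      exact this
  -- the joint law
  set f : Ω → (Fin 2 → V) × τ := fun ω => ((fun i => (![X₁, X₂] i) ω : Fin 2 → V), T ω) with hf
  have htv : ∑ x, |P.p f x - P.pl ![X₁, X₂] T x| ≤ Real.sqrt (2 * δ) := by
    apply P.tv_prod ![X₁, X₂] T
    have e1 : P.H (fun ω => ((fun i => (![X₁, X₂] i) ω : Fin 2 → V), T ω))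
        = P.H (fun ω => (X₁ ω, X₂ ω, T ω)) := by
      apply P.H_congr_det
      intro ω ω'
      constructor
      · intro h
        have h1 := Prod.ext_iff.1 h
        have h2 := Prod.ext_iff.1 h1.2
        refine Prod.ext ?_ h2.2
        funext i
        fin_cases i
        · exact h1.1
        · exact h2.1
      · intro h
        have h1 := Prod.ext_iff.1 h
        exact Prod.ext (congrFun h1.1 0) (Prod.ext (congrFun h1.1 1) h1.2)
    rw [Fin.sum_univ_two, e1]
    simp only [Matrix.cons_val_zero, Matrix.cons_val_one]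
    linarith
  set g : (Fin 2 → V) × τ → V := fun a => a.1 0 + a.1 1 + c a.2 with hg
  have hpush : ∀ x, P.p (fun ω => X₁ ω + X₂ ω + c (T ω)) x
      = ∑ a, if g a = x then P.p f a else 0 := fun x => P.p_comp f g x
  have hmix : ∀ x, ∑ t, P.p T t * cnv (fun y => P.cond X₁ T t y)
      (fun y => P.cond X₂ T t (y - c t)) x = ∑ a, if g a = x then P.pl ![X₁, X₂] T a else 0 := by
    intro x
    rw [Fintype.sum_prod_type_right]
    refine Finset.sum_congr rfl fun t _ => ?_
    rw [← (finTwoArrowEquiv V).symm.sum_comp, Fintype.sum_prod_type]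
    unfold cnv
    rw [Finset.mul_sum]
    refine Finset.sum_congr rfl fun u _ => ?_
    rw [Finset.sum_eq_single (x - u - c t)]
    · have : g ((finTwoArrowEquiv V).symm (u, x - u - c t), t) = x := by
        simp only [hg, finTwoArrowEquiv_symm_apply, Matrix.cons_val_zero, Matrix.cons_val_one]
        abel
      rw [if_pos this]
      simp [pl, Fin.prod_univ_two]
    · intro v _ hv
      rw [if_neg]
      intro h
      apply hv
      simp only [hg, finTwoArrowEquiv_symm_apply, Matrix.cons_val_zero, Matrix.cons_val_one] at h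
      rw [← h]
      abel
    · intro h
      exact absurd (Finset.mem_univ _) h
  have h1 : ∑ x, |P.p (fun ω => X₁ ω + X₂ ω + c (T ω)) x
      - ∑ t, P.p T t * cnv (fun y => P.cond X₁ T t y) (fun y => P.cond X₂ T t (y - c t)) x|
      ≤ Real.sqrt (2 * δ) := by
    refine le_trans ?_ htv
    calc ∑ x, |P.p (fun ω => X₁ ω + X₂ ω + c (T ω)) x
          - ∑ t, P.p T t * cnv (fun y => P.cond X₁ T t y) (fun y => P.cond X₂ T t (y - c t)) x|
        ≤ ∑ x, ∑ a, (if g a = x then |P.p f a - P.pl ![X₁, X₂] T a| else 0) := by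
          refine Finset.sum_le_sum fun x _ => ?_
          rw [hpush, hmix, ← Finset.sum_sub_distrib]
          refine (Finset.abs_sum_le_sum_abs _ _).trans (Finset.sum_le_sum fun a _ => ?_)
          split_ifs
          · exact le_rfl
          · simp
      _ = ∑ a, |P.p f a - P.pl ![X₁, X₂] T a| := by
          rw [Finset.sum_comm]
          refine Finset.sum_congr rfl fun a _ => ?_
          rw [Finset.sum_ite_eq]
          simp
  have h2 : ∑ x, |∑ t, P.p T t * cnv (fun y => P.cond X₁ T t y)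
        (fun y => P.cond X₂ T t (y - c t)) x
      - ∑ t, P.p T t * cnv (fun y => P.tr X₁ T c₀ t y) (fun y => P.tr X₂ T c₀ t (y - c t)) x|
      ≤ (K₁ + 1) / Real.log L + (K₂ + 1) / Real.log L := by
    have hmono : ∀ t x, cnv (fun y => P.tr X₁ T c₀ t y) (fun y => P.tr X₂ T c₀ t (y - c t)) x
        ≤ cnv (fun y => P.cond X₁ T t y) (fun y => P.cond X₂ T t (y - c t)) x := by
      intro t x
      refine Finset.sum_le_sum fun u _ => ?_
      exact mul_le_mul (P.tr_le _ _ _ _ _) (P.tr_le _ _ _ _ _) (P.tr_nonneg _ _ _ _ _)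
        (P.cond_nonneg _ _ _ _)
    have h3 : ∀ x, |∑ t, P.p T t * cnv (fun y => P.cond X₁ T t y)
        (fun y => P.cond X₂ T t (y - c t)) x
        - ∑ t, P.p T t * cnv (fun y => P.tr X₁ T c₀ t y) (fun y => P.tr X₂ T c₀ t (y - c t)) x|
        = ∑ t, P.p T t * (cnv (fun y => P.cond X₁ T t y)
        (fun y => P.cond X₂ T t (y - c t)) x - cnv (fun y => P.tr X₁ T c₀ t y)
          (fun y => P.tr X₂ T c₀ t (y - c t)) x) := by
      intro x
      rw [← Finset.sum_sub_distrib, abs_of_nonneg]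
      · exact Finset.sum_congr rfl fun t _ => by ring
      · refine Finset.sum_nonneg fun t _ => ?_
        rw [← mul_sub]
        exact mul_nonneg (P.p_nonneg _ _) (sub_nonneg.2 (hmono t x))
    rw [Finset.sum_congr rfl fun x _ => h3 x, Finset.sum_comm]
    have h4 : ∀ t, ∑ x, P.p T t * (cnv (fun y => P.cond X₁ T t y)
        (fun y => P.cond X₂ T t (y - c t)) x - cnv (fun y => P.tr X₁ T c₀ t y)
          (fun y => P.tr X₂ T c₀ t (y - c t)) x)
        ≤ P.p T t * (∑ y, if c₀ < P.cond X₁ T t y then P.cond X₁ T t y else 0)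
          + P.p T t * (∑ y, if c₀ < P.cond X₂ T t y then P.cond X₂ T t y else 0) := by
      intro t
      rw [← Finset.mul_sum, ← mul_add]
      refine mul_le_mul_of_nonneg_left ?_ (P.p_nonneg _ _)
      rw [Finset.sum_sub_distrib, sum_cnv, sum_cnv, hsh (fun y => P.cond X₂ T t y) (c t),
        hsh (fun y => P.tr X₂ T c₀ t y) (c t), ← P.sum_cond_sub_tr X₁ T c₀ t,
        ← P.sum_cond_sub_tr X₂ T c₀ t, Finset.sum_sub_distrib, Finset.sum_sub_distrib]
      have b1 := P.sum_cond_le X₁ T t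
      have b2 := P.sum_cond_le X₂ T t
      have b3 : ∑ y, P.tr X₁ T c₀ t y ≤ ∑ y, P.cond X₁ T t y :=
        Finset.sum_le_sum fun y _ => P.tr_le _ _ _ _ _
      have b4 : ∑ y, P.tr X₂ T c₀ t y ≤ ∑ y, P.cond X₂ T t y :=
        Finset.sum_le_sum fun y _ => P.tr_le _ _ _ _ _
      have b5 : 0 ≤ ∑ y, P.tr X₁ T c₀ t y := Finset.sum_nonneg fun y _ => P.tr_nonneg _ _ _ _ _
      nlinarith
    refine (Finset.sum_le_sum fun t _ => h4 t).trans ?_
    rw [Finset.sum_add_distrib]
    have hN : ∀ (a : τ → V) (t : τ),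
        (((carr N).image fun n => n + a t).card : ℝ) ≤ (carr N).card := by
      intro a t
      exact_mod_cast Finset.card_image_le
    have hNS : ∀ (X : Ω → V) (a : τ → V), (∀ ω, 0 < P.w ω → X ω - a (T ω) ∈ N) →
        ∀ ω, 0 < P.w ω → X ω ∈ (carr N).image fun n => n + a (T ω) := by
      intro X a h ω hω
      exact Finset.mem_image.2 ⟨X ω - a (T ω), mem_carr.2 (h ω hω), by abel⟩
    refine add_le_add ?_ ?_
    · rw [P.sum_p_mul T]
      exact P.trunc_mass X₁ T (fun t => (carr N).image fun n => n + a₁ t) hM hL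
        (hNS X₁ a₁ h₁) (hN a₁) hK₁
    · rw [P.sum_p_mul T]
      exact P.trunc_mass X₂ T (fun t => (carr N).image fun n => n + a₂ t) hM hL
        (hNS X₂ a₂ h₂) (hN a₂) hK₂
  calc ∑ x, |P.p (fun ω => X₁ ω + X₂ ω + c (T ω)) x
        - ∑ t, P.p T t * cnv (fun y => P.tr X₁ T c₀ t y) (fun y => P.tr X₂ T c₀ t (y - c t)) x|
      ≤ ∑ x, (|P.p (fun ω => X₁ ω + X₂ ω + c (T ω)) x
      - ∑ t, P.p T t * cnv (fun y => P.cond X₁ T t y) (fun y => P.cond X₂ T t (y - c t)) x|
        + |∑ t, P.p T t * cnv (fun y => P.cond X₁ T t y)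
        (fun y => P.cond X₂ T t (y - c t)) x
      - ∑ t, P.p T t * cnv (fun y => P.tr X₁ T c₀ t y) (fun y => P.tr X₂ T c₀ t (y - c t)) x|) :=
        Finset.sum_le_sum fun x _ => abs_sub_le _ _ _
    _ ≤ _ := by
        rw [Finset.sum_add_distrib]
        exact add_le_add h1 h2

/-- **Two groups, final form.** If `X₁, X₂` take values in cosets of `N` determined by `T`, have
bounded conditional deficit relative to `N` and small conditional mutual information, then the law
of `X₁ + X₂ + c(T)` is close to its average over a field of subspaces of `N` of bounded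
codimension. -/
theorem near_field2 [AddCommGroup V] [Fintype V] {τ : Type*} [Fintype τ] {F : Type*} [Field F]
    [Fintype F] [Module F V] (ψ : AddChar F ℂ) (hψ : ψ ≠ 0)
    (N : Submodule F V) (T : Ω → τ) (X₁ X₂ : Ω → V) (c : τ → V)
    (h₁ : ∀ ω ω', T ω = T ω' → X₁ ω - X₁ ω' ∈ N) (h₂ : ∀ ω ω', T ω = T ω' → X₂ ω - X₂ ω' ∈ N)
    {L K₁ K₂ δ p : ℝ} (hL : 1 < L) (hp : 0 < p)
    (hK₁ : Real.log (carr N).card - (P.H (fun ω => (X₁ ω, T ω)) - P.H T) ≤ K₁)
    (hK₂ : Real.log (carr N).card - (P.H (fun ω => (X₂ ω, T ω)) - P.H T) ≤ K₂)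
    (hI : P.H (fun ω => (X₁ ω, T ω)) + P.H (fun ω => (X₂ ω, T ω))
      - P.H (fun ω => (X₁ ω, X₂ ω, T ω)) - P.H T ≤ δ) :
    ∃ U : V → Submodule F V, IsField N U ∧
      (∀ x, finrank F N ≤ finrank F (U x) + ⌊L / p⌋₊) ∧
      ∑ x, |P.p (fun ω => X₁ ω + X₂ ω + c (T ω)) x
          - favg U (P.p (fun ω => X₁ ω + X₂ ω + c (T ω))) x|
        ≤ 2 * (Real.sqrt (2 * δ) + ((K₁ + 1) / Real.log L + (K₂ + 1) / Real.log L)
          + Real.sqrt (p * L)) := by
  have key : ∀ X : Ω → V, (∀ ω ω', T ω = T ω' → X ω - X ω' ∈ N) →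
      ∃ a : τ → V, ∀ ω, 0 < P.w ω → X ω - a (T ω) ∈ N := by
    intro X h
    refine ⟨fun t => if ht : ∃ ω, T ω = t then X ht.choose else 0, fun ω _ => ?_⟩
    have ht : ∃ ω', T ω' = T ω := ⟨ω, rfl⟩
    simp only [dif_pos ht]
    exact h _ _ ht.choose_spec.symm
  obtain ⟨a₁, ha₁⟩ := key X₁ h₁
  obtain ⟨a₂, ha₂⟩ := key X₂ h₂
  obtain ⟨ρ₁, ρ₂, l1, l2, b1, b2, e⟩ := P.near_conv2 N T X₁ X₂ a₁ a₂ c ha₁ ha₂ hL hK₁ hK₂ hI
  exact conv2_field ψ hψ N (fun t => P.p T t) (fun t => P.p_nonneg T t) (P.sum_p T).le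
    (by linarith) hp ρ₁ ρ₂ _ _ l1 l2 b1 b2 _ e

end FinProb

section Coarsen

variable {F V : Type*} [Field F] [Fintype F] [AddCommGroup V] [Module F V] [Fintype V]

/-- Codimensions of finite intersections. -/
lemma codim_finset_inf {ι : Type*} (N : Submodule F V) (s : Finset ι) (U : ι → Submodule F V)
    {R : ℕ} (hR : ∀ i ∈ s, finrank F N ≤ finrank F (U i) + R) (hU : ∀ i ∈ s, U i ≤ N) :
    finrank F N ≤ finrank F (N ⊓ s.inf U : Submodule F V) + s.card * R := by
  have : FiniteDimensional F V := Module.Finite.of_finite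
  induction s using Finset.induction_on with
  | empty => rw [Finset.inf_empty, inf_top_eq]; simp
  | insert i s hi ih =>
    have h1 := ih (fun j hj => hR j (Finset.mem_insert_of_mem hj))
      (fun j hj => hU j (Finset.mem_insert_of_mem hj))
    have h2 := hR i (Finset.mem_insert_self i s)
    have h3 := hU i (Finset.mem_insert_self i s)
    rw [Finset.inf_insert, Finset.card_insert_of_notMem hi]
    have h4 : N ⊓ (U i ⊓ s.inf U) = U i ⊓ (N ⊓ s.inf U) := by
      rw [← inf_assoc, ← inf_assoc, inf_comm N]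
    have h5 := Submodule.finrank_sup_add_finrank_inf_eq (U i) (N ⊓ s.inf U)
    have h6 : finrank F (U i ⊔ (N ⊓ s.inf U) : Submodule F V) ≤ finrank F N :=
      Submodule.finrank_mono (sup_le h3 inf_le_left)
    rw [h4]
    have h7 : (s.card + 1) * R = s.card * R + R := by ring
    rw [h7]
    omega

/-- **Coarsening**: a field which is constant on the cosets of `N` can be replaced by a smaller one
which is constant on the cosets of `N'`, if `N` has bounded codimension in `N'`. -/
theorem IsField.coarsen {N N' : Submodule F V} (hN : N ≤ N') {U : V → Submodule F V}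
    (hU : IsField N U) {R c : ℕ} (hR : ∀ x, finrank F N ≤ finrank F (U x) + R)
    (hc : finrank F N' ≤ finrank F N + c) :
    ∃ U' : V → Submodule F V, IsField N' U' ∧ (∀ x, U' x ≤ U x) ∧
      ∀ x, finrank F N' ≤ finrank F (U' x) + (c + Fintype.card F ^ c * R) := by
  have : FiniteDimensional F V := Module.Finite.of_finite
  -- representatives of the cosets of `N` in `N'`
  obtain ⟨s, hs1, hs2, hs3⟩ : ∃ s : Finset V, (∀ r ∈ s, r ∈ N') ∧
      (∀ n ∈ N', ∃ r ∈ s, n - r ∈ N) ∧ s.card ≤ Fintype.card F ^ c := by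
    classical
    set q : V → V ⧸ N := fun v => Submodule.Quotient.mk v with hq
    let _ : Fintype (V ⧸ N) := quotFintype N
    set t : Finset (V ⧸ N) := (carr N').image q with ht
    refine ⟨t.image (fun k => if h : ∃ n ∈ N', q n = k then h.choose else 0), ?_, ?_, ?_⟩
    · intro r hr
      obtain ⟨k, hk, rfl⟩ := Finset.mem_image.1 hr
      obtain ⟨n, hn, hnk⟩ := Finset.mem_image.1 hk
      have h : ∃ n ∈ N', q n = k := ⟨n, mem_carr.1 hn, hnk⟩
      rw [dif_pos h]
      exact h.choose_spec.1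
    · intro n hn
      have h : ∃ m ∈ N', q m = q n := ⟨n, hn, rfl⟩
      refine ⟨h.choose, Finset.mem_image.2 ⟨q n, Finset.mem_image_of_mem _ (mem_carr.2 hn), ?_⟩, ?_⟩
      · rw [dif_pos h]
      · exact (Submodule.Quotient.eq N).1 h.choose_spec.2.symm
    · refine Finset.card_image_le.trans ?_
      have h1 : t = univ.filter fun k => k ∈ N'.map N.mkQ := by
        ext k
        simp only [ht, Finset.mem_image, mem_carr, Finset.mem_filter, Finset.mem_univ, true_and,
          Submodule.mem_map]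
        rfl
      have h2 : t.card = Fintype.card F ^ finrank F (N'.map N.mkQ) := by
        rw [← Module.card_eq_pow_finrank (K := F), Fintype.card_subtype, h1]
      rw [h2]
      refine Nat.pow_le_pow_right Fintype.card_pos ?_
      have h3 := LinearMap.finrank_range_add_finrank_ker (N.mkQ.domRestrict N')
      have h4 : finrank F (LinearMap.ker (N.mkQ.domRestrict N')) = finrank F N := by
        have : LinearMap.ker (N.mkQ.domRestrict N') = N.comap N'.subtype := by
          ext x
          simp [LinearMap.domRestrict_apply]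
        rw [this]
        exact LinearEquiv.finrank_eq (Submodule.comapSubtypeEquivOfLe hN)
      have h5 : LinearMap.range (N.mkQ.domRestrict N') = N'.map N.mkQ := by
        rw [LinearMap.domRestrict, LinearMap.range_comp, Submodule.range_subtype]
      rw [h4, h5] at h3
      omega
  refine ⟨fun x => N ⊓ s.inf fun r => U (x + r), ⟨fun x => inf_le_left.trans hN, ?_⟩, ?_, ?_⟩
  · intro x n hn
    apply le_antisymm
    · refine le_inf inf_le_left (Finset.le_inf fun r hr => ?_)
      obtain ⟨r', hr', hm⟩ := hs2 (r - n) (N'.sub_mem (hs1 r hr) hn)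
      have e : x + n + r' = x + r + -(r - n - r') := by abel
      have e2 : U (x + n + r') = U (x + r) := by
        rw [e, hU.inv _ _ (N.neg_mem hm)]
      rw [← e2]
      exact inf_le_right.trans (Finset.inf_le hr')
    · refine le_inf inf_le_left (Finset.le_inf fun r hr => ?_)
      obtain ⟨r', hr', hm⟩ := hs2 (n + r) (N'.add_mem hn (hs1 r hr))
      have e : x + n + r = x + r' + (n + r - r') := by abel
      have e2 : U (x + n + r) = U (x + r') := by
        rw [e, hU.inv _ _ hm]
      rw [e2]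
      exact inf_le_right.trans (Finset.inf_le hr')
  · intro x
    obtain ⟨r, hr, hm⟩ := hs2 0 N'.zero_mem
    have e : x = x + r + (0 - r) := by abel
    have e2 : U x = U (x + r) := by
      conv_lhs => rw [e, hU.inv _ _ hm]
    rw [e2]
    exact inf_le_right.trans (Finset.inf_le hr)
  · intro x
    have h1 := codim_finset_inf N s (fun r => U (x + r)) (R := R) (fun r _ => hR _)
      (fun r _ => hU.le _)
    have h2 : s.card * R ≤ Fintype.card F ^ c * R := Nat.mul_le_mul_right _ hs3
    simp only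
    omega

end Coarsen

end Vale.Agent.P060.HW
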