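import Vale.Agent.P060.HW.Good

/-!
# P060/HW: the extraction event
-/

open scoped Classical

noncomputable section

set_option linter.unusedSectionVars false

namespace Vale.Agent.P060.HW

open Module

variable {N d : ℕ} {E P Om : Type} [Fintype E] [Fintype P] [Fintype Om] [NeZero N]

/-- The part of a line vector on the coordinates in `P`. -/
def pP (p : Lin N → Co E P Om → F) (u : Lin N) : P → F := fun j => p u (Sum.inl (Sum.inr j))

/-- The lines in `T \ S` are independent modulo the lines in `S`, on the coordinates in `P`. -/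
def IndOver (p : Lin N → Co E P Om → F) (S T : Finset (Lin N)) : Prop :=
  LinearIndependent F (fun u : (T \ S : Finset (Lin N)) =>
    (Submodule.span F (Set.range fun v : S => pP p v)).mkQ (pP p u))

/-- GX: for every set `S` of at most `|P| / 2` lines, every line-disjoint family of pairs whose new
lines are dependent modulo the lines in `S` has at most `x0` members. -/
def EvX (d : ℕ) (p : Lin N → Co E P Om → F) (x0 : ℕ) : Prop :=
  ∀ S : Finset (Lin N), 2 * S.card ≤ Fintype.card P →
    ∀ 𝓕 : Finset (Ty N d × Ty N d), LD 𝓕 → (∀ β ∈ 𝓕, β.1 ≠ β.2) →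
      (∀ β ∈ 𝓕, ¬ IndOver p S (lins2 β)) → 𝓕.card ≤ x0

/-- EXISTENCE of GX: `x0` depends only on `D₀`. -/
def ExX : Prop := ∀ D₀ : ℕ, ∃ x0 : ℕ, ∀ (d : ℕ) (E : Type) [Fintype E],
  ∃ θ > (0 : ℝ), ∃ k₀ : ℕ, ∀ (N : ℕ) (P Om : Type) [Fintype P] [Fintype Om] [NeZero N]
  (fr : Frame N d E Om), k₀ ≤ Fintype.card P → Sizes fr P D₀ θ 0 →
  Rare {p : Dz fr P | ¬ EvX d p.1 x0}

end Vale.Agent.P060.HW
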