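import Vale.Agent.P060.HW.Good

/-!
# Existence of GP1: small sets of lines are independent on the coordinates in `P`
-/

open scoped Classical

noncomputable section

set_option linter.unusedSectionVars false

namespace Vale.Agent.P060.HW

namespace Ex1P

open Module

variable {N d : ℕ} {E P Om : Type} [Fintype E] [Fintype P] [Fintype Om] [NeZero N]

/-- Adding a vector on `P` to one line vector. -/
def shift (fr : Frame N d E Om) (u0 : Lin N) (v : P → F) (p : Dz fr P) : Dz fr P :=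
  ⟨fun u co => p.1 u co +
      (if u = u0 then Sum.elim (Sum.elim (fun _ => 0) v) (fun _ => 0) co else 0), by
    intro s i t
    have h := p.2 s i t
    simp only [Sum.elim_inl, ite_self, add_zero]
    exact h⟩

lemma shift_P (fr : Frame N d E Om) (u0 : Lin N) (v : P → F) (p : Dz fr P) (u : Lin N) (j : P) :
    (shift fr u0 v p).1 u (Sum.inl (Sum.inr j))
      = p.1 u (Sum.inl (Sum.inr j)) + if u = u0 then v j else 0 := by
  simp only [shift, Sum.elim_inl, Sum.elim_inr]

lemma shift_injective (fr : Frame N d E Om) (u0 : Lin N) (v : P → F) {p q : Dz fr P}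
    (h : shift fr u0 v p = shift fr u0 v q) : p = q := by
  apply Subtype.ext
  funext u co
  have := congrFun (congrFun (congrArg Subtype.val h) u) co
  simp only [shift] at this
  exact add_right_cancel this

/-- The value of a combination of the line vectors on `P`. -/
def comb (p : Lin N → Co E P Om → F) (c : Lin N → F) (j : P) : F :=
  ∑ u, c u * p u (Sum.inl (Sum.inr j))

lemma comb_shift (fr : Frame N d E Om) (u0 : Lin N) (v : P → F) (p : Dz fr P) (c : Lin N → F)
    (j : P) : comb (shift fr u0 v p).1 c j = comb p.1 c j + c u0 * v j := by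
  unfold comb
  simp only [shift_P, mul_add, Finset.sum_add_distrib, mul_ite, mul_zero, Finset.sum_ite_eq',
    Finset.mem_univ, if_true]

lemma card_fiber (fr : Frame N d E Om) (c : Lin N → F) (hc : c ≠ 0) :
    2521 ^ Fintype.card P * Nat.card {p : Dz fr P // ∀ j, comb p.1 c j = 0}
      ≤ Nat.card (Dz fr P) := by
  obtain ⟨u0, hu0⟩ := Function.ne_iff.1 hc
  have hu0' : c u0 ≠ 0 := hu0
  have h1 : Nat.card (P → F) = 2521 ^ Fintype.card P := by
    rw [Nat.card_eq_fintype_card, Fintype.card_fun, ZMod.card]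
  rw [← h1, ← Nat.card_prod]
  refine Nat.card_le_card_of_injective
    (fun x : (P → F) × {p : Dz fr P // ∀ j, comb p.1 c j = 0} => shift fr u0 x.1 x.2.1) ?_
  rintro ⟨v, p, hp⟩ ⟨v', p', hp'⟩ h
  have hv : v = v' := by
    funext j
    have e1 := comb_shift fr u0 v p c j
    have e2 := comb_shift fr u0 v' p' c j
    have h' : shift fr u0 v p = shift fr u0 v' p' := h
    rw [h', e2, hp, hp', zero_add, zero_add] at e1
    exact (mul_left_cancel₀ hu0' e1).symm
  subst hv
  have := shift_injective fr u0 v h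
  have h2 : p = p' := this
  subst h2
  rfl

/-- The size of the support. -/
def sz (c : Lin N → F) : ℕ := (Finset.univ.filter fun u => c u ≠ 0).card

lemma sum_one_field (x : ℝ) : ∑ a : F, (if a = 0 then (1 : ℝ) else x) = 1 + 2520 * x := by
  have h0 : (Finset.univ.erase (0 : F)).card = 2520 := by
    rw [Finset.card_erase_of_mem (Finset.mem_univ _), Finset.card_univ, ZMod.card]
  have h1 := Finset.add_sum_erase Finset.univ (fun a : F => if a = 0 then (1 : ℝ) else x)
    (Finset.mem_univ (0 : F))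
  rw [← h1, Finset.sum_congr rfl (g := fun _ => x) fun a ha => if_neg (Finset.ne_of_mem_erase ha),
    Finset.sum_const, h0, nsmul_eq_mul]
  simp only [if_true]
  norm_num

/-- The number of vectors of small support, by the exponential moment. -/
lemma card_small (m : ℕ) (x : ℝ) (hx0 : 0 < x) (hx1 : x ≤ 1) :
    ((Finset.univ.filter fun c : Lin N → F => sz c ≤ m).card : ℝ) * x ^ m
      ≤ (1 + 2520 * x) ^ (3 * N) := by
  have h1 : ∏ _u : Lin N, ∑ a : F, (if a = 0 then (1 : ℝ) else x) = (1 + 2520 * x) ^ (3 * N) := by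
    rw [Finset.prod_const, Finset.card_univ, Fintype.card_prod, Fintype.card_fin, ZMod.card,
      sum_one_field]
  rw [← h1, Finset.prod_univ_sum, Fintype.piFinset_univ]
  have h2 : ((Finset.univ.filter fun c : Lin N → F => sz c ≤ m).card : ℝ) * x ^ m
      = ∑ _c ∈ Finset.univ.filter (fun c : Lin N → F => sz c ≤ m), x ^ m := by
    rw [Finset.sum_const, nsmul_eq_mul]
  rw [h2]
  refine (Finset.sum_le_sum fun c hc => ?_).trans
    (Finset.sum_le_sum_of_subset_of_nonneg (Finset.filter_subset _ _) fun c _ _ =>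
      Finset.prod_nonneg fun u _ => ?_)
  · have hc' : sz c ≤ m := (Finset.mem_filter.1 hc).2
    have h3 : ∏ u : Lin N, (if c u = 0 then (1 : ℝ) else x) = x ^ sz c := by
      rw [Finset.prod_ite, Finset.prod_const_one, one_mul, Finset.prod_const]
      rfl
    rw [h3]
    exact pow_le_pow_of_le_one hx0.le hx1 hc'
  · split_ifs
    · exact zero_le_one
    · exact hx0.le

lemma seven_le : (7 : ℝ) ≤ Real.log 2521 := by
  rw [Real.le_log_iff_exp_le (by norm_num)]
  have h1 : Real.exp 7 = Real.exp 1 ^ 7 := by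
    rw [← Real.exp_nat_mul]; norm_num
  rw [h1]
  have h2 : Real.exp 1 ≤ 2.72 := Real.exp_one_lt_d9.le.trans (by norm_num)
  calc Real.exp 1 ^ 7 ≤ (2.72 : ℝ) ^ 7 := pow_le_pow_left₀ (Real.exp_pos 1).le h2 7
    _ ≤ 2521 := by norm_num

lemma hundred_le : (100 : ℝ) ≤ Real.exp 5 := by
  have h1 : Real.exp 5 = Real.exp 1 ^ 5 := by
    rw [← Real.exp_nat_mul]; norm_num
  rw [h1]
  have h2 : (2.7 : ℝ) ≤ Real.exp 1 := (by norm_num : (2.7 : ℝ) ≤ 2.7182818283).trans
    Real.exp_one_gt_d9.le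
  calc (100 : ℝ) ≤ (2.7 : ℝ) ^ 5 := by norm_num
    _ ≤ Real.exp 1 ^ 5 := pow_le_pow_left₀ (by norm_num) h2 5

lemma num (D₀ k N : ℕ) (hk : 2 ≤ k) (hN : N ≤ 2 * D₀ * k) (S : ℝ)
    (hS : ∀ x : ℝ, 0 < x → x ≤ 1 →
      S * x ^ (20 * k / (D₀ + 20) ^ 2) ≤ (1 + 2520 * x) ^ (3 * N)) :
    100 * S ≤ 2521 ^ k := by
  set m : ℕ := 20 * k / (D₀ + 20) ^ 2 with hm
  set n : ℝ := (D₀ : ℝ) + 20 with hn
  have hn20 : (20 : ℝ) ≤ n := by
    have : (0 : ℝ) ≤ D₀ := Nat.cast_nonneg _
    linarith
  have hn0 : 0 < n := by linarith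
  have hk' : (2 : ℝ) ≤ k := by exact_mod_cast hk
  have hmn : (m : ℝ) * n ^ 2 ≤ 20 * k := by
    have h1 : m * (D₀ + 20) ^ 2 ≤ 20 * k := Nat.div_mul_le_self _ _
    have h2 : ((m * (D₀ + 20) ^ 2 : ℕ) : ℝ) ≤ ((20 * k : ℕ) : ℝ) := by exact_mod_cast h1
    push_cast at h2
    exact h2
  have hm0 : (0 : ℝ) ≤ m := Nat.cast_nonneg _
  have h400 : (400 : ℝ) ≤ n ^ 2 := by nlinarith
  have hm1 : (m : ℝ) ≤ k / 20 := by
    have := mul_le_mul_of_nonneg_left h400 hm0
    linarith
  have hm2 : (m : ℝ) * (3 * n) ≤ 3 * k := by nlinarith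
  have hNr : (N : ℝ) ≤ 2 * D₀ * k := by exact_mod_cast hN
  -- the choice of x
  set y : ℝ := 2520 * n ^ 3 with hy
  have hn3 : (1 : ℝ) ≤ n ^ 3 := one_le_pow₀ (by linarith)
  have hy1 : (1 : ℝ) ≤ y := by rw [hy]; linarith
  have hy0 : 0 < y := by linarith
  have h := hS y⁻¹ (inv_pos.2 hy0) (inv_le_one_of_one_le₀ hy1)
  rw [inv_pow] at h
  have hym : 0 < y ^ m := pow_pos hy0 m
  rw [← div_eq_mul_inv, div_le_iff₀ hym] at h
  -- first factor
  have hf1 : (1 + 2520 * y⁻¹) ^ (3 * N) ≤ Real.exp (3 / 200 * k) := by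
    have e1 : 2520 * y⁻¹ = (n ^ 3)⁻¹ := by
      rw [hy, mul_inv, ← mul_assoc, mul_inv_cancel₀ (by norm_num), one_mul]
    have e2 : 1 + (n ^ 3)⁻¹ ≤ Real.exp ((n ^ 3)⁻¹) := by
      have := Real.add_one_le_exp ((n ^ 3)⁻¹)
      linarith
    rw [e1]
    refine (pow_le_pow_left₀ (by positivity) e2 _).trans ?_
    rw [← Real.exp_nat_mul]
    apply Real.exp_le_exp.2
    rw [← div_eq_mul_inv, div_le_iff₀ (by positivity)]
    push_cast
    have hD : (D₀ : ℝ) ≤ n := by linarith
    have hk0 : (0 : ℝ) ≤ k := by linarith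
    calc (3 * N : ℝ) ≤ 3 * (2 * D₀ * k) := by linarith
      _ ≤ 6 * n * k := by nlinarith
      _ ≤ 3 / 200 * k * n ^ 3 := by
        have : 6 * n * k ≤ 3 / 200 * (k * n) * n ^ 2 := by
          have hkn : 0 ≤ k * n := by positivity
          nlinarith
        calc 6 * n * k ≤ 3 / 200 * (k * n) * n ^ 2 := this
          _ = 3 / 200 * k * n ^ 3 := by ring
  -- second factor
  have hL : (7 : ℝ) ≤ Real.log 2521 := seven_le
  have hf2 : y ^ m ≤ Real.exp (k / 20 * Real.log 2521 + 3 * k) := by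
    have e1 : y ^ m = Real.exp (m * Real.log y) := by
      rw [Real.exp_nat_mul, Real.exp_log hy0]
    have e2 : Real.log y ≤ Real.log 2521 + 3 * n := by
      rw [hy, Real.log_mul (by norm_num) (by positivity), Real.log_pow]
      have g1 : Real.log 2520 ≤ Real.log 2521 := Real.log_le_log (by norm_num) (by norm_num)
      have g2 : Real.log n ≤ n := by
        have := Real.log_le_sub_one_of_pos hn0
        linarith
      push_cast
      linarith
    rw [e1]
    apply Real.exp_le_exp.2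
    calc (m : ℝ) * Real.log y ≤ m * (Real.log 2521 + 3 * n) := mul_le_mul_of_nonneg_left e2 hm0
      _ = m * Real.log 2521 + m * (3 * n) := by ring
      _ ≤ k / 20 * Real.log 2521 + 3 * k := by
        have := mul_le_mul_of_nonneg_right hm1 (by linarith : (0 : ℝ) ≤ Real.log 2521)
        linarith
  have hf3 : S ≤ Real.exp (3 / 200 * k) * Real.exp (k / 20 * Real.log 2521 + 3 * k) :=
    h.trans (mul_le_mul hf1 hf2 hym.le (Real.exp_pos _).le)
  have e3 : (2521 : ℝ) ^ k = Real.exp (k * Real.log 2521) := by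
    rw [Real.exp_nat_mul, Real.exp_log (by norm_num)]
  calc 100 * S ≤ Real.exp 5 * (Real.exp (3 / 200 * k) * Real.exp (k / 20 * Real.log 2521 + 3 * k)) :=
        (mul_le_mul_of_nonneg_left hf3 (by norm_num)).trans
          (mul_le_mul_of_nonneg_right hundred_le (by positivity))
    _ = Real.exp (5 + (3 / 200 * k + (k / 20 * Real.log 2521 + 3 * k))) := by
        rw [← Real.exp_add, ← Real.exp_add]
    _ ≤ 2521 ^ k := by
        rw [e3]
        apply Real.exp_le_exp.2
        nlinarith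

end Ex1P

open Ex1P in
/-- **Existence of GP1.** -/
theorem ex1 : Ex1 := by
  intro D₀ d E _
  refine ⟨1, one_pos, 2, ?_⟩
  intro N P Om _ _ _ fr hk hs
  set m : ℕ := 20 * Fintype.card P / (D₀ + 20) ^ 2 with hm
  set C : Finset (Lin N → F) := Finset.univ.filter fun c => c ≠ 0 ∧ sz c ≤ m with hC
  have hCle : (C.card : ℝ) ≤ ((Finset.univ.filter fun c : Lin N → F => sz c ≤ m).card : ℝ) := by
    refine Nat.cast_le.2 (Finset.card_le_card fun c hc => ?_)
    exact Finset.mem_filter.2 ⟨Finset.mem_univ _, (Finset.mem_filter.1 hc).2.2⟩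
  have hcount : 100 * (C.card : ℝ) ≤ 2521 ^ Fintype.card P := by
    refine (mul_le_mul_of_nonneg_left hCle (by norm_num)).trans ?_
    exact num D₀ (Fintype.card P) N hk hs.hN' _ fun x hx0 hx1 => card_small m x hx0 hx1
  have hcount' : 100 * C.card ≤ 2521 ^ Fintype.card P := by exact_mod_cast hcount
  -- the witness
  have hwit : ∀ p : {p : Dz fr P | ¬ ∀ κ : ℕ, κ ≤ m → Ev1 p.1 κ},
      ∃ c ∈ C, ∀ j, comb p.1.1 c j = 0 := by
    rintro ⟨p, hp⟩
    have hp0 : ¬ ∀ κ : ℕ, κ ≤ m → Ev1 p.1 κ := hp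
    simp only [not_forall] at hp0
    obtain ⟨κ, hκ, hp⟩ := hp0
    unfold Ev1 at hp
    simp only [not_forall] at hp
    obtain ⟨S, hS, hp⟩ := hp
    rw [Fintype.not_linearIndependent_iff] at hp
    obtain ⟨g, hg, u0, hu0⟩ := hp
    refine ⟨fun u => if h : u ∈ S then g ⟨u, h⟩ else 0, ?_, ?_⟩
    · rw [hC, Finset.mem_filter]
      refine ⟨Finset.mem_univ _, ?_, ?_⟩
      · intro h
        apply hu0
        have := congrFun h u0.1
        simpa using this
      · refine le_trans (Finset.card_le_card fun u hu => ?_) (hS.trans hκ)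
        by_contra hn
        have := (Finset.mem_filter.1 hu).2
        exact this (dif_neg hn)
    · intro j
      unfold comb
      have h1 := congrFun hg j
      rw [Finset.sum_apply] at h1
      simp only [Pi.smul_apply, smul_eq_mul, Pi.zero_apply] at h1
      rw [← Finset.sum_subset (Finset.subset_univ S)]
      · rw [← Finset.sum_coe_sort S]
        refine (Finset.sum_congr rfl fun u _ => ?_).trans h1
        show (if h : u.1 ∈ S then g ⟨u.1, h⟩ else 0) * _ = _
        rw [dif_pos u.2]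
      · intro u _ hu
        show (if h : u ∈ S then g ⟨u, h⟩ else 0) * _ = _
        rw [dif_neg hu, zero_mul]
  choose c hcC hc using hwit
  have hcard : Nat.card {p : Dz fr P | ¬ ∀ κ : ℕ, κ ≤ m → Ev1 p.1 κ}
      ≤ ∑ c : C, Nat.card {p : Dz fr P // ∀ j, comb p.1 c.1 j = 0} := by
    rw [← Nat.card_sigma]
    refine Nat.card_le_card_of_injective
      (fun p => (⟨⟨c p, hcC p⟩, ⟨p.1, hc p⟩⟩ :
        Σ c : C, {p : Dz fr P // ∀ j, comb p.1 c.1 j = 0})) ?_
    intro p q h
    have h2 : ∀ x y : (Σ c : C, {p : Dz fr P // ∀ j, comb p.1 c.1 j = 0}), x = y →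
      x.2.1 = y.2.1 := by
      rintro x _ rfl; rfl
    exact Subtype.ext (h2 _ _ h)
  have hsum : (∑ c : C, Nat.card {p : Dz fr P // ∀ j, comb p.1 c.1 j = 0}) * 2521 ^ Fintype.card P
      ≤ C.card * Nat.card (Dz fr P) := by
    rw [Finset.sum_mul]
    calc _ ≤ ∑ _c : C, Nat.card (Dz fr P) := by
          refine Finset.sum_le_sum fun c _ => ?_
          rw [mul_comm]
          exact card_fiber fr c.1 (Finset.mem_filter.1 c.2).2.1
      _ = C.card * Nat.card (Dz fr P) := by
          rw [Finset.sum_const, Finset.card_univ, Fintype.card_coe, smul_eq_mul]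
  show 100 * Nat.card {p : Dz fr P | ¬ ∀ κ : ℕ, κ ≤ m → Ev1 p.1 κ} ≤ Nat.card (Dz fr P)
  have hpos : 0 < 2521 ^ Fintype.card P := by positivity
  refine Nat.le_of_mul_le_mul_right ?_ hpos
  calc 100 * Nat.card {p : Dz fr P | ¬ ∀ κ : ℕ, κ ≤ m → Ev1 p.1 κ} * 2521 ^ Fintype.card P
      ≤ 100 * ((∑ c : C, Nat.card {p : Dz fr P // ∀ j, comb p.1 c.1 j = 0})
          * 2521 ^ Fintype.card P) := by
        rw [mul_assoc]
        exact Nat.mul_le_mul_left _ (Nat.mul_le_mul_right _ hcard)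
    _ ≤ 100 * (C.card * Nat.card (Dz fr P)) := Nat.mul_le_mul_left _ hsum
    _ = (100 * C.card) * Nat.card (Dz fr P) := by ring
    _ ≤ 2521 ^ Fintype.card P * Nat.card (Dz fr P) := Nat.mul_le_mul_right _ hcount'
    _ = Nat.card (Dz fr P) * 2521 ^ Fintype.card P := mul_comm _ _

end Vale.Agent.P060.HW
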