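import Vale.Agent.P060.HW.Good
import Vale.Agent.P060.HW.BiasedE

/-!
# Design H3: existence of GP5 (no many independent biased vectors)
-/

open scoped Classical

noncomputable section

set_option linter.all false

namespace Vale.Agent.P060.HW

namespace ExBm

open Module

variable {N d : ℕ} {E P Om : Type} [Fintype E] [Fintype P] [Fintype Om] [NeZero N]

/-- The random coordinates. -/
def Rnd : Co E P Om → Prop := fun i => ∀ t : E, i ≠ Sum.inl (Sum.inl t)

/-- The fixed parts of the line vectors. -/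
def fixE (fr : Frame N d E Om) (v : Lin N) : Co E P Om → F
  | Sum.inl (Sum.inl t) => if v.1 = 1 then fr.γ v.2 t else 0
  | Sum.inl (Sum.inr _) => 0
  | Sum.inr _ => 0

lemma ext_eq {fr : Frame N d E Om} {p : Lin N → Co E P Om → F} (h : Ext fr p) (v : Lin N) :
    p v = fixE fr v + extR Rnd (resR Rnd (p v)) := by
  funext i
  rcases i with (t | i) | w
  · have h1 : ¬ (Rnd (Sum.inl (Sum.inl t) : Co E P Om)) := fun h' => h' t rfl
    rw [Pi.add_apply, extR, dif_neg h1, add_zero]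
    exact h v.1 v.2 t
  · have h1 : (Rnd (Sum.inl (Sum.inr i) : Co E P Om)) := by
      intro t ht
      simp at ht
    rw [Pi.add_apply, extR, dif_pos h1]
    simp [fixE, resR]
  · have h1 : (Rnd (Sum.inr w : Co E P Om)) := by
      intro t ht
      simp at ht
    rw [Pi.add_apply, extR, dif_pos h1]
    simp [fixE, resR]

/-- Designs are the same thing as systems of random parts. -/
def dzEquiv (fr : Frame N d E Om) : Dz fr P ≃ (Lin N → {i : Co E P Om // Rnd i} → F) where
  toFun p := fun v => resR Rnd (p.1 v)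
  invFun q := ⟨fun v => fixE fr v + extR Rnd (q v), by
    intro s i t
    have h1 : ¬ (Rnd (Sum.inl (Sum.inl t) : Co E P Om)) := fun h' => h' t rfl
    show (fixE fr (s, i) + extR Rnd (q (s, i)) : Co E P Om → F) _ = _
    rw [Pi.add_apply, extR, dif_neg h1, add_zero]
    rfl⟩
  left_inv p := by
    apply Subtype.ext
    funext v
    exact (ext_eq p.2 v).symm
  right_inv q := by
    funext v i
    have h1 := i.2
    show (fixE fr v + extR Rnd (q v) : Co E P Om → F) i.1 = q v i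
    rw [Pi.add_apply, extR, dif_pos h1]
    rcases i with ⟨(t | i) | w, hi⟩
    · exact absurd rfl (hi t)
    · simp [fixE]
    · simp [fixE]

lemma gvec_eq {fr : Frame N d E Om} {p : Lin N → Co E P Om → F} (h : Ext fr p) (b : Ty N d) :
    gvec Rnd lins (fixE fr) (fun v => resR Rnd (p v)) b = gv p b := by
  unfold gvec gv lins
  rw [Finset.sum_image]
  · exact Finset.sum_congr rfl fun s _ => (ext_eq h _).symm
  · intro s _ s' _ hs
    exact congrArg Prod.fst hs

lemma mem_lins {b : Ty N d} {v : Lin N} : v ∈ lins b ↔ v.2 = ln b v.1 := by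
  unfold lins
  constructor
  · intro h
    obtain ⟨s, -, rfl⟩ := Finset.mem_image.1 h
    rfl
  · intro h
    refine Finset.mem_image.2 ⟨v.1, Finset.mem_univ _, ?_⟩
    exact Prod.ext rfl h.symm

lemma fresh_of_fam (fr : Frame N d E Om) {m : ℕ} (fam : Fin m → Ty N d × Ty N d)
    (h1 : ∀ s, (fam s).1 ≠ (fam s).2)
    (h2 : ∀ s s', s ≠ s' → Disjoint (lins2 (fam s)) (lins2 (fam s'))) :
    FreshT (lins : Ty N d → Finset (Lin N)) (fun s => (fam s).1) (fun s => (fam s).2) := by
  have h3 : ∀ s, ∃ σ : Fin 3, ln (fam s).1 σ ≠ ln (fam s).2 σ := by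
    intro s
    by_contra hno
    push Not at hno
    exact h1 s (fr.share_two _ _ 0 1 (by decide) (hno 0) (hno 1))
  choose σ hσ using h3
  have hl1 : ∀ s, lin (fam s).1 (σ s) ∈ lins (fam s).1 := fun s => mem_lins.2 rfl
  have hl2 : ∀ s, lin (fam s).2 (σ s) ∈ lins (fam s).2 := fun s => mem_lins.2 rfl
  have hd : ∀ s t v, v ∈ lins2 (fam t) → v ∈ lins2 (fam s) → t = s := by
    intro s t v hv hv'
    by_contra hne
    exact (Finset.disjoint_left.1 (h2 t s hne)) hv hv'
  refine ⟨fun s => lin (fam s).1 (σ s), fun s => lin (fam s).2 (σ s), hl1, hl2, ?_, ?_, ?_, ?_⟩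
  · intro s t h
    exact hd s t _ (Finset.mem_union_left _ (hl1 t)) (Finset.mem_union_left _ h)
  · intro s t h
    have := hd s t _ (Finset.mem_union_left _ (hl1 t)) (Finset.mem_union_right _ h)
    subst this
    exact hσ t (mem_lins.1 h)
  · intro s t h
    exact hd s t _ (Finset.mem_union_right _ (hl2 t)) (Finset.mem_union_right _ h)
  · intro s t h
    have := hd s t _ (Finset.mem_union_right _ (hl2 t)) (Finset.mem_union_left _ h)
    subst this
    exact hσ t (mem_lins.1 h).symm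

lemma card_fam_le {m : ℕ} (fam : Fin m → Ty N d × Ty N d)
    (h2 : ∀ s s', s ≠ s' → Disjoint (lins2 (fam s)) (lins2 (fam s'))) : m ≤ N := by
  have hinj : Function.Injective (fun s => ln (fam s).1 0) := by
    intro s s' h
    by_contra hne
    refine (Finset.disjoint_left.1 (h2 s s' hne)) (a := ((0 : Fin 3), ln (fam s).1 0)) ?_ ?_
    · exact Finset.mem_union_left _ (mem_lins.2 rfl)
    · exact Finset.mem_union_left _ (mem_lins.2 h)
  have := Fintype.card_le_of_injective _ hinj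
  simpa [ZMod.card] using this

/-- Two vectors as one vector on the doubled coordinates. -/
def dbl : (Fin 2 → Co E P Om → F) →ₗ[F] (Co E P Om ⊕ Co E P Om → F) where
  toFun y := Sum.elim (y 0) (y 1)
  map_add' y y' := by
    funext i
    cases i <;> rfl
  map_smul' c y := by
    funext i
    cases i <;> rfl

lemma dbl_inj : Function.Injective (dbl : (Fin 2 → Co E P Om → F) →ₗ[F] _) := by
  intro y y' h
  funext i j
  fin_cases i
  · exact congrFun h (Sum.inl j)
  · exact congrFun h (Sum.inr j)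

lemma card_fixed : Fintype.card {i : Co E P Om ⊕ Co E P Om // ¬ Sum.elim Rnd Rnd i} ≤
    2 * Fintype.card E := by
  have : Fintype.card (E ⊕ E) = 2 * Fintype.card E := by
    rw [Fintype.card_sum]; ring
  rw [← this]
  refine Fintype.card_le_of_surjective (fun x : E ⊕ E => match x with
    | Sum.inl t => ⟨Sum.inl (Sum.inl (Sum.inl t)), fun h => h t rfl⟩
    | Sum.inr t => ⟨Sum.inr (Sum.inl (Sum.inl t)), fun h => h t rfl⟩) ?_
  rintro ⟨i | i, hi⟩
  · have : ∃ t : E, i = Sum.inl (Sum.inl t) := by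
      by_contra hno
      push Not at hno
      exact hi hno
    obtain ⟨t, rfl⟩ := this
    exact ⟨Sum.inl t, rfl⟩
  · have : ∃ t : E, i = Sum.inl (Sum.inl t) := by
      by_contra hno
      push Not at hno
      exact hi hno
    obtain ⟨t, rfl⟩ := this
    exact ⟨Sum.inr t, rfl⟩

/-- The systems of random parts which are bad for `m`. -/
def BadM (fr : Frame N d E Om) (P : Type) [Fintype P] (ψ : AddChar F ℂ) (n m : ℕ) (η : ℝ) :
    Set (Lin N → {i : Co E P Om // Rnd i} → F) :=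
  {q | ∃ b b' : Fin m → Ty N d, FreshT lins b b' ∧
    ∃ z : Fin n → Co E P Om ⊕ Co E P Om → F,
      LinearIndependent F (fun l => resR (Sum.elim Rnd Rnd) (z l)) ∧
      ∀ l, BiasedAt ψ η (testT Rnd lins (fixE fr) q b b') (z l)}

lemma mem_badM {fr : Frame N d E Om} {p : Lin N → Co E P Om → F} (h : Ext fr p)
    {ψ : AddChar F ℂ} {m n : ℕ} {η : ℝ} (hB : ¬ EvB ψ p d m (n + 2 * Fintype.card E) η) :
    m ≤ N ∧ (fun v => resR Rnd (p v)) ∈ BadM fr P ψ n m η := by
  unfold EvB at hB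
  push Not at hB
  obtain ⟨fam, h1, h2, y, hy, hb⟩ := hB
  refine ⟨card_fam_le fam h2, fun s => (fam s).1, fun s => (fam s).2, fresh_of_fam fr fam h1 h2, ?_⟩
  have hz : LinearIndependent F (fun l => dbl (y l)) :=
    hy.map' dbl (LinearMap.ker_eq_bot.2 dbl_inj)
  obtain ⟨g, hg⟩ := exists_indep_resR (Sum.elim Rnd Rnd) card_fixed hz
  refine ⟨fun l => dbl (y (g l)), hg, fun l => ?_⟩
  unfold BiasedAt
  refine (hb (g l)).trans (le_of_eq ?_)
  refine Finset.sum_congr rfl fun s _ => ?_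
  congr 2
  unfold testT
  rw [gvec_eq h, gvec_eq h]
  show _ = Sum.elim (y (g l) 0) (y (g l) 1) ⬝ᵥ _
  rw [sumElim_dotProduct_sumElim, Fin.sum_univ_two]
  rfl

lemma card_badM_le (fr : Frame N d E Om) {ψ : AddChar F ℂ} (hψ : ψ ≠ 0) (n m : ℕ) {η : ℝ}
    (hη : 0 ≤ η) :
    (Nat.card (BadM fr P ψ n m η) : ℝ) ≤
      (Fintype.card (Lin N → {i : Co E P Om // Rnd i} → F) : ℝ) *
        (((N * d : ℕ) : ℝ) ^ (2 * m) *
        (2521 : ℝ) ^ (2 * Fintype.card (Co E P Om) * n) * Real.exp (-(η ^ 2 * m * n / 2))) := by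
  have key := card_types_le (K := F) (κ := Co E P Om) Rnd (ι := Lin N) (T := Ty N d) hψ
    (lins : Ty N d → Finset (Lin N)) (fixE fr) n m hη
  have h1 : Fintype.card (Ty N d) = N * d := by
    simp [Ty, ZMod.card]
  have h2 : Fintype.card F = 2521 := ZMod.card 2521
  rw [h1, h2] at key
  refine le_trans (le_of_eq ?_) key
  refine congrArg (Nat.cast (R := ℝ)) ?_
  rw [← Fintype.card_subtype, ← Nat.card_eq_fintype_card]
  rfl

/-- The numeric estimate. -/
lemma numeric {k N d D₀ n m κ : ℕ} {c η : ℝ} (hc : 0 < c) (hη : 0 < η)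
    (hD1 : 48 * Real.log 2521 / (c * η ^ 2) ≤ D₀) (hD2 : 1 / c ≤ D₀) (hD3 : 1 ≤ D₀)
    (hN : D₀ * k ≤ N) (hN' : N ≤ 2 * D₀ * k) (hk1 : 2 * D₀ * d ≤ k) (hk2 : 300 * D₀ ≤ k)
    (hk3 : 1 ≤ k) (hκ : κ ≤ 3 * k) (hn : 16 * Real.log k / η ^ 2 ≤ n) (hm : c * N ≤ m) :
    ((N * d : ℕ) : ℝ) ^ (2 * m) * (2521 : ℝ) ^ (2 * κ * n) * Real.exp (-(η ^ 2 * m * n / 2)) ≤
      1 / (100 * (N + 1)) := by
  have hη2 : 0 < η ^ 2 := by positivity
  set L := Real.log 2521 with hL
  have hL0 : 0 < L := Real.log_pos (by norm_num)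
  have hkr : (1 : ℝ) ≤ k := by exact_mod_cast hk3
  have hk0 : (0 : ℝ) < k := by linarith
  set lk := Real.log k with hlk
  have hlk0 : 0 ≤ lk := Real.log_nonneg hkr
  have hek : Real.exp lk = k := Real.exp_log hk0
  have heL : Real.exp L = 2521 := Real.exp_log (by norm_num)
  -- first factor
  have e1 : ((N * d : ℕ) : ℝ) ^ (2 * m) ≤ Real.exp (4 * m * lk) := by
    have h1 : N * d ≤ k * k := by
      calc N * d ≤ 2 * D₀ * k * d := Nat.mul_le_mul_right _ hN'
        _ = (2 * D₀ * d) * k := by ring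
        _ ≤ k * k := Nat.mul_le_mul_right _ hk1
    have h2 : ((N * d : ℕ) : ℝ) ≤ (k : ℝ) ^ 2 := by
      have : ((N * d : ℕ) : ℝ) ≤ ((k * k : ℕ) : ℝ) := by exact_mod_cast h1
      refine this.trans (le_of_eq ?_)
      push_cast; ring
    have h3 : ((k : ℝ) ^ 2) ^ (2 * m) = Real.exp (4 * m * lk) := by
      rw [← hek, ← Real.exp_nat_mul, ← Real.exp_nat_mul]
      congr 1
      push_cast; ring
    rw [← h3]
    exact pow_le_pow_left₀ (by positivity) h2 _
  have e2 : (2521 : ℝ) ^ (2 * κ * n) ≤ Real.exp (6 * k * n * L) := by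
    have h1 : 2 * κ * n ≤ 6 * k * n := by
      have : 2 * κ ≤ 6 * k := by omega
      exact Nat.mul_le_mul_right _ this
    have h3 : (2521 : ℝ) ^ (6 * k * n) = Real.exp (6 * k * n * L) := by
      rw [← heL, ← Real.exp_nat_mul]
      congr 1
      push_cast; ring
    rw [← h3]
    exact pow_le_pow_right₀ (by norm_num) h1
  have hnn : 0 ≤ (n : ℝ) := by positivity
  have hmm : 0 ≤ (m : ℝ) := by positivity
  have hNr : (D₀ : ℝ) * k ≤ N := by exact_mod_cast hN
  have hm2 : c * (D₀ * k) ≤ m := (mul_le_mul_of_nonneg_left hNr hc.le).trans hm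
  have hm3 : (k : ℝ) ≤ m := by
    have h1 : 1 ≤ c * D₀ := by
      rw [div_le_iff₀ hc] at hD2
      linarith
    nlinarith
  have hm4 : 48 * L * k ≤ η ^ 2 * m := by
    have h1 : 48 * L ≤ η ^ 2 * (c * D₀) := by
      rw [div_le_iff₀ (by positivity)] at hD1
      linarith
    calc 48 * L * k ≤ η ^ 2 * (c * D₀) * k := mul_le_mul_of_nonneg_right h1 hk0.le
      _ = η ^ 2 * (c * (D₀ * k)) := by ring
      _ ≤ η ^ 2 * m := mul_le_mul_of_nonneg_left hm2 hη2.le
  have hn2 : 16 * lk ≤ η ^ 2 * n := by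
    rw [div_le_iff₀ hη2] at hn
    linarith
  have hA : 4 * m * lk ≤ η ^ 2 * m * n / 4 := by
    have := mul_le_mul_of_nonneg_left hn2 hmm
    linarith
  have hB : 6 * k * n * L ≤ η ^ 2 * m * n / 8 := by
    have := mul_le_mul_of_nonneg_right hm4 hnn
    linarith
  have hC : 2 * lk ≤ η ^ 2 * m * n / 8 := by
    have h1 := mul_le_mul_of_nonneg_left hn2 hmm
    have h2 : lk * 1 ≤ lk * m := mul_le_mul_of_nonneg_left (hkr.trans hm3) hlk0
    linarith
  have e3 : Real.exp (4 * m * lk) * Real.exp (6 * k * n * L) * Real.exp (-(η ^ 2 * m * n / 2)) ≤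
      Real.exp (-(2 * lk)) := by
    rw [← Real.exp_add, ← Real.exp_add]
    exact Real.exp_le_exp.2 (by linarith)
  have e4 : Real.exp (-(2 * lk)) ≤ 1 / (100 * (N + 1)) := by
    have h1 : Real.exp (2 * lk) = (k : ℝ) ^ 2 := by
      rw [← hek, ← Real.exp_nat_mul]
      norm_num
    rw [Real.exp_neg, h1, ← one_div]
    refine one_div_le_one_div_of_le (by positivity) ?_
    have h2 : 100 * (N + 1) ≤ k ^ 2 := by
      have h3 : k ≤ D₀ * k := Nat.le_mul_of_pos_left _ hD3
      calc 100 * (N + 1) ≤ 100 * (2 * D₀ * k + D₀ * k) := by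
            have := hk3.trans h3
            omega
        _ = (300 * D₀) * k := by ring
        _ ≤ k * k := Nat.mul_le_mul_right _ hk2
        _ = k ^ 2 := by ring
    exact_mod_cast h2
  refine le_trans ?_ (e3.trans e4)
  gcongr

end ExBm

open ExBm in
/-- EXISTENCE of GP5. -/
theorem exB : ExB := by
  intro ψ hψ c η hc hη
  refine ⟨⌈48 * Real.log 2521 / (c * η ^ 2)⌉₊ + ⌈1 / c⌉₊ + 1, fun D₀ hD₀ d E _ => ?_⟩
  refine ⟨16 / η ^ 2 + 1, 1, one_pos,
    ⌈Real.exp (2 * Fintype.card E)⌉₊ + Fintype.card E + 2 * D₀ * d + 300 * D₀ + 1, ?_⟩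
  intro N P Om _ _ _ fr hk hS
  have hη2 : 0 < η ^ 2 := by positivity
  set k := Fintype.card P with hkdef
  have hk3 : 1 ≤ k := by omega
  have hkr : (1 : ℝ) ≤ k := by exact_mod_cast hk3
  have hlog : 2 * (Fintype.card E : ℝ) ≤ Real.log k := by
    rw [Real.le_log_iff_exp_le (by linarith)]
    refine (Nat.le_ceil _).trans ?_
    exact_mod_cast (by omega : ⌈Real.exp (2 * Fintype.card E)⌉₊ ≤ k)
  set n₀ := ⌈(16 / η ^ 2 + 1) * Real.log k⌉₊ with hn₀
  have hn₀1 : (16 / η ^ 2 + 1) * Real.log k ≤ n₀ := Nat.le_ceil _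
  have hlog0 : 0 ≤ Real.log k := Real.log_nonneg hkr
  have hq0 : 0 ≤ 16 / η ^ 2 * Real.log k := by positivity
  have hn₀2 : 2 * Fintype.card E ≤ n₀ := by
    have : (2 * (Fintype.card E : ℝ)) ≤ n₀ := by
      rw [add_mul] at hn₀1
      linarith
    exact_mod_cast this
  obtain ⟨n, hn⟩ : ∃ n, n₀ = n + 2 * Fintype.card E := ⟨n₀ - 2 * Fintype.card E, by omega⟩
  have hnr : 16 * Real.log k / η ^ 2 ≤ n := by
    have h1 : (n₀ : ℝ) = n + 2 * Fintype.card E := by
      rw [hn]; push_cast; ring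
    rw [h1, add_mul] at hn₀1
    have h2 : 16 / η ^ 2 * Real.log k = 16 * Real.log k / η ^ 2 := by ring
    linarith
  have hκ : Fintype.card (Co E P Om) ≤ 3 * k := by
    have h1 : Fintype.card Om ≤ k := by
      have := hS.hOm
      rw [one_mul] at this
      exact_mod_cast this
    have h2 : Fintype.card E ≤ k := by omega
    simp only [Fintype.card_sum]
    omega
  have hD3 : 1 ≤ D₀ := by omega
  have hD1 : 48 * Real.log 2521 / (c * η ^ 2) ≤ D₀ :=
    (Nat.le_ceil _).trans (by exact_mod_cast (by omega :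
      ⌈48 * Real.log 2521 / (c * η ^ 2)⌉₊ ≤ D₀))
  have hD2 : 1 / c ≤ D₀ :=
    (Nat.le_ceil _).trans (by exact_mod_cast (by omega : ⌈1 / c⌉₊ ≤ D₀))
  -- the covering
  set S : Finset ℕ := (Finset.range (N + 1)).filter (fun m => c * N ≤ m) with hSdef
  set BM : ℕ → Finset (Lin N → {i : Co E P Om // Rnd i} → F) :=
    fun m => Finset.univ.filter (· ∈ BadM fr P ψ n m η) with hBM
  set A : Set (Dz fr P) := {p : Dz fr P | ¬ ∀ m : ℕ, c * N ≤ m → EvB ψ p.1 d m n₀ η} with hA
  have h1 : Nat.card A ≤ ∑ m ∈ S, (BM m).card := by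
    have h2 : Nat.card A = (Finset.univ.filter (· ∈ A)).card := by
      rw [Nat.card_eq_fintype_card, Fintype.card_subtype]
    rw [h2, ← Finset.card_image_of_injective _ (dzEquiv fr).injective]
    refine (Finset.card_le_card ?_).trans Finset.card_biUnion_le
    intro q hq
    obtain ⟨p, hp, rfl⟩ := Finset.mem_image.1 hq
    have hp' := (Finset.mem_filter.1 hp).2
    rw [hA, Set.mem_setOf_eq] at hp'
    push Not at hp'
    obtain ⟨m, hm, hB⟩ := hp'
    rw [hn] at hB
    obtain ⟨h3, h4⟩ := mem_badM p.2 hB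
    refine Finset.mem_biUnion.2 ⟨m, ?_, ?_⟩
    · exact Finset.mem_filter.2 ⟨Finset.mem_range.2 (by omega), hm⟩
    · exact Finset.mem_filter.2 ⟨Finset.mem_univ _, h4⟩
  have h2 : Nat.card (Dz fr P) = Fintype.card (Lin N → {i : Co E P Om // Rnd i} → F) := by
    rw [Nat.card_congr (dzEquiv fr), Nat.card_eq_fintype_card]
  have h3 : ∀ m ∈ S, ((BM m).card : ℝ) ≤
      (Fintype.card (Lin N → {i : Co E P Om // Rnd i} → F) : ℝ) * (1 / (100 * (N + 1))) := by
    intro m hm
    have hm' := (Finset.mem_filter.1 hm).2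
    have h4 := card_badM_le (P := P) fr hψ n m hη.le
    have h5 : (Nat.card (BadM fr P ψ n m η) : ℝ) = ((BM m).card : ℝ) := by
      rw [Nat.card_eq_fintype_card, Fintype.card_subtype]
    rw [h5] at h4
    refine h4.trans (mul_le_mul_of_nonneg_left ?_ (by positivity))
    exact numeric hc hη hD1 hD2 hD3 hS.hN hS.hN' (by omega) (by omega) hk3 hκ hnr hm'
  have h4 : (∑ m ∈ S, ((BM m).card : ℝ)) ≤
      (Fintype.card (Lin N → {i : Co E P Om // Rnd i} → F) : ℝ) / 100 := by
    refine (Finset.sum_le_sum h3).trans ?_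
    rw [Finset.sum_const, nsmul_eq_mul]
    have h5 : (S.card : ℝ) ≤ N + 1 := by
      have := Finset.card_filter_le (Finset.range (N + 1)) (fun m : ℕ => c * N ≤ m)
      rw [Finset.card_range] at this
      exact_mod_cast this
    refine (mul_le_mul_of_nonneg_right h5 (by positivity)).trans (le_of_eq ?_)
    have : (N : ℝ) + 1 ≠ 0 := by positivity
    field_simp
  unfold Rare
  rw [h2]
  have h5 : (Nat.card A : ℝ) ≤ ∑ m ∈ S, ((BM m).card : ℝ) := by exact_mod_cast h1
  have h6 : (100 : ℝ) * Nat.card A ≤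
      (Fintype.card (Lin N → {i : Co E P Om // Rnd i} → F) : ℝ) := by linarith
  exact_mod_cast h6

end Vale.Agent.P060.HW
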