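import Vale.Agent.P060.HW.Field2

/-! The cut inequality for uniform points of `Y ^ ι`, and the solvability of the
4-cycle system used in the overlap step. -/

namespace Vale.Agent.P060.HW

open Finset

section General

variable {ι α : Type*} [Fintype ι] [DecidableEq ι] [Fintype α]

/-- Resampling one coordinate, as an equivalence. -/
def resampleY (s : ι) : (ι → α) × α ≃ (ι → α) × α where
  toFun p := (Function.update p.1 s p.2, p.1 s)
  invFun p := (Function.update p.1 s p.2, p.1 s)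
  left_inv p := by
    obtain ⟨γ, u⟩ := p
    simp
  right_inv p := by
    obtain ⟨γ, u⟩ := p
    simp

theorem sum_update (f : (ι → α) → ℕ) (s : ι) :
    ∑ γ : ι → α, ∑ u : α, f (Function.update γ s u) = Fintype.card α * ∑ γ : ι → α, f γ := by
  rw [← Fintype.sum_prod_type' fun (γ : ι → α) (u : α) => f (Function.update γ s u)]
  have h1 : ∑ p : (ι → α) × α, f (Function.update p.1 s p.2) =
      ∑ p : (ι → α) × α, f p.1 :=
    Fintype.sum_equiv (resampleY s) _ _ fun p => rfl
  rw [h1, Fintype.sum_prod_type]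
  simp [Finset.mul_sum]

theorem sum_update₂ (f : (ι → α) → ℕ) (s t : ι) :
    ∑ γ : ι → α, ∑ u : α, ∑ w : α, f (Function.update (Function.update γ s u) t w) =
      Fintype.card α * (Fintype.card α * ∑ γ : ι → α, f γ) := by
  rw [sum_update (fun γ => ∑ w : α, f (Function.update γ t w)) s, sum_update f t]

end General

/-- The subgroup `Y` as a type. -/
abbrev YT : Type := {x : F // x ∈ Y}

theorem card_YT : Fintype.card YT = 140 := by
  rw [Fintype.card_coe, card_Y]

variable {ι : Type*} [Fintype ι] [DecidableEq ι]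

theorem sum_upd_eq (ζ : ι → F) (γ : ι → YT) {s t : ι} (hst : s ≠ t) (u w : YT) :
    ∑ i, ζ i * ((Function.update (Function.update γ s u) t w i : YT) : F) =
      ζ s * u + (ζ t * w + ∑ i ∈ (univ.erase s).erase t, ζ i * (γ i : F)) := by
  rw [← Finset.add_sum_erase univ _ (mem_univ s),
    ← Finset.add_sum_erase (univ.erase s) _ (mem_erase.mpr ⟨hst.symm, mem_univ t⟩)]
  rw [Function.update_of_ne hst, Function.update_self, Function.update_self]
  congr 2
  refine Finset.sum_congr rfl fun i hi => ?_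
  rw [mem_erase, mem_erase] at hi
  rw [Function.update_of_ne hi.1, Function.update_of_ne hi.2.1]

theorem card_filter_YT_le {α β : F} (hα : α ≠ 0) (hβ : β ≠ 0) :
    (univ.filter fun u : YT => α * (u : F) + β ∈ Y).card ≤ 13 := by
  refine le_trans ?_ (card_cyc_le hα hβ)
  refine Finset.card_le_card_of_injOn (fun u : YT => (u : F)) ?_ ?_
  · intro u hu
    rw [Finset.mem_coe, mem_filter] at hu
    rw [Finset.mem_coe, mem_filter]
    exact ⟨u.2, hu.2⟩
  · intro u _ v _ h
    exact Subtype.ext h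

theorem card_zero_le {α : F} (hα : α ≠ 0) (β : F) :
    (univ.filter fun u : YT => α * (u : F) + β = 0).card ≤ 1 := by
  rw [Finset.card_le_one]
  intro u hu v hv
  rw [mem_filter] at hu hv
  have h1 : α * (u : F) = α * (v : F) := by
    have h2 := hu.2
    have h3 := hv.2
    rw [← h3] at h2
    exact add_right_cancel h2
  exact Subtype.ext (mul_left_cancel₀ hα h1)

theorem two_coord_le {a b : F} (ha : a ≠ 0) (hb : b ≠ 0) (c : F) :
    ∑ u : YT, ∑ w : YT, (if a * (u : F) + (b * (w : F) + c) ∈ Y then 1 else 0) ≤ 1960 := by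
  rw [Finset.sum_comm]
  have h1 : ∀ w : YT, ∑ u : YT, (if a * (u : F) + (b * (w : F) + c) ∈ Y then 1 else 0) ≤
      13 + 140 * (if b * (w : F) + c = 0 then 1 else 0) := by
    intro w
    rw [← Finset.card_filter]
    split_ifs with h
    · refine le_trans (Finset.card_le_univ _) ?_
      rw [card_YT]
      norm_num
    · exact le_trans (card_filter_YT_le ha h) (by norm_num)
  refine le_trans (Finset.sum_le_sum fun w _ => h1 w) ?_
  rw [Finset.sum_add_distrib, ← Finset.mul_sum, ← Finset.card_filter]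
  have h2 := card_zero_le hb c
  rw [Finset.sum_const, Finset.card_univ, card_YT]
  have h3 : 140 * (univ.filter fun u : YT => b * (u : F) + c = 0).card ≤ 140 * 1 :=
    Nat.mul_le_mul_left _ h2
  simp only [smul_eq_mul]
  omega

/-- CUT INEQUALITY: if `ζ` has two nonzero coordinates, at most one tenth of the points
of `Y ^ ι` satisfy `ζ ⬝ γ + c ∈ Y`. -/
theorem cut_le (ζ : ι → F) {s t : ι} (hst : s ≠ t) (hs : ζ s ≠ 0) (ht : ζ t ≠ 0) (c : F) :
    10 * (univ.filter fun γ : ι → YT => ∑ i, ζ i * (γ i : F) + c ∈ Y).card ≤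
      140 ^ Fintype.card ι := by
  classical
  have h1 := sum_update₂ (fun γ : ι → YT => if ∑ i, ζ i * (γ i : F) + c ∈ Y then 1 else 0) s t
  rw [← Finset.card_filter, card_YT] at h1
  have h2 : ∑ γ : ι → YT, ∑ u : YT, ∑ w : YT,
      (if ∑ i, ζ i * ((Function.update (Function.update γ s u) t w i : YT) : F) + c ∈ Y
        then 1 else 0) ≤ ∑ _γ : ι → YT, 1960 := by
    refine Finset.sum_le_sum fun γ _ => ?_
    refine le_trans (le_of_eq ?_) (two_coord_le hs ht
      ((∑ i ∈ (univ.erase s).erase t, ζ i * (γ i : F)) + c))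
    refine Finset.sum_congr rfl fun u _ => Finset.sum_congr rfl fun w _ => ?_
    rw [sum_upd_eq ζ γ hst u w]
    have : ζ s * (u : F) + (ζ t * (w : F) + ∑ i ∈ (univ.erase s).erase t, ζ i * (γ i : F)) + c =
        ζ s * (u : F) + (ζ t * (w : F) +
          ((∑ i ∈ (univ.erase s).erase t, ζ i * (γ i : F)) + c)) := by ring
    rw [this]
  rw [h1, Finset.sum_const, Finset.card_univ, Fintype.card_fun, card_YT, smul_eq_mul] at h2
  have h3 : 140 * (140 * (univ.filter fun γ : ι → YT => ∑ i, ζ i * (γ i : F) + c ∈ Y).card) =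
      1960 * (10 * (univ.filter fun γ : ι → YT => ∑ i, ζ i * (γ i : F) + c ∈ Y).card) := by ring
  rw [h3, mul_comm _ 1960] at h2
  exact Nat.le_of_mul_le_mul_left h2 (by norm_num)

/-- A multiple of a unit vector that is not in `D` is never cut. -/
theorem single_not_mem {z : F} (hz : z ∉ Y) (u : YT) : z * (u : F) ∉ Y := by
  intro h
  rw [mul_comm] at h
  exact hz ((mul_mem_Y_iff u.2).mp h)

/-- The vector set `D = {y e_t}`. -/
def Dset (ι : Type*) [DecidableEq ι] : Set (ι → F) :=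
  {ζ | ∃ y ∈ Y, ∃ t : ι, ζ = Pi.single t y}

/-- CUT INEQUALITY, general form: a vector outside `D` is cut by at most one tenth of `Y ^ ι`. -/
theorem cut_le_of_not_mem (ζ : ι → F) (hζ : ζ ∉ Dset ι) :
    10 * (univ.filter fun γ : ι → YT => ∑ i, ζ i * (γ i : F) ∈ Y).card ≤
      140 ^ Fintype.card ι := by
  classical
  by_cases h : ∃ s t, s ≠ t ∧ ζ s ≠ 0 ∧ ζ t ≠ 0
  · obtain ⟨s, t, hst, hs, ht⟩ := h
    have := cut_le ζ hst hs ht 0
    simpa using this
  · have hempty : (univ.filter fun γ : ι → YT => ∑ i, ζ i * (γ i : F) ∈ Y) = ∅ := by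
      rw [Finset.filter_eq_empty_iff]
      intro γ _ hγ
      by_cases h0 : ∀ s, ζ s = 0
      · have : ∑ i, ζ i * (γ i : F) = 0 := Finset.sum_eq_zero fun i _ => by rw [h0 i, zero_mul]
        rw [this] at hγ
        exact zero_not_mem_Y hγ
      · push Not at h0
        obtain ⟨s, hs⟩ := h0
        have h1 : ∀ t, t ≠ s → ζ t = 0 := by
          intro t hts
          by_contra ht
          exact h ⟨t, s, hts, ht, hs⟩
        have h2 : ζ = Pi.single s (ζ s) := by
          funext t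
          by_cases hts : t = s
          · subst hts
            rw [Pi.single_eq_same]
          · rw [Pi.single_eq_of_ne hts, h1 t hts]
        have h3 : ζ s ∉ Y := fun hy => hζ ⟨ζ s, hy, s, h2⟩
        have h4 : ∑ i, ζ i * (γ i : F) = ζ s * (γ s : F) := by
          refine Finset.sum_eq_single s (fun t _ hts => ?_) (fun hs' => absurd (mem_univ s) hs')
          rw [h1 t hts, zero_mul]
        rw [h4] at hγ
        exact single_not_mem h3 (γ s) hγ
    rw [hempty]
    simp

/-- SOLVABILITY of the 4-cycle system. -/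
theorem solve4 {κ : Type*} (a a' b b' : κ → F)
    (h1 : ∀ u ∈ Y, ∀ w ∈ Y, ∃ t, a' t = u ∧ b' t = w)
    (h2 : ∀ u ∈ Y, ∀ w ∈ Y, ∃ t, a' t = u ∧ b t = w)
    (h3 : ∀ u ∈ Y, ∀ w ∈ Y, ∃ t, a t = u ∧ b' t = w)
    (h4 : ∀ u ∈ Y, ∀ w ∈ Y, ∃ t, a t = u ∧ b t = w)
    {v1 v2 v3 v4 : F} (k1 : v1 ∉ Y) (k2 : v2 ∉ Y) (k3 : v3 ∉ Y) (k4 : v4 ∉ Y) :
    ∃ t1 t2 t3 t4, a' t1 - a t3 = v1 ∧ a' t2 - a t4 = v2 ∧ b t2 - b' t1 = v3 ∧
      b t4 - b' t3 = v4 := by
  obtain ⟨x1, hx1, y1, hy1, e1⟩ := exists_add k1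
  obtain ⟨x2, hx2, y2, hy2, e2⟩ := exists_add k2
  obtain ⟨x3, hx3, y3, hy3, e3⟩ := exists_add k3
  obtain ⟨x4, hx4, y4, hy4, e4⟩ := exists_add k4
  obtain ⟨t1, p1, q1⟩ := h1 x1 hx1 (-y3) (neg_mem_Y hy3)
  obtain ⟨t2, p2, q2⟩ := h2 x2 hx2 x3 hx3
  obtain ⟨t3, p3, q3⟩ := h3 (-y1) (neg_mem_Y hy1) (-y4) (neg_mem_Y hy4)
  obtain ⟨t4, p4, q4⟩ := h4 (-y2) (neg_mem_Y hy2) x4 hx4
  refine ⟨t1, t2, t3, t4, ?_, ?_, ?_, ?_⟩
  · rw [p1, p3, sub_neg_eq_add, e1]
  · rw [p2, p4, sub_neg_eq_add, e2]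
  · rw [q2, q1, sub_neg_eq_add, e3]
  · rw [q4, q3, sub_neg_eq_add, e4]

end Vale.Agent.P060.HW
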