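import Vale.Agent.P060.HW.Good
import Vale.Agent.P060.HW.Field3

/-!
# GP6: in a random design every vector outside `D` is rarely cut
-/

open scoped Classical

noncomputable section

set_option linter.unusedSectionVars false

namespace Vale.Agent.P060.HW

namespace CutEx

open Finset

/-! ### A counting inequality -/

section moment

variable {X ι G : Type*} [Fintype X] [Fintype ι] [Fintype G] [AddCommGroup G] [DecidableEq G]

lemma sum_weight (A : Finset G) (L : ℝ) (c : G) :
    ∑ t : G, (if c + t ∈ A then L else 1) = Fintype.card G + A.card * (L - 1) := by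
  have h1 : ∀ t : G, (if c + t ∈ A then L else 1) = 1 + (if c + t ∈ A then L - 1 else 0) := by
    intro t
    split_ifs <;> ring
  rw [sum_congr rfl fun t _ => h1 t, sum_add_distrib, ← sum_filter, sum_const, sum_const,
    nsmul_eq_mul, nsmul_eq_mul, card_univ, mul_one]
  congr 2
  have h2 : (univ.filter fun t : G => c + t ∈ A).card = A.card := by
    refine card_bij (fun t _ => c + t) (fun t ht => (mem_filter.1 ht).2)
      (fun t _ t' _ h => add_left_cancel h) fun b hb => ⟨-c + b, ?_, ?_⟩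
    · rw [mem_filter, add_neg_cancel_left]
      exact ⟨mem_univ _, hb⟩
    · rw [add_neg_cancel_left]
  rw [h2]

/-- Exponential moment of the number of indices with value in `A`. -/
lemma moment (act : (ι → G) → X ≃ X) (val : X → ι → G)
    (h : ∀ τ x i, val (act τ x) i = val x i + τ i) (A : Finset G) (L : ℝ) :
    (∑ x : X, L ^ (univ.filter fun i => val x i ∈ A).card) * (Fintype.card G : ℝ) ^ Fintype.card ι =
      Fintype.card X * (Fintype.card G + A.card * (L - 1)) ^ Fintype.card ι := by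
  have h1 : ∀ τ : ι → G, ∑ x : X, L ^ (univ.filter fun i => val (act τ x) i ∈ A).card =
      ∑ x : X, L ^ (univ.filter fun i => val x i ∈ A).card := fun τ =>
    Equiv.sum_comp (act τ) fun x => L ^ (univ.filter fun i => val x i ∈ A).card
  have h2 : ∑ τ : ι → G, ∑ x : X, L ^ (univ.filter fun i => val (act τ x) i ∈ A).card =
      (∑ x : X, L ^ (univ.filter fun i => val x i ∈ A).card) *
        (Fintype.card G : ℝ) ^ Fintype.card ι := by
    rw [sum_congr rfl fun τ _ => h1 τ, sum_const, card_univ, Fintype.card_fun, nsmul_eq_mul,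
      mul_comm]
    push_cast
    rfl
  rw [← h2, sum_comm]
  have h3 : ∀ x : X, ∑ τ : ι → G, L ^ (univ.filter fun i => val (act τ x) i ∈ A).card =
      (Fintype.card G + A.card * (L - 1)) ^ Fintype.card ι := by
    intro x
    have h4 : ∀ τ : ι → G, L ^ (univ.filter fun i => val (act τ x) i ∈ A).card =
        ∏ i, (if val x i + τ i ∈ A then L else 1) := by
      intro τ
      rw [prod_ite, prod_const, prod_const_one, mul_one]
      congr 2
      ext i
      simp only [mem_filter, mem_univ, true_and, h]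
    rw [sum_congr rfl fun τ _ => h4 τ]
    have h5 := (prod_univ_sum (fun _ : ι => (univ : Finset G))
      fun i t => (if val x i + t ∈ A then L else 1)).symm
    rw [Fintype.piFinset_univ] at h5
    rw [h5, prod_congr rfl fun i _ => sum_weight A L (val x i), prod_const, card_univ]
  rw [sum_congr rfl fun x _ => h3 x, sum_const, card_univ, nsmul_eq_mul]

/-- Tail of the number of indices with value in `A`. -/
lemma tail (act : (ι → G) → X ≃ X) (val : X → ι → G)
    (h : ∀ τ x i, val (act τ x) i = val x i + τ i) (A : Finset G)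
    (hG : Fintype.card G = 2521) (hA : A.card = 140) {n : ℕ} (hn : Fintype.card ι = n) :
    ((univ.filter fun x : X => n ≤ 10 * (univ.filter fun i => val x i ∈ A).card).card
      : ℝ) ≤ Fintype.card X * (99 / 100 : ℝ) ^ n := by
  subst hn
  set L : ℝ := (11 / 10 : ℝ) ^ 10 with hL
  have hm := moment act val h A L
  set B := univ.filter fun x : X =>
    Fintype.card ι ≤ 10 * (univ.filter fun i => val x i ∈ A).card with hB
  have h1 : (B.card : ℝ) * (11 / 10 : ℝ) ^ Fintype.card ι ≤
      ∑ x : X, L ^ (univ.filter fun i => val x i ∈ A).card := by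
    calc (B.card : ℝ) * (11 / 10 : ℝ) ^ Fintype.card ι
        = ∑ x ∈ B, (11 / 10 : ℝ) ^ Fintype.card ι := by rw [sum_const, nsmul_eq_mul]
      _ ≤ ∑ x ∈ B, L ^ (univ.filter fun i => val x i ∈ A).card := by
          refine sum_le_sum fun x hx => ?_
          rw [hL, ← pow_mul]
          exact pow_le_pow_right₀ (by norm_num) (mem_filter.1 hx).2
      _ ≤ _ := sum_le_sum_of_subset_of_nonneg (subset_univ _) fun x _ _ => by positivity
  have h2 : (Fintype.card G + A.card * (L - 1) : ℝ) ≤ 2521 * ((11 / 10) * (99 / 100)) := by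
    rw [hG, hA, hL]
    norm_num
  have h3 : (0 : ℝ) ≤ Fintype.card G + A.card * (L - 1) := by
    have : (1 : ℝ) ≤ L := by
      rw [hL]
      norm_num
    have : (0 : ℝ) ≤ A.card * (L - 1) := mul_nonneg (Nat.cast_nonneg _) (by linarith)
    positivity
  have h4 : (B.card : ℝ) * (11 / 10 : ℝ) ^ Fintype.card ι * 2521 ^ Fintype.card ι ≤
      Fintype.card X * (2521 * ((11 / 10) * (99 / 100))) ^ Fintype.card ι := by
    calc (B.card : ℝ) * (11 / 10 : ℝ) ^ Fintype.card ι * 2521 ^ Fintype.card ι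
        ≤ (∑ x : X, L ^ (univ.filter fun i => val x i ∈ A).card) *
          (Fintype.card G : ℝ) ^ Fintype.card ι := by
          rw [hG]
          exact mul_le_mul_of_nonneg_right h1 (by positivity)
      _ = Fintype.card X * (Fintype.card G + A.card * (L - 1)) ^ Fintype.card ι := hm
      _ ≤ _ := mul_le_mul_of_nonneg_left (pow_le_pow_left₀ h3 h2 _) (Nat.cast_nonneg _)
  rw [mul_pow, mul_pow] at h4
  have h5 : (0 : ℝ) < (11 / 10 : ℝ) ^ Fintype.card ι * 2521 ^ Fintype.card ι := by positivity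
  refine le_of_mul_le_mul_right ?_ h5
  calc (B.card : ℝ) * ((11 / 10 : ℝ) ^ Fintype.card ι * 2521 ^ Fintype.card ι)
      = (B.card : ℝ) * (11 / 10 : ℝ) ^ Fintype.card ι * 2521 ^ Fintype.card ι := by ring
    _ ≤ _ := h4
    _ = _ := by ring

end moment

/-! ### The designs -/

variable {N d : ℕ} {E P Om : Type} [Fintype E] [Fintype P] [Fintype Om] [NeZero N]

/-- Adding values at the coordinate `r` of the lines of the first family. -/
def shift (r : Co E P Om) (c : F) (τ : ZMod N → F) (p : Lin N → Co E P Om → F) :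
    Lin N → Co E P Om → F :=
  fun l => p l + (if l.1 = 0 then Pi.single r (c * τ l.2) else 0)

lemma shift_shift (r : Co E P Om) (c : F) (τ τ' : ZMod N → F) (p : Lin N → Co E P Om → F) :
    shift r c τ (shift r c τ' p) = shift r c (τ + τ') p := by
  funext l
  unfold shift
  split_ifs
  · rw [Pi.add_apply, mul_add, Pi.single_add, add_assoc]
    congr 1
    exact add_comm _ _
  · rw [add_zero, add_zero]

lemma shift_zero (r : Co E P Om) (c : F) (p : Lin N → Co E P Om → F) :
    shift r c (0 : ZMod N → F) p = p := by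
  funext l
  unfold shift
  split_ifs
  · rw [Pi.zero_apply, mul_zero, Pi.single_zero, add_zero]
  · rw [add_zero]

lemma ext_shift {fr : Frame N d E Om} {r : Co E P Om} (hr : ∀ t : E, Sum.inl (Sum.inl t) ≠ r)
    (c : F) (τ : ZMod N → F) {p : Lin N → Co E P Om → F} (h : Ext fr p) :
    Ext fr (shift r c τ p) := by
  intro s i t
  unfold shift
  rw [Pi.add_apply, h s i t]
  split_ifs <;> simp [Pi.single_eq_of_ne (hr t)]

/-- The shift as a permutation of the designs. -/
def actD (fr : Frame N d E Om) {r : Co E P Om} (hr : ∀ t : E, Sum.inl (Sum.inl t) ≠ r) (c : F)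
    (τ : ZMod N → F) : Dz fr P ≃ Dz fr P where
  toFun p := ⟨shift r c τ p.1, ext_shift hr c τ p.2⟩
  invFun p := ⟨shift r c (-τ) p.1, ext_shift hr c (-τ) p.2⟩
  left_inv p := by
    refine Subtype.ext ?_
    show shift r c (-τ) (shift r c τ p.1) = p.1
    rw [shift_shift, neg_add_cancel, shift_zero]
  right_inv p := by
    refine Subtype.ext ?_
    show shift r c τ (shift r c (-τ) p.1) = p.1
    rw [shift_shift, add_neg_cancel, shift_zero]

lemma ln_zero (x : ZMod N) (j : Fin d) : ln ((x, j) : Ty N d) 0 = x := by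
  unfold Combi.ln
  simp

lemma ln_one (x : ZMod N) (j : Fin d) : ln ((x, j) : Ty N d) 1 = x + (j.val : ZMod N) := by
  unfold Combi.ln
  simp

lemma gv_shift (r : Co E P Om) (c : F) (τ : ZMod N → F) (p : Lin N → Co E P Om → F) (x : ZMod N)
    (j : Fin d) : gv (shift r c τ p) ((x, j) : Ty N d) =
      gv p ((x, j) : Ty N d) + Pi.single r (c * τ x) := by
  unfold gv
  rw [Fin.sum_univ_three, Fin.sum_univ_three]
  have h0 : shift r c τ p (lin ((x, j) : Ty N d) 0) =
      p (lin ((x, j) : Ty N d) 0) + Pi.single r (c * τ x) := by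
    unfold shift
    rw [if_pos (show (lin ((x, j) : Ty N d) 0).1 = 0 from rfl)]
    congr 3
    show τ (ln ((x, j) : Ty N d) 0) = τ x
    rw [ln_zero]
  have h1 : shift r c τ p (lin ((x, j) : Ty N d) 1) = p (lin ((x, j) : Ty N d) 1) := by
    unfold shift
    rw [if_neg (show ¬ (lin ((x, j) : Ty N d) 1).1 = 0 from one_ne_zero), add_zero]
  have h2 : shift r c τ p (lin ((x, j) : Ty N d) 2) = p (lin ((x, j) : Ty N d) 2) := by
    unfold shift
    rw [if_neg (show ¬ (lin ((x, j) : Ty N d) 2).1 = 0 from by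
      show (2 : Fin 3) ≠ 0
      decide), add_zero]
  rw [h0, h1, h2]
  abel

/-- The number of types of class `j` cut by `v`. -/
def cntJ (v : Co E P Om → F) (j : Fin d) (p : Lin N → Co E P Om → F) : ℕ :=
  (univ.filter fun x : ZMod N => v ⬝ᵥ gv p ((x, j) : Ty N d) ∈ Y).card

lemma card_cut (v : Co E P Om → F) (p : Lin N → Co E P Om → F) :
    (univ.filter fun b : Ty N d => v ⬝ᵥ gv p b ∈ Y).card = ∑ j : Fin d, cntJ v j p := by
  rw [card_filter, Fintype.sum_prod_type_right]
  refine sum_congr rfl fun j _ => ?_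
  unfold cntJ
  rw [card_filter]

/-- Case 1: a vector supported on `E`. -/
lemma cnt_E_le {fr : Frame N d E Om} {D₀ : ℕ} {θ C : ℝ} (hs : Sizes fr P D₀ θ C)
    {v : Co E P Om → F} (hD : ¬ ∃ (t : E), ∃ u ∈ Y, v = Pi.single (Sum.inl (Sum.inl t)) u)
    (hP : ∀ i, v (Sum.inl (Sum.inr i)) = 0) (hO : ∀ w, v (Sum.inr w) = 0)
    {p : Lin N → Co E P Om → F} (h : Ext fr p) (j : Fin d) : 10 * cntJ v j p ≤ N := by
  have hv : ∀ b : Ty N d, v ⬝ᵥ gv p b = ∑ t : E, v (Sum.inl (Sum.inl t)) * fr.γ (ln b 1) t := by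
    intro b
    unfold dotProduct
    rw [Fintype.sum_sum_type, Fintype.sum_sum_type]
    have z1 : ∑ i : P, v (Sum.inl (Sum.inr i)) * gv p b (Sum.inl (Sum.inr i)) = 0 :=
      sum_eq_zero fun i _ => by rw [hP, zero_mul]
    have z2 : ∑ w : Om, v (Sum.inr w) * gv p b (Sum.inr w) = 0 :=
      sum_eq_zero fun i _ => by rw [hO, zero_mul]
    rw [z1, z2, add_zero, add_zero]
    exact sum_congr rfl fun t _ => by rw [gv_E h]
  have hζ : (fun t : E => v (Sum.inl (Sum.inl t))) ∉ Dset E := by
    rintro ⟨y, hy, t, ht⟩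
    refine hD ⟨t, y, hy, ?_⟩
    funext c
    rcases c with (c | c) | c
    · have := congrFun ht c
      have this' : v (Sum.inl (Sum.inl c)) = Pi.single (M := fun _ => F) t y c := this
      rw [this']
      by_cases hc : c = t
      · subst hc
        simp
      · rw [Pi.single_eq_of_ne hc, Pi.single_eq_of_ne]
        intro h'
        exact hc (Sum.inl_injective (Sum.inl_injective h'))
    · rw [hP, Pi.single_eq_of_ne]
      intro h'
      exact Sum.inr_ne_inl (Sum.inl_injective h')
    · rw [hO, Pi.single_eq_of_ne]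
      intro h'
      exact Sum.inr_ne_inl h'
  -- the count over `ZMod N`
  have h1 : cntJ v j p = (univ.filter fun i : ZMod N =>
      ∑ t : E, v (Sum.inl (Sum.inl t)) * fr.γ i t ∈ Y).card := by
    unfold cntJ
    refine card_bij (fun x _ => x + (j.val : ZMod N)) ?_ ?_ ?_
    · intro x hx
      rw [mem_filter] at hx ⊢
      refine ⟨mem_univ _, ?_⟩
      rw [← ln_one, ← hv]
      exact hx.2
    · intro x _ y _ hxy
      exact add_right_cancel hxy
    · intro i hi
      refine ⟨i - (j.val : ZMod N), ?_, sub_add_cancel _ _⟩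
      rw [mem_filter] at hi ⊢
      refine ⟨mem_univ _, ?_⟩
      rw [hv, ln_one, sub_add_cancel]
      exact hi.2
  have h2 : (univ.filter fun i : ZMod N => ∑ t : E, v (Sum.inl (Sum.inl t)) * fr.γ i t ∈ Y).card =
      ∑ u ∈ univ.filter (fun u : E → YT => ∑ t, v (Sum.inl (Sum.inl t)) * (u t : F) ∈ Y),
        (univ.filter fun i : ZMod N => fr.γ i = fun t => (u t : F)).card := by
    rw [← card_biUnion]
    · congr 1
      ext i
      simp only [mem_filter, mem_univ, true_and, mem_biUnion]
      constructor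
      · intro hi
        exact ⟨fun t => ⟨fr.γ i t, fr.hγ i t⟩, hi, rfl⟩
      · rintro ⟨u, hu, hi⟩
        rw [hi]
        exact hu
    · intro u _ u' _ huu
      rw [Function.onFun, disjoint_left]
      intro i hi hi'
      rw [mem_filter] at hi hi'
      apply huu
      funext t
      exact Subtype.ext (congrFun (hi.2.symm.trans hi'.2) t)
  have h3 : (((univ.filter fun i : ZMod N =>
      ∑ t : E, v (Sum.inl (Sum.inl t)) * fr.γ i t ∈ Y).card : ℕ) : ℝ) * 140 ^ Fintype.card E =
      (univ.filter (fun u : E → YT => ∑ t, v (Sum.inl (Sum.inl t)) * (u t : F) ∈ Y)).card * N := by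
    rw [h2, Nat.cast_sum, sum_mul, sum_congr rfl fun u _ => hs.hγ (fun t => (u t : F))
      fun t => (u t).2, sum_const, nsmul_eq_mul]
  have h4 := cut_le_of_not_mem _ hζ
  rw [h1]
  have h5 : (10 * (univ.filter fun i : ZMod N =>
      ∑ t : E, v (Sum.inl (Sum.inl t)) * fr.γ i t ∈ Y).card : ℝ) * 140 ^ Fintype.card E ≤
      N * 140 ^ Fintype.card E := by
    rw [mul_assoc, h3]
    have h6 : (10 * (univ.filter (fun u : E → YT =>
        ∑ t, v (Sum.inl (Sum.inl t)) * (u t : F) ∈ Y)).card : ℝ) ≤ 140 ^ Fintype.card E := by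
      exact_mod_cast h4
    calc 10 * (((univ.filter (fun u : E → YT =>
        ∑ t, v (Sum.inl (Sum.inl t)) * (u t : F) ∈ Y)).card : ℝ) * N)
        = (10 * (univ.filter (fun u : E → YT =>
        ∑ t, v (Sum.inl (Sum.inl t)) * (u t : F) ∈ Y)).card : ℝ) * N := by ring
      _ ≤ 140 ^ Fintype.card E * N := mul_le_mul_of_nonneg_right h6 (Nat.cast_nonneg _)
      _ = _ := by ring
  have h7 := le_of_mul_le_mul_right h5 (by positivity)
  exact_mod_cast h7

/-- Case 2: the designs with many types of class `j` cut by a vector `v` which is not zero at a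
coordinate outside `E`. -/
lemma card_bad_le (fr : Frame N d E Om) {v : Co E P Om → F} {r : Co E P Om}
    (hr : ∀ t : E, Sum.inl (Sum.inl t) ≠ r) (hv : v r ≠ 0) (j : Fin d) :
    ((univ.filter fun p : Dz fr P => N ≤ 10 * cntJ v j p.1).card : ℝ) ≤
      Fintype.card (Dz fr P) * (99 / 100 : ℝ) ^ N := by
  have hval : ∀ (τ : ZMod N → F) (p : Dz fr P) (x : ZMod N),
      v ⬝ᵥ gv ((actD fr hr (v r)⁻¹ τ) p).1 ((x, j) : Ty N d) =
        v ⬝ᵥ gv p.1 ((x, j) : Ty N d) + τ x := by
    intro τ p x
    show v ⬝ᵥ gv (shift r (v r)⁻¹ τ p.1) ((x, j) : Ty N d) = _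
    rw [gv_shift, dotProduct_add, dotProduct_single, ← mul_assoc, mul_inv_cancel₀ hv, one_mul]
  have hcF : Fintype.card F = 2521 := ZMod.card 2521
  have hcY : Y.card = 140 := card_Y
  have hcN : Fintype.card (ZMod N) = N := ZMod.card N
  exact tail (X := Dz fr P) (ι := ZMod N) (G := F) (fun τ => actD fr hr (v r)⁻¹ τ)
    (fun p x => v ⬝ᵥ gv p.1 ((x, j) : Ty N d)) hval Y hcF hcY hcN

lemma numeric {D k e d N a : ℕ} (hD : 2380 ≤ D) (hk : e + 100 * d ≤ k) (hN : D * k ≤ N)
    (ha : a ≤ k) : (100 * d : ℝ) * 2521 ^ (e + k + a) * (99 / 100) ^ N ≤ 1 := by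
  have h1 : (99 / 100 : ℝ) ^ 2380 ≤ (1 / 2521) ^ 3 := by
    have e1 : (99 / 100 : ℝ) ^ 70 ≤ 1 / 2 := by norm_num
    calc (99 / 100 : ℝ) ^ 2380 = ((99 / 100 : ℝ) ^ 70) ^ 34 := by rw [← pow_mul]
      _ ≤ (1 / 2) ^ 34 := pow_le_pow_left₀ (by positivity) e1 _
      _ ≤ _ := by norm_num
  have h2 : (99 / 100 : ℝ) ^ N ≤ ((1 / 2521) ^ 3) ^ k := by
    calc (99 / 100 : ℝ) ^ N ≤ (99 / 100) ^ (2380 * k) :=
          pow_le_pow_of_le_one (by norm_num) (by norm_num)
            ((Nat.mul_le_mul_right k hD).trans hN)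
      _ = ((99 / 100) ^ 2380) ^ k := by rw [pow_mul]
      _ ≤ _ := pow_le_pow_left₀ (by positivity) h1 _
  have h3 : (2521 : ℝ) ^ (e + k + a) ≤ 2521 ^ (e + 2 * k) :=
    pow_le_pow_right₀ (by norm_num) (by omega)
  have h4 : (100 * d : ℝ) ≤ 2521 ^ (100 * d) := by
    have := (Nat.lt_pow_self (show 1 < 2521 by norm_num) (n := 100 * d)).le
    exact_mod_cast this
  calc (100 * d : ℝ) * 2521 ^ (e + k + a) * (99 / 100) ^ N
      ≤ 2521 ^ (100 * d) * 2521 ^ (e + 2 * k) * ((1 / 2521) ^ 3) ^ k := by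
        refine mul_le_mul (mul_le_mul h4 h3 (by positivity) (by positivity)) h2 (by positivity)
          (by positivity)
    _ = 2521 ^ (100 * d + (e + 2 * k)) * (1 / 2521) ^ (3 * k) := by rw [← pow_add, ← pow_mul]
    _ ≤ 2521 ^ (3 * k) * (1 / 2521) ^ (3 * k) :=
        mul_le_mul_of_nonneg_right (pow_le_pow_right₀ (by norm_num) (by omega)) (by positivity)
    _ = 1 := by
        rw [← mul_pow]
        norm_num

end CutEx

open CutEx Finset in
/-- GP6 exists. -/
theorem exC : ExC := by
  intro ε hε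
  refine ⟨2380, fun D₀ hD₀ d E _ _ => ⟨1, one_pos, Fintype.card E + 100 * d, ?_⟩⟩
  intro N P Om _ _ _ fr hk hs
  have hOm : Fintype.card Om ≤ Fintype.card P := by
    have := hs.hOm
    rw [one_mul] at this
    exact_mod_cast this
  -- the bad events
  let V := {v : Co E P Om → F // ∃ r : Co E P Om, (∀ t : E, Sum.inl (Sum.inl t) ≠ r) ∧ v r ≠ 0}
  let Bd : V × Fin d → Finset (Dz fr P) := fun vj =>
    univ.filter fun p : Dz fr P => N ≤ 10 * cntJ vj.1.1 vj.2 p.1
  have hsub : (univ.filter fun p : Dz fr P => ¬ EvC p.1 d ε) ⊆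
      (univ : Finset (V × Fin d)).biUnion Bd := by
    intro p hp
    rw [mem_filter] at hp
    by_contra hcon
    apply hp.2
    intro v hvD
    have hcnt : ∀ j : Fin d, 10 * cntJ v j p.1 ≤ N := by
      intro j
      by_cases hv : ∃ r : Co E P Om, (∀ t : E, Sum.inl (Sum.inl t) ≠ r) ∧ v r ≠ 0
      · by_contra hlt
        apply hcon
        rw [mem_biUnion]
        refine ⟨(⟨v, hv⟩, j), mem_univ _, ?_⟩
        show p ∈ univ.filter fun p : Dz fr P => N ≤ 10 * cntJ v j p.1
        rw [mem_filter]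
        exact ⟨mem_univ _, (not_le.1 hlt).le⟩
      · push Not at hv
        refine cnt_E_le hs hvD (fun i => hv _ fun t h => ?_) (fun w => hv _ fun t h => ?_) p.2 j
        · exact Sum.inl_ne_inr (Sum.inl_injective h)
        · exact Sum.inl_ne_inr h
    rw [card_cut, Nat.cast_sum]
    have h1 : ∀ j : Fin d, ((cntJ v j p.1 : ℕ) : ℝ) ≤ (1 / 10) * N := by
      intro j
      have : (10 * cntJ v j p.1 : ℝ) ≤ N := by exact_mod_cast hcnt j
      linarith
    calc ∑ j : Fin d, ((cntJ v j p.1 : ℕ) : ℝ) ≤ ∑ _j : Fin d, (1 / 10 : ℝ) * N :=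
          sum_le_sum fun j _ => h1 j
      _ = (1 / 10) * (N * d) := by
          rw [sum_const, card_univ, Fintype.card_fin, nsmul_eq_mul]
          ring
      _ ≤ (1 / 10 + ε) * (N * d) :=
          mul_le_mul_of_nonneg_right (by linarith) (by positivity)
  have hcard : ((univ.filter fun p : Dz fr P => ¬ EvC p.1 d ε).card : ℝ) ≤
      (2521 ^ (Fintype.card E + Fintype.card P + Fintype.card Om) * d) *
        (Fintype.card (Dz fr P) * (99 / 100 : ℝ) ^ N) := by
    have hb : ∀ vj : V × Fin d, ((Bd vj).card : ℝ) ≤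
        Fintype.card (Dz fr P) * (99 / 100 : ℝ) ^ N := by
      rintro ⟨⟨v, r, hr, hv⟩, j⟩
      exact card_bad_le fr hr hv j
    have hV : (Fintype.card (V × Fin d) : ℝ) ≤
        2521 ^ (Fintype.card E + Fintype.card P + Fintype.card Om) * d := by
      rw [Fintype.card_prod, Fintype.card_fin]
      push_cast
      refine mul_le_mul_of_nonneg_right ?_ (Nat.cast_nonneg _)
      have h1 : Fintype.card V ≤ Fintype.card (Co E P Om → F) := Fintype.card_subtype_le _
      rw [Fintype.card_fun, ZMod.card, Fintype.card_sum, Fintype.card_sum] at h1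
      exact_mod_cast h1
    calc ((univ.filter fun p : Dz fr P => ¬ EvC p.1 d ε).card : ℝ)
        ≤ (((univ : Finset (V × Fin d)).biUnion Bd).card : ℝ) := by
          exact_mod_cast card_le_card hsub
      _ ≤ ∑ vj : V × Fin d, ((Bd vj).card : ℝ) := by exact_mod_cast card_biUnion_le
      _ ≤ ∑ _vj : V × Fin d, (Fintype.card (Dz fr P) * (99 / 100 : ℝ) ^ N) :=
          sum_le_sum fun vj _ => hb vj
      _ = Fintype.card (V × Fin d) * (Fintype.card (Dz fr P) * (99 / 100 : ℝ) ^ N) := by
          rw [sum_const, card_univ, nsmul_eq_mul]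
      _ ≤ _ := mul_le_mul_of_nonneg_right hV (by positivity)
  have hnum := numeric (D := D₀) (k := Fintype.card P) (e := Fintype.card E) (d := d) (N := N)
    (a := Fintype.card Om) hD₀ hk hs.hN hOm
  have hfin : 100 * ((univ.filter fun p : Dz fr P => ¬ EvC p.1 d ε).card : ℝ) ≤
      Fintype.card (Dz fr P) := by
    calc 100 * ((univ.filter fun p : Dz fr P => ¬ EvC p.1 d ε).card : ℝ)
        ≤ 100 * ((2521 ^ (Fintype.card E + Fintype.card P + Fintype.card Om) * d) *
        (Fintype.card (Dz fr P) * (99 / 100 : ℝ) ^ N)) :=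
          mul_le_mul_of_nonneg_left hcard (by norm_num)
      _ = ((100 * d : ℝ) * 2521 ^ (Fintype.card E + Fintype.card P + Fintype.card Om) *
          (99 / 100) ^ N) * Fintype.card (Dz fr P) := by ring
      _ ≤ 1 * Fintype.card (Dz fr P) := mul_le_mul_of_nonneg_right hnum (Nat.cast_nonneg _)
      _ = _ := one_mul _
  unfold Rare
  have e1 : Nat.card {p : Dz fr P | ¬ EvC p.1 d ε} =
      (univ.filter fun p : Dz fr P => ¬ EvC p.1 d ε).card := by
    rw [Nat.card_eq_fintype_card, ← Fintype.card_subtype]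
    rfl
  rw [e1, Nat.card_eq_fintype_card]
  exact_mod_cast hfin

end Vale.Agent.P060.HW
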