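import Vale.Agent.P060.HW.ExI3

/-! Existence of event (i): numerical part and the theorem. -/

open scoped Classical

noncomputable section

set_option linter.unusedSectionVars false

namespace Vale.Agent.P060.HW

open Module

/-- The fourth root of `2521`. -/
def rho : ℝ := (2521 : ℝ) ^ (1 / 4 : ℝ)

lemma rho_nonneg : 0 ≤ rho := Real.rpow_nonneg (by norm_num) _

lemma rho_pow_four : rho ^ 4 = 2521 := by
  unfold rho
  rw [← Real.rpow_natCast, ← Real.rpow_mul (by norm_num)]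
  norm_num

lemma seven_lt_rho : 7 < rho := by
  refine lt_of_pow_lt_pow_left₀ 4 rho_nonneg ?_
  rw [rho_pow_four]
  norm_num

lemma rho_pos : 0 < rho := lt_trans (by norm_num) seven_lt_rho

lemma one_le_rho : 1 ≤ rho := le_trans (by norm_num) seven_lt_rho.le

lemma rpow_three_half (k : ℕ) : (2521 : ℝ) ^ ((3 / 2 : ℝ) * k) = rho ^ (6 * k) := by
  rw [← rho_pow_four, ← Real.rpow_natCast rho 4, ← Real.rpow_mul rho_nonneg,
    ← Real.rpow_natCast rho (6 * k)]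
  congr 1
  push_cast
  ring

lemma cast_pow_eq (k : ℕ) : (2521 : ℝ) ^ k = rho ^ (4 * k) := by
  rw [← rho_pow_four, ← pow_mul]

lemma final_numeric (k κι R M O T Cn : ℕ) (hk : 3 ≤ k) (hO : O ≤ k) (hκι : 8 * κι ≤ 10 * k)
    (hR : R ≤ Cn * k) (hT : (T : ℝ) ^ 2 ≤ rho ^ k) (hM : 12 * Cn * k + 8 ≤ M) :
    100 * ((2 : ℝ) ^ O * (T * ((T * T * (2521 ^ κι) ^ 2 + 1) ^ R * (T * T) ^ M))) *
      ((rho ^ (2 * k))⁻¹) ^ M ≤ 1 := by
  have hρ := one_le_rho
  have hρ0 := rho_pos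
  have hmono : ∀ {a b : ℕ}, a ≤ b → rho ^ a ≤ rho ^ b := fun h => pow_le_pow_right₀ hρ h
  have h100 : (100 : ℝ) ≤ rho ^ k := by
    refine le_trans ?_ (hmono hk)
    have := pow_le_pow_left₀ (by norm_num : (0 : ℝ) ≤ 7) seven_lt_rho.le 3
    refine le_trans ?_ this
    norm_num
  have hO' : (2 : ℝ) ^ O ≤ rho ^ k :=
    le_trans (pow_le_pow_left₀ (by norm_num) (le_trans (by norm_num) seven_lt_rho.le) O) (hmono hO)
  have hT1 : (T : ℝ) ≤ rho ^ k := by
    refine le_trans ?_ hT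
    have : T ≤ T ^ 2 := Nat.le_self_pow (by norm_num) T
    exact_mod_cast this
  have hTT : (T : ℝ) * T ≤ rho ^ k := by rw [← sq]; exact hT
  have hc : (T : ℝ) * T * (2521 ^ κι) ^ 2 + 1 ≤ rho ^ (12 * k) := by
    have h1 : ((2521 : ℝ) ^ κι) ^ 2 ≤ rho ^ (10 * k) := by
      rw [cast_pow_eq, ← pow_mul]
      exact hmono (by omega)
    have h2 : (T : ℝ) * T * (2521 ^ κι) ^ 2 ≤ rho ^ k * rho ^ (10 * k) :=
      mul_le_mul hTT h1 (by positivity) (by positivity)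
    rw [← pow_add] at h2
    have h3 : (1 : ℝ) ≤ rho ^ (k + 10 * k) := one_le_pow₀ hρ
    have h4 : rho ^ (12 * k) = rho ^ k * rho ^ (k + 10 * k) := by
      rw [← pow_add]; congr 1; omega
    rw [h4]
    have h5 : (2 : ℝ) ≤ rho ^ k := le_trans (by norm_num) h100
    nlinarith
  have hcR : ((T : ℝ) * T * (2521 ^ κι) ^ 2 + 1) ^ R ≤ rho ^ (12 * k * (Cn * k)) := by
    refine le_trans (pow_le_pow_left₀ (by positivity) hc R) ?_
    rw [← pow_mul]
    exact hmono (Nat.mul_le_mul_left _ hR)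
  have hd : ((T : ℝ) * T) ^ M * ((rho ^ (2 * k))⁻¹) ^ M ≤ (rho ^ (k * M))⁻¹ := by
    rw [← mul_pow]
    have h1 : (T : ℝ) * T * (rho ^ (2 * k))⁻¹ ≤ (rho ^ k)⁻¹ := by
      have h2 : (rho ^ (2 * k))⁻¹ = (rho ^ k)⁻¹ * (rho ^ k)⁻¹ := by
        rw [← mul_inv, ← pow_add]; congr 2; omega
      rw [h2]
      calc (T : ℝ) * T * ((rho ^ k)⁻¹ * (rho ^ k)⁻¹) ≤ rho ^ k * ((rho ^ k)⁻¹ * (rho ^ k)⁻¹) :=
            mul_le_mul_of_nonneg_right hTT (by positivity)
        _ = (rho ^ k)⁻¹ := by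
            rw [← mul_assoc, mul_inv_cancel₀ (pow_pos hρ0 _).ne', one_mul]
    refine le_trans (pow_le_pow_left₀ (by positivity) h1 M) ?_
    rw [← inv_pow, ← pow_mul, inv_pow]
  have hexp : rho ^ (3 * k + 12 * k * (Cn * k)) ≤ rho ^ (k * M) := by
    refine hmono ?_
    have h1 : k * (12 * Cn * k + 8) ≤ k * M := Nat.mul_le_mul_left _ hM
    nlinarith
  calc 100 * ((2 : ℝ) ^ O * (T * ((T * T * (2521 ^ κι) ^ 2 + 1) ^ R * (T * T) ^ M))) *
      ((rho ^ (2 * k))⁻¹) ^ M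
      = (100 * ((2 : ℝ) ^ O * (T * (T * T * (2521 ^ κι) ^ 2 + 1) ^ R))) *
        ((T * T) ^ M * ((rho ^ (2 * k))⁻¹) ^ M) := by ring
    _ ≤ (rho ^ k * (rho ^ k * (rho ^ k * rho ^ (12 * k * (Cn * k))))) * (rho ^ (k * M))⁻¹ := by
        gcongr
    _ = rho ^ (3 * k + 12 * k * (Cn * k)) * (rho ^ (k * M))⁻¹ := by
        congr 1
        rw [← pow_add, ← pow_add, ← pow_add]
        congr 1
        ring
    _ ≤ rho ^ (k * M) * (rho ^ (k * M))⁻¹ := mul_le_mul_of_nonneg_right hexp (by positivity)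
    _ = 1 := mul_inv_cancel₀ (pow_pos hρ0 _).ne'

lemma exists_k1 (A : ℕ) : ∃ k1 : ℕ, ∀ k ≥ k1, ∀ T : ℕ, T ≤ A * k → (T : ℝ) ^ 2 ≤ rho ^ k := by
  have h1 : Filter.Tendsto (fun n : ℕ => (n : ℝ) ^ 2 / rho ^ n) Filter.atTop (nhds 0) :=
    tendsto_pow_const_div_const_pow_of_one_lt 2 (lt_trans (by norm_num) seven_lt_rho)
  have h2 : ∀ᶠ n : ℕ in Filter.atTop, (n : ℝ) ^ 2 / rho ^ n < 1 / ((A : ℝ) ^ 2 + 1) :=
    h1.eventually (gt_mem_nhds (by positivity))
  obtain ⟨k1, hk1⟩ := Filter.eventually_atTop.1 h2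
  refine ⟨k1, fun k hk T hT => ?_⟩
  have h3 := hk1 k hk
  rw [div_lt_div_iff₀ (pow_pos rho_pos k) (by positivity), one_mul] at h3
  have h4 : (T : ℝ) ≤ A * k := by exact_mod_cast hT
  have h5 : (T : ℝ) ^ 2 ≤ (A * k) ^ 2 := pow_le_pow_left₀ (Nat.cast_nonneg _) h4 2
  nlinarith [sq_nonneg (k : ℝ)]

theorem exI : ExI := by
  intro C'
  set Cn := ⌈C'⌉₊ with hCn
  refine ⟨4 * (8 * (Cn + 3)), fun ε hε => ⟨⌈(12 * Cn + 8) / ε⌉₊, fun D₀ hD d t E _ => ?_⟩⟩
  obtain ⟨k1, hk1⟩ := exists_k1 (2 * D₀ * d)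
  refine ⟨1 / (8 * (t + 1)), by positivity, max (max k1 (8 * Fintype.card E))
    (max (8 * (8 * (8 * (Cn + 3)) + 8 * (Cn + 6) + 7)) 3), ?_⟩
  intro N P Om _ _ _ fr hk hS
  set k := Fintype.card P with hkdef
  have hk1' : k1 ≤ k := le_trans (le_trans (le_max_left _ _) (le_max_left _ _)) hk
  have hkE : 8 * Fintype.card E ≤ k := le_trans (le_trans (le_max_right _ _) (le_max_left _ _)) hk
  have hk2 : 8 * (8 * (8 * (Cn + 3)) + 8 * (Cn + 6) + 7) ≤ k :=
    le_trans (le_trans (le_max_left _ _) (le_max_right _ _)) hk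
  have hk3 : 3 ≤ k := le_trans (le_trans (le_max_right _ _) (le_max_right _ _)) hk
  have hkR : (3 : ℝ) ≤ k := by exact_mod_cast hk3
  have ht0 : (0 : ℝ) < 8 * (t + 1) := by positivity
  have hOm : 8 * Fintype.card Om ≤ k := by
    have h1 := hS.hOm
    rw [div_mul_eq_mul_div, one_mul, le_div_iff₀ ht0] at h1
    have h2 : (Fintype.card Om : ℝ) * 8 ≤ Fintype.card Om * (8 * (t + 1)) := by
      have h3 : (0 : ℝ) ≤ Fintype.card Om := Nat.cast_nonneg _
      have h4 : (0 : ℝ) ≤ t := Nat.cast_nonneg _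
      nlinarith [mul_nonneg h3 h4]
    have h5 : (Fintype.card Om : ℝ) * 8 ≤ k := le_trans h2 h1
    have h6 : Fintype.card Om * 8 ≤ k := by exact_mod_cast h5
    omega
  have hκι : 8 * Fintype.card (Co E P Om) ≤ 10 * k := by
    rw [Fintype.card_sum, Fintype.card_sum]
    omega
  set R := ⌊C' * (k : ℝ)⌋₊ with hR
  set m := ⌊ε * (N : ℝ)⌋₊ with hm
  have hRle : R ≤ Cn * k := by
    have h1 : C' * k ≤ ((Cn * k : ℕ) : ℝ) := by
      push_cast
      exact mul_le_mul_of_nonneg_right (Nat.le_ceil C') (Nat.cast_nonneg _)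
    have h2 := Nat.floor_le_floor h1
    rwa [Nat.floor_natCast] at h2
  have hA : ∀ Z : Finset Om, Z.card ≤ t →
      ∑ w ∈ Z, (Finset.univ.filter fun c : Ty N d => w ∈ fr.U c).card ≤ k := by
    intro Z hZ
    have h1 : ∑ w ∈ Z, ((Finset.univ.filter fun c : Ty N d => w ∈ fr.U c).card : ℝ) ≤
        ∑ _w ∈ Z, (1 / (8 * ((t : ℝ) + 1)) * k) := by
      refine Finset.sum_le_sum fun w _ => ?_
      convert hS.hA w using 3
    rw [Finset.sum_const, nsmul_eq_mul] at h1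
    have h2 : (Z.card : ℝ) * (1 / (8 * ((t : ℝ) + 1)) * k) ≤ k := by
      have h3 : (Z.card : ℝ) ≤ t := by exact_mod_cast hZ
      have h4 : (Z.card : ℝ) * (1 / (8 * ((t : ℝ) + 1)) * k) = Z.card * k / (8 * (t + 1)) := by
        ring
      rw [h4, div_le_iff₀ ht0]
      have h5 : (0 : ℝ) ≤ k := Nat.cast_nonneg _
      nlinarith [mul_nonneg h5 (sub_nonneg.2 h3), mul_nonneg h5 (Nat.cast_nonneg (α := ℝ) t)]
    exact_mod_cast le_trans h1 h2
  have hfr : ∀ (p : Lin N → Co E P Om → F) (Z : Finset Om) (a : Ty N d)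
      (q : Fin R → Option (Dat E P Om N d)), Z.card ≤ t →
      finrank F (LamQ fr p Z a q) ≤ (Cn + 3) * k := by
    intro p Z a q hZ
    refine le_trans (finrank_lamQ fr p Z a q k (hA Z hZ)) ?_
    have h1 : (Cn + 3) * k = Cn * k + 3 * k := by ring
    rw [h1]
    omega
  have hch : ∀ Lam : Submodule F (Matrix (Co E P Om) (Co E P Om) F),
      ∃ (W : Submodule F (Co E P Om → F)) (Ex : Finset (Fin 2 → Co E P Om → F)),
      finrank F Lam ≤ (Cn + 3) * k →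
      finrank F W ≤ 4 * (8 * (Cn + 3)) ∧ (Ex.card : ℝ) ≤ (2521 : ℝ) ^ ((3 / 2 : ℝ) * k) ∧
      ∀ g ∉ Ex, IndMod W g ∧ ∀ h : Fin 2 → Co E P Om → F, smm h g ∈ Lam →
        ∃ w : Fin 2 → Co E P Om → F, (∀ i, w i ∈ W) ∧ smm w g = smm h g := by
    intro Lam
    by_cases hL : finrank F Lam ≤ (Cn + 3) * k
    · obtain ⟨W, Ex, h⟩ := exists_WE Cn k hκι hk2 Lam hL
      exact ⟨W, Ex, fun _ => h⟩
    · exact ⟨⊥, ∅, fun h => absurd h hL⟩
  choose Wf Ef hWE using hch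
  have hcardC : (Fintype.card (Fin 2 → P → F) : ℝ) = rho ^ (8 * k) := by
    rw [Fintype.card_fun, Fintype.card_fun, ZMod.card, Fintype.card_fin]
    push_cast
    rw [cast_pow_eq, ← pow_mul]
    congr 1
    omega
  have hEf : ∀ (x : Lin N → (P ⊕ Om) → F) (Z : Finset Om) (a : Ty N d)
      (q : Fin R → Option (Dat E P Om N d)), Z.card ≤ t →
      ((Ef (LamQ fr (extp fr x) Z a q)).card : ℝ) ≤
        (rho ^ (2 * k))⁻¹ * Fintype.card (Fin 2 → P → F) := by
    intro x Z a q hZ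
    refine le_trans (hWE _ (hfr _ Z a q hZ)).2.1 ?_
    rw [rpow_three_half, hcardC]
    have h1 : rho ^ (8 * k) = rho ^ (2 * k) * rho ^ (6 * k) := by
      rw [← pow_add]; congr 1; omega
    rw [h1, ← mul_assoc, inv_mul_cancel₀ (pow_pos rho_pos _).ne', one_mul]
  refine rare_of_card fr _ ?_
  have hbad := card_badD_le fr Ef t R (m + 1) (inv_nonneg.2 (pow_nonneg rho_nonneg (2 * k))) hEf
  have hsub : (Finset.univ.filter fun x : Lin N → (P ⊕ Om) → F =>
      exiDz fr x ∈ {p : Dz fr P | ¬ EvI fr p.1 t R (4 * (8 * (Cn + 3))) m}) ⊆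
      Finset.univ.filter fun x : Lin N → (P ⊕ Om) → F =>
        ∃ D : Dat4 E P Om N d R (m + 1), BadD fr Ef t R (m + 1) D x := by
    intro x hx
    rw [Finset.mem_filter] at hx ⊢
    refine ⟨hx.1, ?_⟩
    by_contra hcon
    push Not at hcon
    refine hx.2 (evI_of_not_bad fr x Wf Ef t R _ m (fun Z a q hZ => ?_) hcon)
    have h1 := hWE _ (hfr (extp fr x) Z a q hZ)
    exact ⟨h1.1, h1.2.2⟩
  have hcardD : (Fintype.card (Dat4 E P Om N d R (m + 1)) : ℝ) =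
      (2 : ℝ) ^ Fintype.card Om * (((N * d : ℕ) : ℝ) * ((((N * d : ℕ) : ℝ) * ((N * d : ℕ) : ℝ) *
        (2521 ^ Fintype.card (Co E P Om)) ^ 2 + 1) ^ R *
        (((N * d : ℕ) : ℝ) * ((N * d : ℕ) : ℝ)) ^ (m + 1))) := by
    have h1 : Fintype.card (Dat4 E P Om N d R (m + 1)) =
        2 ^ Fintype.card Om * ((N * d) * (((N * d) * (N * d) *
        (2521 ^ Fintype.card (Co E P Om)) ^ 2 + 1) ^ R * ((N * d) * (N * d)) ^ (m + 1))) := by
      have e1 : Fintype.card (Ty N d) = N * d := by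
        rw [Fintype.card_prod, ZMod.card, Fintype.card_fin]
      have e2 : Fintype.card (Option (Dat E P Om N d)) = (N * d) * (N * d) *
          (2521 ^ Fintype.card (Co E P Om)) ^ 2 + 1 := by
        rw [Fintype.card_option, Fintype.card_prod, Fintype.card_prod, e1, Fintype.card_fun,
          Fintype.card_fun, ZMod.card, Fintype.card_fin]
      rw [Fintype.card_prod, Fintype.card_prod (Ty N d),
        Fintype.card_prod (Fin R → Option (Dat E P Om N d)), Fintype.card_finset, e1,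
        Fintype.card_fun, Fintype.card_fun, e2, Fintype.card_prod (Ty N d) (Ty N d), e1,
        Fintype.card_fin, Fintype.card_fin]
    rw [h1]
    push_cast
    ring
  have hM : 12 * Cn * k + 8 ≤ m + 1 := by
    have h1 : ε * N < m + 1 := Nat.lt_floor_add_one _
    have h2 : (12 * Cn + 8) / ε ≤ D₀ := le_trans (Nat.le_ceil _) (by exact_mod_cast hD)
    rw [div_le_iff₀ hε] at h2
    have h3 : (D₀ : ℝ) * k ≤ N := by exact_mod_cast hS.hN
    have h4 : (12 * Cn + 8 : ℝ) * k ≤ ε * N := by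
      have h5 : (D₀ : ℝ) * ε * k ≤ ε * N := by
        have := mul_le_mul_of_nonneg_left h3 hε.le
        nlinarith
      exact le_trans (mul_le_mul_of_nonneg_right h2 (Nat.cast_nonneg _)) h5
    have h6 : (12 * Cn * k + 8 : ℝ) ≤ m + 1 := by nlinarith
    exact_mod_cast h6
  have hT : (((N * d : ℕ) : ℝ)) ^ 2 ≤ rho ^ k := by
    refine hk1 k hk1' _ ?_
    calc N * d ≤ (2 * D₀ * k) * d := Nat.mul_le_mul_right _ hS.hN'
      _ = 2 * D₀ * d * k := by ring
  have hnum := final_numeric k (Fintype.card (Co E P Om)) R (m + 1) (Fintype.card Om) (N * d) Cn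
    hk3 (by omega) hκι hRle hT hM
  have hΩ : (0 : ℝ) ≤ Fintype.card (Lin N → (P ⊕ Om) → F) := Nat.cast_nonneg _
  have hfin : (100 : ℝ) * ((Finset.univ.filter fun x : Lin N → (P ⊕ Om) → F =>
      ∃ D : Dat4 E P Om N d R (m + 1), BadD fr Ef t R (m + 1) D x).card : ℝ) ≤
      Fintype.card (Lin N → (P ⊕ Om) → F) := by
    refine le_trans (mul_le_mul_of_nonneg_left hbad (by norm_num)) ?_
    rw [hcardD]
    refine le_trans (le_of_eq ?_) (le_trans (mul_le_mul_of_nonneg_right hnum hΩ)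
      (le_of_eq (one_mul _)))
    ring
  have hfin' : 100 * (Finset.univ.filter fun x : Lin N → (P ⊕ Om) → F =>
      ∃ D : Dat4 E P Om N d R (m + 1), BadD fr Ef t R (m + 1) D x).card ≤
      Fintype.card (Lin N → (P ⊕ Om) → F) := by exact_mod_cast hfin
  refine le_trans (Nat.mul_le_mul_left _ ?_) hfin'
  have hcs := Finset.card_le_card hsub
  convert hcs

end Vale.Agent.P060.HW
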