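import Mathlib

/-! Union bound tools: resampling of blocks of coordinates, product bound, fibres. -/

namespace Vale.Agent.P060.HW

open Finset

section UB

open scoped Classical

variable {L V : Type*} [Fintype L] [Fintype V] [DecidableEq L]

/-- Swapping a block of coordinates. -/
noncomputable def swapBlock (S : Finset L) : (L → V) × (L → V) ≃ (L → V) × (L → V) where
  toFun q := (S.piecewise q.2 q.1, S.piecewise q.1 q.2)
  invFun q := (S.piecewise q.2 q.1, S.piecewise q.1 q.2)
  left_inv q := by
    ext u
    · by_cases h : u ∈ S <;> simp [Finset.piecewise, h]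
    · by_cases h : u ∈ S <;> simp [Finset.piecewise, h]
  right_inv q := by
    ext u
    · by_cases h : u ∈ S <;> simp [Finset.piecewise, h]
    · by_cases h : u ∈ S <;> simp [Finset.piecewise, h]

theorem sum_piecewise (S : Finset L) (f : (L → V) → ℝ) :
    ∑ x : L → V, ∑ y : L → V, f (S.piecewise y x) = Fintype.card (L → V) * ∑ x, f x := by
  rw [← Fintype.sum_prod_type' (f := fun (x y : L → V) => f (S.piecewise y x))]
  rw [Fintype.sum_equiv (swapBlock S) (fun q : (L → V) × (L → V) => f (S.piecewise q.2 q.1))
    (fun q => f q.1) fun q => rfl]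
  rw [Fintype.sum_prod_type]
  simp only [Finset.sum_const, Finset.card_univ, nsmul_eq_mul]
  rw [← Finset.mul_sum]

/-- Product bound for events depending on disjoint blocks and a common base. -/
theorem card_all_le {ι : Type*} (S : ι → Finset L) (L0 : Finset L) (X : ι → (L → V) → Prop)
    {κ : ℝ} (hκ : 0 ≤ κ) (T : Finset ι)
    (hdisj : ∀ i ∈ T, ∀ j ∈ T, i ≠ j → Disjoint (S i) (S j))
    (hL0 : ∀ i ∈ T, Disjoint (S i) L0)
    (hX : ∀ i ∈ T, ∀ x y : L → V, (∀ u ∈ S i ∪ L0, x u = y u) → (X i x ↔ X i y))
    (hc : ∀ i ∈ T, ∀ x : L → V, ((univ.filter fun y : L → V => X i ((S i).piecewise y x)).card : ℝ) ≤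
      κ * Fintype.card (L → V)) :
    ((univ.filter fun x : L → V => ∀ i ∈ T, X i x).card : ℝ) ≤ κ ^ T.card * Fintype.card (L → V) := by
  induction T using Finset.induction_on with
  | empty => simp
  | insert a T ha ih =>
    rw [Finset.card_insert_of_notMem ha, pow_succ]
    rcases isEmpty_or_nonempty (L → V) with hE | hE
    · have h0 : (univ.filter fun x : L → V => ∀ i ∈ insert a T, X i x).card = 0 := by
        rw [Finset.card_eq_zero, Finset.eq_empty_iff_forall_notMem]
        intro x _
        exact hE.elim x
      rw [h0]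
      have : (0 : ℝ) ≤ Fintype.card (L → V) := Nat.cast_nonneg _
      rw [Nat.cast_zero]
      exact mul_nonneg (mul_nonneg (pow_nonneg hκ _) hκ) this
    have hpos : (0 : ℝ) < Fintype.card (L → V) := Nat.cast_pos.mpr Fintype.card_pos
    have ih' := ih (fun i hi j hj => hdisj i (mem_insert_of_mem hi) j (mem_insert_of_mem hj))
      (fun i hi => hL0 i (mem_insert_of_mem hi)) (fun i hi => hX i (mem_insert_of_mem hi))
      (fun i hi => hc i (mem_insert_of_mem hi))
    have h1 : ((univ.filter fun x : L → V => ∀ i ∈ insert a T, X i x).card : ℝ) =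
        ∑ x : L → V, (if (∀ i ∈ T, X i x) ∧ X a x then (1 : ℝ) else 0) := by
      rw [Finset.card_filter, Nat.cast_sum]
      refine Finset.sum_congr rfl fun x _ => ?_
      by_cases h2 : (∀ i ∈ T, X i x) ∧ X a x
      · rw [if_pos h2, if_pos]
        · simp
        · intro i hi
          rcases Finset.mem_insert.mp hi with rfl | hi
          · exact h2.2
          · exact h2.1 i hi
      · rw [if_neg h2, if_neg]
        · simp
        · exact fun h => h2 ⟨fun i hi => h i (mem_insert_of_mem hi), h a (mem_insert_self _ _)⟩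
    have h2 := sum_piecewise (V := V) (S a)
      (fun x => if (∀ i ∈ T, X i x) ∧ X a x then (1 : ℝ) else 0)
    have h3 : ∀ x : L → V,
        (∑ y : L → V, (if (∀ i ∈ T, X i ((S a).piecewise y x)) ∧ X a ((S a).piecewise y x)
          then (1 : ℝ) else 0)) ≤
        (if ∀ i ∈ T, X i x then (1 : ℝ) else 0) * (κ * Fintype.card (L → V)) := by
      intro x
      have hiff : ∀ y : L → V, (∀ i ∈ T, X i ((S a).piecewise y x)) ↔ ∀ i ∈ T, X i x := by
        intro y
        refine forall₂_congr fun i hi => hX i (mem_insert_of_mem hi) _ _ fun u hu => ?_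
        have hu' : u ∉ S a := by
          rcases Finset.mem_union.1 hu with hu | hu
          · exact Finset.disjoint_left.1 (hdisj i (mem_insert_of_mem hi) a (mem_insert_self _ _)
              (fun h => ha (h ▸ hi))) hu
          · exact Finset.disjoint_right.1 (hL0 a (mem_insert_self _ _)) hu
        rw [Finset.piecewise_eq_of_notMem _ _ _ hu']
      by_cases hx : ∀ i ∈ T, X i x
      · rw [if_pos hx, one_mul]
        refine le_trans (le_of_eq ?_) (hc a (mem_insert_self _ _) x)
        rw [Finset.card_filter, Nat.cast_sum]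
        refine Finset.sum_congr rfl fun y _ => ?_
        by_cases hy : X a ((S a).piecewise y x)
        · rw [if_pos ⟨(hiff y).2 hx, hy⟩, if_pos hy, Nat.cast_one]
        · rw [if_neg (fun h => hy h.2), if_neg hy, Nat.cast_zero]
      · rw [if_neg hx, zero_mul]
        refine le_of_eq (Finset.sum_eq_zero fun y _ => ?_)
        rw [if_neg]
        exact fun h => hx ((hiff y).1 h.1)
    have h4 : Fintype.card (L → V) *
        ((univ.filter fun x : L → V => ∀ i ∈ insert a T, X i x).card : ℝ) ≤
        (κ * Fintype.card (L → V)) * (κ ^ T.card * Fintype.card (L → V)) := by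
      rw [h1, ← h2]
      refine le_trans (Finset.sum_le_sum fun x _ => h3 x) ?_
      rw [← Finset.sum_mul, mul_comm]
      refine mul_le_mul_of_nonneg_left ?_ (mul_nonneg hκ hpos.le)
      refine le_trans (le_of_eq ?_) ih'
      rw [Finset.card_filter, Nat.cast_sum]
      refine Finset.sum_congr rfl fun x _ => ?_
      split_ifs <;> simp
    have h5 : (κ * Fintype.card (L → V)) * (κ ^ T.card * Fintype.card (L → V)) =
        Fintype.card (L → V) * (κ ^ T.card * κ * Fintype.card (L → V)) := by ring
    rw [h5] at h4
    exact le_of_mul_le_mul_left h4 hpos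

/-- Number of points whose image lies in a finite set, when translations act. -/
theorem card_fibre_le {A B C : Type*} [Fintype A] [Fintype C] (G : A → B) (τ : C → A → A)
    (hinj : ∀ y y' c c', G y = G y' → τ c y = τ c' y' → y = y' ∧ c = c') (Ex : Finset B)
    (Pr : A → Prop) (hPr : ∀ y, Pr y → G y ∈ Ex) :
    (univ.filter fun y : A => Pr y).card * Fintype.card C ≤ Ex.card * Fintype.card A := by
  refine le_trans (Nat.mul_le_mul_right _ (Finset.card_le_card (t := univ.filter fun y : A =>
    G y ∈ Ex) fun y hy => ?_)) ?_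
  · exact mem_filter.2 ⟨mem_univ _, hPr y (mem_filter.1 hy).2⟩
  have h1 : ∀ e : B, (univ.filter fun y : A => G y = e).card * Fintype.card C ≤ Fintype.card A := by
    intro e
    rw [← Finset.card_univ (α := C), ← Finset.card_product, ← Finset.card_univ (α := A)]
    refine Finset.card_le_card_of_injOn (fun q => τ q.2 q.1) (fun q _ => Finset.mem_coe.2 (mem_univ _)) ?_
    intro q hq q' hq' h
    have hq1 : G q.1 = e := by simpa using (Finset.mem_product.1 (Finset.mem_coe.1 hq)).1
    have hq1' : G q'.1 = e := by simpa using (Finset.mem_product.1 (Finset.mem_coe.1 hq')).1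
    obtain ⟨h2, h3⟩ := hinj q.1 q'.1 q.2 q'.2 (hq1.trans hq1'.symm) h
    exact Prod.ext h2 h3
  have h2 : (univ.filter fun y : A => G y ∈ Ex).card =
      ∑ e ∈ Ex, (univ.filter fun y : A => G y = e).card := by
    rw [Finset.card_eq_sum_card_fiberwise (f := G) (t := Ex)
      (fun y hy => by simpa using hy)]
    refine Finset.sum_congr rfl fun e he => ?_
    congr 1
    ext y
    simp only [mem_filter, mem_univ, true_and]
    exact ⟨fun h => h.2, fun h => ⟨h ▸ he, h⟩⟩
  rw [h2, Finset.sum_mul]
  refine le_trans (Finset.sum_le_sum fun e _ => h1 e) ?_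
  rw [Finset.sum_const, smul_eq_mul]

end UB

end Vale.Agent.P060.HW
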