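import Vale.Agent.P060.HW.Good
import Vale.Agent.P060.HW.UB
import Vale.Agent.P060.HW.CountQ

/-! Existence of event (i), part 1: free parameters of a design, the spaces `Λ`. -/

open scoped Classical

noncomputable section

set_option linter.unusedSectionVars false

namespace Vale.Agent.P060.HW

open Module

variable {N d : ℕ} {E P Om : Type} [Fintype E] [Fintype P] [Fintype Om] [NeZero N]

/-- The line vectors with free part `x`. -/
def extp (fr : Frame N d E Om) (x : Lin N → (P ⊕ Om) → F) : Lin N → Co E P Om → F :=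
  fun u j => match j with
  | Sum.inl (Sum.inl t) => if u.1 = 1 then fr.γ u.2 t else 0
  | Sum.inl (Sum.inr i) => x u (Sum.inl i)
  | Sum.inr w => x u (Sum.inr w)

lemma extp_ext (fr : Frame N d E Om) (x : Lin N → (P ⊕ Om) → F) : Ext fr (extp fr x) :=
  fun _ _ _ => rfl

/-- Designs of a frame are given by their free part. -/
def exiDz (fr : Frame N d E Om) : (Lin N → (P ⊕ Om) → F) ≃ Dz fr P where
  toFun x := ⟨extp fr x, extp_ext fr x⟩
  invFun p := fun u j => match j with
    | Sum.inl i => p.1 u (Sum.inl (Sum.inr i))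
    | Sum.inr w => p.1 u (Sum.inr w)
  left_inv x := by
    funext u j
    rcases j with i | w <;> rfl
  right_inv p := by
    refine Subtype.ext ?_
    funext u j
    rcases j with (t | i) | w
    · exact (p.2 u.1 u.2 t).symm
    · rfl
    · rfl

/-- Rare events of designs in terms of the free part. -/
lemma rare_of_card (fr : Frame N d E Om) (A : Set (Dz fr P))
    (h : 100 * (Finset.univ.filter fun x : Lin N → (P ⊕ Om) → F => exiDz fr x ∈ A).card ≤
      Fintype.card (Lin N → (P ⊕ Om) → F)) : Rare A := by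
  unfold Rare
  have h1 : Nat.card A = (Finset.univ.filter fun x : Lin N → (P ⊕ Om) → F =>
      exiDz fr x ∈ A).card := by
    rw [← Fintype.card_subtype, ← Nat.card_eq_fintype_card]
    exact Nat.card_congr ((exiDz fr).subtypeEquiv (fun x => Iff.rfl)).symm
  have h2 : Nat.card (Dz fr P) = Fintype.card (Lin N → (P ⊕ Om) → F) := by
    rw [← Nat.card_eq_fintype_card]
    exact Nat.card_congr (exiDz fr).symm
  rw [h1, h2]
  exact h

lemma gv_congr {p p' : Lin N → Co E P Om → F} {c : Ty N d} (h : ∀ u ∈ lins c, p u = p' u) :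
    gv p c = gv p' c := by
  unfold gv
  exact Finset.sum_congr rfl fun s _ => h _ (Finset.mem_image_of_mem _ (Finset.mem_univ s))

lemma g2_congr {p p' : Lin N → Co E P Om → F} {β : Ty N d × Ty N d}
    (h : ∀ u ∈ lins2 β, p u = p' u) : g2 p β = g2 p' β := by
  unfold g2
  rw [gv_congr (fun u hu => h u (Finset.mem_union_left _ hu)),
    gv_congr (fun u hu => h u (Finset.mem_union_right _ hu))]

/-- A test with a tensor. -/
abbrev Dat (E P Om : Type) (N d : ℕ) : Type := (Ty N d × Ty N d) × (Fin 2 → Co E P Om → F)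

/-- The space `Λ` of a sequence of tests with tensors. -/
def LamQ (fr : Frame N d E Om) (p : Lin N → Co E P Om → F) (Z : Finset Om) (a : Ty N d)
    {R : ℕ} (q : Fin R → Option (Dat E P Om N d)) :
    Submodule F (Matrix (Co E P Om) (Co E P Om) F) :=
  Submodule.span F
    ({Q | ∃ i β h, q i = some (β, h) ∧ Q = smm (fun i => rz Z (h i)) (fun i => rz Z (g2 p β i))} ∪
     {Q | ∃ c, ∃ w ∈ Z, w ∈ fr.U c ∧ Q = sm (Pi.single (Sum.inr w) 1) (rz Z (gv p c))} ∪
     {Q | ∃ v, Q = sm (rz Z v) (rz Z (gv p a))})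

lemma exists_q (fr : Frame N d E Om) (Z : Finset Om) (a : Ty N d)
    (J : Finset (Ty N d × Ty N d)) (H : Ty N d × Ty N d → Fin 2 → Co E P Om → F) {R : ℕ}
    (hJ : J.card ≤ R) : ∃ q : Fin R → Option (Dat E P Om N d),
      (∀ i β h, q i = some (β, h) → β ∈ J) ∧
      ∀ p : Lin N → Co E P Om → F, LamZ fr p Z a J H = LamQ fr p Z a q := by
  let e := J.equivFin
  refine ⟨fun i => if hi : i.val < J.card then
    some ((e.symm ⟨i.val, hi⟩).1, H (e.symm ⟨i.val, hi⟩).1) else none, ?_, ?_⟩
  · intro i β h hq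
    by_cases hi : i.val < J.card
    · simp only [hi, dif_pos, Option.some.injEq, Prod.mk.injEq] at hq
      rw [← hq.1]
      exact (e.symm ⟨i.val, hi⟩).2
    · simp only [hi, dif_neg, not_false_eq_true, reduceCtorEq] at hq
  · intro p
    unfold LamZ LamQ
    congr 3
    ext Q
    constructor
    · rintro ⟨β, hβ, rfl⟩
      have hlt : (e ⟨β, hβ⟩).val < R := lt_of_lt_of_le (e ⟨β, hβ⟩).2 hJ
      refine ⟨⟨(e ⟨β, hβ⟩).val, hlt⟩, β, H β, ?_, rfl⟩
      simp
    · rintro ⟨i, β, h, hq, rfl⟩
      by_cases hi : i.val < J.card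
      · simp only [hi, dif_pos, Option.some.injEq, Prod.mk.injEq] at hq
        refine ⟨β, ?_, ?_⟩
        · rw [← hq.1]
          exact (e.symm ⟨i.val, hi⟩).2
        · rw [← hq.2, ← hq.1]
      · simp only [hi, dif_neg, not_false_eq_true, reduceCtorEq] at hq

/-- The lines which determine `Λ`. -/
def linQ (fr : Frame N d E Om) (Z : Finset Om) (a : Ty N d)
    {R : ℕ} (q : Fin R → Option (Dat E P Om N d)) : Finset (Lin N) :=
  Finset.univ.filter fun u => u ∈ lins a ∨ (∃ i β h, q i = some (β, h) ∧ u ∈ lins2 β) ∨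
    ∃ w ∈ Z, u ∈ rowLines fr w

lemma lamQ_congr (fr : Frame N d E Om) {p p' : Lin N → Co E P Om → F} (Z : Finset Om) (a : Ty N d)
    {R : ℕ} (q : Fin R → Option (Dat E P Om N d)) (h : ∀ u ∈ linQ fr Z a q, p u = p' u) :
    LamQ fr p Z a q = LamQ fr p' Z a q := by
  unfold LamQ
  congr 1
  have ha : gv p a = gv p' a := gv_congr fun u hu => h u (by
    unfold linQ
    exact Finset.mem_filter.2 ⟨Finset.mem_univ _, Or.inl hu⟩)
  have hq : ∀ i β h, q i = some (β, h) → g2 p β = g2 p' β := fun i β h' hi =>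
    g2_congr fun u hu => h u (by
      unfold linQ
      exact Finset.mem_filter.2 ⟨Finset.mem_univ _, Or.inr (Or.inl ⟨i, β, h', hi, hu⟩)⟩)
  have hw : ∀ (c : Ty N d) (w : Om), w ∈ Z → w ∈ fr.U c → gv p c = gv p' c := fun c w hw hc =>
    gv_congr fun u hu => h u (by
      unfold linQ
      refine Finset.mem_filter.2 ⟨Finset.mem_univ _, Or.inr (Or.inr ⟨w, hw, ?_⟩)⟩
      unfold rowLines
      exact Finset.mem_biUnion.2 ⟨c, Finset.mem_filter.2 ⟨Finset.mem_univ _, hc⟩, hu⟩)
  ext Q
  simp only [Set.mem_union, Set.mem_ofPred_eq]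
  constructor
  · rintro ((⟨i, β, h', hi, rfl⟩ | ⟨c, w, hw', hc, rfl⟩) | ⟨v, rfl⟩)
    · exact Or.inl (Or.inl ⟨i, β, h', hi, by rw [hq i β h' hi]⟩)
    · exact Or.inl (Or.inr ⟨c, w, hw', hc, by rw [hw c w hw' hc]⟩)
    · exact Or.inr ⟨v, by rw [ha]⟩
  · rintro ((⟨i, β, h', hi, rfl⟩ | ⟨c, w, hw', hc, rfl⟩) | ⟨v, rfl⟩)
    · exact Or.inl (Or.inl ⟨i, β, h', hi, by rw [hq i β h' hi]⟩)
    · exact Or.inl (Or.inr ⟨c, w, hw', hc, by rw [hw c w hw' hc]⟩)
    · exact Or.inr ⟨v, by rw [ha]⟩

/-- The dimension of `Λ`. -/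
lemma finrank_lamQ (fr : Frame N d E Om) (p : Lin N → Co E P Om → F) (Z : Finset Om) (a : Ty N d)
    {R : ℕ} (q : Fin R → Option (Dat E P Om N d)) (M : ℕ)
    (hM : ∑ w ∈ Z, (Finset.univ.filter fun c : Ty N d => w ∈ fr.U c).card ≤ M) :
    finrank F (LamQ fr p Z a q) ≤ R + M + Fintype.card (Co E P Om) := by
  unfold LamQ
  rw [Submodule.span_union, Submodule.span_union]
  refine le_trans (Submodule.finrank_add_le_finrank_add_finrank _ _) ?_
  refine Nat.add_le_add (le_trans (Submodule.finrank_add_le_finrank_add_finrank _ _)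
    (Nat.add_le_add ?_ ?_)) ?_
  · -- the tests
    have hsub : ({Q | ∃ i β h, q i = some (β, h) ∧
        Q = smm (fun i => rz Z (h i)) (fun i => rz Z (g2 p β i))} :
        Set (Matrix (Co E P Om) (Co E P Om) F)) ⊆
        ((Finset.univ.image fun i : Fin R => match q i with
          | none => 0
          | some (β, h) => smm (fun i => rz Z (h i)) (fun i => rz Z (g2 p β i)) : Finset _) :
          Set (Matrix (Co E P Om) (Co E P Om) F)) := by
      rintro Q ⟨i, β, h, hi, rfl⟩
      refine Finset.mem_coe.2 (Finset.mem_image.2 ⟨i, Finset.mem_univ _, ?_⟩)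
      simp only [hi]
    refine le_trans (Submodule.finrank_mono (Submodule.span_mono hsub)) ?_
    refine le_trans (finrank_span_finset_le_card _) ?_
    refine le_trans Finset.card_image_le ?_
    simp
  · have hsub : ({Q | ∃ c, ∃ w ∈ Z, w ∈ fr.U c ∧
        Q = sm (Pi.single (Sum.inr w) 1) (rz Z (gv p c))} :
        Set (Matrix (Co E P Om) (Co E P Om) F)) ⊆
        (((Z.sigma fun w => Finset.univ.filter fun c : Ty N d => w ∈ fr.U c).image
          fun x : (_ : Om) × Ty N d => sm (Pi.single (Sum.inr x.1) 1) (rz Z (gv p x.2)) : Finset _) :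
          Set (Matrix (Co E P Om) (Co E P Om) F)) := by
      rintro Q ⟨c, w, hw, hc, rfl⟩
      refine Finset.mem_coe.2 (Finset.mem_image.2 ⟨⟨w, c⟩, ?_, rfl⟩)
      exact Finset.mem_sigma.2 ⟨hw, Finset.mem_filter.2 ⟨Finset.mem_univ _, hc⟩⟩
    refine le_trans (Submodule.finrank_mono (Submodule.span_mono hsub)) ?_
    refine le_trans (finrank_span_finset_le_card _) ?_
    refine le_trans Finset.card_image_le ?_
    rw [Finset.card_sigma]
    exact hM
  · let f : (Co E P Om → F) →ₗ[F] Matrix (Co E P Om) (Co E P Om) F :=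
      { toFun := fun v => sm (rz Z v) (rz Z (gv p a))
        map_add' := fun u v => by
          ext x y
          simp only [sm, map_add, Matrix.add_apply, Matrix.vecMulVec_apply, Pi.add_apply]
          ring
        map_smul' := fun c v => by
          ext x y
          simp only [sm, map_smul, Matrix.add_apply, Matrix.vecMulVec_apply, Pi.smul_apply,
            smul_eq_mul, RingHom.id_apply, Matrix.smul_apply]
          ring }
    have hsub : ({Q | ∃ v, Q = sm (rz Z v) (rz Z (gv p a))} :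
        Set (Matrix (Co E P Om) (Co E P Om) F)) ⊆ LinearMap.range f := by
      rintro Q ⟨v, rfl⟩
      exact ⟨v, rfl⟩
    refine le_trans (Submodule.finrank_mono (Submodule.span_le.2 hsub)) ?_
    refine le_trans (LinearMap.finrank_range_le f) ?_
    rw [Module.finrank_fintype_fun_eq_card]

end Vale.Agent.P060.HW
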