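import Vale.Agent.P060.HW.ExI1

/-! Existence of event (i), part 2: the exceptional sets and their probability. -/

open scoped Classical

noncomputable section

set_option linter.unusedSectionVars false

namespace Vale.Agent.P060.HW

open Module

section WE

variable {ι : Type*} [Fintype ι] [DecidableEq ι]

lemma numeric_hj (Cn k κι : ℕ) :
    (Cn + 3) * k + (2 + 3 * 2 * (8 * (Cn + 3)) + κι * (2 - 1)) * (8 * (Cn + 3)) <
      (κι + 6 * (8 * (Cn + 3)) + 4 + k / 8) * (8 * (Cn + 3)) := by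
  have hk : k ≤ 8 * (k / 8) + 7 := by omega
  have h1 : (Cn + 3) * k ≤ (Cn + 3) * (8 * (k / 8) + 7) := Nat.mul_le_mul_left _ hk
  generalize k / 8 = q at *
  have h2 : (2 - 1 : ℕ) = 1 := rfl
  rw [h2, mul_one]
  nlinarith [Nat.zero_le Cn, Nat.zero_le q]

lemma numeric_hJ (Cn k κι : ℕ) (h1 : 8 * κι ≤ 10 * k) :
    (Cn + 3) * k + 2 * κι + 1 + (8 * (Cn + 6)) * (8 * (Cn + 6)) <
      (k / 8 + 8 * (Cn + 6) + 2) * (8 * (Cn + 6)) := by
  have hk : k ≤ 8 * (k / 8) + 7 := by omega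
  have h2 : 2 * κι ≤ 3 * k := by omega
  have h3 : (Cn + 6) * k ≤ (Cn + 6) * (8 * (k / 8) + 7) := Nat.mul_le_mul_left _ hk
  generalize k / 8 = q at *
  nlinarith [Nat.zero_le Cn, Nat.zero_le q]

/-- The counting lemma with explicit sizes. -/
theorem exists_WE (Cn k : ℕ) (h1 : 8 * Fintype.card ι ≤ 10 * k)
    (h2 : 8 * (8 * (8 * (Cn + 3)) + 8 * (Cn + 6) + 7) ≤ k)
    (Lam : Submodule F (Matrix ι ι F)) (hD : finrank F Lam ≤ (Cn + 3) * k) :
    ∃ (W : Submodule F (ι → F)) (Ex : Finset (Fin 2 → ι → F)),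
      finrank F W ≤ 4 * (8 * (Cn + 3)) ∧ (Ex.card : ℝ) ≤ (2521 : ℝ) ^ ((3 / 2 : ℝ) * k) ∧
      ∀ g ∉ Ex, IndMod W g ∧ ∀ h : Fin 2 → ι → F, smm h g ∈ Lam →
        ∃ w : Fin 2 → ι → F, (∀ i, w i ∈ W) ∧ smm w g = smm h g := by
  have hcF : Fintype.card F = 2521 := ZMod.card 2521
  have h2F : (2 : F) ≠ 0 := by decide
  obtain ⟨W, Ex, hW, hEx, hg⟩ := exists_Wq (d := 2) h2F Lam (D := (Cn + 3) * k)
    (j := 8 * (Cn + 3)) (B := 2521 ^ (Fintype.card ι + 6 * (8 * (Cn + 3)) + 4 + k / 8))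
    (J := 8 * (Cn + 6)) (B' := 2521 ^ (k / 8 + 8 * (Cn + 6) + 2)) hD
    (by
      rw [hcF, ← pow_mul]
      exact Nat.pow_lt_pow_right (by norm_num) (numeric_hj Cn k _))
    (by
      rw [hcF, ← pow_mul]
      exact Nat.pow_lt_pow_right (by norm_num) (numeric_hJ Cn k _ h1))
  refine ⟨W, Ex, le_trans hW (by omega), ?_, hg⟩
  set κι := Fintype.card ι with hκ
  set j := 8 * (Cn + 3) with hj
  set J := 8 * (Cn + 6) with hJ
  set X : ℕ := κι + k / 8 + 8 * j + J + 6 with hX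
  have hpow : ∀ {a : ℕ}, a ≤ X → 2521 ^ a ≤ 2521 ^ X := fun h =>
    Nat.pow_le_pow_right (by norm_num) h
  have hle : Ex.card ≤ 2521 ^ (X + 1) := by
    refine le_trans hEx ?_
    rw [hcF]
    have e1 : 2521 ^ (κι + 6 * j + 4 + k / 8) ≤ 2521 ^ X := hpow (by omega)
    have e2 : 2521 ^ (2 + 2 * 2 * (j - 1) + κι * (2 - 1)) ≤ 2521 ^ X := hpow (by omega)
    have e3 : 2521 ^ (2 * 2 * (j - 1) * 2 + 2 * 2) *
        (2521 ^ (κι * (2 - 1)) * (2521 ^ (k / 8 + J + 2) + 2521 ^ J)) ≤ 2 * 2521 ^ X := by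
      have e4 : 2521 ^ J ≤ 2521 ^ (k / 8 + J + 2) := Nat.pow_le_pow_right (by norm_num) (by omega)
      calc 2521 ^ (2 * 2 * (j - 1) * 2 + 2 * 2) *
          (2521 ^ (κι * (2 - 1)) * (2521 ^ (k / 8 + J + 2) + 2521 ^ J))
          ≤ 2521 ^ (2 * 2 * (j - 1) * 2 + 2 * 2) *
          (2521 ^ (κι * (2 - 1)) * (2521 ^ (k / 8 + J + 2) + 2521 ^ (k / 8 + J + 2))) :=
            Nat.mul_le_mul_left _ (Nat.mul_le_mul_left _ (Nat.add_le_add_left e4 _))
        _ = 2 * 2521 ^ (2 * 2 * (j - 1) * 2 + 2 * 2 + κι * (2 - 1) + (k / 8 + J + 2)) := by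
            rw [pow_add, pow_add]; ring
        _ ≤ 2 * 2521 ^ X := Nat.mul_le_mul_left _ (hpow (by omega))
    have e5 : (2521 : ℕ) ^ (X + 1) = 2521 ^ X * 2521 := pow_succ _ _
    rw [e5]
    refine le_trans (Nat.add_le_add (Nat.add_le_add e1 e2) e3) ?_
    generalize (2521 : ℕ) ^ X = y
    omega
  have hle' : (Ex.card : ℝ) ≤ (2521 : ℝ) ^ (X + 1 : ℕ) := by exact_mod_cast hle
  refine le_trans hle' ?_
  rw [← Real.rpow_natCast]
  refine Real.rpow_le_rpow_of_exponent_le (by norm_num) ?_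
  have h3 : ((k / 8 : ℕ) : ℝ) ≤ k / 8 := Nat.cast_div_le
  have h4 : (8 : ℝ) * κι ≤ 10 * k := by exact_mod_cast h1
  have h5 : (8 : ℝ) * (8 * j + J + 7) ≤ k := by exact_mod_cast h2
  rw [hX]
  push_cast
  linarith

end WE

variable {N d : ℕ} {E P Om : Type} [Fintype E] [Fintype P] [Fintype Om] [NeZero N]

lemma rz_cases (Z : Finset Om) (x : Co E P Om) :
    (∀ v : Co E P Om → F, rz Z v x = 0) ∨ ∀ v : Co E P Om → F, rz Z v x = v x := by
  rcases x with (t | i) | w
  · exact Or.inl fun v => rfl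
  · exact Or.inr fun v => rfl
  · by_cases h : w ∈ Z
    · refine Or.inr fun v => ?_
      show (if w ∈ Z then v (Sum.inr w) else 0) = _
      rw [if_pos h]
    · refine Or.inl fun v => ?_
      show (if w ∈ Z then v (Sum.inr w) else 0) = _
      rw [if_neg h]

lemma rz_rz (Z : Finset Om) (v : Co E P Om → F) : rz Z (rz Z v) = rz Z v := by
  funext x
  rcases rz_cases Z x with h | h
  · rw [h, h]
  · rw [h]

lemma smm_apply {ι : Type*} (h g : Fin 2 → ι → F) (x y : ι) :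
    smm h g x y = ∑ i, (h i x * g i y + g i x * h i y) := by
  rw [smm, Matrix.sum_apply]
  refine Finset.sum_congr rfl fun i _ => ?_
  simp only [sm, Matrix.add_apply, Matrix.vecMulVec_apply]

/-- Outside the exceptional set a pair is not bad. -/
lemma not_bad (Z : Finset Om) (p : Lin N → Co E P Om → F) (β : Ty N d × Ty N d)
    (Lam : Submodule F (Matrix (Co E P Om) (Co E P Om) F)) (W : Submodule F (Co E P Om → F))
    (hg : IndMod W (fun i => rz Z (g2 p β i)) ∧ ∀ h : Fin 2 → Co E P Om → F,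
      smm h (fun i => rz Z (g2 p β i)) ∈ Lam →
        ∃ w : Fin 2 → Co E P Om → F, (∀ i, w i ∈ W) ∧
          smm w (fun i => rz Z (g2 p β i)) = smm h (fun i => rz Z (g2 p β i))) :
    ¬ BadZ p Z Lam (W ⊓ LinearMap.ker (rz Z - LinearMap.id)) β := by
  obtain ⟨hI, hh⟩ := hg
  rintro (hb | ⟨h, hL, hn⟩)
  · exact hb fun c hc => hI c hc.1
  · obtain ⟨w, hw, he⟩ := hh _ hL
    refine hn ⟨w, fun i => Submodule.mem_inf.2 ⟨hw i, ?_⟩, he⟩
    rw [LinearMap.mem_ker, LinearMap.sub_apply, LinearMap.id_apply, sub_eq_zero]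
    funext x
    rcases rz_cases Z x with hx | hx
    · rw [hx]
      have h0 : ∑ i, w i x • (fun i => rz Z (g2 p β i)) i = 0 := by
        funext y
        have h1 : smm w (fun i => rz Z (g2 p β i)) x y =
            smm (fun i => rz Z (h i)) (fun i => rz Z (g2 p β i)) x y := by rw [he]
        rw [smm_apply, smm_apply] at h1
        simp only [hx, zero_mul, add_zero, Finset.sum_const_zero] at h1
        rw [Finset.sum_apply]
        simpa [smul_eq_mul] using h1
      have h2 := hI (fun i => w i x) (by rw [h0]; exact W.zero_mem)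
      exact (congrFun h2 i).symm
    · exact hx (w i)

/-! ### The probability of an exceptional pair -/

lemma rz_gv_apply (fr : Frame N d E Om) (Z : Finset Om) (x : Lin N → (P ⊕ Om) → F) (c : Ty N d)
    (i : P) : rz Z (gv (extp fr x) c) (Sum.inl (Sum.inr i)) = ∑ s, x (lin c s) (Sum.inl i) := by
  show gv (extp fr x) c (Sum.inl (Sum.inr i)) = _
  unfold gv
  rw [Finset.sum_apply]
  rfl

lemma exi_mem_lins (c : Ty N d) (s : Fin 3) : lin c s ∈ lins c :=
  Finset.mem_image_of_mem _ (Finset.mem_univ s)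

/-- The translations. -/
def trl (u0 u1 : Lin N) (c : Fin 2 → P → F) (y : Lin N → (P ⊕ Om) → F) : Lin N → (P ⊕ Om) → F :=
  fun u => y u + (if u = u0 then Sum.elim (c 0) (fun _ => 0) else 0) +
    (if u = u1 then Sum.elim (c 1) (fun _ => 0) else 0)

lemma trl_apply (u0 u1 : Lin N) (c : Fin 2 → P → F) (y : Lin N → (P ⊕ Om) → F) (u : Lin N)
    (i : P) : trl u0 u1 c y u (Sum.inl i) =
      y u (Sum.inl i) + (if u = u0 then c 0 i else 0) + (if u = u1 then c 1 i else 0) := by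
  unfold trl
  rw [Pi.add_apply, Pi.add_apply]
  congr 1
  · congr 1
    split_ifs <;> rfl
  · split_ifs <;> rfl

lemma g2_zero (p : Lin N → Co E P Om → F) (β : Ty N d × Ty N d) : g2 p β 0 = gv p β.1 := rfl

lemma g2_one (p : Lin N → Co E P Om → F) (β : Ty N d × Ty N d) : g2 p β 1 = gv p β.2 := rfl

lemma exi_lin_inj {b b' : Ty N d} {s s' : Fin 3} (h : lin b s = lin b' s') :
    s = s' ∧ ln b s = ln b' s' := ⟨congrArg Prod.fst h, congrArg Prod.snd h⟩

lemma sum_ite_same (b : Ty N d) (s1 : Fin 3) (t : F) :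
    (∑ s, if lin b s = lin b s1 then t else 0) = t := by
  rw [Finset.sum_eq_single s1]
  · rw [if_pos rfl]
  · intro s _ hs
    rw [if_neg]
    intro h'
    exact hs (exi_lin_inj h').1
  · intro h'
    exact absurd (Finset.mem_univ _) h'

lemma sum_ite_ne {b b' : Ty N d} {s1 : Fin 3} (h : ln b s1 ≠ ln b' s1) (t : F) :
    (∑ s, if lin b s = lin b' s1 then t else 0) = 0 := by
  refine Finset.sum_eq_zero fun s _ => ?_
  rw [if_neg]
  intro h'
  obtain ⟨h1, h2⟩ := exi_lin_inj h'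
  subst h1
  exact h h2

lemma rz_gv_trl (fr : Frame N d E Om) (Z : Finset Om) (S : Finset (Lin N)) (b : Ty N d)
    (hb : ∀ s, lin b s ∈ S) (x y : Lin N → (P ⊕ Om) → F) (u0 u1 : Lin N) (c : Fin 2 → P → F)
    (a : P) :
    rz Z (gv (extp fr (S.piecewise (trl u0 u1 c y) x)) b) (Sum.inl (Sum.inr a)) =
      rz Z (gv (extp fr (S.piecewise y x)) b) (Sum.inl (Sum.inr a)) +
        (∑ s, if lin b s = u0 then c 0 a else 0) + (∑ s, if lin b s = u1 then c 1 a else 0) := by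
  rw [rz_gv_apply, rz_gv_apply, ← Finset.sum_add_distrib, ← Finset.sum_add_distrib]
  refine Finset.sum_congr rfl fun s _ => ?_
  rw [Finset.piecewise_eq_of_mem _ _ _ (hb s), Finset.piecewise_eq_of_mem _ _ _ (hb s),
    trl_apply]

lemma key_trl (fr : Frame N d E Om) (Z : Finset Om) (β : Ty N d × Ty N d) {s1 : Fin 3}
    (hs1 : ln β.1 s1 ≠ ln β.2 s1) (x y : Lin N → (P ⊕ Om) → F) (c : Fin 2 → P → F)
    (i : Fin 2) (a : P) :
    rz Z (g2 (extp fr ((lins2 β).piecewise (trl (lin β.1 s1) (lin β.2 s1) c y) x)) β i)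
        (Sum.inl (Sum.inr a)) =
      rz Z (g2 (extp fr ((lins2 β).piecewise y x)) β i) (Sum.inl (Sum.inr a)) + c i a := by
  revert i
  rw [Fin.forall_fin_two]
  constructor
  · rw [g2_zero, g2_zero, rz_gv_trl fr Z (lins2 β) β.1 (fun s => Finset.mem_union_left _ (exi_mem_lins _ _)),
      sum_ite_same, sum_ite_ne hs1, add_zero]
  · rw [g2_one, g2_one, rz_gv_trl fr Z (lins2 β) β.2 (fun s => Finset.mem_union_right _ (exi_mem_lins _ _)),
      sum_ite_same, sum_ite_ne (Ne.symm hs1), add_zero]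

/-- The restricted vectors of a pair lie in an exceptional set. -/
def ExcEv (Z : Finset Om) (p : Lin N → Co E P Om → F) (β : Ty N d × Ty N d)
    (Ex : Finset (Fin 2 → Co E P Om → F)) : Prop :=
  (fun i => rz Z (g2 p β i)) ∈ Ex

theorem card_exc_le (fr : Frame N d E Om) (Z : Finset Om) (β : Ty N d × Ty N d)
    (hβ : β.1 ≠ β.2) (x : Lin N → (P ⊕ Om) → F) (Ex : Finset (Fin 2 → Co E P Om → F)) :
    (Finset.univ.filter fun y : Lin N → (P ⊕ Om) → F =>
      ExcEv Z (extp fr ((lins2 β).piecewise y x)) β Ex).card *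
      Fintype.card (Fin 2 → P → F) ≤ Ex.card * Fintype.card (Lin N → (P ⊕ Om) → F) := by
  obtain ⟨s1, hs1⟩ : ∃ s1, ln β.1 s1 ≠ ln β.2 s1 := by
    by_contra hcon
    push Not at hcon
    exact hβ (fr.share_two β.1 β.2 0 1 (by decide) (hcon 0) (hcon 1))
  refine card_fibre_le (fun y : Lin N → (P ⊕ Om) → F => fun i =>
    rz Z (g2 (extp fr ((lins2 β).piecewise y x)) β i))
    (fun c y => trl (lin β.1 s1) (lin β.2 s1) c y) ?_ Ex _ (fun y hy => hy)
  intro y y' c c' hG hτ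
  have hc : c = c' := by
    funext i a
    have h1 := key_trl fr Z β hs1 x y c i a
    have h2 := key_trl fr Z β hs1 x y' c' i a
    have h3 : rz Z (g2 (extp fr ((lins2 β).piecewise y x)) β i) =
        rz Z (g2 (extp fr ((lins2 β).piecewise y' x)) β i) := congrFun hG i
    have h4 : trl (lin β.1 s1) (lin β.2 s1) c y = trl (lin β.1 s1) (lin β.2 s1) c' y' := hτ
    rw [h4, h2, h3] at h1
    exact (add_left_cancel h1).symm
  subst hc
  refine ⟨?_, rfl⟩
  funext u
  have h1 : trl (lin β.1 s1) (lin β.2 s1) c y u = trl (lin β.1 s1) (lin β.2 s1) c y' u :=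
    congrFun hτ u
  unfold trl at h1
  exact add_right_cancel (add_right_cancel h1)

end Vale.Agent.P060.HW
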