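import Vale.Agent.P060.HW.Info

/-!
# Exchangeable orderings of a family of disjoint tuples in a random sample
-/

open scoped Classical

noncomputable section

set_option linter.unusedSectionVars false

namespace Vale.Agent.P060.HW

/-- A set `S` of samples `Fin n → X`, each with `m` disjoint `r`-tuples of indices. -/
structure Samp (X : Type*) (n m r : ℕ) where
  S : Finset (Fin n → X)
  ne : S.Nonempty
  e : (Fin n → X) → Fin m → Fin r → Fin n
  inj : ∀ s ∈ S, ∀ i k i' k', e s i k = e s i' k' → i = i' ∧ k = k'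

namespace Samp

variable {X : Type*} [Fintype X] {n m r : ℕ} (D : Samp X n m r)

/-- The probability space: a sample and an ordering. -/
abbrev Om := {s // s ∈ D.S} × Equiv.Perm (Fin m)

lemma card_Om : (Fintype.card D.Om : ℝ) = D.S.card * (m.factorial : ℝ) := by
  simp [Om, Fintype.card_prod, Fintype.card_perm]

lemma card_Om_pos : (0 : ℝ) < Fintype.card D.Om := by
  rw [card_Om]
  have : 0 < D.S.card := D.ne.card_pos
  have h2 : 0 < m.factorial := Nat.factorial_pos m
  exact mul_pos (by exact_mod_cast this) (by exact_mod_cast h2)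

/-- The uniform law on the probability space. -/
def P : FinProb D.Om where
  w _ := 1 / (Fintype.card D.Om : ℝ)
  nonneg _ := by positivity
  sum_one := by
    rw [Finset.sum_const, nsmul_eq_mul, Finset.card_univ, mul_one_div,
      div_self D.card_Om_pos.ne']

lemma P_w (ω : D.Om) : D.P.w ω = 1 / (Fintype.card D.Om : ℝ) := rfl

/-- The `i`-th tuple in the random order. -/
def W (ω : D.Om) (i : Fin m) : Fin r → X := fun k => ω.1.1 (D.e ω.1.1 (ω.2 i) k)

/-- The restriction of the random sequence to a set of times. -/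
def R (T : Finset (Fin m)) (ω : D.Om) : Fin m → Option (Fin r → X) :=
  fun i => if i ∈ T then some (D.W ω i) else none

lemma R_eq_iff (T : Finset (Fin m)) (ω ω' : D.Om) :
    D.R T ω = D.R T ω' ↔ ∀ i ∈ T, D.W ω i = D.W ω' i := by
  constructor
  · intro h i hi
    have := congrFun h i
    simpa [R, hi] using this
  · intro h
    funext i
    unfold R
    split_ifs with hi
    · rw [h i hi]
    · rfl

/-- Relabelling of the times. -/
def relabel (ρ : Equiv.Perm (Fin m)) : D.Om ≃ D.Om :=
  Equiv.prodCongr (Equiv.refl _) (Equiv.mulRight ρ)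

lemma W_relabel (ρ : Equiv.Perm (Fin m)) (ω : D.Om) (i : Fin m) :
    D.W (D.relabel ρ ω) i = D.W ω (ρ i) := rfl

/-- Joint laws are exchangeable. -/
lemma H_R_eq (T T' : Finset (Fin m)) (h : T.card = T'.card) :
    D.P.H (D.R T) = D.P.H (D.R T') := by
  have e0 : {x // x ∈ T} ≃ {x // x ∈ T'} := Finset.equivOfCardEq h
  set ρ := e0.extendSubtype with hρ
  have h1 : ∀ i ∈ T, ρ i ∈ T' := fun i hi => e0.extendSubtype_mem i hi
  have h2 : T.image ρ = T' := by
    apply Finset.eq_of_subset_of_card_le
    · intro j hj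
      obtain ⟨i, hi, rfl⟩ := Finset.mem_image.1 hj
      exact h1 i hi
    · rw [Finset.card_image_of_injective _ ρ.injective, h]
  rw [← D.P.H_comp_equiv (D.relabel ρ) (fun ω => rfl) (D.R T)]
  refine D.P.H_congr_det fun ω ω' => ?_
  rw [R_eq_iff, R_eq_iff]
  simp only [W_relabel]
  constructor
  · intro h i hi
    exact h _ (h1 i hi)
  · intro h j hj
    rw [← h2] at hj
    obtain ⟨i, hi, rfl⟩ := Finset.mem_image.1 hj
    exact h i hi

/-- The first `j` times. -/
def T (m j : ℕ) : Finset (Fin m) := Finset.univ.filter (fun i => i.val < j)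

lemma card_T {j : ℕ} (hj : j ≤ m) : (T m j).card = j := by
  unfold T
  rw [Fin.card_filter_val_lt]
  omega

/-- The entropy of `j` tuples. -/
def g (j : ℕ) : ℝ := D.P.H (D.R (T m j))

lemma H_R (S : Finset (Fin m)) : D.P.H (D.R S) = D.g S.card := by
  refine D.H_R_eq _ _ ?_
  rw [card_T]
  simpa using Finset.card_le_univ S

lemma H_pair (a : Fin m) (S : Finset (Fin m)) :
    D.P.H (fun ω => (D.W ω a, D.R S ω)) = D.P.H (D.R (insert a S)) := by
  refine D.P.H_congr_det fun ω ω' => ?_
  rw [R_eq_iff, Prod.mk.injEq, R_eq_iff]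
  simp

lemma H_triple (a b : Fin m) (S : Finset (Fin m)) :
    D.P.H (fun ω => (D.W ω a, D.W ω b, D.R S ω)) = D.P.H (D.R (insert a (insert b S))) := by
  refine D.P.H_congr_det fun ω ω' => ?_
  rw [R_eq_iff, Prod.mk.injEq, Prod.mk.injEq, R_eq_iff]
  simp

/-- Concavity of the entropy profile. -/
lemma g_concave {j : ℕ} (hj : j + 2 ≤ m) : D.g (j + 2) + D.g j ≤ 2 * D.g (j + 1) := by
  set a : Fin m := ⟨j, by omega⟩
  set b : Fin m := ⟨j + 1, by omega⟩
  have ha : a ∉ T m j := by simp [T, a]
  have hb : b ∉ T m j := by simp [T, b]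
  have hab : a ≠ b := by simp [a, b]
  have h := D.P.H_submod (fun ω => D.W ω a) (fun ω => D.W ω b) (D.R (T m j))
  rw [D.H_triple, D.H_pair, D.H_pair, D.H_R, D.H_R, D.H_R, D.H_R] at h
  rw [Finset.card_insert_of_notMem (by simp [hab, ha]), Finset.card_insert_of_notMem hb,
    Finset.card_insert_of_notMem ha, card_T (by omega)] at h
  linarith

lemma g_zero_nonneg : 0 ≤ D.g 0 := D.P.H_nonneg _

lemma g_zero : D.g 0 = 0 := by
  refine le_antisymm ?_ D.g_zero_nonneg
  have := D.P.H_le_log_card (D.R (T m 0)) {fun _ => none} (fun ω => by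
    rw [Finset.mem_singleton]
    funext i
    simp [R, T])
  simpa [g] using this

lemma g_one (hm : 1 ≤ m) : D.g 1 ≤ r * Real.log (Fintype.card X) := by
  set a : Fin m := ⟨0, by omega⟩
  have h0 : D.P.H (fun ω => D.W ω a) ≤ Real.log (Fintype.card (Fin r → X)) := by
    have := D.P.H_le_log_card (fun ω => D.W ω a) Finset.univ (fun ω => Finset.mem_univ _)
    simpa using this
  have h1 : D.P.H (fun ω => D.W ω a) = D.g 1 := by
    have e1 : D.P.H (fun ω => D.W ω a) = D.P.H (D.R {a}) := by
      refine D.P.H_congr_det fun ω ω' => ?_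
      rw [R_eq_iff]
      simp
    rw [e1, D.H_R, Finset.card_singleton]
  rw [← h1]
  refine h0.trans ?_
  simp

/-- The conditional relative entropy of a tuple given `j` earlier ones. -/
def kap (j : ℕ) : ℝ := r * Real.log (Fintype.card X) - (D.g (j + 1) - D.g j)

lemma kap_zero (hm : 1 ≤ m) : 0 ≤ D.kap 0 := by
  have := D.g_one hm
  have h0 := D.g_zero
  unfold kap
  rw [h0]
  simp only [Nat.zero_add, sub_zero]
  linarith

lemma kap_mono {j : ℕ} (hj : j + 2 ≤ m) : D.kap j ≤ D.kap (j + 1) := by
  have := D.g_concave hj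
  unfold kap
  have e : D.g (j + 1 + 1) = D.g (j + 2) := rfl
  rw [e]
  linarith

lemma kap_le {i j : ℕ} (hij : i ≤ j) (hj : j < m) : D.kap i ≤ D.kap j := by
  induction j, hij using Nat.le_induction with
  | base => exact le_rfl
  | succ j hj' ih => exact (ih (by omega)).trans (D.kap_mono (by omega))

lemma kap_nonneg {j : ℕ} (hj : j < m) : 0 ≤ D.kap j :=
  (D.kap_zero (by omega)).trans (D.kap_le (Nat.zero_le _) hj)

lemma sum_kap (j : ℕ) : ∑ i ∈ Finset.range j, D.kap i
    = j * (r * Real.log (Fintype.card X)) - D.g j := by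
  induction j with
  | zero => simp [D.g_zero]
  | succ j ih =>
    rw [Finset.sum_range_succ, ih]
    unfold kap
    push_cast
    ring

/-- Counting: the number of outcomes with prescribed full sequence. -/
lemma card_full_le (hr : 1 ≤ r) (y : Fin m → Fin r → X) :
    (Finset.univ.filter (fun ω : D.Om => D.W ω = y)).card
      ≤ n ^ (m * r) * Fintype.card X ^ (n - m * r) := by
  set F := Finset.univ.filter (fun ω : D.Om => D.W ω = y)
  let τ : D.Om → (Fin m × Fin r → Fin n) := fun ω q => D.e ω.1.1 (ω.2 q.1) q.2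
  have hτinj : ∀ ω, Function.Injective (τ ω) := by
    intro ω q q' h
    have := D.inj ω.1.1 ω.1.2 _ _ _ _ h
    exact Prod.ext (ω.2.injective this.1) this.2
  have h1 : F.card ≤ Fintype.card X ^ (n - m * r) * (F.image τ).card := by
    refine Finset.card_le_mul_card_image F _ ?_
    intro t ht
    obtain ⟨ω₀, -, hω₀⟩ := Finset.mem_image.1 ht
    have htinj : Function.Injective t := hω₀ ▸ hτinj ω₀
    set U : Finset (Fin n) := Finset.univ.image t
    have hU : U.card = m * r := by
      rw [Finset.card_image_of_injective _ htinj]; simp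
    have hUc : Fintype.card {i // i ∉ U} = n - m * r := by
      rw [Fintype.card_subtype_compl]
      simp [hU]
    have : Fintype.card X ^ (n - m * r) = Fintype.card ({i // i ∉ U} → X) := by
      rw [Fintype.card_fun, hUc]
    rw [this, ← Finset.card_univ]
    refine Finset.card_le_card_of_injOn (fun ω (i : {i // i ∉ U}) => ω.1.1 i.1)
      (fun _ _ => Finset.mem_coe.2 (Finset.mem_univ _)) ?_
    intro ω hω ω' hω' hh
    rw [Finset.mem_coe, Finset.mem_filter, Finset.mem_filter] at hω hω'
    obtain ⟨⟨-, hy⟩, ht1⟩ := hω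
    obtain ⟨⟨-, hy'⟩, ht2⟩ := hω'
    have hs : ω.1.1 = ω'.1.1 := by
      funext i
      by_cases hi : i ∈ U
      · obtain ⟨q, -, rfl⟩ := Finset.mem_image.1 hi
        have e1 : ω.1.1 (t q) = y q.1 q.2 := by
          rw [← hy, ← ht1]; rfl
        have e2 : ω'.1.1 (t q) = y q.1 q.2 := by
          rw [← hy', ← ht2]; rfl
        rw [e1, e2]
      · exact congrFun hh ⟨i, hi⟩
    have hπ : ω.2 = ω'.2 := by
      ext i
      have e1 : τ ω (i, ⟨0, hr⟩) = τ ω' (i, ⟨0, hr⟩) := by rw [ht1, ht2]
      simp only [τ] at e1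
      rw [← hs] at e1
      exact congrArg _ (D.inj ω.1.1 ω.1.2 _ _ _ _ e1).1
    exact Prod.ext (Subtype.ext hs) hπ
  refine h1.trans ?_
  rw [mul_comm]
  refine Nat.mul_le_mul_right _ ?_
  calc (F.image τ).card ≤ Fintype.card (Fin m × Fin r → Fin n) := by
        rw [← Finset.card_univ]; exact Finset.card_le_card (Finset.subset_univ _)
    _ = n ^ (m * r) := by simp

/-- The total budget. -/
def L : ℝ := Real.log ((n : ℝ) ^ (m * r) * (Fintype.card X : ℝ) ^ n
  / (D.S.card * (m.factorial : ℝ)))

include D in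
lemma mr_le : m * r ≤ n := by
  obtain ⟨s, hs⟩ := D.ne
  have : Function.Injective (fun q : Fin m × Fin r => D.e s q.1 q.2) := by
    intro q q' h
    have := D.inj s hs _ _ _ _ h
    exact Prod.ext this.1 this.2
  have := Fintype.card_le_of_injective _ this
  simpa using this

lemma g_top (hr : 1 ≤ r) (hX : 0 < Fintype.card X) :
    m * (r * Real.log (Fintype.card X)) - D.L ≤ D.g m := by
  have hS : (0 : ℝ) < D.S.card := by exact_mod_cast D.ne.card_pos
  have hf : (0 : ℝ) < m.factorial := by exact_mod_cast Nat.factorial_pos m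
  have hXr : (0 : ℝ) < Fintype.card X := by exact_mod_cast hX
  have hmr := D.mr_le
  have hn : n = 0 → m * r = 0 := by omega
  have hnr : (0 : ℝ) < (n : ℝ) ^ (m * r) := by
    rcases Nat.eq_zero_or_pos n with h | h
    · rw [hn h]; simp
    · positivity
  set B : ℝ := (n : ℝ) ^ (m * r) * (Fintype.card X : ℝ) ^ (n - m * r)
    / (D.S.card * (m.factorial : ℝ)) with hB
  have hb : ∀ v, D.P.p (D.R (T m m)) v ≤ B := by
    intro v
    have hcount : D.P.p (D.R (T m m)) v
        = (Finset.univ.filter (fun ω : D.Om => D.R (T m m) ω = v)).card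
          / (D.S.card * (m.factorial : ℝ)) := by
      have e1 : D.P.p (D.R (T m m)) v
          = ∑ ω ∈ Finset.univ.filter (fun ω : D.Om => D.R (T m m) ω = v), D.P.w ω := by
        rw [Finset.sum_filter]
        unfold FinProb.p
        refine Finset.sum_congr rfl fun ω _ => ?_
        congr
      rw [e1]
      simp only [P_w]
      rw [Finset.sum_const, nsmul_eq_mul, card_Om, mul_one_div]
    rw [hcount, hB]
    refine div_le_div_of_nonneg_right ?_ (by positivity)
    rcases (Finset.univ.filter (fun ω : D.Om => D.R (T m m) ω = v)).eq_empty_or_nonempty with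
      he | ⟨ω₀, hω₀⟩
    · rw [he]; simp only [Finset.card_empty, Nat.cast_zero]; positivity
    · have hsub : Finset.univ.filter (fun ω : D.Om => D.R (T m m) ω = v)
          ⊆ Finset.univ.filter (fun ω : D.Om => D.W ω = D.W ω₀) := by
        intro ω hω
        simp only [Finset.mem_filter, Finset.mem_univ, true_and] at hω hω₀ ⊢
        have := (D.R_eq_iff _ _ _).1 (hω.trans hω₀.symm)
        funext i
        exact this i (by simp [T])
      have h2 := (Finset.card_le_card hsub).trans (D.card_full_le hr (D.W ω₀))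
      exact_mod_cast h2
  have h3 := D.P.neg_log_le_H (D.R (T m m)) B hb
  refine le_trans (le_of_eq ?_) h3
  have hpow : (Fintype.card X : ℝ) ^ n
      = (Fintype.card X : ℝ) ^ (n - m * r) * (Fintype.card X : ℝ) ^ (m * r) := by
    rw [← pow_add]; congr 1; omega
  have hL : D.L = Real.log B + m * (r * Real.log (Fintype.card X)) := by
    unfold L
    have : (n : ℝ) ^ (m * r) * (Fintype.card X : ℝ) ^ n / (D.S.card * (m.factorial : ℝ))
        = B * (Fintype.card X : ℝ) ^ (m * r) := by
      rw [hB, hpow]; ring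
    rw [this, Real.log_mul (by positivity) (by positivity), Real.log_pow]
    push_cast
    ring
  rw [hL]
  ring

lemma sum_kap_le (hr : 1 ≤ r) (hX : 0 < Fintype.card X) :
    ∑ i ∈ Finset.range m, D.kap i ≤ D.L := by
  have := D.g_top hr hX
  rw [D.sum_kap]
  linarith

lemma kap_J_le (hr : 1 ≤ r) (hX : 0 < Fintype.card X) {J : ℕ} (hJ : J < m) :
    D.kap J ≤ D.L / ((m - J : ℕ) : ℝ) := by
  have h1 : ∑ i ∈ Finset.Ico J m, D.kap i ≤ D.L := by
    refine le_trans ?_ (D.sum_kap_le hr hX)
    refine Finset.sum_le_sum_of_subset_of_nonneg ?_ ?_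
    · intro i hi
      simp only [Finset.mem_Ico, Finset.mem_range] at *
      omega
    · intro i hi _
      exact D.kap_nonneg (Finset.mem_range.1 hi)
  have h2 : ((m - J : ℕ) : ℝ) * D.kap J ≤ ∑ i ∈ Finset.Ico J m, D.kap i := by
    have := Finset.card_nsmul_le_sum (Finset.Ico J m) D.kap (D.kap J) (by
      intro i hi
      rw [Finset.mem_Ico] at hi
      exact D.kap_le hi.1 hi.2)
    simpa using this
  have h3 : (0 : ℝ) < ((m - J : ℕ) : ℝ) := by
    have : 0 < m - J := by omega
    exact_mod_cast this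
  rw [le_div_iff₀ h3]
  linarith

/-- There is a time at which two fresh tuples are almost conditionally independent. -/
lemma exists_time (hr : 1 ≤ r) (hX : 0 < Fintype.card X) {J : ℕ} (hJ0 : 0 < J) (hJ : J < m) :
    ∃ j < J, D.kap j ≤ D.L / ((m - J : ℕ) : ℝ) ∧
      2 * D.g (j + 1) - D.g (j + 2) - D.g j ≤ D.L / (J * ((m - J : ℕ) : ℝ)) := by
  have hk := D.kap_J_le hr hX hJ
  have h3 : (0 : ℝ) < ((m - J : ℕ) : ℝ) := by
    have : 0 < m - J := by omega
    exact_mod_cast this
  have hJr : (0 : ℝ) < J := by exact_mod_cast hJ0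
  have htel : ∑ j ∈ Finset.range J, (D.kap (j + 1) - D.kap j) = D.kap J - D.kap 0 :=
    Finset.sum_range_sub D.kap J
  have h0 := D.kap_zero (by omega)
  by_contra hcon
  push Not at hcon
  have h5 : ∀ j ∈ Finset.range J, D.L / (J * ((m - J : ℕ) : ℝ)) < D.kap (j + 1) - D.kap j := by
    intro j hj
    rw [Finset.mem_range] at hj
    have := hcon j hj ((D.kap_le hj.le hJ).trans hk)
    refine this.trans_le (le_of_eq ?_)
    unfold kap
    have e : D.g (j + 1 + 1) = D.g (j + 2) := rfl
    rw [e]
    ring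
  have h6 := Finset.sum_lt_sum_of_nonempty (by simpa using hJ0.ne') h5
  rw [htel, Finset.sum_const, Finset.card_range, nsmul_eq_mul] at h6
  have h7 : (J : ℝ) * (D.L / (J * ((m - J : ℕ) : ℝ))) = D.L / ((m - J : ℕ) : ℝ) := by
    field_simp
  rw [h7] at h6
  linarith

end Samp

end Vale.Agent.P060.HW
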