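import Mathlib

/-! Sequential exposure: events `E i` which depend on the coordinates up to `i` and have small
conditional probability given the earlier coordinates. -/

namespace Vale.Agent.P060.HW

open Finset

section Expose

variable {ι V : Type*} [Fintype ι] [LinearOrder ι] [Fintype V]

/-- Resampling one coordinate. -/
def resampleE (i : ι) : (ι → V) × V ≃ (ι → V) × V where
  toFun q := (Function.update q.1 i q.2, q.1 i)
  invFun q := (Function.update q.1 i q.2, q.1 i)
  left_inv q := by
    ext1
    · simp
    · simp
  right_inv q := by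
    ext1
    · simp
    · simp

theorem sum_resampleE {M : Type*} [AddCommMonoid M] (i : ι) (f : (ι → V) → M) :
    ∑ p : ι → V, ∑ v : V, f (Function.update p i v) = Fintype.card V • ∑ p : ι → V, f p := by
  rw [← Fintype.sum_prod_type' (f := fun (p : ι → V) (v : V) => f (Function.update p i v))]
  rw [Fintype.sum_equiv (resampleE i) (fun q : (ι → V) × V => f (Function.update q.1 i q.2))
    (fun q => f q.1) fun q => rfl]
  rw [Fintype.sum_prod_type]
  simp only [Finset.sum_const, Finset.card_univ, ← Finset.smul_sum]

open Classical in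
/-- All events of a fixed set of indices. -/
theorem card_forall_le {E : ι → (ι → V) → Prop}
    (hE : ∀ i p p', (∀ j, j ≤ i → p j = p' j) → (E i p ↔ E i p')) {κ : ℝ} (hκ : 0 ≤ κ)
    (hc : ∀ i p, ((univ.filter fun v : V => E i (Function.update p i v)).card : ℝ) ≤
      κ * Fintype.card V) (T : Finset ι) :
    ((univ.filter fun p : ι → V => ∀ i ∈ T, E i p).card : ℝ) ≤
      κ ^ T.card * (Fintype.card V : ℝ) ^ Fintype.card ι := by
  rcases isEmpty_or_nonempty V with hV | hV
  · rcases isEmpty_or_nonempty ι with hι | hι
    · have hT : T = ∅ := Finset.eq_empty_of_isEmpty T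
      subst hT
      simp
    · have h0 : ((univ.filter fun p : ι → V => ∀ i ∈ T, E i p).card : ℝ) = 0 := by
        rw [Nat.cast_eq_zero, Finset.card_eq_zero, Finset.eq_empty_iff_forall_notMem]
        intro p _
        exact hV.elim (p hι.some)
      rw [h0]
      positivity
  have hVpos : (0 : ℝ) < Fintype.card V := Nat.cast_pos.mpr Fintype.card_pos
  induction T using Finset.induction_on_max with
  | empty => simp
  | insert a s has ih =>
    have ha : a ∉ s := fun h => lt_irrefl _ (has a h)
    rw [Finset.card_insert_of_notMem ha, pow_succ]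
    -- indicator form
    have h1 : (((univ.filter fun p : ι → V => ∀ i ∈ insert a s, E i p).card : ℝ)) =
        ∑ p : ι → V, (if ∀ i ∈ s, E i p then (1 : ℝ) else 0) * (if E a p then (1 : ℝ) else 0) := by
      rw [Finset.card_filter, Nat.cast_sum]
      refine Finset.sum_congr rfl fun p _ => ?_
      by_cases h2 : E a p <;> by_cases h3 : ∀ i ∈ s, E i p
      · rw [if_pos h2, if_pos h3, if_pos]
        · simp
        · intro i hi
          rcases Finset.mem_insert.mp hi with rfl | hi
          · exact h2
          · exact h3 i hi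
      · rw [if_neg h3, zero_mul, if_neg]
        · simp
        · exact fun h => h3 fun i hi => h i (Finset.mem_insert_of_mem hi)
      · rw [if_neg h2, mul_zero, if_neg]
        · simp
        · exact fun h => h2 (h a (Finset.mem_insert_self _ _))
      · rw [if_neg h2, mul_zero, if_neg]
        · simp
        · exact fun h => h2 (h a (Finset.mem_insert_self _ _))
    have h4 := sum_resampleE (V := V) a fun p : ι → V =>
      (if ∀ i ∈ s, E i p then (1 : ℝ) else 0) * (if E a p then (1 : ℝ) else 0)
    have h5 : ∀ p : ι → V, ∑ v : V,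
        ((if ∀ i ∈ s, E i (Function.update p a v) then (1 : ℝ) else 0) *
          (if E a (Function.update p a v) then (1 : ℝ) else 0)) ≤
        (if ∀ i ∈ s, E i p then (1 : ℝ) else 0) * (κ * Fintype.card V) := by
      intro p
      have h6 : ∀ v : V, (∀ i ∈ s, E i (Function.update p a v)) ↔ ∀ i ∈ s, E i p := by
        intro v
        refine forall₂_congr fun i hi => hE i _ _ fun j hj => ?_
        exact Function.update_of_ne (ne_of_lt (lt_of_le_of_lt hj (has i hi))) _ _
      simp only [h6]
      rw [← Finset.mul_sum]
      refine mul_le_mul_of_nonneg_left ?_ (by split_ifs <;> norm_num)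
      rw [Finset.sum_boole]
      exact hc a p
    have h7 : (Fintype.card V : ℝ) * (((univ.filter fun p : ι → V =>
        ∀ i ∈ insert a s, E i p).card : ℝ)) ≤
        (Fintype.card V : ℝ) * (κ ^ s.card * κ * (Fintype.card V : ℝ) ^ Fintype.card ι) := by
      rw [h1, ← nsmul_eq_mul, ← h4]
      refine (Finset.sum_le_sum fun p _ => h5 p).trans ?_
      rw [← Finset.sum_mul]
      have h8 : ∑ p : ι → V, (if ∀ i ∈ s, E i p then (1 : ℝ) else 0) =
          ((univ.filter fun p : ι → V => ∀ i ∈ s, E i p).card : ℝ) := by
        rw [Finset.sum_boole]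
      rw [h8]
      calc ((univ.filter fun p : ι → V => ∀ i ∈ s, E i p).card : ℝ) * (κ * Fintype.card V)
          ≤ (κ ^ s.card * (Fintype.card V : ℝ) ^ Fintype.card ι) * (κ * Fintype.card V) :=
            mul_le_mul_of_nonneg_right ih (mul_nonneg hκ hVpos.le)
        _ = (Fintype.card V : ℝ) * (κ ^ s.card * κ * (Fintype.card V : ℝ) ^ Fintype.card ι) := by
            ring
    exact le_of_mul_le_mul_left h7 hVpos

open Classical in
/-- Many events. -/
theorem card_many_le {E : ι → (ι → V) → Prop}
    (hE : ∀ i p p', (∀ j, j ≤ i → p j = p' j) → (E i p ↔ E i p')) {κ : ℝ} (hκ : 0 ≤ κ)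
    (hc : ∀ i p, ((univ.filter fun v : V => E i (Function.update p i v)).card : ℝ) ≤
      κ * Fintype.card V) (n : ℕ) :
    ((univ.filter fun p : ι → V => n ≤ (univ.filter fun i => E i p).card).card : ℝ) ≤
      2 ^ Fintype.card ι * κ ^ n * (Fintype.card V : ℝ) ^ Fintype.card ι := by
  have h1 : (univ.filter fun p : ι → V => n ≤ (univ.filter fun i => E i p).card) ⊆
      (powersetCard n (univ : Finset ι)).biUnion fun T =>
        univ.filter fun p : ι → V => ∀ i ∈ T, E i p := by
    intro p hp
    obtain ⟨T, hT, hTc⟩ := Finset.exists_subset_card_eq (Finset.mem_filter.mp hp).2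
    rw [Finset.mem_biUnion]
    refine ⟨T, Finset.mem_powersetCard.mpr ⟨Finset.subset_univ _, hTc⟩, ?_⟩
    exact Finset.mem_filter.mpr ⟨mem_univ _, fun i hi => (Finset.mem_filter.mp (hT hi)).2⟩
  calc ((univ.filter fun p : ι → V => n ≤ (univ.filter fun i => E i p).card).card : ℝ)
      ≤ (((powersetCard n (univ : Finset ι)).biUnion fun T =>
        univ.filter fun p : ι → V => ∀ i ∈ T, E i p).card : ℝ) := by
        exact_mod_cast Finset.card_le_card h1
    _ ≤ ∑ T ∈ powersetCard n (univ : Finset ι),
        ((univ.filter fun p : ι → V => ∀ i ∈ T, E i p).card : ℝ) := by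
        exact_mod_cast Finset.card_biUnion_le
    _ ≤ ∑ _T ∈ powersetCard n (univ : Finset ι),
        κ ^ n * (Fintype.card V : ℝ) ^ Fintype.card ι := by
        refine Finset.sum_le_sum fun T hT => ?_
        have := card_forall_le hE hκ hc T
        rwa [(Finset.mem_powersetCard.mp hT).2] at this
    _ = ((Fintype.card ι).choose n : ℝ) * (κ ^ n * (Fintype.card V : ℝ) ^ Fintype.card ι) := by
        rw [Finset.sum_const, Finset.card_powersetCard, nsmul_eq_mul, Finset.card_univ]
    _ ≤ 2 ^ Fintype.card ι * (κ ^ n * (Fintype.card V : ℝ) ^ Fintype.card ι) := by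
        refine mul_le_mul_of_nonneg_right ?_ (by positivity)
        exact_mod_cast Nat.choose_le_two_pow _ _
    _ = 2 ^ Fintype.card ι * κ ^ n * (Fintype.card V : ℝ) ^ Fintype.card ι := by ring

end Expose

end Vale.Agent.P060.HW
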