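import Mathlib

/-!
# P060/HW: Fourier analysis on finite dual pairs, projection on spans, three pasts lemma

`CharSys X G` : a finite dual pair: `X` an additive group of labels, `G` a finite set,
`e x g` unimodular, multiplicative in `x`, and `𝔼 g, e x g = 0` for `x ≠ 0`.
-/

open Finset
open scoped BigOperators ComplexConjugate

namespace Vale.Agent.P060.HW

/-- A finite dual pair. -/
structure CharSys (X G : Type*) [AddCommGroup X] [Fintype G] where
  e : X → G → ℂ
  add : ∀ x y g, e (x + y) g = e x g * e y g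
  norm : ∀ x g, ‖e x g‖ = 1
  orth : ∀ x, x ≠ 0 → 𝔼 g, e x g = 0

namespace CharSys

variable {X G : Type*} [AddCommGroup X] [Fintype G] (S : CharSys X G)

lemma e_ne (x : X) (g : G) : S.e x g ≠ 0 := by
  intro h
  have := S.norm x g
  rw [h, norm_zero] at this
  exact zero_ne_one this

lemma e_zero (g : G) : S.e 0 g = 1 := by
  have h := S.add 0 0 g
  rw [add_zero] at h
  have h2 := S.e_ne 0 g
  exact (mul_left_cancel₀ h2 (by rw [mul_one]; exact h)).symm

lemma conj_e (x : X) (g : G) : conj (S.e x g) = S.e (-x) g := by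
  have h := S.add x (-x) g
  rw [add_neg_cancel, S.e_zero] at h
  have h2 : S.e x g * conj (S.e x g) = 1 := by
    rw [Complex.mul_conj, Complex.normSq_eq_norm_sq, S.norm]; norm_num
  exact mul_left_cancel₀ (S.e_ne x g) (h2.trans h)

lemma e_mul_conj (x y : X) (g : G) : S.e x g * conj (S.e y g) = S.e (x - y) g := by
  rw [S.conj_e, ← S.add, sub_eq_add_neg]

lemma norm_conj (x : X) (g : G) : ‖conj (S.e x g)‖ = 1 := by
  rw [RCLike.norm_conj, S.norm]

/-- Fourier coefficient. -/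
noncomputable def coef (f : G → ℂ) (x : X) : ℂ := 𝔼 g, f g * conj (S.e x g)

lemma orth' [Nonempty G] [DecidableEq X] (x y : X) :
    𝔼 g, S.e x g * conj (S.e y g) = if x = y then 1 else 0 := by
  simp only [S.e_mul_conj]
  split_ifs with h
  · subst h
    simp [sub_self, S.e_zero]
  · exact S.orth _ (sub_ne_zero.mpr h)

lemma norm_coef_le (f : G → ℂ) (x : X) : ‖S.coef f x‖ ≤ 𝔼 g, ‖f g‖ := by
  unfold coef
  refine (RCLike.norm_expect_le (K := ℂ)).trans (le_of_eq ?_)
  refine expect_congr rfl fun g _ => ?_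
  rw [norm_mul, S.norm_conj, mul_one]

lemma coef_sub (f h : G → ℂ) (x : X) :
    S.coef (fun g => f g - h g) x = S.coef f x - S.coef h x := by
  unfold coef
  rw [← expect_sub_distrib]
  refine expect_congr rfl fun g _ => ?_
  ring

lemma coef_sum [Nonempty G] {s : Finset X} (a : X → ℂ) (x : X) [Decidable (x ∈ s)] :
    S.coef (fun g => ∑ y ∈ s, a y * S.e y g) x = if x ∈ s then a x else 0 := by
  classical
  unfold coef
  have : ∀ g, (∑ y ∈ s, a y * S.e y g) * conj (S.e x g)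
      = ∑ y ∈ s, a y * (S.e y g * conj (S.e x g)) := by
    intro g
    rw [Finset.sum_mul]
    exact Finset.sum_congr rfl fun y _ => by ring
  rw [expect_congr rfl fun g _ => this g, expect_sum_comm]
  have h2 : ∀ y ∈ s, 𝔼 g, a y * (S.e y g * conj (S.e x g)) = if y = x then a y else 0 := by
    intro y _
    rw [← mul_expect, S.orth']
    split_ifs <;> simp
  rw [Finset.sum_congr rfl h2, Finset.sum_ite_eq' s x a]
  split_ifs <;> rfl

/-- Parseval for finite sums. -/
lemma parseval [Nonempty G] (s : Finset X) (a : X → ℂ) :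
    𝔼 g, ‖∑ y ∈ s, a y * S.e y g‖ ^ 2 = ∑ y ∈ s, ‖a y‖ ^ 2 := by
  classical
  have h1 : ((𝔼 g, ‖∑ y ∈ s, a y * S.e y g‖ ^ 2 : ℝ) : ℂ) = ((∑ y ∈ s, ‖a y‖ ^ 2 : ℝ) : ℂ) := by
    rw [Complex.ofReal_expect, Complex.ofReal_sum]
    have : ∀ g, ((‖∑ y ∈ s, a y * S.e y g‖ ^ 2 : ℝ) : ℂ)
        = ∑ x ∈ s, conj (a x) * ((∑ y ∈ s, a y * S.e y g) * conj (S.e x g)) := by
      intro g
      rw [Complex.ofReal_pow, ← Complex.mul_conj', map_sum, Finset.mul_sum]
      refine Finset.sum_congr rfl fun x _ => ?_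
      rw [map_mul]; ring
    rw [expect_congr rfl fun g _ => this g, expect_sum_comm]
    refine Finset.sum_congr rfl fun x hx => ?_
    rw [← mul_expect]
    have := S.coef_sum (s := s) a x
    unfold coef at this
    rw [this, if_pos hx, mul_comm, Complex.mul_conj']
    norm_cast
  exact_mod_cast h1

end CharSys

lemma expect_le_sqrt {G : Type*} [Fintype G] [Nonempty G] (u : G → ℝ) :
    𝔼 g, u g ≤ Real.sqrt (𝔼 g, u g ^ 2) := by
  apply Real.le_sqrt_of_sq_le
  have h : 0 ≤ 𝔼 g, (u g - 𝔼 g, u g) ^ 2 := expect_nonneg fun _ _ => sq_nonneg _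
  have h2 : 𝔼 g, (u g - 𝔼 g, u g) ^ 2 = 𝔼 g, u g ^ 2 - (𝔼 g, u g) ^ 2 := by
    set c := 𝔼 g, u g with hc
    have : ∀ g, (u g - c) ^ 2 = u g ^ 2 - (2 * c) * u g + c ^ 2 := fun g => by ring
    rw [expect_congr rfl fun g _ => this g, expect_add_distrib, expect_sub_distrib, ← mul_expect,
      Fintype.expect_const, ← hc]
    ring
  rw [h2] at h
  linarith


namespace CharSys

variable {X G : Type*} [AddCommGroup X] [Fintype G] (S : CharSys X G)

/-- Projection on a finite set of labels. -/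
noncomputable def proj (P : Finset X) (f : G → ℂ) (g : G) : ℂ := ∑ x ∈ P, S.coef f x * S.e x g

/-- Reproducing kernel. -/
noncomputable def ker (P : Finset X) (g g' : G) : ℂ := ∑ x ∈ P, S.e x g * conj (S.e x g')

lemma proj_eq (P : Finset X) (f : G → ℂ) (g : G) :
    S.proj P f g = 𝔼 g', f g' * S.ker P g g' := by
  unfold proj ker coef
  have : ∀ g', f g' * ∑ x ∈ P, S.e x g * conj (S.e x g')
      = ∑ x ∈ P, (f g' * conj (S.e x g')) * S.e x g := by
    intro g'
    rw [Finset.mul_sum]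
    exact Finset.sum_congr rfl fun x _ => by ring
  rw [expect_congr rfl fun g' _ => this g', expect_sum_comm]
  exact Finset.sum_congr rfl fun x _ => by rw [← expect_mul]

lemma ker_eq_norm (P : AddSubgroup X) (Q : Finset X) (hQ : ∀ x, x ∈ Q ↔ x ∈ P) (g g' : G) :
    S.ker Q g g' = (‖S.ker Q g g'‖ : ℂ) := by
  classical
  set c : X → ℂ := fun x => S.e x g * conj (S.e x g') with hc
  have hadd : ∀ x y, c (x + y) = c x * c y := by
    intro x y
    simp only [hc, S.add, map_mul]; ring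
  have hk : S.ker Q g g' = ∑ x ∈ Q, c x := rfl
  by_cases h : ∀ x ∈ Q, c x = 1
  · rw [hk, Finset.sum_congr rfl h]
    simp
  · push Not at h
    obtain ⟨x0, hx0, hx1⟩ := h
    have : ∑ x ∈ Q, c x = c x0 * ∑ x ∈ Q, c x := by
      rw [Finset.mul_sum]
      refine Finset.sum_nbij' (fun x => x - x0) (fun x => x0 + x) ?_ ?_ ?_ ?_ ?_
      · intro x hx
        rw [hQ] at hx hx0 ⊢
        exact P.sub_mem hx hx0
      · intro x hx
        rw [hQ] at hx hx0 ⊢
        exact P.add_mem hx0 hx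
      · intro x _; abel
      · intro x _; abel
      · intro x _
        rw [← hadd, add_sub_cancel]
    have h0 : (1 - c x0) * ∑ x ∈ Q, c x = 0 := by
      rw [sub_mul, one_mul, ← this, sub_self]
    rcases mul_eq_zero.mp h0 with h1 | h1
    · exact absurd (sub_eq_zero.mp h1).symm hx1
    · rw [hk, h1]; simp

lemma expect_norm_ker [Nonempty G] (P : AddSubgroup X) (Q : Finset X) (hQ : ∀ x, x ∈ Q ↔ x ∈ P) (g' : G) :
    𝔼 g, ‖S.ker Q g g'‖ = 1 := by
  classical
  have h1 : ((𝔼 g, ‖S.ker Q g g'‖ : ℝ) : ℂ) = 1 := by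
    rw [Complex.ofReal_expect, expect_congr rfl fun g _ => (S.ker_eq_norm P Q hQ g g').symm]
    unfold ker
    rw [expect_sum_comm]
    have : ∀ x ∈ Q, 𝔼 g, S.e x g * conj (S.e x g') = if x = 0 then 1 else 0 := by
      intro x _
      rw [← expect_mul]
      split_ifs with h
      · subst h
        simp [S.e_zero]
      · rw [S.orth x h, zero_mul]
    rw [Finset.sum_congr rfl this, Finset.sum_ite_eq' Q 0, if_pos]
    rw [hQ]; exact P.zero_mem
  exact_mod_cast h1

lemma expect_norm_proj_le [Nonempty G] (P : AddSubgroup X) (Q : Finset X) (hQ : ∀ x, x ∈ Q ↔ x ∈ P)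
    (f : G → ℂ) : 𝔼 g, ‖S.proj Q f g‖ ≤ 𝔼 g, ‖f g‖ := by
  have h1 : ∀ g, ‖S.proj Q f g‖ ≤ 𝔼 g', ‖f g'‖ * ‖S.ker Q g g'‖ := by
    intro g
    rw [proj_eq]
    refine (RCLike.norm_expect_le (K := ℂ)).trans (le_of_eq ?_)
    exact expect_congr rfl fun g' _ => norm_mul _ _
  calc 𝔼 g, ‖S.proj Q f g‖ ≤ 𝔼 g, 𝔼 g', ‖f g'‖ * ‖S.ker Q g g'‖ :=
        expect_le_expect fun g _ => h1 g
    _ = 𝔼 g', 𝔼 g, ‖f g'‖ * ‖S.ker Q g g'‖ := expect_comm _ _ _
    _ = 𝔼 g', ‖f g'‖ := by
        refine expect_congr rfl fun g' _ => ?_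
        rw [← mul_expect, S.expect_norm_ker P Q hQ, mul_one]

lemma proj_sub (Q : Finset X) (f h : G → ℂ) (g : G) :
    S.proj Q (fun g => f g - h g) g = S.proj Q f g - S.proj Q h g := by
  unfold proj
  rw [← Finset.sum_sub_distrib]
  exact Finset.sum_congr rfl fun x _ => by rw [S.coef_sub]; ring

lemma proj_sum [Nonempty G] (T Q : Finset X) (hTQ : T ⊆ Q) (a : X → ℂ) (g : G) :
    S.proj Q (fun g => ∑ y ∈ T, a y * S.e y g) g = ∑ y ∈ T, a y * S.e y g := by
  classical
  unfold proj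
  have : ∀ x ∈ Q, S.coef (fun g => ∑ y ∈ T, a y * S.e y g) x * S.e x g
      = if x ∈ T then a x * S.e x g else 0 := by
    intro x _
    rw [S.coef_sum]
    split_ifs <;> simp
  rw [Finset.sum_congr rfl this, Finset.sum_ite_mem, Finset.inter_eq_right.mpr hTQ]

/-- A function which is `L¹`-close to a function of small Fourier weight is close to a sum of
boundedly many characters. -/
theorem sparse_close [Nonempty G] [Fintype X]
    (f : G → ℂ) (a : X → ℂ) {m W p t : ℝ} (hm : 0 ≤ m) (hp : 0 < p)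
    (hW : ∑ x, ‖a x‖ ≤ W * m) (ht : 𝔼 g, ‖f g - ∑ x, a x * S.e x g‖ ≤ t) :
    ∃ T : Finset X, T.card ≤ ⌊W / p⌋₊ ∧
      𝔼 g, ‖f g - ∑ x ∈ T, a x * S.e x g‖ ≤ t + m * Real.sqrt (p * W) := by
  classical
  set T : Finset X := univ.filter fun x => p * m < ‖a x‖ with hT
  have hcard : T.card ≤ ⌊W / p⌋₊ := by
    have h1 : (T.card : ℝ) * (p * m) ≤ W * m := by
      calc (T.card : ℝ) * (p * m) = ∑ x ∈ T, (p * m) := by rw [Finset.sum_const, nsmul_eq_mul]
        _ ≤ ∑ x ∈ T, ‖a x‖ := Finset.sum_le_sum fun x hx => by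
            rw [hT, Finset.mem_filter] at hx; exact hx.2.le
        _ ≤ ∑ x, ‖a x‖ := Finset.sum_le_sum_of_subset_of_nonneg (Finset.subset_univ _)
            fun _ _ _ => norm_nonneg _
        _ ≤ W * m := hW
    rcases hm.eq_or_lt with h0 | h0
    · have : T = ∅ := by
        rw [hT, Finset.filter_eq_empty_iff]
        intro x _
        have h2 : ‖a x‖ ≤ ∑ x, ‖a x‖ :=
          Finset.single_le_sum (f := fun x => ‖a x‖) (fun _ _ => norm_nonneg _) (Finset.mem_univ x)
        have h3 := h2.trans hW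
        rw [← h0, mul_zero] at h3
        rw [← h0, mul_zero]
        exact not_lt.mpr h3
      rw [this]; simp
    · apply Nat.le_floor
      rw [le_div_iff₀ hp]
      have : ((T.card : ℝ) * p) * m ≤ W * m := by linarith
      exact le_of_mul_le_mul_right this h0
  refine ⟨T, hcard, ?_⟩
  set hT' : G → ℂ := fun g => ∑ y ∈ T, a y * S.e y g with hhT
  have hsplit : ∀ g, ∑ x, a x * S.e x g - hT' g = ∑ x ∈ univ \ T, a x * S.e x g := by
    intro g
    rw [hhT, sub_eq_iff_eq_add]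
    exact (Finset.sum_sdiff (Finset.subset_univ T)).symm
  have hsmall : 𝔼 g, ‖∑ x, a x * S.e x g - hT' g‖ ≤ m * Real.sqrt (p * W) := by
    refine (expect_le_sqrt _).trans ?_
    have h1 : 𝔼 g, ‖∑ x, a x * S.e x g - hT' g‖ ^ 2 = ∑ x ∈ univ \ T, ‖a x‖ ^ 2 := by
      rw [← S.parseval]
      exact expect_congr rfl fun g _ => by rw [hsplit]
    rw [h1]
    have h2 : ∑ x ∈ univ \ T, ‖a x‖ ^ 2 ≤ m ^ 2 * (p * W) := by
      calc ∑ x ∈ univ \ T, ‖a x‖ ^ 2 ≤ ∑ x ∈ univ \ T, (p * m) * ‖a x‖ := by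
            refine Finset.sum_le_sum fun x hx => ?_
            have : ‖a x‖ ≤ p * m := by
              rw [hT] at hx
              simp at hx
              exact hx
            rw [sq]
            exact mul_le_mul_of_nonneg_right this (norm_nonneg _)
        _ ≤ ∑ x, (p * m) * ‖a x‖ := Finset.sum_le_sum_of_subset_of_nonneg (Finset.subset_univ _)
            fun _ _ _ => mul_nonneg (mul_nonneg hp.le hm) (norm_nonneg _)
        _ = (p * m) * ∑ x, ‖a x‖ := by rw [Finset.mul_sum]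
        _ ≤ (p * m) * (W * m) := mul_le_mul_of_nonneg_left hW (mul_nonneg hp.le hm)
        _ = m ^ 2 * (p * W) := by ring
    calc Real.sqrt (∑ x ∈ univ \ T, ‖a x‖ ^ 2) ≤ Real.sqrt (m ^ 2 * (p * W)) :=
          Real.sqrt_le_sqrt h2
      _ = m * Real.sqrt (p * W) := by rw [Real.sqrt_mul (sq_nonneg m), Real.sqrt_sq hm]
  calc 𝔼 g, ‖f g - hT' g‖ ≤ 𝔼 g, (‖f g - ∑ x, a x * S.e x g‖
        + ‖∑ x, a x * S.e x g - hT' g‖) := expect_le_expect fun g _ => by
          have := norm_add_le (f g - ∑ x, a x * S.e x g) (∑ x, a x * S.e x g - hT' g)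
          rwa [sub_add_sub_cancel] at this
    _ = 𝔼 g, ‖f g - ∑ x, a x * S.e x g‖ + 𝔼 g, ‖∑ x, a x * S.e x g - hT' g‖ :=
        expect_add_distrib _ _ _
    _ ≤ _ := add_le_add ht hsmall

/-- A function which is `L¹`-close to a function of small Fourier weight is close to its projection
on a bounded subspace of labels. -/
theorem proj_close [Nonempty G] {K : Type*} [Field K] [Fintype K] [Module K X] [Fintype X]
    (f : G → ℂ) (a : X → ℂ) {m W p t : ℝ} (hm : 0 ≤ m) (hp : 0 < p)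
    (hW : ∑ x, ‖a x‖ ≤ W * m) (ht : 𝔼 g, ‖f g - ∑ x, a x * S.e x g‖ ≤ t) :
    ∃ Q : Finset X, Q.card ≤ Fintype.card K ^ ⌊W / p⌋₊ ∧ 0 ∈ Q ∧
      𝔼 g, ‖f g - S.proj Q f g‖ ≤ 2 * (t + m * Real.sqrt (p * W)) := by
  classical
  obtain ⟨T, hcard, hclose⟩ := S.sparse_close f a hm hp hW ht
  set P : Submodule K X := Submodule.span K (T : Set X) with hP
  set Q : Finset X := univ.filter fun x => x ∈ P with hQ
  have hQP : ∀ x, x ∈ Q ↔ x ∈ P.toAddSubgroup := by
    intro x
    rw [hQ, Finset.mem_filter]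
    simp
  have hQcard : Q.card ≤ Fintype.card K ^ ⌊W / p⌋₊ := by
    have h1 : Q.card = Fintype.card P := by
      rw [hQ, Fintype.card_subtype]
    have h2 : Module.finrank K P ≤ T.card := finrank_span_finset_le_card (R := K) T
    have h3 : Fintype.card P = Fintype.card K ^ Module.finrank K P := Module.card_eq_pow_finrank
    rw [h1, h3]
    exact Nat.pow_le_pow_right Fintype.card_pos (h2.trans hcard)
  have hTQ : T ⊆ Q := by
    intro x hx
    rw [hQ, Finset.mem_filter]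
    exact ⟨Finset.mem_univ _, Submodule.subset_span (by exact_mod_cast hx)⟩
  refine ⟨Q, hQcard, by rw [hQP]; exact zero_mem _, ?_⟩
  set hT' : G → ℂ := fun g => ∑ y ∈ T, a y * S.e y g with hhT
  calc 𝔼 g, ‖f g - S.proj Q f g‖
      ≤ 𝔼 g, (‖f g - hT' g‖ + ‖S.proj Q (fun g => f g - hT' g) g‖) := by
        refine expect_le_expect fun g _ => ?_
        have h1 : f g - S.proj Q f g = (f g - hT' g) - S.proj Q (fun g => f g - hT' g) g := by
          rw [S.proj_sub, hhT, S.proj_sum T Q hTQ]; ring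
        rw [h1]
        exact norm_sub_le _ _
    _ = 𝔼 g, ‖f g - hT' g‖ + 𝔼 g, ‖S.proj Q (fun g => f g - hT' g) g‖ := expect_add_distrib _ _ _
    _ ≤ 𝔼 g, ‖f g - hT' g‖ + 𝔼 g, ‖f g - hT' g‖ :=
        add_le_add le_rfl (S.expect_norm_proj_le P.toAddSubgroup Q hQP _)
    _ ≤ 2 * (t + m * Real.sqrt (p * W)) := by linarith

end CharSys

end Vale.Agent.P060.HW
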