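import Mathlib

/-! Facts about the field with 2521 elements and the subgroup `Y` of 18th powers:
`Y` is a symmetric multiplicative group of order 140 with `(Y + Y) ∩ Y = ∅`. -/

namespace Vale.Agent.P060.HW

theorem prime_2521 : Nat.Prime 2521 := by norm_num

instance fact_prime_2521 : Fact (Nat.Prime 2521) := ⟨prime_2521⟩

/-- The field of the construction. -/
abbrev F : Type := ZMod 2521

/-- The subgroup of 18th powers, as a finite set. -/
def Y : Finset F := Finset.univ.filter fun x => x ^ 140 = 1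

theorem mem_Y {x : F} : x ∈ Y ↔ x ^ 140 = 1 := by
  simp [Y]

theorem one_mem_Y : (1 : F) ∈ Y := by
  rw [mem_Y]; exact one_pow 140

theorem ne_zero_of_mem_Y {x : F} (h : x ∈ Y) : x ≠ 0 := by
  rw [mem_Y] at h
  intro hx
  rw [hx, zero_pow (by norm_num)] at h
  exact zero_ne_one h

theorem zero_not_mem_Y : (0 : F) ∉ Y := fun h => ne_zero_of_mem_Y h rfl

theorem mul_mem_Y {x y : F} (hx : x ∈ Y) (hy : y ∈ Y) : x * y ∈ Y := by
  rw [mem_Y] at *
  rw [mul_pow, hx, hy, one_mul]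

theorem inv_mem_Y {x : F} (hx : x ∈ Y) : x⁻¹ ∈ Y := by
  rw [mem_Y] at *
  rw [inv_pow, hx, inv_one]

theorem neg_mem_Y {x : F} (hx : x ∈ Y) : -x ∈ Y := by
  rw [mem_Y] at *
  rw [Even.neg_pow (by decide), hx]

theorem neg_mem_Y_iff {x : F} : -x ∈ Y ↔ x ∈ Y :=
  ⟨fun h => by simpa using neg_mem_Y h, neg_mem_Y⟩

theorem mul_mem_Y_iff {x y : F} (hx : x ∈ Y) : x * y ∈ Y ↔ y ∈ Y := by
  refine ⟨fun h => ?_, fun h => mul_mem_Y hx h⟩
  have := mul_mem_Y (inv_mem_Y hx) h
  rwa [← mul_assoc, inv_mul_cancel₀ (ne_zero_of_mem_Y hx), one_mul] at this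

/-- Kernel computation: for `n` below the bound, `n` and `n + 1` are not both in `Y`. -/
def chk : ℕ → Bool
  | 0 => true
  | n + 1 => (!(decide (n ^ 140 % 2521 = 1) && decide ((n + 1) ^ 140 % 2521 = 1))) && chk n

theorem chk_spec : ∀ {m : ℕ}, chk m = true → ∀ n < m, n ^ 140 % 2521 = 1 →
    (n + 1) ^ 140 % 2521 ≠ 1
  | 0, _, n, hn, _ => absurd hn (Nat.not_lt_zero n)
  | m + 1, h, n, hn, h1 => by
    rw [chk, Bool.and_eq_true] at h
    rcases Nat.lt_succ_iff_lt_or_eq.mp hn with h2 | h2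
    · exact chk_spec h.2 n h2 h1
    · subst h2
      intro h3
      have h4 := h.1
      simp [h1, h3] at h4

theorem chk_all : chk 2521 = true := by decide +kernel

theorem pow_cast (n : ℕ) : ((n : F) ^ 140 = 1) ↔ n ^ 140 % 2521 = 1 := by
  rw [← Nat.cast_pow, ← Nat.cast_one, ZMod.natCast_eq_natCast_iff']

theorem add_one_not_mem_Y {x : F} (hx : x ∈ Y) : x + 1 ∉ Y := by
  rw [mem_Y] at *
  intro h
  have hv : ((x.val : ℕ) : F) = x := ZMod.natCast_zmod_val x
  have h1 : x.val ^ 140 % 2521 = 1 := by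
    rw [← pow_cast, hv]; exact hx
  have h2 : (x.val + 1) ^ 140 % 2521 = 1 := by
    rw [← pow_cast, Nat.cast_add, Nat.cast_one, hv]; exact h
  exact chk_spec chk_all x.val (ZMod.val_lt x) h1 h2

/-- `Y` is sum-free. -/
theorem sum_free {x y : F} (hx : x ∈ Y) (hy : y ∈ Y) : x + y ∉ Y := by
  intro h
  have hy0 := ne_zero_of_mem_Y hy
  have h1 : x * y⁻¹ ∈ Y := mul_mem_Y hx (inv_mem_Y hy)
  have h2 : (x + y) * y⁻¹ ∈ Y := mul_mem_Y h (inv_mem_Y hy)
  rw [add_mul, mul_inv_cancel₀ hy0] at h2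
  exact add_one_not_mem_Y h1 h2

/-- The symmetric form: no three elements of `Y` add up to zero. -/
theorem add_add_ne_zero {x y z : F} (hx : x ∈ Y) (hy : y ∈ Y) (hz : z ∈ Y) :
    x + y + z ≠ 0 := by
  intro h
  have : x + y = -z := eq_neg_of_add_eq_zero_left h
  exact sum_free hx hy (this ▸ neg_mem_Y hz)

/-- Counts the elements of `Y` below a bound. -/
def cnt : ℕ → ℕ
  | 0 => 0
  | n + 1 => cnt n + (if n ^ 140 % 2521 = 1 then 1 else 0)

theorem cnt_spec (m : ℕ) :
    ((Finset.range m).filter fun n => n ^ 140 % 2521 = 1).card = cnt m := by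
  induction m with
  | zero => simp [cnt]
  | succ m ih =>
    rw [Finset.range_add_one, Finset.filter_insert, cnt, ← ih]
    split_ifs with h
    · rw [Finset.card_insert_of_notMem (by simp)]
    · rfl

theorem cnt_all : cnt 2521 = 140 := by decide +kernel

theorem card_Y : Y.card = 140 := by
  rw [← cnt_all, ← cnt_spec]
  refine Finset.card_bij (fun x _ => x.val) ?_ ?_ ?_
  · intro x hx
    rw [Finset.mem_filter, Finset.mem_range]
    refine ⟨ZMod.val_lt x, ?_⟩
    rw [← pow_cast, ZMod.natCast_zmod_val, ← mem_Y]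
    exact hx
  · intro x _ y _ h
    exact ZMod.val_injective _ h
  · intro n hn
    rw [Finset.mem_filter, Finset.mem_range] at hn
    refine ⟨(n : F), ?_, ZMod.val_natCast_of_lt hn.1⟩
    rw [mem_Y, pow_cast]
    exact hn.2

/-- The elements of `Y` are the nonzero 18th powers. -/
theorem pow_mem_Y {z : F} (hz : z ≠ 0) : z ^ 18 ∈ Y := by
  rw [mem_Y, ← pow_mul]
  exact ZMod.pow_card_sub_one_eq_one hz

theorem exists_pow_cyclic {G : Type*} [CommGroup G] [IsCyclic G] [Finite G] {m k : ℕ} (hm : 0 < m)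
    (hG : Nat.card G = m * k) {u : G} (hu : u ^ m = 1) : ∃ z : G, z ^ k = u := by
  obtain ⟨g, hg⟩ := IsCyclic.exists_generator (α := G)
  obtain ⟨i, hi⟩ := (Submonoid.mem_powers_iff _ _).mp ((mem_powers_iff_mem_zpowers).mpr (hg u))
  have hord : orderOf g = m * k := by rw [orderOf_eq_card_of_forall_mem_zpowers hg, hG]
  have h1 : m * k ∣ i * m := by
    rw [← hord, orderOf_dvd_iff_pow_eq_one, pow_mul, hi, hu]
  have h2 : k ∣ i := by
    rw [mul_comm i m] at h1
    exact Nat.dvd_of_mul_dvd_mul_left hm h1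
  obtain ⟨j, rfl⟩ := h2
  refine ⟨g ^ j, ?_⟩
  rw [← pow_mul, mul_comm j k, hi]

theorem exists_pow_field {K : Type*} [Field K] [Fintype K] {m k : ℕ} (hm : 0 < m)
    (hK : Fintype.card K = m * k + 1) {x : K} (hx : x ^ m = 1) : ∃ z : K, z ≠ 0 ∧ z ^ k = x := by
  classical
  have hx0 : x ≠ 0 := by
    rintro rfl
    rw [zero_pow hm.ne'] at hx
    exact zero_ne_one hx
  have hG : Nat.card Kˣ = m * k := by
    rw [Nat.card_eq_fintype_card, Fintype.card_units, hK, Nat.add_sub_cancel]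
  have hu : (Units.mk0 x hx0) ^ m = 1 := by
    apply Units.ext
    rw [Units.val_pow_eq_pow_val, Units.val_mk0, hx, Units.val_one]
  obtain ⟨z, hz⟩ := exists_pow_cyclic hm hG hu
  refine ⟨(z : K), z.ne_zero, ?_⟩
  rw [← Units.val_pow_eq_pow_val, hz, Units.val_mk0]

theorem exists_pow {x : F} (hx : x ∈ Y) : ∃ z : F, z ≠ 0 ∧ z ^ 18 = x :=
  exists_pow_field (m := 140) (by norm_num) (by rw [ZMod.card]) (mem_Y.mp hx)

end Vale.Agent.P060.HW
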