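import Vale.Agent.P060.HW.Field

/-! Further finite facts about the 18th powers `Y` in the field with 2521 elements:
coset representatives, `Y` is complete, and the cyclotomic numbers are at most 13. -/

namespace Vale.Agent.P060.HW

/-- The elements of `Y` as numbers. -/
def Ylist : List ℕ := [
    1, 28, 40, 42, 60, 63, 71, 90, 121, 125, 135, 155, 202, 208, 303, 312, 319, 349,
    358, 407, 431, 455, 461, 468, 485, 499, 512, 517, 533, 537, 553, 569, 578, 614, 628, 650,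
    702, 737, 757, 768, 772, 782, 784, 790, 793, 806, 841, 859, 867, 921, 934, 942, 975, 979,
    1028, 1053, 1058, 1073, 1079, 1108, 1120, 1152, 1154, 1158, 1166, 1173, 1176, 1185, 1209, 1259, 1262, 1312,
    1336, 1345, 1348, 1355, 1363, 1367, 1369, 1401, 1413, 1442, 1448, 1463, 1468, 1493, 1542, 1546, 1579, 1587,
    1600, 1654, 1662, 1680, 1715, 1728, 1731, 1737, 1739, 1749, 1753, 1764, 1784, 1819, 1871, 1893, 1907, 1943,
    1952, 1968, 1984, 1988, 2004, 2009, 2022, 2036, 2053, 2060, 2066, 2090, 2114, 2163, 2172, 2202, 2209, 2218,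
    2313, 2319, 2366, 2386, 2396, 2400, 2431, 2450, 2458, 2461, 2479, 2481, 2493, 2520]

theorem Ylist_eq : ((List.range 2521).filter fun n => decide (n ^ 140 % 2521 = 1)) = Ylist := by
  decide +kernel

theorem mem_Ylist {n : ℕ} : n ∈ Ylist ↔ n < 2521 ∧ n ^ 140 % 2521 = 1 := by
  rw [← Ylist_eq, List.mem_filter, List.mem_range, decide_eq_true_iff]

theorem nodup_Ylist : Ylist.Nodup := by
  rw [← Ylist_eq]
  exact List.nodup_range.filter _

/-- The values of the 140th power on the cosets of `Y`. -/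
def Lst : List ℕ := [
    1, 1970, 1081, 1846, 1338, 1415, 1845, 1889, 334, 2520, 551, 1440, 675, 1183, 1106, 676, 632, 2187]

/-- Kernel computation. -/
def chk2 : ℕ → Bool
  | 0 => true
  | n + 1 => Lst.contains ((n + 1) ^ 140 % 2521) && chk2 n

theorem chk2_spec {m : ℕ} (h : chk2 m = true) :
    ∀ n, 0 < n → n ≤ m → (Lst.contains (n ^ 140 % 2521)) = true := by
  induction m with
  | zero => intro n h0 hn; omega
  | succ m ih =>
    intro n h0 hn
    rw [chk2, Bool.and_eq_true] at h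
    rcases Nat.lt_or_ge n (m + 1) with h2 | h2
    · exact ih h.2 n h0 (by omega)
    · have h3 : n = m + 1 := by omega
      rw [h3]
      exact h.1

theorem chk2_all : chk2 2520 = true := by decide +kernel

theorem Lst_eq : Lst = (List.range 18).map fun i => (17 ^ i) ^ 140 % 2521 := by decide +kernel

theorem g_ne_zero : (17 : F) ≠ 0 := by
  intro h
  have h1 : ((17 : ℕ) : F) = ((0 : ℕ) : F) := by rw [Nat.cast_zero, ← h]; rfl
  rw [ZMod.natCast_eq_natCast_iff'] at h1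
  exact absurd h1 (by decide)

/-- Every nonzero element is a power of 17 (exponent below 18) times an element of `Y`. -/
theorem exists_coset {x : F} (hx : x ≠ 0) : ∃ i < 18, ∃ y ∈ Y, x = 17 ^ i * y := by
  have hv : ((x.val : ℕ) : F) = x := ZMod.natCast_zmod_val x
  have h0 : 0 < x.val := by
    rw [Nat.pos_iff_ne_zero]
    intro h
    exact hx (by rw [← hv, h, Nat.cast_zero])
  have h1 := chk2_spec chk2_all x.val h0 (by have := ZMod.val_lt x; omega)
  rw [List.contains_iff_mem, Lst_eq, List.mem_map] at h1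
  obtain ⟨i, hi, h2⟩ := h1
  rw [List.mem_range] at hi
  refine ⟨i, hi, x * ((17 : F) ^ i)⁻¹, ?_, ?_⟩
  · rw [mem_Y, mul_pow, inv_pow]
    have h3 : ((((17 ^ i) ^ 140 : ℕ)) : F) = ((x.val ^ 140 : ℕ) : F) :=
      (ZMod.natCast_eq_natCast_iff' _ _ _).mpr h2
    rw [Nat.cast_pow, Nat.cast_pow, Nat.cast_pow, hv] at h3
    rw [← h3]
    exact mul_inv_cancel₀ (pow_ne_zero _ (pow_ne_zero _ g_ne_zero))
  · rw [mul_comm, mul_assoc, inv_mul_cancel₀ (pow_ne_zero _ g_ne_zero), mul_one]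

/-- Witnesses: `1 + v` lies in the coset of `17 ^ i`. -/
def wit : List ℕ := [
    0, 1448, 155, 782, 431, 42, 63, 312, 71, 28, 40, 407, 90, 135, 208, 303, 1, 512]

theorem wit_spec : ∀ i < 18, 0 < i → (wit.getD i 0) ^ 140 % 2521 = 1 ∧
    (1 + wit.getD i 0) ^ 140 % 2521 = (17 ^ i) ^ 140 % 2521 := by
  decide +kernel

/-- `Y` is a complete sum-free set. -/
theorem exists_add {c : F} (hc : c ∉ Y) : ∃ u ∈ Y, ∃ v ∈ Y, u + v = c := by
  by_cases h0 : c = 0
  · exact ⟨1, one_mem_Y, -1, neg_mem_Y one_mem_Y, by rw [h0]; ring⟩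
  obtain ⟨i, hi, y, hy, rfl⟩ := exists_coset h0
  have hi0 : 0 < i := by
    rcases Nat.eq_zero_or_pos i with h | h
    · subst h
      rw [pow_zero, one_mul] at hc
      exact absurd hy hc
    · exact h
  obtain ⟨h1, h2⟩ := wit_spec i hi hi0
  set v := wit.getD i 0
  have hvY : (v : F) ∈ Y := by rw [mem_Y, pow_cast]; exact h1
  have h3 : (((1 + v) ^ 140 : ℕ) : F) = (((17 ^ i) ^ 140 : ℕ) : F) :=
    (ZMod.natCast_eq_natCast_iff' _ _ _).mpr h2
  rw [Nat.cast_pow, Nat.cast_pow, Nat.cast_pow, Nat.cast_add, Nat.cast_one] at h3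
  change (1 + (v : F)) ^ 140 = ((17 : F) ^ i) ^ 140 at h3
  have hg : ((17 : F) ^ i) ≠ 0 := pow_ne_zero _ g_ne_zero
  have hv1 : (1 + (v : F)) ≠ 0 := by
    intro h
    rw [h, zero_pow (by norm_num)] at h3
    exact pow_ne_zero 140 hg h3.symm
  -- `z = 17 ^ i / (1 + v)` lies in `Y`
  have hz : ((17 : F) ^ i) * (1 + (v : F))⁻¹ ∈ Y := by
    rw [mem_Y, mul_pow, inv_pow, ← h3]
    exact mul_inv_cancel₀ (pow_ne_zero _ hv1)
  refine ⟨((17 : F) ^ i) * (1 + (v : F))⁻¹ * y, mul_mem_Y hz hy,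
    ((17 : F) ^ i) * (1 + (v : F))⁻¹ * y * v, mul_mem_Y (mul_mem_Y hz hy) hvY, ?_⟩
  have : (1 + (v : F))⁻¹ * (1 + (v : F)) = 1 := inv_mul_cancel₀ hv1
  calc ((17 : F) ^ i) * (1 + (v : F))⁻¹ * y + ((17 : F) ^ i) * (1 + (v : F))⁻¹ * y * v
      = ((17 : F) ^ i) * y * ((1 + (v : F))⁻¹ * (1 + (v : F))) := by ring
    _ = 17 ^ i * y := by rw [this, mul_one]

/-- Number of `u` in `Y` with `17 ^ i * u + 17 ^ j` in `Y`. -/
def cyc (i j : ℕ) : ℕ :=
  (Ylist.filter fun u => decide (((17 ^ i % 2521) * u + 17 ^ j % 2521) ^ 140 % 2521 = 1)).length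

theorem cyc_le : ∀ i < 18, ∀ j < 18, cyc i j ≤ 13 := by decide +kernel

/-- The cyclotomic bound: for nonzero `α`, `β` at most 13 elements `u` of `Y` have
`α * u + β` in `Y`. -/
theorem card_cyc_le {α β : F} (hα : α ≠ 0) (hβ : β ≠ 0) :
    (Y.filter fun u => α * u + β ∈ Y).card ≤ 13 := by
  obtain ⟨i, hi, y, hy, rfl⟩ := exists_coset hα
  obtain ⟨j, hj, z, hz, rfl⟩ := exists_coset hβ
  refine le_trans ?_ (cyc_le i hi j hj)
  have hz0 := ne_zero_of_mem_Y hz
  rw [cyc, ← List.toFinset_card_of_nodup (nodup_Ylist.filter _)]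
  refine Finset.card_le_card_of_injOn (fun u => (y * u * z⁻¹).val) ?_ ?_
  · intro u hu
    rw [Finset.mem_coe, Finset.mem_filter] at hu
    rw [Finset.mem_coe, List.mem_toFinset, List.mem_filter, mem_Ylist, decide_eq_true_iff]
    have hv : (((y * u * z⁻¹).val : ℕ) : F) = y * u * z⁻¹ := ZMod.natCast_zmod_val _
    refine ⟨⟨ZMod.val_lt _, ?_⟩, ?_⟩
    · rw [← pow_cast, hv, ← mem_Y]
      exact mul_mem_Y (mul_mem_Y hy hu.1) (inv_mem_Y hz)
    · rw [← pow_cast, Nat.cast_add, Nat.cast_mul, hv, ZMod.natCast_mod, ZMod.natCast_mod,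
        Nat.cast_pow, Nat.cast_pow, ← mem_Y]
      have h1 : (((17 : ℕ) : F) ^ i * (y * u * z⁻¹) + ((17 : ℕ) : F) ^ j) =
          z⁻¹ * (17 ^ i * y * u + 17 ^ j * z) := by
        have : ((17 : ℕ) : F) = 17 := rfl
        rw [this]
        have h2 : z⁻¹ * z = 1 := inv_mul_cancel₀ hz0
        calc (17 : F) ^ i * (y * u * z⁻¹) + 17 ^ j
            = z⁻¹ * (17 ^ i * y * u) + 17 ^ j * 1 := by ring
          _ = z⁻¹ * (17 ^ i * y * u) + 17 ^ j * (z⁻¹ * z) := by rw [h2]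
          _ = z⁻¹ * (17 ^ i * y * u + 17 ^ j * z) := by ring
      rw [h1]
      exact mul_mem_Y (inv_mem_Y hz) hu.2
  · intro u _ v _ h
    have h1 : y * u * z⁻¹ = y * v * z⁻¹ := ZMod.val_injective _ h
    have h2 := mul_right_cancel₀ (inv_ne_zero hz0) h1
    exact mul_left_cancel₀ (ne_zero_of_mem_Y hy) h2

end Vale.Agent.P060.HW
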