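import Vale.Agent.P060.HW.Trunc

/-!
# Assembly, first layer: a family of hosts disproves Hadwiger's conjecture
-/

noncomputable section

namespace Vale.Agent.P060.HW

/-- If for all constants there are arbitrarily large `n` and triangle-free hosts with neither a
cheap law with few adjacencies nor a cheap coupling with few conflicts, then some graph with
independence number at most two violates Hadwiger's conjecture. -/
theorem not_hadwiger_of {ε : ℝ} (hε : 0 < ε)
    (H : ∀ C : ℝ, ∀ n0 : ℕ, ∃ n : ℕ, n0 ≤ n ∧ ∃ (X : Type) (_ : Fintype X) (_ : Nonempty X)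
      (Adj : X → X → Prop), (∀ x y, Adj x y → Adj y x) ∧
      (∀ x y z, Adj x y → Adj y z → Adj x z → False) ∧ ¬ OutA Adj C (C / n) ∧
      ¬ OutC Adj ((n : ℝ) ^ C) ε (C * (Real.log n) ^ 2 / n)) :
    ∃ n : ℕ, ∃ G : SimpleGraph (Fin n), G.indepNum ≤ 2 ∧
      (hadwigerNumber G : ℕ∞) < G.chromaticNumber := by
  by_contra hcon
  push Not at hcon
  obtain ⟨C, n0, hC⟩ := reduction_trunc ε hε
  obtain ⟨n, hn, X, _, _, Adj, hs, ht, hA, hB⟩ := H C n0
  rcases hC n hn (fun G hG => hcon n G hG) X Adj hs ht with h | h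
  · exact hA h
  · exact hB h

end Vale.Agent.P060.HW
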