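import Vale.Agent.P060.HW.Cond
import Vale.Agent.P060.HW.Final0

/-!
# Assembly, second layer: from the overlap estimate to the failure of output (c)
-/

open scoped Classical

noncomputable section

namespace Vale.Agent.P060.HW

namespace Design

variable {K T : Type*} [Fintype K] [Fintype T] (δ : Design K T)

/-- The four cuts are avoided. -/
def Uncut (x x' y y' : Vtx K T) : Prop :=
  dotProduct (δ.dif x x') (δ.g y.1) ∉ Y ∧ dotProduct (δ.dif x x') (δ.g y'.1) ∉ Y ∧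
  dotProduct (δ.dif y y') (δ.g x.1) ∉ Y ∧ dotProduct (δ.dif y y') (δ.g x'.1) ∉ Y

/-- The two pairs are in conflict. -/
def Conf (x x' y y' : Vtx K T) : Prop :=
  δ.Adj x y ∧ δ.Adj x y' ∧ δ.Adj x' y ∧ δ.Adj x' y'

/-- The labels of the four vertices. -/
def InLb (α β : Lb T × Lb T) (x x' y y' : Vtx K T) : Prop :=
  (lb x = α.1 ∧ lb x' = α.2) ∧ (lb y = β.1 ∧ lb y' = β.2)

/-- Product mass of an event of quadruples. -/
def mass4 (ν : Vtx K T → Vtx K T → ℝ) (Q : Vtx K T → Vtx K T → Vtx K T → Vtx K T → Prop) : ℝ :=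
  ∑ x, ∑ x', ∑ y, ∑ y', if Q x x' y y' then ν x x' * ν y y' else 0

lemma mass4_eq (ν : Vtx K T → Vtx K T → ℝ) (Q : Vtx K T → Vtx K T → Vtx K T → Vtx K T → Prop)
    (_dec : ∀ x x' y y', Decidable (Q x x' y y')) :
    (∑ x, ∑ x', ∑ y, ∑ y', if Q x x' y y' then ν x x' * ν y y' else 0) = mass4 ν Q := by
  refine Finset.sum_congr rfl fun x _ => Finset.sum_congr rfl fun x' _ => Finset.sum_congr rfl
    fun y _ => Finset.sum_congr rfl fun y' _ => ?_
  by_cases hq : Q x x' y y'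
  · rw [if_pos hq, if_pos hq]
  · rw [if_neg hq, if_neg hq]

lemma mass4_mono {ν : Vtx K T → Vtx K T → ℝ} (h0 : ∀ x y, 0 ≤ ν x y)
    {Q Q' : Vtx K T → Vtx K T → Vtx K T → Vtx K T → Prop}
    (h : ∀ x x' y y', Q x x' y y' → Q' x x' y y') : mass4 ν Q ≤ mass4 ν Q' := by
  refine Finset.sum_le_sum fun x _ => Finset.sum_le_sum fun x' _ => Finset.sum_le_sum
    fun y _ => Finset.sum_le_sum fun y' _ => ?_
  by_cases hq : Q x x' y y'
  · rw [if_pos hq, if_pos (h _ _ _ _ hq)]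
  · rw [if_neg hq]
    split_ifs
    · exact mul_nonneg (h0 _ _) (h0 _ _)
    · exact le_rfl

lemma mass4_congr {ν : Vtx K T → Vtx K T → ℝ}
    {Q Q' : Vtx K T → Vtx K T → Vtx K T → Vtx K T → Prop}
    (h : ∀ x x' y y', Q x x' y y' ↔ Q' x x' y y') : mass4 ν Q = mass4 ν Q' := by
  refine Finset.sum_congr rfl fun x _ => Finset.sum_congr rfl fun x' _ => Finset.sum_congr rfl
    fun y _ => Finset.sum_congr rfl fun y' _ => ?_
  by_cases hq : Q x x' y y'
  · rw [if_pos hq, if_pos ((h _ _ _ _).1 hq)]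
  · rw [if_neg hq, if_neg (fun h' => hq ((h _ _ _ _).2 h'))]

/-- A coupling as in output (c). -/
structure IsCpl (ν : Vtx K T → Vtx K T → ℝ) (Λ ε : ℝ) : Prop where
  nonneg : ∀ x y, 0 ≤ ν x y
  sum_one : ∑ x, ∑ y, ν x y = 1
  symm : ∀ x y, ν x y = ν y x
  supp : ∀ x y, ν x y ≠ 0 → ¬ δ.Adj x y
  dens : ∀ x y, ν x y * (Fintype.card (Vtx K T) : ℝ) ^ 2 ≤ Λ
  marg : ∀ x, (∑ y, ν x y) * (Fintype.card (Vtx K T) : ℝ) ≤ 4
  tv : ∑ x, |∑ y, ν x y - 1 / (Fintype.card (Vtx K T) : ℝ)| ≤ ε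

/-- The cut inequality for a design. -/
def CutIneq (ρ : ℝ) : Prop := ∀ x x' : Vtx K T, ¬ δ.Adj x x' → x.1 ≠ x'.1 →
  ((Finset.univ.filter (fun b => dotProduct (δ.dif x x') (δ.g b) ∈ Y)).card : ℝ)
    ≤ ρ * Fintype.card T

/-- The overlap estimate for a design: for every coupling, up to label pairs of product mass
`1 / 100`, uncut configurations produce conflicts. -/
def OverlapEst (Λ ε κ : ℝ) : Prop := ∀ ν : Vtx K T → Vtx K T → ℝ, δ.IsCpl ν Λ ε →
  ∃ Bad : Lb T × Lb T → Lb T × Lb T → Prop,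
    ∑ α, ∑ β, (if Bad α β then mass ν α * mass ν β else 0) ≤ 1 / 100 ∧
    ∀ α β, ¬ Bad α β → α.1.1 ≠ α.2.1 → β.1.1 ≠ β.2.1 →
      1 / (400 * (Fintype.card (Lb T) : ℝ) ^ 2) ≤ mass ν α →
      1 / (400 * (Fintype.card (Lb T) : ℝ) ^ 2) ≤ mass ν β →
      κ * (mass4 ν (fun x x' y y' => δ.Uncut x x' y y' ∧ InLb α β x x' y y')
        - 1 / 400 * (mass ν α * mass ν β))
        ≤ mass4 ν (fun x x' y y' => δ.Conf x x' y y' ∧ InLb α β x x' y y')

/-- **Failure of output (c)** for a design with the cut inequality and the overlap estimate. -/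
theorem not_outC [Nonempty T] {Λ ε κ I : ℝ} (hε1 : ε ≤ 1 / 2000)
    (hcut : δ.CutIneq (1 / 10 + ε)) (hκ : 0 < κ) (hov : δ.OverlapEst Λ ε κ)
    (hIε : Fintype.card T * Real.sqrt I ≤ ε)
    (hI : I < κ / 400 * (1 / (400 * (Fintype.card (Lb T) : ℝ) ^ 2)) ^ 2) :
    ¬ OutC δ.Adj Λ ε I := by
  rintro ⟨ν, h0, h1, hsy, h2, h3, h4, h5, h6⟩
  obtain ⟨Bad, hBad, hest⟩ := hov ν ⟨h0, h1, hsy, h2, h3, h4, h5⟩
  obtain ⟨Cut, hCut⟩ : ∃ Cut : Vtx K T → Vtx K T → T → Prop,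
      ∀ x x' b, Cut x x' b ↔ dotProduct (δ.dif x x') (δ.g b) ∈ Y :=
    ⟨_, fun _ _ _ => Iff.rfl⟩
  have hcut' : ∀ x x' : Vtx K T, ν x x' ≠ 0 → x.1 ≠ x'.1 →
      ((Finset.univ.filter (fun b => Cut x x' b)).card : ℝ)
        ≤ (1 / 10 + ε) * Fintype.card T := by
    intro x x' hν hne
    have he := hcut x x' (h2 _ _ hν) hne
    rw [Finset.filter_congr (fun b _ => hCut x x' b)]
    exact he
  have hfc := δ.final_count ν h0 h1 hsy h2 h5 h6 Cut hcut' le_rfl hε1 hIε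
  set Good : Vtx K T → Vtx K T → Vtx K T → Vtx K T → Prop := fun x x' y y' =>
    (x.1 ≠ x'.1 ∧ y.1 ≠ y'.1) ∧ δ.Uncut x x' y y' with hGood
  have hG : 1 / 40 ≤ mass4 ν Good := by
    refine hfc.trans (le_of_eq ?_)
    refine Finset.sum_congr rfl fun x _ => Finset.sum_congr rfl fun x' _ => Finset.sum_congr rfl
      fun y _ => Finset.sum_congr rfl fun y' _ => ?_
    have hiff : (x.1 ≠ x'.1 ∧ y.1 ≠ y'.1 ∧ ¬ Cut x x' y.1 ∧ ¬ Cut x x' y'.1 ∧
        ¬ Cut y y' x.1 ∧ ¬ Cut y y' x'.1) ↔ Good x x' y y' := by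
      simp only [hGood, Uncut, hCut]
      tauto
    by_cases h : Good x x' y y'
    · rw [if_pos h, if_pos (hiff.2 h)]
    · rw [if_neg h, if_neg (fun h' => h (hiff.1 h'))]
  obtain ⟨α, β, hnb, hα, hβ, hmass⟩ := exists_types ν h0 h1 Good hG Bad hBad
  set s : ℝ := 1 / (400 * (Fintype.card (Lb T) : ℝ) ^ 2) with hs
  have hcard : (0 : ℝ) < Fintype.card (Lb T) := by exact_mod_cast Fintype.card_pos
  have hs0 : 0 < s := by positivity
  have hα0 : 0 < mass ν α := lt_of_lt_of_le hs0 hα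
  have hβ0 : 0 < mass ν β := lt_of_lt_of_le hs0 hβ
  have hmm : 0 < mass ν α * mass ν β := mul_pos hα0 hβ0
  -- the labels are cross
  have hcross : α.1.1 ≠ α.2.1 ∧ β.1.1 ≠ β.2.1 := by
    by_contra hno
    have hzero : 1 / 200 * (mass ν α * mass ν β) ≤ 0 := by
      refine hmass.trans (le_of_eq ?_)
      refine Finset.sum_eq_zero fun x _ => Finset.sum_eq_zero fun x' _ => Finset.sum_eq_zero
        fun y _ => Finset.sum_eq_zero fun y' _ => ?_
      rw [if_neg]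
      rintro ⟨⟨⟨g1, g2⟩, -⟩, ⟨l1, l2⟩, l3, l4⟩
      apply hno
      constructor
      · intro h
        apply g1
        rw [← l1, ← l2] at h
        exact h
      · intro h
        apply g2
        rw [← l3, ← l4] at h
        exact h
    have : 0 < 1 / 200 * (mass ν α * mass ν β) := by positivity
    linarith
  have hov' := hest α β hnb hcross.1 hcross.2 hα hβ
  have hU : 1 / 200 * (mass ν α * mass ν β)
      ≤ mass4 ν (fun x x' y y' => δ.Uncut x x' y y' ∧ InLb α β x x' y y') := by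
    refine (hmass.trans (le_of_eq (mass4_eq ν _ _))).trans ?_
    refine mass4_mono (Q := fun x x' y y' => Good x x' y y' ∧
      (lb x = α.1 ∧ lb x' = α.2) ∧ (lb y = β.1 ∧ lb y' = β.2)) h0 ?_
    rintro x x' y y' ⟨hg, hl⟩
    exact ⟨hg.2, hl⟩
  have hC : mass4 ν (fun x x' y y' => δ.Conf x x' y y' ∧ InLb α β x x' y y') ≤ I := by
    refine le_trans ?_ ((le_of_eq (mass4_eq ν _ _).symm).trans h6)
    refine mass4_mono (Q' := fun x x' y y' => δ.Adj x y ∧ δ.Adj x y' ∧ δ.Adj x' y ∧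
      δ.Adj x' y') h0 ?_
    rintro x x' y y' ⟨hg, -⟩
    exact hg
  have h7 : κ * (1 / 400 * (mass ν α * mass ν β)) ≤ I := by
    refine le_trans ?_ (hov'.trans hC)
    apply mul_le_mul_of_nonneg_left _ hκ.le
    linarith
  have h8 : s ^ 2 ≤ mass ν α * mass ν β := by
    rw [sq]
    exact mul_le_mul hα hβ hs0.le hα0.le
  have h9 : κ / 400 * s ^ 2 ≤ κ * (1 / 400 * (mass ν α * mass ν β)) := by
    have := mul_le_mul_of_nonneg_left h8 (by positivity : 0 ≤ κ / 400)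
    linarith
  linarith

end Design

end Vale.Agent.P060.HW
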