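import Vale.Agent.P060.HW.Final1
import Vale.Agent.P060.HW.Blocks

/-!
# Assembly, third layer: the overlap estimate from the statements on laws of test values
-/

open scoped Classical

noncomputable section

set_option linter.unusedSectionVars false

namespace Vale.Agent.P060.HW

/-- A pushed-forward double sum. -/
lemma sum_pair_proj {A B T : Type*} [Fintype A] [Fintype B] [Fintype T] (π : A → T) (π' : B → T)
    (m : A → ℝ) (m' : B → ℝ) (R : T → T → Prop) :
    ∑ α, ∑ β, (if R (π α) (π' β) then m α * m' β else 0)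
      = ∑ a, ∑ b, if R a b then (∑ α, if π α = a then m α else 0)
        * (∑ β, if π' β = b then m' β else 0) else 0 := by
  have e1 : ∀ a b, (if R a b then (∑ α, if π α = a then m α else 0)
        * (∑ β, if π' β = b then m' β else 0) else 0)
      = ∑ α, ∑ β, if π α = a then (if π' β = b then (if R a b then m α * m' β else 0) else 0)
        else 0 := by
    intro a b
    by_cases hR : R a b
    · simp only [if_pos hR]
      rw [Finset.sum_mul_sum]
      refine Finset.sum_congr rfl fun α _ => Finset.sum_congr rfl fun β _ => ?_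
      by_cases h1 : π α = a <;> by_cases h2 : π' β = b <;> simp [h1, h2]
    · simp [hR]
  simp only [e1]
  symm
  rw [Finset.sum_congr rfl fun a _ => Finset.sum_comm, Finset.sum_comm]
  refine Finset.sum_congr rfl fun α _ => ?_
  have e2 : ∀ a, ∑ b, ∑ β, (if π α = a then (if π' β = b then
      (if R a b then m α * m' β else 0) else 0) else 0)
      = if π α = a then ∑ β, (if R a (π' β) then m α * m' β else 0) else 0 := by
    intro a
    by_cases h : π α = a
    · simp only [if_pos h]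
      rw [Finset.sum_comm]
      refine Finset.sum_congr rfl fun β _ => ?_
      rw [Finset.sum_ite_eq]
      simp
    · simp [h]
  simp only [e2]
  rw [Finset.sum_ite_eq]
  simp

lemma sum_pair_le {A B T : Type*} [Fintype A] [Fintype B] [Fintype T] (π : A → T) (π' : B → T)
    {m : A → ℝ} {m' : B → ℝ} (h0 : ∀ α, 0 ≤ m α) (h0' : ∀ β, 0 ≤ m' β) (R : T → T → Prop)
    {c : ℝ} (hc : ∀ a, (∑ α, if π α = a then m α else 0) ≤ c)
    (hc' : ∀ b, (∑ β, if π' β = b then m' β else 0) ≤ c) :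
    ∑ α, ∑ β, (if R (π α) (π' β) then m α * m' β else 0)
      ≤ c ^ 2 * ((Finset.univ.filter fun ab : T × T => R ab.1 ab.2).card : ℝ) := by
  rw [sum_pair_proj, Finset.card_filter, Nat.cast_sum, Finset.mul_sum, Fintype.sum_prod_type]
  refine Finset.sum_le_sum fun a _ => Finset.sum_le_sum fun b _ => ?_
  simp only
  split_ifs
  · rw [Nat.cast_one, mul_one, sq]
    refine mul_le_mul (hc a) (hc' b) ?_ ?_
    · exact Finset.sum_nonneg fun β _ => by split_ifs; exacts [h0' _, le_rfl]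
    · exact (Finset.sum_nonneg fun α _ => by split_ifs; exacts [h0 _, le_rfl]).trans (hc a)
  · rw [Nat.cast_zero, mul_zero]

lemma p_pair {A B C : Type*} [Fintype A] [Fintype B] (P : FinProb (A × B)) (f : A × B → C)
    (c : C) : P.p f c = ∑ x, ∑ y, if f (x, y) = c then P.w (x, y) else 0 := by
  unfold FinProb.p
  exact Fintype.sum_prod_type _

namespace Design

variable {K T : Type*} [Fintype K] [Fintype T] (δ : Design K T)

/-- The law of the two forms, given a pair of labels. -/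
def wfl (ν : Vtx K T → Vtx K T → ℝ) (α : Lb T × Lb T) (B B' : Matrix K K F) : ℝ :=
  (∑ x, ∑ x', if (lb x = α.1 ∧ lb x' = α.2) ∧ (δ.frm x = B ∧ δ.frm x' = B') then ν x x' else 0)
    / mass ν α

lemma wfl_eq (ν : Vtx K T → Vtx K T → ℝ) (h0 : ∀ x y, 0 ≤ ν x y) (α : Lb T × Lb T)
    (hα : 0 < mass ν α) (B B' : Matrix K K F) :
    δ.wfl ν α B B' = (condP ν h0 α hα).p (fun z => (δ.frm z.1, δ.frm z.2)) (B, B') := by
  unfold wfl
  rw [p_pair, Finset.sum_div]
  refine Finset.sum_congr rfl fun x _ => ?_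
  rw [Finset.sum_div]
  refine Finset.sum_congr rfl fun x' _ => ?_
  simp only [condP_w, Prod.mk.injEq]
  by_cases h1 : lb x = α.1 ∧ lb x' = α.2
  · by_cases h2 : δ.frm x = B ∧ δ.frm x' = B'
    · rw [if_pos ⟨h1, h2⟩, if_pos h2, if_pos h1]
    · rw [if_neg (fun h => h2 h.2), if_neg h2, zero_div]
  · rw [if_neg (fun h => h1 h.1), zero_div]
    split_ifs
    · rfl
    · rfl

lemma wfl_nonneg {ν : Vtx K T → Vtx K T → ℝ} (h0 : ∀ x y, 0 ≤ ν x y) (α : Lb T × Lb T)
    (B B' : Matrix K K F) : 0 ≤ δ.wfl ν α B B' :=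
  div_nonneg (Finset.sum_nonneg fun x _ => Finset.sum_nonneg fun x' _ => by
    split_ifs; exacts [h0 _ _, le_rfl]) (mass_nonneg h0 α)

/-- Transfer of sums over vertices to sums over forms. -/
lemma sum_wfl (ν : Vtx K T → Vtx K T → ℝ) (α : Lb T × Lb T) (hα : 0 < mass ν α)
    (f : Matrix K K F → Matrix K K F → ℝ) :
    ∑ x, ∑ x', (if lb x = α.1 ∧ lb x' = α.2 then ν x x' * f (δ.frm x) (δ.frm x') else 0)
      = mass ν α * ∑ B, ∑ B', δ.wfl ν α B B' * f B B' := by
  have e1 : ∀ B B', mass ν α * (δ.wfl ν α B B' * f B B')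
      = ∑ x, ∑ x', (if δ.frm x = B then (if δ.frm x' = B' then
        (if lb x = α.1 ∧ lb x' = α.2 then ν x x' * f B B' else 0) else 0) else 0) := by
    intro B B'
    unfold wfl
    rw [← mul_assoc, mul_div_cancel₀ _ hα.ne', Finset.sum_mul]
    refine Finset.sum_congr rfl fun x _ => ?_
    rw [Finset.sum_mul]
    refine Finset.sum_congr rfl fun x' _ => ?_
    by_cases h1 : lb x = α.1 ∧ lb x' = α.2 <;> by_cases h2 : δ.frm x = B <;>
      by_cases h3 : δ.frm x' = B' <;> simp [h1, h2, h3]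
  rw [Finset.mul_sum]
  simp only [Finset.mul_sum, e1]
  symm
  rw [Finset.sum_congr rfl fun B _ => Finset.sum_comm, Finset.sum_comm]
  refine Finset.sum_congr rfl fun x _ => ?_
  have e2 : ∀ B, ∑ B', ∑ x', (if δ.frm x = B then (if δ.frm x' = B' then
        (if lb x = α.1 ∧ lb x' = α.2 then ν x x' * f B B' else 0) else 0) else 0)
      = if δ.frm x = B then ∑ x', (if lb x = α.1 ∧ lb x' = α.2 then ν x x' * f B (δ.frm x')
        else 0) else 0 := by
    intro B
    by_cases h : δ.frm x = B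
    · simp only [if_pos h]
      rw [Finset.sum_comm]
      refine Finset.sum_congr rfl fun x' _ => ?_
      rw [Finset.sum_ite_eq]
      simp
    · simp [h]
  simp only [e2]
  rw [Finset.sum_ite_eq]
  simp

end Design

/-- Transfer of sums over forms to sums over test values. -/
lemma sum_tlaw {K : Type*} [Fintype K] (w : Matrix K K F → Matrix K K F → ℝ) (g g' : K → F)
    (f : (Fin 4 → K → F) → ℝ) :
    ∑ B, ∑ B', w B B' * f (tv g g' B B') = ∑ m, tlaw w g g' m * f m := by
  unfold tlaw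
  have e1 : ∀ m, (∑ B, ∑ B', (if tv g g' B B' = m then w B B' else 0)) * f m
      = ∑ B, ∑ B', (if tv g g' B B' = m then w B B' * f m else 0) := by
    intro m
    rw [Finset.sum_mul]
    refine Finset.sum_congr rfl fun B _ => ?_
    rw [Finset.sum_mul]
    refine Finset.sum_congr rfl fun B' _ => ?_
    rw [ite_mul, zero_mul]
  simp only [e1]
  symm
  rw [Finset.sum_comm]
  refine Finset.sum_congr rfl fun B _ => ?_
  rw [Finset.sum_comm]
  refine Finset.sum_congr rfl fun B' _ => ?_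
  rw [Finset.sum_ite_eq]
  simp

lemma tlaw_nonneg {K : Type*} [Fintype K] {w : Matrix K K F → Matrix K K F → ℝ}
    (h : ∀ B B', 0 ≤ w B B') (g g' : K → F) (m : Fin 4 → K → F) : 0 ≤ tlaw w g g' m :=
  Finset.sum_nonneg fun _ _ => Finset.sum_nonneg fun _ _ => by split_ifs; exacts [h _ _, le_rfl]

lemma sum_tlaw_one {K : Type*} [Fintype K] (w : Matrix K K F → Matrix K K F → ℝ) (g g' : K → F) :
    ∑ m, tlaw w g g' m = ∑ B, ∑ B', w B B' := by
  have := sum_tlaw w g g' (fun _ => 1)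
  simp only [mul_one] at this
  exact this.symm

namespace Design

variable {K T : Type*} [Fintype K] [Fintype T] (δ : Design K T)

/-- The law of the second form. -/
theorem law_frm_le' [Nonempty T] (ν : Vtx K T → Vtx K T → ℝ) (h0 : ∀ x y, 0 ≤ ν x y)
    (hsy : ∀ x y, ν x y = ν y x)
    (hm : ∀ x, (∑ y, ν x y) * (Fintype.card (Vtx K T) : ℝ) ≤ 4) (α : Lb T × Lb T)
    (hα : 0 < mass ν α) (hα' : 1 / (400 * (Fintype.card (Lb T) : ℝ) ^ 2) ≤ mass ν α)
    (B : Matrix K K F) :
    (condP ν h0 α hα).p (fun z => δ.frm z.2) B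
      ≤ 1600 * Fintype.card (Lb T) / Fintype.card (δ.Dir α.2.1) := by
  have hs : mass ν α.swap = mass ν α := mass_swap ν hsy α
  have h := δ.law_frm_le ν h0 hm α.swap (by rw [hs]; exact hα) (by rw [hs]; exact hα') B
  refine le_trans (le_of_eq ?_) h
  rw [p_pair, p_pair, Finset.sum_comm]
  refine Finset.sum_congr rfl fun x' _ => Finset.sum_congr rfl fun x _ => ?_
  simp only [condP_w, hs, Prod.fst_swap, Prod.snd_swap]
  by_cases h1 : δ.frm x' = B
  · rw [if_pos h1, if_pos h1, hsy x x']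
    refine if_congr ?_ rfl rfl
    tauto
  · rw [if_neg h1, if_neg h1]

/-- The law of the two forms is a law of pairs. -/
theorem plaw_wfl [Nonempty T] {ν : Vtx K T → Vtx K T → ℝ} {Λ ε : ℝ} (hν : δ.IsCpl ν Λ ε)
    (α : Lb T × Lb T) (hα' : 1 / (400 * (Fintype.card (Lb T) : ℝ) ^ 2) ≤ mass ν α) :
    PLaw δ α.1.1 α.2.1 α.1.2 α.2.2 (400 * Λ) (1600 * Fintype.card (Lb T)) (δ.wfl ν α) := by
  have hL : (0 : ℝ) < Fintype.card (Lb T) := by exact_mod_cast Fintype.card_pos
  have hα : 0 < mass ν α := lt_of_lt_of_le (by positivity) hα'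
  have hD1 : (0 : ℝ) < Fintype.card (δ.Dir α.1.1) := by exact_mod_cast Fintype.card_pos
  have hD2 : (0 : ℝ) < Fintype.card (δ.Dir α.2.1) := by exact_mod_cast Fintype.card_pos
  have hfrm : ∀ x : Vtx K T, δ.frm x ∈ δ.Form x.1 x.2.1 := by
    intro x
    show δ.frm x - _ ∈ δ.Dir x.1
    unfold frm
    rw [add_sub_cancel_left]
    exact (δ.proj x.1 x.2.2).2
  refine ⟨fun B B' => δ.wfl_nonneg hν.nonneg α B B', ?_, ?_, ?_, ?_, ?_⟩
  · have h := δ.sum_wfl ν α hα (fun _ _ => 1)
    simp only [mul_one] at h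
    have h2 : mass ν α * ∑ B, ∑ B', δ.wfl ν α B B' = mass ν α * 1 := by
      rw [← h, mul_one]; rfl
    exact mul_left_cancel₀ hα.ne' h2
  · intro B B' h
    by_contra hcon
    apply h
    unfold wfl
    rw [Finset.sum_eq_zero, zero_div]
    intro x _
    refine Finset.sum_eq_zero fun x' _ => ?_
    rw [if_neg]
    rintro ⟨⟨h1, h2⟩, h3, h4⟩
    apply hcon
    have e1 : x.1 = α.1.1 ∧ x.2.1 = α.1.2 := by rw [← h1]; exact ⟨rfl, rfl⟩
    have e2 : x'.1 = α.2.1 ∧ x'.2.1 = α.2.2 := by rw [← h2]; exact ⟨rfl, rfl⟩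
    have f1 := hfrm x
    have f2 := hfrm x'
    rw [h3, e1.1, e1.2] at f1
    rw [h4, e2.1, e2.2] at f2
    exact ⟨f1, f2⟩
  · intro B B'
    have h := δ.law_forms_le ν hν.nonneg hν.dens α hα hα' B B'
    rw [← δ.wfl_eq ν hν.nonneg α hα B B', le_div_iff₀ (mul_pos hD1 hD2)] at h
    simpa only [Nat.card_eq_fintype_card] using h
  · intro B
    have h := δ.law_frm_le ν hν.nonneg hν.marg α hα hα' B
    rw [le_div_iff₀ hD1] at h
    have e : ∑ B', δ.wfl ν α B B' = (condP ν hν.nonneg α hα).p (fun z => δ.frm z.1) B := by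
      simp only [δ.wfl_eq ν hν.nonneg α hα]
      unfold FinProb.p
      rw [Finset.sum_comm]
      refine Finset.sum_congr rfl fun z _ => ?_
      simp only [Prod.mk.injEq]
      by_cases h1 : δ.frm z.1 = B
      · simp [h1]
      · simp [h1]
    rw [e, Nat.card_eq_fintype_card]
    exact h
  · intro B'
    have h := δ.law_frm_le' ν hν.nonneg hν.symm hν.marg α hα hα' B'
    rw [le_div_iff₀ hD2] at h
    have e : ∑ B, δ.wfl ν α B B' = (condP ν hν.nonneg α hα).p (fun z => δ.frm z.2) B' := by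
      simp only [δ.wfl_eq ν hν.nonneg α hα]
      unfold FinProb.p
      rw [Finset.sum_comm]
      refine Finset.sum_congr rfl fun z _ => ?_
      simp only [Prod.mk.injEq]
      by_cases h1 : δ.frm z.2 = B'
      · simp [h1]
      · simp [h1]
    rw [e, Nat.card_eq_fintype_card]
    exact h

/-- Product masses of events of test values. -/
theorem mass4_tlaw (ν : Vtx K T → Vtx K T → ℝ) (α β : Lb T × Lb T) (hα : 0 < mass ν α)
    (hβ : 0 < mass ν β) (Q : Vtx K T → Vtx K T → Vtx K T → Vtx K T → Prop)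
    (Φ : (Fin 4 → K → F) → (Fin 4 → K → F) → Prop)
    (hQ : ∀ x x' y y', InLb α β x x' y y' → (Q x x' y y' ↔
      Φ (tv (δ.g β.1.1) (δ.g β.2.1) (δ.frm x) (δ.frm x'))
        (tv (δ.g α.1.1) (δ.g α.2.1) (δ.frm y) (δ.frm y')))) :
    mass4 ν (fun x x' y y' => Q x x' y y' ∧ InLb α β x x' y y')
      = mass ν α * mass ν β * ∑ m, ∑ n, (if Φ m n then
        tlaw (δ.wfl ν α) (δ.g β.1.1) (δ.g β.2.1) m * tlaw (δ.wfl ν β) (δ.g α.1.1) (δ.g α.2.1) n
        else 0) := by
  set f : (Fin 4 → K → F) → ℝ := fun m => ∑ y, ∑ y', (if lb y = β.1 ∧ lb y' = β.2 then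
    ν y y' * (if Φ m (tv (δ.g α.1.1) (δ.g α.2.1) (δ.frm y) (δ.frm y')) then 1 else 0) else 0)
    with hf
  have e1 : mass4 ν (fun x x' y y' => Q x x' y y' ∧ InLb α β x x' y y')
      = ∑ x, ∑ x', (if lb x = α.1 ∧ lb x' = α.2 then ν x x' *
        f (tv (δ.g β.1.1) (δ.g β.2.1) (δ.frm x) (δ.frm x')) else 0) := by
    unfold mass4
    refine Finset.sum_congr rfl fun x _ => Finset.sum_congr rfl fun x' _ => ?_
    by_cases h1 : lb x = α.1 ∧ lb x' = α.2
    · rw [if_pos h1, hf]
      simp only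
      rw [Finset.mul_sum]
      refine Finset.sum_congr rfl fun y _ => ?_
      rw [Finset.mul_sum]
      refine Finset.sum_congr rfl fun y' _ => ?_
      by_cases h2 : lb y = β.1 ∧ lb y' = β.2
      · have h3 := hQ x x' y y' ⟨h1, h2⟩
        rw [if_pos h2]
        by_cases h4 : Q x x' y y'
        · rw [if_pos ⟨h4, h1, h2⟩, if_pos (h3.1 h4), mul_one]
        · rw [if_neg (fun h => h4 h.1), if_neg (fun h => h4 (h3.2 h)), mul_zero, mul_zero]
      · rw [if_neg h2, if_neg (fun h => h2 h.2.2), mul_zero]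
    · rw [if_neg h1]
      refine Finset.sum_eq_zero fun y _ => Finset.sum_eq_zero fun y' _ => ?_
      rw [if_neg (fun h => h1 h.2.1)]
  rw [e1, δ.sum_wfl ν α hα (fun B B' => f (tv (δ.g β.1.1) (δ.g β.2.1) B B')),
    sum_tlaw (δ.wfl ν α) (δ.g β.1.1) (δ.g β.2.1) f, mul_assoc]
  congr 1
  rw [Finset.mul_sum]
  refine Finset.sum_congr rfl fun m _ => ?_
  have e2 : f m = mass ν β * ∑ n, tlaw (δ.wfl ν β) (δ.g α.1.1) (δ.g α.2.1) n
      * (if Φ m n then 1 else 0) := by
    rw [hf]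
    simp only
    rw [δ.sum_wfl ν β hβ (fun B B' => if Φ m (tv (δ.g α.1.1) (δ.g α.2.1) B B') then 1 else 0),
      sum_tlaw (δ.wfl ν β) (δ.g α.1.1) (δ.g α.2.1) (fun n => if Φ m n then 1 else 0)]
  rw [e2, mul_left_comm, Finset.mul_sum]
  congr 1
  refine Finset.sum_congr rfl fun n _ => ?_
  by_cases h : Φ m n <;> simp [h]

/-- The mass of the first type. -/
lemma sum_mass_fst [Nonempty T] {ν : Vtx K T → Vtx K T → ℝ} {Λ ε : ℝ} (hν : δ.IsCpl ν Λ ε)
    (a : T) : (∑ α : Lb T × Lb T, if α.1.1 = a then mass ν α else 0) ≤ 4 / Fintype.card T := by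
  have hT : (0 : ℝ) < Fintype.card T := by exact_mod_cast Fintype.card_pos
  have hN : (0 : ℝ) < Fintype.card (Vtx K T) := by
    have : Nonempty (Vtx K T) := ⟨(Classical.arbitrary T, true, 0)⟩
    exact_mod_cast Fintype.card_pos
  have e1 : (∑ α : Lb T × Lb T, if α.1.1 = a then mass ν α else 0)
      = ∑ x : Vtx K T, if x.1 = a then ∑ y, ν x y else 0 := by
    unfold mass
    have e2 : ∀ α : Lb T × Lb T, (if α.1.1 = a then
        ∑ x : Vtx K T, ∑ x' : Vtx K T, (if lb x = α.1 ∧ lb x' = α.2 then ν x x' else 0) else 0)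
        = ∑ x : Vtx K T, ∑ x' : Vtx K T, (if (lb x, lb x') = α then
          (if x.1 = a then ν x x' else 0) else 0) := by
      rintro ⟨α1, α2⟩
      simp only [Prod.mk.injEq]
      by_cases h : α1.1 = a
      · rw [if_pos h]
        refine Finset.sum_congr rfl fun x _ => Finset.sum_congr rfl fun x' _ => ?_
        by_cases h2 : lb x = α1 ∧ lb x' = α2
        · rw [if_pos h2, if_pos h2, if_pos]
          rw [← h, ← h2.1]; rfl
        · rw [if_neg h2, if_neg h2]
      · rw [if_neg h]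
        symm
        refine Finset.sum_eq_zero fun x _ => Finset.sum_eq_zero fun x' _ => ?_
        by_cases h2 : lb x = α1 ∧ lb x' = α2
        · rw [if_pos h2, if_neg]
          intro h3
          apply h
          rw [← h3, ← h2.1]; rfl
        · rw [if_neg h2]
    simp only [e2]
    rw [Finset.sum_comm]
    refine Finset.sum_congr rfl fun x _ => ?_
    rw [Finset.sum_comm]
    have e3 : ∀ x' : Vtx K T, (∑ α : Lb T × Lb T, if (lb x, lb x') = α then
        (if x.1 = a then ν x x' else 0) else 0) = if x.1 = a then ν x x' else 0 := by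
      intro x'
      rw [Finset.sum_ite_eq]
      simp
    simp only [e3]
    by_cases h : x.1 = a <;> simp [h]
  rw [e1]
  have e4 : ∀ x : Vtx K T, (if x.1 = a then ∑ y, ν x y else 0)
      ≤ if x.1 = a then 4 / (Fintype.card (Vtx K T) : ℝ) else 0 := by
    intro x
    split_ifs
    · rw [le_div_iff₀ hN]
      exact hν.marg x
    · exact le_rfl
  refine (Finset.sum_le_sum fun x _ => e4 x).trans ?_
  have e5 : ∑ x : Vtx K T, (if x.1 = a then 4 / (Fintype.card (Vtx K T) : ℝ) else 0)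
      = ∑ b : T, ∑ _z : Bool × Matrix K K F,
        (if b = a then 4 / (Fintype.card (Vtx K T) : ℝ) else 0) := by
    exact Fintype.sum_prod_type _
  rw [e5]
  simp only [Finset.sum_const, nsmul_eq_mul, Finset.card_univ]
  rw [← Finset.mul_sum, Finset.sum_ite_eq']
  simp only [Finset.mem_univ, if_true]
  have hc : (Fintype.card (Vtx K T) : ℝ)
      = Fintype.card T * Fintype.card (Bool × Matrix K K F) := by
    rw [Fintype.card_prod]; push_cast; ring
  have hB : (0 : ℝ) < Fintype.card (Bool × Matrix K K F) := by exact_mod_cast Fintype.card_pos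
  rw [hc]
  apply le_of_eq
  field_simp

/-- The mass of the second type. -/
lemma sum_mass_snd [Nonempty T] {ν : Vtx K T → Vtx K T → ℝ} {Λ ε : ℝ} (hν : δ.IsCpl ν Λ ε)
    (a : T) : (∑ α : Lb T × Lb T, if α.2.1 = a then mass ν α else 0) ≤ 4 / Fintype.card T := by
  refine le_trans (le_of_eq ?_) (δ.sum_mass_fst hν a)
  refine Fintype.sum_equiv (Equiv.prodComm _ _) _ _ fun α => ?_
  rw [Equiv.prodComm_apply, mass_swap ν hν.symm]
  rfl

/-- The coupling of the types. -/
def rho (ν : Vtx K T → Vtx K T → ℝ) (β : T × T) : ℝ :=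
  if β.1 = β.2 then 0 else ∑ α : Lb T × Lb T, if (α.1.1, α.2.1) = β then mass ν α else 0

lemma rho_tcoup [Nonempty T] {ν : Vtx K T → Vtx K T → ℝ} {Λ ε : ℝ} (hν : δ.IsCpl ν Λ ε) :
    TCoup 8 (rho ν) := by
  have hT : (0 : ℝ) < Fintype.card T := by exact_mod_cast Fintype.card_pos
  have hm := mass_nonneg hν.nonneg
  have hle : ∀ β : T × T, rho ν β
      ≤ ∑ α : Lb T × Lb T, if (α.1.1, α.2.1) = β then mass ν α else 0 := by
    intro β
    unfold rho
    split_ifs
    · exact Finset.sum_nonneg fun α _ => by split_ifs; exacts [hm _, le_rfl]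
    · exact le_rfl
  refine ⟨fun β => ?_, fun b => ?_, fun b => ?_, fun b' => ?_⟩
  · unfold rho
    split_ifs
    · exact le_rfl
    · exact Finset.sum_nonneg fun α _ => by split_ifs; exacts [hm _, le_rfl]
  · unfold rho
    rw [if_pos rfl]
  · have h1 : ∑ b', rho ν (b, b') ≤ 4 / Fintype.card T := by
      refine le_trans ?_ (δ.sum_mass_fst hν b)
      refine (Finset.sum_le_sum fun b' _ => hle (b, b')).trans ?_
      rw [Finset.sum_comm]
      refine Finset.sum_le_sum fun α _ => ?_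
      simp only [Prod.mk.injEq]
      by_cases h : α.1.1 = b
      · simp [h]
      · simp [h]
    rw [le_div_iff₀ hT] at h1
    linarith
  · have h1 : ∑ b, rho ν (b, b') ≤ 4 / Fintype.card T := by
      refine le_trans ?_ (δ.sum_mass_snd hν b')
      refine (Finset.sum_le_sum fun b _ => hle (b, b')).trans ?_
      rw [Finset.sum_comm]
      refine Finset.sum_le_sum fun α _ => ?_
      simp only [Prod.mk.injEq]
      by_cases h : α.2.1 = b'
      · simp [h]
      · simp [h]
    rw [le_div_iff₀ hT] at h1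
    linarith

/-- The mass of the pairs of labels whose types are far. -/
lemma sum_far (ν : Vtx K T → Vtx K T → ℝ) (Q : T × T → Prop) :
    (∑ β : Lb T × Lb T, if β.1.1 ≠ β.2.1 ∧ Q (β.1.1, β.2.1) then mass ν β else 0)
      = ∑ β : T × T, if Q β then rho ν β else 0 := by
  have e1 : ∀ β : T × T, (if Q β then rho ν β else 0) = ∑ α : Lb T × Lb T,
      if (α.1.1, α.2.1) = β then (if α.1.1 ≠ α.2.1 ∧ Q (α.1.1, α.2.1) then mass ν α else 0)
        else 0 := by
    rintro ⟨b, b'⟩
    unfold rho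
    by_cases hQ : Q (b, b')
    · rw [if_pos hQ]
      by_cases hb : b = b'
      · rw [if_pos hb]
        symm
        refine Finset.sum_eq_zero fun α _ => ?_
        by_cases h : (α.1.1, α.2.1) = (b, b')
        · rw [if_pos h, if_neg]
          rintro ⟨h1, -⟩
          rw [Prod.mk.injEq] at h
          exact h1 (by rw [h.1, h.2, hb])
        · rw [if_neg h]
      · rw [if_neg hb]
        refine Finset.sum_congr rfl fun α _ => ?_
        by_cases h : (α.1.1, α.2.1) = (b, b')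
        · rw [if_pos h, if_pos h, if_pos]
          rw [h]
          rw [Prod.mk.injEq] at h
          exact ⟨by rw [h.1, h.2]; exact hb, hQ⟩
        · rw [if_neg h, if_neg h]
    · rw [if_neg hQ]
      symm
      refine Finset.sum_eq_zero fun α _ => ?_
      by_cases h : (α.1.1, α.2.1) = (b, b')
      · rw [if_pos h, if_neg]
        rintro ⟨-, h1⟩
        rw [h] at h1
        exact hQ h1
      · rw [if_neg h]
  simp only [e1]
  symm
  rw [Finset.sum_comm]
  refine Finset.sum_congr rfl fun α _ => ?_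
  rw [Finset.sum_ite_eq]
  simp

/-- The vectors of the cut functionals. -/
lemma dif_dot (x x' : Vtx K T) (b : T) : dotProduct (δ.dif x x') (δ.g b)
    = dotProduct (δ.g x'.1) ((δ.frm x).mulVec (δ.g b))
      - dotProduct (δ.g x.1) ((δ.frm x').mulVec (δ.g b)) := by
  unfold dif
  rw [dotProduct_comm, dotProduct_sub, symm_dot (δ.frm_symm x) (δ.g b) (δ.g x'.1),
    symm_dot (δ.frm_symm x') (δ.g b) (δ.g x.1)]

/-- **The overlap estimate of a design**, from the closeness of the laws of the test values to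
their averages for most pairs, and the conflict bound for good quadruples. -/
theorem overlapEst_gen [Nonempty T] {Λ ε ε₀ κ θ : ℝ} (hκ : 0 ≤ κ) (hε₀ : 0 ≤ ε₀)
    (R : T → T → Prop)
    (hTV : ∀ (a a' : T) (ι ι' : Bool), a ≠ a' → ∀ w,
      PLaw δ a a' ι ι' (400 * Λ) (1600 * Fintype.card (Lb T)) w → ∀ ρ, TCoup 8 ρ →
      ∑ β, (if ε₀ < tdist δ a a' w β then ρ β else 0) ≤ ε₀)
    (hOv : ∀ a a' b b' : T, a ≠ a' → b ≠ b' → ¬ R a b → ¬ R a b' → ¬ R a' b → ¬ R a' b' →
      ∀ (ι₁ ι₁' ι₂ ι₂' : Bool) (w w' : _ → _ → ℝ),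
      PLaw δ a a' ι₁ ι₁' (400 * Λ) (1600 * Fintype.card (Lb T)) w →
      PLaw δ b b' ι₂ ι₂' (400 * Λ) (1600 * Fintype.card (Lb T)) w' →
      tdist δ a a' w (b, b') ≤ ε₀ → tdist δ b b' w' (a, a') ≤ ε₀ →
      1 / 400 ≤ ∑ m, (if UncutT (δ.g a) (δ.g a') m then tlaw w (δ.g b) (δ.g b') m else 0) →
      1 / 400 ≤ ∑ n, (if UncutT (δ.g b) (δ.g b') n then tlaw w' (δ.g a) (δ.g a') n else 0) →
      κ ≤ ∑ m, ∑ n, (if ConfT δ m n then tlaw w (δ.g b) (δ.g b') m
        * tlaw w' (δ.g a) (δ.g a') n else 0))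
    (hR : ((Finset.univ.filter fun ab : T × T => R ab.1 ab.2).card : ℝ)
      ≤ θ * (Fintype.card T : ℝ) ^ 2) (hnum : 2 * ε₀ + 64 * θ ≤ 1 / 100) :
    δ.OverlapEst Λ ε κ := by
  intro ν hν
  have hT : (0 : ℝ) < Fintype.card T := by exact_mod_cast Fintype.card_pos
  have hm := mass_nonneg hν.nonneg
  set s : ℝ := 1 / (400 * (Fintype.card (Lb T) : ℝ) ^ 2) with hs
  have hL : (0 : ℝ) < Fintype.card (Lb T) := by exact_mod_cast Fintype.card_pos
  have hs0 : 0 < s := by positivity
  obtain ⟨Far, hFar⟩ : ∃ Far : Lb T × Lb T → Lb T × Lb T → Prop, ∀ α β, Far α β ↔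
      (s ≤ mass ν α ∧ α.1.1 ≠ α.2.1) ∧ (β.1.1 ≠ β.2.1 ∧
        ε₀ < tdist δ α.1.1 α.2.1 (δ.wfl ν α) (β.1.1, β.2.1)) := ⟨_, fun _ _ => Iff.rfl⟩
  have hsum1 : ∑ α : Lb T × Lb T, mass ν α = 1 := by rw [sum_mass, hν.sum_one]
  -- far pairs
  have hfar : ∀ α, ∑ β, (if Far α β then mass ν β else 0) ≤ ε₀ := by
    intro α
    by_cases h1 : s ≤ mass ν α ∧ α.1.1 ≠ α.2.1
    · have h2 := hTV α.1.1 α.2.1 α.1.2 α.2.2 h1.2 (δ.wfl ν α) (δ.plaw_wfl hν α h1.1) (rho ν)
        (δ.rho_tcoup hν)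
      refine le_trans (le_of_eq ?_) h2
      rw [← sum_far ν (fun β => ε₀ < tdist δ α.1.1 α.2.1 (δ.wfl ν α) β)]
      refine Finset.sum_congr rfl fun β _ => ?_
      refine if_congr ?_ rfl rfl
      rw [hFar]
      tauto
    · have h3 : ∑ β, (if Far α β then mass ν β else 0) = 0 := by
        refine Finset.sum_eq_zero fun β _ => ?_
        rw [if_neg]
        rw [hFar]
        exact fun h => h1 h.1
      rw [h3]
      exact hε₀
  obtain ⟨Bad, hBad⟩ : ∃ Bad : Lb T × Lb T → Lb T × Lb T → Prop, ∀ α β, Bad α β ↔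
      (Far α β ∨ Far β α ∨ R α.1.1 β.1.1 ∨ R α.1.1 β.2.1 ∨ R α.2.1 β.1.1 ∨ R α.2.1 β.2.1) :=
    ⟨_, fun _ _ => Iff.rfl⟩
  refine ⟨Bad, ?_, ?_⟩
  · have hRs : ∀ (π π' : Lb T × Lb T → T),
        (∀ a, (∑ α : Lb T × Lb T, if π α = a then mass ν α else 0) ≤ 4 / Fintype.card T) →
        (∀ a, (∑ α : Lb T × Lb T, if π' α = a then mass ν α else 0) ≤ 4 / Fintype.card T) →
        ∑ α, ∑ β, (if R (π α) (π' β) then mass ν α * mass ν β else 0) ≤ 16 * θ := by
      intro π π' h1 h2
      refine (sum_pair_le π π' hm hm R h1 h2).trans ?_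
      refine (mul_le_mul_of_nonneg_left hR (by positivity)).trans (le_of_eq ?_)
      field_simp
      ring
    have b1 := hRs (fun α => α.1.1) (fun β => β.1.1) (δ.sum_mass_fst hν) (δ.sum_mass_fst hν)
    have b2 := hRs (fun α => α.1.1) (fun β => β.2.1) (δ.sum_mass_fst hν) (δ.sum_mass_snd hν)
    have b3 := hRs (fun α => α.2.1) (fun β => β.1.1) (δ.sum_mass_snd hν) (δ.sum_mass_fst hν)
    have b4 := hRs (fun α => α.2.1) (fun β => β.2.1) (δ.sum_mass_snd hν) (δ.sum_mass_snd hν)
    have b5 : ∑ α, ∑ β, (if Far α β then mass ν α * mass ν β else 0) ≤ ε₀ := by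
      have e1 : ∀ α, ∑ β, (if Far α β then mass ν α * mass ν β else 0)
          = mass ν α * ∑ β, (if Far α β then mass ν β else 0) := by
        intro α
        rw [Finset.mul_sum]
        refine Finset.sum_congr rfl fun β _ => ?_
        rw [mul_ite, mul_zero]
      simp only [e1]
      refine (Finset.sum_le_sum fun α _ => mul_le_mul_of_nonneg_left (hfar α) (hm α)).trans ?_
      rw [← Finset.sum_mul, hsum1, one_mul]
    have b6 : ∑ α, ∑ β, (if Far β α then mass ν α * mass ν β else 0) ≤ ε₀ := by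
      rw [Finset.sum_comm]
      refine le_trans (le_of_eq ?_) b5
      refine Finset.sum_congr rfl fun α _ => Finset.sum_congr rfl fun β _ => ?_
      rw [mul_comm]
    have hpt : ∀ α β : Lb T × Lb T, (if Bad α β then mass ν α * mass ν β else 0)
        ≤ (if Far α β then mass ν α * mass ν β else 0)
        + (if Far β α then mass ν α * mass ν β else 0)
        + (if R α.1.1 β.1.1 then mass ν α * mass ν β else 0)
        + (if R α.1.1 β.2.1 then mass ν α * mass ν β else 0)
        + (if R α.2.1 β.1.1 then mass ν α * mass ν β else 0)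
        + (if R α.2.1 β.2.1 then mass ν α * mass ν β else 0) := by
      intro α β
      have hmm : 0 ≤ mass ν α * mass ν β := mul_nonneg (hm _) (hm _)
      have g : ∀ Q : Prop, 0 ≤ (if Q then mass ν α * mass ν β else 0) := by
        intro Q; split_ifs; exacts [hmm, le_rfl]
      have g1 := g (Far α β)
      have g2 := g (Far β α)
      have g3 := g (R α.1.1 β.1.1)
      have g4 := g (R α.1.1 β.2.1)
      have g5 := g (R α.2.1 β.1.1)
      have g6 := g (R α.2.1 β.2.1)
      by_cases hb : Bad α β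
      · rw [if_pos hb]
        rcases (hBad α β).1 hb with h | h | h | h | h | h
        · rw [if_pos h] at g1 ⊢; linarith
        · rw [if_pos h] at g2 ⊢; linarith
        · rw [if_pos h] at g3 ⊢; linarith
        · rw [if_pos h] at g4 ⊢; linarith
        · rw [if_pos h] at g5 ⊢; linarith
        · rw [if_pos h] at g6 ⊢; linarith
      · rw [if_neg hb]; linarith
    have hsum := Finset.sum_le_sum (s := Finset.univ) fun α _ =>
      Finset.sum_le_sum (s := Finset.univ) fun β _ => hpt α β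
    simp only [Finset.sum_add_distrib] at hsum
    linarith
  · intro α β hnb hαc hβc hα hβ
    rw [hBad] at hnb
    have hnb2 : ¬ Far α β ∧ ¬ Far β α ∧ ¬ R α.1.1 β.1.1 ∧ ¬ R α.1.1 β.2.1 ∧ ¬ R α.2.1 β.1.1 ∧
      ¬ R α.2.1 β.2.1 := by tauto
    obtain ⟨n1, n2, n3, n4, n5, n6⟩ := hnb2
    have hα0 : 0 < mass ν α := lt_of_lt_of_le hs0 hα
    have hβ0 : 0 < mass ν β := lt_of_lt_of_le hs0 hβ
    have hmm : 0 < mass ν α * mass ν β := mul_pos hα0 hβ0
    have hwα := δ.plaw_wfl hν α hα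
    have hwβ := δ.plaw_wfl hν β hβ
    have t1 : tdist δ α.1.1 α.2.1 (δ.wfl ν α) (β.1.1, β.2.1) ≤ ε₀ := by
      by_contra h
      exact n1 ((hFar α β).2 ⟨⟨hα, hαc⟩, hβc, not_le.1 h⟩)
    have t2 : tdist δ β.1.1 β.2.1 (δ.wfl ν β) (α.1.1, α.2.1) ≤ ε₀ := by
      by_contra h
      exact n2 ((hFar β α).2 ⟨⟨hβ, hβc⟩, hαc, not_le.1 h⟩)
    set P : (Fin 4 → K → F) → ℝ := tlaw (δ.wfl ν α) (δ.g β.1.1) (δ.g β.2.1) with hP
    set P' : (Fin 4 → K → F) → ℝ := tlaw (δ.wfl ν β) (δ.g α.1.1) (δ.g α.2.1) with hP'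
    have hP0 : ∀ m, 0 ≤ P m := tlaw_nonneg hwα.nonneg _ _
    have hP0' : ∀ m, 0 ≤ P' m := tlaw_nonneg hwβ.nonneg _ _
    have hP1 : ∑ m, P m = 1 := by rw [hP, sum_tlaw_one]; exact hwα.sum_one
    have hP1' : ∑ m, P' m = 1 := by rw [hP', sum_tlaw_one]; exact hwβ.sum_one
    -- the two masses
    have hU : mass4 ν (fun x x' y y' => δ.Uncut x x' y y' ∧ InLb α β x x' y y')
        = mass ν α * mass ν β * ((∑ m, (if UncutT (δ.g α.1.1) (δ.g α.2.1) m then P m else 0))
          * ∑ n, (if UncutT (δ.g β.1.1) (δ.g β.2.1) n then P' n else 0)) := by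
      rw [δ.mass4_tlaw ν α β hα0 hβ0 δ.Uncut (fun m n => UncutT (δ.g α.1.1) (δ.g α.2.1) m ∧
        UncutT (δ.g β.1.1) (δ.g β.2.1) n)]
      · congr 1
        rw [Finset.sum_mul_sum]
        refine Finset.sum_congr rfl fun m _ => Finset.sum_congr rfl fun n _ => ?_
        by_cases h1 : UncutT (δ.g α.1.1) (δ.g α.2.1) m <;>
          by_cases h2 : UncutT (δ.g β.1.1) (δ.g β.2.1) n <;> simp [h1, h2, hP, hP']
      · rintro x x' y y' ⟨⟨l1, l2⟩, l3, l4⟩
        have k1 : x.1 = α.1.1 := by rw [← l1]; rfl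
        have k2 : x'.1 = α.2.1 := by rw [← l2]; rfl
        have k3 : y.1 = β.1.1 := by rw [← l3]; rfl
        have k4 : y'.1 = β.2.1 := by rw [← l4]; rfl
        unfold Uncut UncutT tv
        rw [dif_dot, dif_dot, dif_dot, dif_dot, k1, k2, k3, k4]
        simp only [Matrix.cons_val_zero, Matrix.cons_val_one, Matrix.cons_val]
        tauto
    have hC : mass4 ν (fun x x' y y' => δ.Conf x x' y y' ∧ InLb α β x x' y y')
        = mass ν α * mass ν β * ∑ m, ∑ n, (if ConfT δ m n then P m * P' n else 0) := by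
      rw [δ.mass4_tlaw ν α β hα0 hβ0 δ.Conf (fun m n => ConfT δ m n)]
      rintro x x' y y' ⟨⟨l1, l2⟩, l3, l4⟩
      have k1 : x.1 = α.1.1 := by rw [← l1]; rfl
      have k2 : x'.1 = α.2.1 := by rw [← l2]; rfl
      have k3 : y.1 = β.1.1 := by rw [← l3]; rfl
      have k4 : y'.1 = β.2.1 := by rw [← l4]; rfl
      unfold Conf ConfT tv Adj dif
      rw [k1, k2, k3, k4]
      simp only [Matrix.cons_val_zero, Matrix.cons_val_one, Matrix.cons_val]
    rw [hU, hC]
    set u := ∑ m, (if UncutT (δ.g α.1.1) (δ.g α.2.1) m then P m else 0) with hu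
    set u' := ∑ n, (if UncutT (δ.g β.1.1) (δ.g β.2.1) n then P' n else 0) with hu'
    have hu0 : 0 ≤ u := Finset.sum_nonneg fun m _ => by split_ifs; exacts [hP0 m, le_rfl]
    have hu0' : 0 ≤ u' := Finset.sum_nonneg fun m _ => by split_ifs; exacts [hP0' m, le_rfl]
    have hu1 : u ≤ 1 := by
      rw [← hP1]
      exact Finset.sum_le_sum fun m _ => by split_ifs; exacts [le_rfl, hP0 m]
    have hu1' : u' ≤ 1 := by
      rw [← hP1']
      exact Finset.sum_le_sum fun m _ => by split_ifs; exacts [le_rfl, hP0' m]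
    have huu : u * u' ≤ 1 := mul_le_one₀ hu1 hu0' hu1'
    have hC0 : 0 ≤ ∑ m, ∑ n, (if ConfT δ m n then P m * P' n else 0) :=
      Finset.sum_nonneg fun m _ => Finset.sum_nonneg fun n _ => by
        split_ifs; exacts [mul_nonneg (hP0 m) (hP0' n), le_rfl]
    have e1 : κ * (mass ν α * mass ν β * (u * u') - 1 / 400 * (mass ν α * mass ν β))
        = mass ν α * mass ν β * (κ * (u * u' - 1 / 400)) := by ring
    rw [e1]
    refine mul_le_mul_of_nonneg_left ?_ hmm.le
    by_cases hbig : u * u' ≤ 1 / 400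
    · refine le_trans ?_ hC0
      exact mul_nonpos_of_nonneg_of_nonpos hκ (by linarith)
    · push Not at hbig
      have c1 : 1 / 400 ≤ u := by
        have : u * u' ≤ u * 1 := mul_le_mul_of_nonneg_left hu1' hu0
        linarith
      have c2 : 1 / 400 ≤ u' := by
        have : u * u' ≤ 1 * u' := mul_le_mul_of_nonneg_right hu1 hu0'
        linarith
      have := hOv α.1.1 α.2.1 β.1.1 β.2.1 hαc hβc n3 n4 n5 n6 _ _ _ _ _ _ hwα hwβ t1 t2 c1 c2
      refine le_trans ?_ this
      have h5 : κ * (u * u' - 1 / 400) ≤ κ * 1 :=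
        mul_le_mul_of_nonneg_left (by linarith) hκ
      linarith

end Design

lemma PLaw.mono {K T : Type*} [Fintype K] {δ : Design K T} {a a' : T} {ι ι' : Bool}
    {Λ M Λ' M' : ℝ} {w : Matrix K K F → Matrix K K F → ℝ} (h : PLaw δ a a' ι ι' Λ M w)
    (hΛ : Λ ≤ Λ') (hM : M ≤ M') : PLaw δ a a' ι ι' Λ' M' w :=
  ⟨h.nonneg, h.sum_one, h.supp, fun B B' => (h.joint B B').trans hΛ,
    fun B => (h.left B).trans hM, fun B' => (h.right B').trans hM⟩

section Concrete

variable {N d : ℕ} {E P Om : Type} [Fintype E] [Fintype P] [Fintype Om] [NeZero N]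

lemma card_Ty : Fintype.card (Ty N d) = N * d := by
  rw [Fintype.card_prod, ZMod.card, Fintype.card_fin]

private lemma card_lins_le_aux (c : Ty N d) : (lins c).card ≤ 3 := by
  unfold lins
  refine Finset.card_image_le.trans ?_
  simp

private lemma card_types_line_aux (u : Lin N) :
    ((Finset.univ : Finset (Ty N d)).filter fun c => u ∈ lins c).card ≤ d := by
  have hinj : Set.InjOn (fun c : Ty N d => c.2)
      (((Finset.univ : Finset (Ty N d)).filter fun c => u ∈ lins c : Finset (Ty N d)) :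
        Set (Ty N d)) := by
    intro c hc c' hc' h
    have hc1 := (Finset.mem_filter.1 (Finset.mem_coe.1 hc)).2
    have hc2 := (Finset.mem_filter.1 (Finset.mem_coe.1 hc')).2
    unfold lins at hc1 hc2
    obtain ⟨s, -, hs⟩ := Finset.mem_image.1 hc1
    obtain ⟨s', -, hs'⟩ := Finset.mem_image.1 hc2
    unfold lin at hs hs'
    have e1 : s = s' := by
      have := congrArg Prod.fst (hs.trans hs'.symm)
      simpa using this
    subst e1
    have e2 : Combi.ln c s = Combi.ln c' s := by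
      have := congrArg Prod.snd (hs.trans hs'.symm)
      simpa using this
    exact Combi.eq_of_share_of_dir e2 h
  rw [← Finset.card_image_of_injOn hinj]
  refine (Finset.card_le_univ _).trans ?_
  simp

/-- The number of pairs of types with a common line. -/
lemma card_share_le : ((Finset.univ.filter fun ab : Ty N d × Ty N d =>
    ¬ Disjoint (lins ab.1) (lins ab.2)).card : ℝ) ≤ 3 * d * (N * d) := by
  have h1 : ∀ a : Ty N d, (Finset.univ.filter fun b : Ty N d =>
      ¬ Disjoint (lins a) (lins b)).card ≤ 3 * d := by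
    intro a
    have hsub : (Finset.univ.filter fun b : Ty N d => ¬ Disjoint (lins a) (lins b))
        ⊆ (lins a).biUnion fun u => Finset.univ.filter fun c : Ty N d => u ∈ lins c := by
      intro b hb
      rw [Finset.mem_filter] at hb
      obtain ⟨u, hu1, hu2⟩ := Finset.not_disjoint_iff.1 hb.2
      rw [Finset.mem_biUnion]
      exact ⟨u, hu1, Finset.mem_filter.2 ⟨Finset.mem_univ _, hu2⟩⟩
    refine (Finset.card_le_card hsub).trans (Finset.card_biUnion_le.trans ?_)
    refine (Finset.sum_le_sum fun u _ => card_types_line_aux u).trans ?_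
    rw [Finset.sum_const, smul_eq_mul]
    exact Nat.mul_le_mul_right _ (card_lins_le_aux a)
  have h2 : (Finset.univ.filter fun ab : Ty N d × Ty N d =>
      ¬ Disjoint (lins ab.1) (lins ab.2)).card
      = ∑ a : Ty N d, (Finset.univ.filter fun b : Ty N d => ¬ Disjoint (lins a) (lins b)).card := by
    simp only [Finset.card_filter]
    exact Fintype.sum_prod_type _
  have h3 : (Finset.univ.filter fun ab : Ty N d × Ty N d =>
      ¬ Disjoint (lins ab.1) (lins ab.2)).card ≤ (N * d) * (3 * d) := by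
    rw [h2]
    refine (Finset.sum_le_sum fun a _ => h1 a).trans ?_
    rw [Finset.sum_const, Finset.card_univ, card_Ty, smul_eq_mul]
  have h4 : ((Finset.univ.filter fun ab : Ty N d × Ty N d =>
      ¬ Disjoint (lins ab.1) (lins ab.2)).card : ℝ) ≤ ((N * d) * (3 * d) : ℕ) := by
    exact_mod_cast h3
  refine h4.trans (le_of_eq ?_)
  push_cast
  ring

/-- Sums do not depend on the finiteness instance. -/
lemma fin2_sum_inst {α : Type*} (i₁ i₂ : Fintype α) (f : α → ℝ) :
    @Finset.sum α ℝ _ (@Finset.univ α i₁) f = @Finset.sum α ℝ _ (@Finset.univ α i₂) f := by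
  rw [Subsingleton.elim i₁ i₂]

/-- The cut inequality of a good design. -/
theorem cutIneq_of {fr : Frame N d E Om} {p : Lin N → Co E P Om → F} (h : Ext fr p) {ε : ℝ}
    (hC : EvC p d ε) : (dsg fr p h).CutIneq (1 / 10 + ε) := by
  intro x x' hadj _
  have h1 := hC ((dsg fr p h).dif x x') (by
    rintro ⟨t, u, hu, hv⟩
    apply hadj
    refine ⟨Sum.inl (Sum.inl t), Finset.mem_image_of_mem _ (Finset.mem_univ _), u, hu, ?_⟩
    rw [hv]
    congr
    exact Subsingleton.elim _ _)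
  rw [card_Ty]
  push_cast
  refine le_trans (le_of_eq ?_) h1
  congr

/-- **The overlap estimate of a good design.** -/
theorem overlapEst_of (hOv : Overlap) : ∃ c : ℕ, ∃ ε₁ > (0 : ℝ), ∀ (N d : ℕ) (E P Om : Type)
    [Fintype E] [Fintype P] [Fintype Om] [NeZero N] (fr : Frame N d E Om)
    (p : Lin N → Co E P Om → F) (h : Ext fr p) (κ₀ : ℕ) (Λ Λ' M' ε ε₀ εJ : ℝ),
    12 ≤ κ₀ → (∀ w, 12 + (rowLines fr w).card ≤ κ₀) → Ev1 p κ₀ → 0 < d → EvJ fr εJ →
    0 ≤ ε₀ → ε₀ ≤ ε₁ → 2 * ε₀ + 192 / N + 64 * εJ ≤ 1 / 100 →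
    400 * Λ ≤ Λ' → 3200 * ((N : ℝ) * d) ≤ M' →
    (∀ (a a' : Ty N d) (ι ι' : Bool), a ≠ a' → ∀ w, PLaw (dsg fr p h) a a' ι ι' Λ' M' w →
      ∀ ρ, TCoup 8 ρ → ∑ β, (if ε₀ < tdist (dsg fr p h) a a' w β then ρ β else 0) ≤ ε₀) →
    (dsg fr p h).OverlapEst Λ ε ((2521 : ℝ) ^ (4 * Fintype.card (Co E P Om) + c))⁻¹ := by
  obtain ⟨c, ε₁, hε₁, H⟩ := hOv
  refine ⟨c, ε₁, hε₁, ?_⟩
  intro N d E P Om _ _ _ _ fr p h κ₀ Λ Λ' M' ε ε₀ εJ h12 hrow hEv1 hd hJ hε₀ hε₀1 hnum hΛ hM hTV
  have : Nonempty (Ty N d) := ⟨((0 : ZMod N), (⟨0, hd⟩ : Fin d))⟩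
  have hN : (0 : ℝ) < N := by exact_mod_cast Nat.pos_of_ne_zero (NeZero.ne N)
  have hd' : (0 : ℝ) < d := by exact_mod_cast hd
  obtain ⟨R, hR⟩ : ∃ R : Ty N d → Ty N d → Prop, ∀ a b, R a b ↔
    (¬ Disjoint (lins a) (lins b) ∨ ¬ JointOnto fr a b) := ⟨_, fun _ _ => Iff.rfl⟩
  have hcardR : ((Finset.univ.filter fun ab : Ty N d × Ty N d => R ab.1 ab.2).card : ℝ)
      ≤ (3 / N + εJ) * (Fintype.card (Ty N d) : ℝ) ^ 2 := by
    have e1 : (Finset.univ.filter fun ab : Ty N d × Ty N d => R ab.1 ab.2)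
        ⊆ (Finset.univ.filter fun ab : Ty N d × Ty N d => ¬ Disjoint (lins ab.1) (lins ab.2))
        ∪ (Finset.univ.filter fun ab : Ty N d × Ty N d => ¬ JointOnto fr ab.1 ab.2) := by
      intro ab hab
      rw [Finset.mem_filter, hR] at hab
      rw [Finset.mem_union, Finset.mem_filter, Finset.mem_filter]
      rcases hab.2 with h | h
      · exact Or.inl ⟨Finset.mem_univ _, h⟩
      · exact Or.inr ⟨Finset.mem_univ _, h⟩
    have e2 : ((Finset.univ.filter fun ab : Ty N d × Ty N d => R ab.1 ab.2).card : ℝ)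
        ≤ ((Finset.univ.filter fun ab : Ty N d × Ty N d =>
          ¬ Disjoint (lins ab.1) (lins ab.2)).card : ℝ)
        + ((Finset.univ.filter fun ab : Ty N d × Ty N d => ¬ JointOnto fr ab.1 ab.2).card : ℝ) := by
      exact_mod_cast (Finset.card_le_card e1).trans (Finset.card_union_le _ _)
    have e3 := card_share_le (N := N) (d := d)
    have e4 : ((Finset.univ.filter fun ab : Ty N d × Ty N d =>
        ¬ JointOnto fr ab.1 ab.2).card : ℝ) ≤ εJ * (N * d) ^ 2 := hJ
    refine (e2.trans (add_le_add e3 e4)).trans (le_of_eq ?_)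
    rw [card_Ty]
    push_cast
    field_simp
  refine (dsg fr p h).overlapEst_gen (ε₀ := ε₀) (θ := 3 / N + εJ) (by positivity) hε₀ R ?_ ?_
    hcardR ?_
  · intro a a' ι ι' hne w hw ρ hρ
    refine hTV a a' ι ι' hne w (hw.mono hΛ (le_trans (le_of_eq ?_) hM)) ρ hρ
    rw [Fintype.card_prod, card_Ty, Fintype.card_bool]
    push_cast
    ring
  · intro a a' b b' hab hbb n1 n2 n3 n4 ι₁ ι₁' ι₂ ι₂' w w' hw hw' t1 t2 c1 c2
    rw [hR, not_or, not_not, not_not] at n1 n2 n3 n4
    have hdisj : Disjoint (lins2 (a, a')) (lins2 (b, b')) := by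
      unfold lins2
      rw [Finset.disjoint_union_left, Finset.disjoint_union_right, Finset.disjoint_union_right]
      exact ⟨⟨n1.1, n2.1⟩, n3.1, n4.1⟩
    have := H N d E P Om fr p h κ₀ h12 hrow hEv1 a a' b b' hab hbb hdisj n1.2 n2.2 n3.2 n4.2
      ι₁ ι₁' ι₂ ι₂' _ _ w w' hw hw' (t1.trans hε₀1) (t2.trans hε₀1)
      (c1.trans (le_of_eq (fin2_sum_inst _ _ _))) (c2.trans (le_of_eq (fin2_sum_inst _ _ _)))
    refine this.trans (le_of_eq ?_)
    exact (fin2_sum_inst _ _ _).trans (Finset.sum_congr rfl fun m _ => fin2_sum_inst _ _ _)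
  · have : 64 * (3 / (N : ℝ) + εJ) = 192 / N + 64 * εJ := by ring
    linarith

end Concrete

end Vale.Agent.P060.HW
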