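import Vale.Agent.P060.HW.Ent

/-! Entropy deficit on the lattice of subspaces: `D G = dim G * log |K| - H (X on G)` is
nonnegative, monotone and supermodular. -/

noncomputable section

namespace Vale.Agent.P060.HW

open Module

namespace Lat

variable {Ω : Type*} [Fintype Ω] {K : Type*} [Field K] [Finite K] {V : Type*} [AddCommGroup V]
  [Module K V] [FiniteDimensional K V]

/-- the restriction of the functional `X ω` to `G` -/
def ev (X : Ω → Dual K V) (G : Submodule K V) (ω : Ω) : Dual K G := (X ω).domRestrict G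

omit [Fintype Ω] [Finite K] [FiniteDimensional K V] in
theorem ev_eq_iff {X : Ω → Dual K V} {G : Submodule K V} {ω ω' : Ω} :
    ev X G ω = ev X G ω' ↔ ∀ g ∈ G, X ω g = X ω' g := by
  constructor
  · intro h g hg
    exact LinearMap.congr_fun h ⟨g, hg⟩
  · intro h
    ext g
    exact h g.1 g.2

omit [Fintype Ω] [Finite K] [FiniteDimensional K V] in
theorem agree_sup_iff {X : Ω → Dual K V} {G G' : Submodule K V} {ω ω' : Ω} :
    (∀ g ∈ G ⊔ G', X ω g = X ω' g) ↔ (∀ g ∈ G, X ω g = X ω' g) ∧ ∀ g ∈ G', X ω g = X ω' g := by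
  constructor
  · intro h
    exact ⟨fun g hg => h g (Submodule.mem_sup_left hg), fun g hg => h g (Submodule.mem_sup_right hg)⟩
  · rintro ⟨h1, h2⟩ g hg
    obtain ⟨a, ha, b, hb, rfl⟩ := Submodule.mem_sup.1 hg
    rw [map_add, map_add, h1 a ha, h2 b hb]

variable (P : FinProb Ω) (X : Ω → Dual K V)

/-- the entropy of `X` on `G` -/
def ent (G : Submodule K V) : ℝ := P.H (ev X G)

/-- the entropy deficit of `X` on `G` -/
def D (G : Submodule K V) : ℝ := finrank K G * Real.log (Nat.card K) - ent P X G

omit [Finite K] [FiniteDimensional K V] in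
theorem ent_nonneg (G : Submodule K V) : 0 ≤ ent P X G := P.H_nonneg _

omit [Finite K] [FiniteDimensional K V] in
theorem ent_mono {G G' : Submodule K V} (h : G ≤ G') : ent P X G ≤ ent P X G' := by
  refine P.H_le_of_det fun ω ω' hω => ?_
  rw [ev_eq_iff] at hω ⊢
  exact fun g hg => hω g (h hg)

theorem ent_le (G : Submodule K V) : ent P X G ≤ finrank K G * Real.log (Nat.card K) := by
  classical
  have hfin : Finite (Dual K G) := Module.finite_of_finite K
  have : Fintype (Dual K G) := Fintype.ofFinite _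
  have h1 := P.H_le_log_card (ev X G) Finset.univ fun ω => Finset.mem_univ _
  refine h1.trans (le_of_eq ?_)
  rw [Finset.card_univ, ← Nat.card_eq_fintype_card, Module.natCard_eq_pow_finrank (K := K),
    Subspace.dual_finrank_eq, Nat.cast_pow, Real.log_pow]

theorem D_nonneg (G : Submodule K V) : 0 ≤ D P X G := by
  have := ent_le P X G
  unfold D
  linarith

theorem D_le (G : Submodule K V) : D P X G ≤ finrank K G * Real.log (Nat.card K) := by
  have := ent_nonneg P X G
  unfold D
  linarith

omit [Finite K] [FiniteDimensional K V] in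
theorem ent_submodular (G G' : Submodule K V) :
    ent P X (G ⊔ G') + ent P X (G ⊓ G') ≤ ent P X G + ent P X G' := by
  have h := P.H_submod (ev X G) (ev X G') (ev X (G ⊓ G'))
  have e1 : P.H (fun ω => (ev X G ω, ev X G' ω, ev X (G ⊓ G') ω)) = ent P X (G ⊔ G') := by
    refine P.H_congr_det fun ω ω' => ?_
    rw [ev_eq_iff, agree_sup_iff, Prod.mk.injEq, Prod.mk.injEq, ev_eq_iff, ev_eq_iff, ev_eq_iff]
    constructor
    · rintro ⟨h1, h2⟩
      exact ⟨h1, h2, fun g hg => h1 g hg.1⟩
    · rintro ⟨h1, h2, -⟩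
      exact ⟨h1, h2⟩
  have e2 : P.H (fun ω => (ev X G ω, ev X (G ⊓ G') ω)) = ent P X G := by
    refine P.H_congr_det fun ω ω' => ?_
    rw [ev_eq_iff, Prod.mk.injEq, ev_eq_iff, ev_eq_iff]
    exact ⟨fun h1 => ⟨h1, fun g hg => h1 g hg.1⟩, fun h1 => h1.1⟩
  have e3 : P.H (fun ω => (ev X G' ω, ev X (G ⊓ G') ω)) = ent P X G' := by
    refine P.H_congr_det fun ω ω' => ?_
    rw [ev_eq_iff, Prod.mk.injEq, ev_eq_iff, ev_eq_iff]
    exact ⟨fun h1 => ⟨h1, fun g hg => h1 g hg.2⟩, fun h1 => h1.1⟩
  rw [e1, e2, e3] at h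
  exact h

omit [Finite K] in
/-- supermodularity -/
theorem D_supermodular (G G' : Submodule K V) :
    D P X G + D P X G' ≤ D P X (G ⊔ G') + D P X (G ⊓ G') := by
  have h1 := ent_submodular P X G G'
  have h2 : (finrank K (G ⊔ G' : Submodule K V) : ℝ) + finrank K (G ⊓ G' : Submodule K V) =
      finrank K G + finrank K G' := by
    exact_mod_cast Submodule.finrank_sup_add_finrank_inf_eq G G'
  have h3 := congrArg (· * Real.log (Nat.card K)) h2
  simp only [add_mul] at h3
  unfold D
  linarith

theorem ent_bot : ent P X (⊥ : Submodule K V) = 0 := by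
  refine le_antisymm ?_ (ent_nonneg P X _)
  have := ent_le P X (⊥ : Submodule K V)
  rw [finrank_bot, Nat.cast_zero, zero_mul] at this
  exact this

theorem D_bot : D P X (⊥ : Submodule K V) = 0 := by
  rw [D, ent_bot, finrank_bot, Nat.cast_zero, zero_mul, sub_zero]

theorem D_mono {G G' : Submodule K V} (h : G ≤ G') : D P X G ≤ D P X G' := by
  obtain ⟨C, hC⟩ := Submodule.exists_isCompl (Submodule.comap G'.subtype G)
  obtain ⟨C', rfl⟩ : ∃ C' : Submodule K V, C' = C.map G'.subtype := ⟨_, rfl⟩
  have h1 : G ⊔ C.map G'.subtype = G' := by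
    have e1 := hC.sup_eq_top
    have e2 := congrArg (Submodule.map G'.subtype) e1
    rw [Submodule.map_sup, Submodule.map_comap_subtype, Submodule.map_subtype_top,
      inf_eq_right.2 h] at e2
    exact e2
  have h2 : G ⊓ C.map G'.subtype = ⊥ := by
    have e1 := hC.inf_eq_bot
    have e2 := congrArg (Submodule.map G'.subtype) e1
    rw [Submodule.map_inf _ G'.injective_subtype, Submodule.map_comap_subtype,
      Submodule.map_bot, inf_eq_right.2 h] at e2
    exact e2
  have h3 := D_supermodular P X G (C.map G'.subtype)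
  rw [h1, h2, D_bot] at h3
  have h4 := D_nonneg P X (C.map G'.subtype)
  linarith

/-- the deficit of `G` given `A` -/
def Dc (G A : Submodule K V) : ℝ := D P X (G ⊔ A) - D P X A

theorem Dc_nonneg (G A : Submodule K V) : 0 ≤ Dc P X G A := by
  have := D_mono P X (le_sup_right : A ≤ G ⊔ A)
  unfold Dc
  linarith

omit [Finite K] in
/-- conditioning on more increases the deficit, if `G` meets the new conditions trivially -/
theorem Dc_mono_right {G A A' : Submodule K V} (h : A ≤ A') (hG : G ⊓ A' ≤ A) :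
    Dc P X G A ≤ Dc P X G A' := by
  have h1 := D_supermodular P X (G ⊔ A) A'
  have h2 : G ⊔ A ⊔ A' = G ⊔ A' := by rw [sup_assoc, sup_eq_right.2 h]
  have h3 : (G ⊔ A) ⊓ A' = A := by
    rw [sup_comm, sup_inf_assoc_of_le _ h]
    exact sup_eq_left.2 hG
  rw [h2, h3] at h1
  unfold Dc
  linarith

theorem Dc_mono_left {G G' A : Submodule K V} (h : G ≤ G') : Dc P X G A ≤ Dc P X G' A := by
  have := D_mono P X (sup_le_sup_right h A)
  unfold Dc
  linarith

omit [Finite K] [FiniteDimensional K V] in
/-- chain rule -/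
theorem Dc_chain (G G' A : Submodule K V) :
    Dc P X (G ⊔ G') A = Dc P X G' A + Dc P X G (G' ⊔ A) := by
  unfold Dc
  rw [sup_assoc]
  ring

omit [Finite K] [FiniteDimensional K V] in
/-- the total deficit is at least the sum of the increments -/
theorem sum_Dc (A : Submodule K V) (G : ℕ → Submodule K V) (n : ℕ) :
    ∑ i ∈ Finset.range n, Dc P X (G i) ((Finset.range i).sup G ⊔ A) =
      D P X ((Finset.range n).sup G ⊔ A) - D P X A := by
  induction n with
  | zero => simp
  | succ n ih =>
    rw [Finset.sum_range_succ, ih, Finset.range_add_one, Finset.sup_insert]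
    unfold Dc
    rw [← sup_assoc]
    ring

omit [Finite K] in
/-- superadditivity over a family of subspaces independent over `A` -/
theorem sum_Dc_le (A : Submodule K V) (G : ℕ → Submodule K V) (n : ℕ)
    (h : ∀ i < n, G i ⊓ ((Finset.range i).sup G ⊔ A) ≤ A) :
    ∑ i ∈ Finset.range n, Dc P X (G i) A ≤ D P X ((Finset.range n).sup G ⊔ A) - D P X A := by
  rw [← sum_Dc]
  refine Finset.sum_le_sum fun i hi => ?_
  exact Dc_mono_right P X le_sup_right (h i (Finset.mem_range.1 hi))

end Lat

end Vale.Agent.P060.HW
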