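import Vale.Agent.P060.HW.Host
import Vale.Agent.P060.HW.CountD
import Vale.Agent.P060.HW.Lat
import Vale.Agent.P060.HW.Combi

/-!
# Design H3: definitions

Coordinates `Co E P Om = (E ⊕ P) ⊕ Om`.  Lines `Lin N = Fin 3 × ZMod N`, types `Ty N d = ZMod N × Fin d`,
the type `c` has the three lines `lin c s`.  A line vector system `p : Lin N → Co E P Om → F` has
prescribed values on `E`; the vector of a type is the sum of its three lines.
-/

open scoped Classical

noncomputable section

set_option linter.unusedSectionVars false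

namespace Vale.Agent.P060.HW

open Module

export Combi (Ty ln)

/-- Coordinates. -/
abbrev Co (E P Om : Type) : Type := (E ⊕ P) ⊕ Om

/-- Lines. -/
abbrev Lin (N : ℕ) : Type := Fin 3 × ZMod N

/-- The lines of a type. -/
def lin {N d : ℕ} (c : Ty N d) (s : Fin 3) : Lin N := (s, ln c s)

/-- The set of lines of a type. -/
def lins {N d : ℕ} (c : Ty N d) : Finset (Lin N) := Finset.univ.image (lin c)

/-- The set of lines of a pair of types. -/
def lins2 {N d : ℕ} (β : Ty N d × Ty N d) : Finset (Lin N) := lins β.1 ∪ lins β.2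

/-- A frame: everything in the design except the random line vectors. -/
structure Frame (N d : ℕ) (E Om : Type) [Fintype Om] where
  /-- the zero rows -/
  U : Ty N d → Finset Om
  /-- the values on `E` -/
  γ : ZMod N → E → F
  /-- a distinguished coordinate -/
  e0 : E
  q : ℕ
  hγ : ∀ i t, γ i t ∈ Y
  card_U : ∀ c, (U c).card = q
  card_inter : ∀ c c', c ≠ c' → 4 * (U c ∩ U c').card ≤ q
  share_two : ∀ (c c' : Ty N d) (s s' : Fin 3), s ≠ s' → ln c s = ln c' s → ln c s' = ln c' s' → c = c'
  /-- two types with a common zero row have no common line -/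
  line_disj : ∀ (c c' : Ty N d) (w : Om), w ∈ U c → w ∈ U c' → c ≠ c' → ∀ s, ln c s ≠ ln c' s
  /-- a type without the zero row `w` shares at most one line with the types with zero row `w` -/
  private_lines : ∀ (b c c' : Ty N d) (w : Om) (s s' : Fin 3), w ∉ U b → w ∈ U c → w ∈ U c' →
    s ≠ s' → ln b s = ln c s → ln b s' = ln c' s' → False
  /-- the zero row sets of two different types meeting a third type in a line (or equal to it) are
  disjoint -/
  star_disj : ∀ (b c c' : Ty N d) (s s' : Fin 3), c ≠ c' → ln b s = ln c s → ln b s' = ln c' s' →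
    Disjoint (U c) (U c')

variable {N d : ℕ} {E P Om : Type} [Fintype E] [Fintype P] [Fintype Om] [NeZero N]

/-- The line vectors extend `γ` : family `1` has the value `γ`, the other families are zero on `E`. -/
def Ext (fr : Frame N d E Om) (p : Lin N → Co E P Om → F) : Prop :=
  ∀ (s : Fin 3) (i : ZMod N) (t : E), p (s, i) (Sum.inl (Sum.inl t)) = if s = 1 then fr.γ i t else 0

/-- The vector of a type. -/
def gv (p : Lin N → Co E P Om → F) (c : Ty N d) : Co E P Om → F := ∑ s, p (lin c s)

lemma gv_E {fr : Frame N d E Om} {p : Lin N → Co E P Om → F} (h : Ext fr p) (c : Ty N d) (t : E) :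
    gv p c (Sum.inl (Sum.inl t)) = fr.γ (ln c 1) t := by
  unfold gv
  rw [Finset.sum_apply, Finset.sum_eq_single (1 : Fin 3)]
  · rw [lin, h, if_pos rfl]
  · intro s _ hs
    rw [lin, h, if_neg hs]
  · intro h'
    exact absurd (Finset.mem_univ _) h'

/-- The host design of a frame and line vectors. -/
def dsg (fr : Frame N d E Om) (p : Lin N → Co E P Om → F) (h : Ext fr p) :
    Design (Co E P Om) (Ty N d) where
  E := Finset.univ.image fun t : E => Sum.inl (Sum.inl t)
  e0 := Sum.inl (Sum.inl fr.e0)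
  he0 := Finset.mem_image_of_mem _ (Finset.mem_univ _)
  g := gv p
  U := fun c => (fr.U c).image Sum.inr
  hU := by
    intro a w hw h'
    obtain ⟨u, -, rfl⟩ := Finset.mem_image.1 hw
    obtain ⟨t, -, ht⟩ := Finset.mem_image.1 h'
    exact absurd ht Sum.inl_ne_inr
  hg := by
    intro a t ht
    obtain ⟨t, -, rfl⟩ := Finset.mem_image.1 ht
    rw [gv_E h]
    exact fr.hγ _ _

/-! ### Functionals on forms -/

/-- The pairing of matrices. -/
def pr {K : Type*} [Fintype K] (Q B : Matrix K K F) : F := ∑ i, ∑ j, Q i j * B i j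

/-- The trivial tensors for a form of type `a` in a design. -/
def Design.Nn {K T : Type*} [Fintype K] (δ : Design K T) (a : T) : Submodule F (Matrix K K F) :=
  Submodule.span F
    ({Q | ∃ c, ∃ w ∈ δ.U c, Q = sm (Pi.single w 1) (δ.g c)} ∪
     {Q | ∃ w ∈ δ.U a, ∃ v, Q = sm (Pi.single w 1) v} ∪
     {Q | ∃ v, Q = sm v (δ.g a)})

/-- ANN (direct part): trivial tensors vanish on the directions of type `a`. -/
def AnnDirect : Prop := ∀ (K T : Type) [Fintype K] (δ : Design K T) (a : T),
  ∀ Q ∈ δ.Nn a, ∀ B ∈ δ.Dir a, pr Q B = 0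

/-- ANN (converse part): a symmetric matrix vanishing on all directions of type `a` is trivial. -/
def AnnConverse : Prop := ∀ (K T : Type) [Fintype K] (δ : Design K T) (a : T),
  ∀ Q : Matrix K K F, Q.IsSymm → (∀ B ∈ δ.Dir a, pr Q B = 0) → Q ∈ δ.Nn a

/-- UNIF: symmetric tensors independent modulo the trivial ones are independent uniform symbols of a
uniform direction of type `a` (number of directions with prescribed values). -/
def Unif : Prop := ∀ (K T : Type) [Fintype K] (δ : Design K T) (a : T) (R : ℕ)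
  (Q : Fin R → Matrix K K F), (∀ i, (Q i).IsSymm) →
  LinearIndependent F (fun i => (δ.Nn a).mkQ (Q i)) → ∀ v : Fin R → F,
  Nat.card {B : δ.Dir a // ∀ i, pr (Q i) (B : Matrix K K F) = v i} * 2521 ^ R = Nat.card (δ.Dir a)

/-! ### The exact annihilator lemma -/

/-- the lines of all types with zero row `w` -/
def rowLines (fr : Frame N d E Om) (w : Om) : Finset (Lin N) :=
  (Finset.univ.filter fun c : Ty N d => w ∈ fr.U c).biUnion lins

/-- AN.  If `∑_{u ∈ S} z_u ⊗ p_u` is trivial for type `a` (whose lines are in `S`), and for every row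
`w ∉ U a` the vectors of the lines in `S ∪ rowLines w` are independent on the coordinates in `P`,
then the `z_u` are explicitly known outside the coordinates in `U a`. -/
def AN : Prop := ∀ (N d : ℕ) (E P Om : Type) [Fintype E] [Fintype P] [Fintype Om] [NeZero N]
  (fr : Frame N d E Om) (p : Lin N → Co E P Om → F) (h : Ext fr p) (a : Ty N d) (S : Finset (Lin N)),
  (∀ s, lin a s ∈ S) →
  LinearIndependent F (fun u : S => fun j : P => p u (Sum.inl (Sum.inr j))) →
  (∀ w ∉ fr.U a, LinearIndependent F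
    (fun u : (S ∪ rowLines fr w : Finset (Lin N)) => fun j : P => p u (Sum.inl (Sum.inr j)))) →
  ∀ z : Lin N → Co E P Om → F, ∑ u ∈ S, sm (z u) (p u) ∈ (dsg fr p h).Nn a →
  ∃ (y : Co E P Om → F) (c : Lin N → Lin N → F) (x : Om → Ty N d → F),
    (∀ u v, c u v = - c v u) ∧ (∀ u v, u ∉ S → c u v = 0) ∧
    (∀ w b, x w b ≠ 0 → w ∈ fr.U b ∧ ∀ s, lin b s ∈ S) ∧
    (∀ u ∈ S, ∀ j : E ⊕ P, z u (Sum.inl j) =
      (if u ∈ lins a then y (Sum.inl j) else 0) + ∑ v ∈ S, c u v * p v (Sum.inl j)) ∧
    (∀ u ∈ S, ∀ w ∉ fr.U a, z u (Sum.inr w) =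
      (if u ∈ lins a then y (Sum.inr w) else 0) + ∑ v ∈ S, c u v * p v (Sum.inr w)
        + ∑ b, x w b * (if u ∈ lins b then 1 else 0))

/-! ### The span of biased functionals -/

/-- RANKLEM. -/
def RankLem : Prop := ∀ (Ω : Type) [Fintype Ω] (W : Type) [AddCommGroup W] [Module F W]
  [FiniteDimensional F W] (Pr : FinProb Ω) (X : Ω → Dual F W) (ψ : AddChar F ℂ) (_ : ψ ≠ 0)
  (η : ℝ) (_ : 0 ≤ η) (Nn : Submodule F W) (R : ℕ) (Q : Fin R → W),
  LinearIndependent F (fun i => Nn.mkQ (Q i)) →
  (∀ i, η ≤ ‖∑ ω, (Pr.w ω : ℂ) * ψ (X ω (Q i))‖) →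
  R * (η ^ 2 / 2) ≤ Lat.D Pr X (Nn ⊔ Submodule.span F (Set.range Q)) - Lat.D Pr X Nn

end Vale.Agent.P060.HW
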