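import Vale.Agent.P060.HW.Good

/-!
# An instance of the frame of Design H3

The zero rows come from `Combi`, the classes from an equidistributed map; all sizes.
-/

open scoped Classical

noncomputable section

set_option linter.unusedSectionVars false

namespace Vale.Agent.P060.HW

namespace FrI

open Finset

theorem filter_le {α : Type*} {p q : α → Prop} {i1 : DecidablePred p} {i2 : DecidablePred q}
    {s : Finset α} (h : ∀ a, p a → q a) :
    (@Finset.filter α p i1 s).card ≤ (@Finset.filter α q i2 s).card := by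
  apply Finset.card_le_card
  intro a ha
  rw [Finset.mem_filter] at ha ⊢
  exact ⟨ha.1, h a ha.2⟩

theorem filter_eq {α : Type*} {p q : α → Prop} {i1 : DecidablePred p} {i2 : DecidablePred q}
    {s : Finset α} (h : ∀ a, p a ↔ q a) :
    (@Finset.filter α p i1 s).card = (@Finset.filter α q i2 s).card :=
  le_antisymm (filter_le fun a => (h a).1) (filter_le fun a => (h a).2)

/-! ### Equidistributed classes -/

/-- Equidistributed map from the residues modulo `N` to a finite type whose size divides `N`. -/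
theorem exists_equi {α : Type*} [Fintype α] [Nonempty α] (N : ℕ) [NeZero N]
    (h : Fintype.card α ∣ N) :
    ∃ γ : ZMod N → α, ∀ a, (univ.filter fun j => γ j = a).card * Fintype.card α = N := by
  obtain ⟨m, hm⟩ := h
  have hn : 0 < N := Nat.pos_of_ne_zero (NeZero.ne N)
  have e1 : Fintype.card (ZMod N) = Fintype.card (α × Fin m) := by
    rw [ZMod.card, Fintype.card_prod, Fintype.card_fin, ← hm]
  let e : ZMod N ≃ α × Fin m := Fintype.equivOfCardEq e1
  refine ⟨fun j => (e j).1, fun a => ?_⟩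
  have : (univ.filter fun j : ZMod N => (e j).1 = a).card
      = (univ.filter fun x : α × Fin m => x.1 = a).card := by
    apply card_bij (fun j _ => e j)
    · intro j hj
      rw [mem_filter] at hj ⊢
      exact ⟨mem_univ _, hj.2⟩
    · intro i _ j _ hij
      exact e.injective hij
    · intro x hx
      refine ⟨e.symm x, ?_, e.apply_symm_apply x⟩
      rw [mem_filter] at hx ⊢
      refine ⟨mem_univ _, ?_⟩
      rw [e.apply_symm_apply]
      exact hx.2
  rw [this]
  have h2 : (univ.filter fun x : α × Fin m => x.1 = a) = ({a} : Finset α) ×ˢ (univ : Finset (Fin m)) := by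
    ext ⟨x, y⟩
    rw [mem_filter, mem_product, mem_singleton]
    simp
  rw [h2, card_product, card_singleton, card_univ, Fintype.card_fin, one_mul, hm, Nat.mul_comm]

/-- Number of maps which are not onto. -/
theorem card_not_surj (E β : Type*) [Fintype E] [Fintype β] :
    (univ.filter fun f : E → β => ¬ Function.Surjective f).card
      ≤ Fintype.card β * (Fintype.card β - 1) ^ Fintype.card E := by
  have hsub : (univ.filter fun f : E → β => ¬ Function.Surjective f)
      ⊆ (univ : Finset β).biUnion fun b => Fintype.piFinset fun _ : E => univ.erase b := by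
    intro f hf
    have h := (mem_filter.1 hf).2
    unfold Function.Surjective at h
    push Not at h
    obtain ⟨b, hb⟩ := h
    rw [mem_biUnion]
    refine ⟨b, mem_univ _, ?_⟩
    rw [Fintype.mem_piFinset]
    intro a
    exact mem_erase.2 ⟨hb a, mem_univ _⟩
  refine (card_le_card hsub).trans (card_biUnion_le.trans ?_)
  have h3 : ∀ b : β, (Fintype.piFinset fun _ : E => univ.erase b).card
      = (Fintype.card β - 1) ^ Fintype.card E := by
    intro b
    rw [Fintype.card_piFinset, prod_const, card_univ, card_erase_of_mem (mem_univ b), card_univ]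
  rw [sum_congr rfl fun b _ => h3 b, sum_const, card_univ, smul_eq_mul]

/-- The values in `Y` as a type. -/
abbrev YY : Type := {y : F // y ∈ Y}

theorem card_YY : Fintype.card YY = 140 := by
  rw [Fintype.card_coe, card_Y]

instance : Nonempty YY := ⟨⟨1, by unfold Y; simp⟩⟩

/-- the number of classes -/
theorem card_cls (E : Type) [Fintype E] : Fintype.card (E → YY) = 140 ^ Fintype.card E := by
  rw [Fintype.card_fun, card_YY]

/-! ### The frame -/

variable {N d : ℕ} {E : Type} {Q M : ℕ} [Fact Q.Prime] [NeZero M] [NeZero N]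

/-- The frame with zero rows `Combi.U Q M (Q / 4)`. -/
def mk (hM : M ∣ N) (hMd : 2 * d ≤ M) (hN : N ≤ M * Q ^ (Q / 4 + 1)) (e0 : E)
    (γ : ZMod N → E → YY) : Frame N d E (Combi.Om Q M d) where
  U := Combi.U Q M (Q / 4)
  γ := fun i t => (γ i t : F)
  e0 := e0
  q := Q
  hγ := fun i t => (γ i t).2
  card_U := fun c => Combi.card_U c
  card_inter := fun c c' h => by
    have h1 := Combi.card_U_inter_le (Q := Q) (M := M) (D := Q / 4) h hN
    have h2 := Nat.mul_div_le Q 4
    refine le_trans (Nat.mul_le_mul_left 4 (le_trans (le_of_eq ?_) h1)) h2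
    congr
    exact Subsingleton.elim _ _
  share_two := fun c c' s s' hs h h' => by
    have hN0 : 0 < N := Nat.pos_of_ne_zero (NeZero.ne N)
    exact Combi.eq_of_share_two (hMd.trans (Nat.le_of_dvd hN0 hM)) hs h h'
  line_disj := fun c c' w hw hw' hne s h =>
    hne (Combi.eq_of_share_of_dir h ((Combi.dir_of_mem hw).trans (Combi.dir_of_mem hw').symm))
  private_lines := fun b c c' w s s' hb hc hc' hs h h' => by
    have := Combi.eq_of_share_cls hM hMd hs ((Combi.dir_of_mem hc).trans (Combi.dir_of_mem hc').symm)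
      ((Combi.res_of_mem hc).trans (Combi.res_of_mem hc').symm) h h'
    exact hb (this.1 ▸ hc)
  star_disj := fun b c c' s s' hne h h' => by
    rw [Finset.disjoint_left]
    intro w hw hw'
    by_cases hs : s = s'
    · subst hs
      exact hne (Combi.eq_of_share_of_dir (h.symm.trans h')
        ((Combi.dir_of_mem hw).trans (Combi.dir_of_mem hw').symm))
    · have := Combi.eq_of_share_cls hM hMd hs
        ((Combi.dir_of_mem hw).trans (Combi.dir_of_mem hw').symm)
        ((Combi.res_of_mem hw).trans (Combi.res_of_mem hw').symm) h h'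
      exact hne (this.1.symm.trans this.2)

/-- types with a given zero row -/
theorem mk_row (hM : M ∣ N) (hMd : 2 * d ≤ M) (hN : N ≤ M * Q ^ (Q / 4 + 1)) (e0 : E)
    (γ : ZMod N → E → YY) (w : Combi.Om Q M d) :
    (univ.filter fun c : Ty N d => w ∈ (mk hM hMd hN e0 γ).U c).card ≤ (N / M) / Q + 1 := by
  refine le_trans (card_le_card ?_) (Combi.card_A_le (N := N) (D := Q / 4) hM w)
  intro c hc
  exact Combi.mem_A.2 (mem_filter.1 hc).2

/-- types whose zero rows meet those of `a` -/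
theorem mk_meet (hM : M ∣ N) (hMd : 2 * d ≤ M) (hN : N ≤ M * Q ^ (Q / 4 + 1)) (e0 : E)
    (γ : ZMod N → E → YY) (a : Ty N d) :
    (univ.filter fun c : Ty N d =>
      ¬ Disjoint ((mk hM hMd hN e0 γ).U a) ((mk hM hMd hN e0 γ).U c)).card ≤ N / M := by
  refine le_trans (card_le_card ?_) (Combi.card_AA_le (N := N) (D := Q / 4) (Q := Q) hM a)
  intro c hc
  have h := (mem_filter.1 hc).2
  rw [Finset.not_disjoint_iff] at h
  obtain ⟨w, h1, h2⟩ := h
  rw [Combi.mem_AA]
  exact ⟨w, by rw [mem_inter]; exact ⟨h1, h2⟩⟩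

theorem natLog_le (m : ℕ) (hm : 0 < m) : (Nat.log 2 m : ℝ) ≤ 3 / 2 * Real.log m := by
  have h1 : (2 : ℝ) ^ (Nat.log 2 m) ≤ m := by
    exact_mod_cast Nat.pow_log_le_self 2 hm.ne'
  have h2 := Real.log_le_log (by positivity) h1
  rw [Real.log_pow] at h2
  have h3 : (2 : ℝ) / 3 ≤ Real.log 2 := by
    have := Real.log_two_gt_d9
    linarith
  have h4 : (0 : ℝ) ≤ Nat.log 2 m := Nat.cast_nonneg _
  nlinarith [mul_le_mul_of_nonneg_left h3 h4]

end FrI

open FrI in
/-- Frames with all sizes. `D0, d` are constants, `k` is large. -/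
theorem exists_frame (E : Type) [Fintype E] (e0 : E) (D0 d : ℕ) (C eps : ℝ) (hD0 : 0 < D0)
    (heps : 0 < eps) : ∃ k0 : ℕ, ∀ k : ℕ, k0 ≤ k →
    ∃ (N : ℕ) (_ : NeZero N) (Om : Type) (_ : Fintype Om) (fr : Frame N d E Om),
      fr.e0 = e0 ∧ D0 * k ≤ N ∧ N ≤ 2 * (D0 * k) ∧ (2 * d + 1) ∣ N ∧
      C * Real.log k ≤ fr.q ∧ (fr.q : ℝ) ≤ eps * k ∧
      (∀ w, ((Finset.univ.filter fun c : Ty N d => w ∈ fr.U c).card : ℝ) ≤ eps * k) ∧
      (∀ a, (Finset.univ.filter fun c : Ty N d => ¬ Disjoint (fr.U a) (fr.U c)).card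
        ≤ N / (2 * d + 1)) ∧
      (Fintype.card Om : ℝ) ≤ eps * k ∧ (Fintype.card Om : ℝ) ≤ Real.log k ^ 3 ∧
      (∀ v : E → F, (∀ t, v t ∈ Y) →
        (Finset.univ.filter fun i => fr.γ i = v).card * 140 ^ Fintype.card E = N) := by
  set M := 2 * d + 1 with hM
  set y := 140 ^ Fintype.card E with hy
  have hy0 : 0 < y := Nat.pos_of_ne_zero (by rw [hy]; positivity)
  set M' := M * y with hM'
  have hM0 : 0 < M' := Nat.mul_pos (by omega) hy0
  set P : ℕ := ⌈4 * D0 / eps⌉₊ with hP
  have hP1 : 4 * (D0 : ℝ) / eps ≤ P := Nat.le_ceil _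
  set B : ℝ := |C| + 8 with hB
  have hB8 : 8 ≤ B := by rw [hB]; have := abs_nonneg C; linarith
  have hD1 : (1 : ℝ) ≤ D0 := by exact_mod_cast hD0
  have hlog : 0 ≤ Real.log (2 * (D0 : ℝ)) := Real.log_nonneg (by linarith)
  have hdn : (0 : ℝ) ≤ (d : ℝ) := Nat.cast_nonneg _
  have hPn : (0 : ℝ) ≤ (P : ℝ) := Nat.cast_nonneg _
  have hdB : 0 ≤ 4 * ((d : ℝ) * (2 * d + 1)) * B ^ 2 := by positivity
  set LL : ℝ := 1 + 6 * Real.log (2 * D0) + 5 + P + 2 * B + 4 * (d * (2 * d + 1)) * B ^ 2 with hLL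
  have hev : ∀ᶠ k : ℕ in Filter.atTop, LL ≤ Real.log k :=
    (Real.tendsto_log_atTop.comp tendsto_natCast_atTop_atTop).eventually_ge_atTop LL
  have hev2 : ∀ᶠ k : ℕ in Filter.atTop, 2 / eps ≤ (k : ℝ) :=
    tendsto_natCast_atTop_atTop.eventually_ge_atTop (2 / eps)
  have hev3 : ∀ᶠ k : ℕ in Filter.atTop, M' + 1 ≤ k := Filter.eventually_ge_atTop (M' + 1)
  have hev4 : ∀ᶠ k : ℕ in Filter.atTop, Real.log k ^ 3 ≤ eps * k := by
    have h1 : (fun x : ℝ => Real.log x ^ 3) =o[Filter.atTop] (fun x : ℝ => x) :=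
      Real.isLittleO_pow_log_id_atTop
    have h2 := (h1.bound heps).filter_mono (le_refl _)
    have h3 := tendsto_natCast_atTop_atTop.eventually h2
    filter_upwards [h3, hev] with k hk hk2
    have h4 : 0 ≤ Real.log (k : ℝ) := by linarith
    rw [Real.norm_of_nonneg (by positivity), Real.norm_of_nonneg (by positivity)] at hk
    exact hk
  obtain ⟨k0, hk0⟩ := Filter.eventually_atTop.1 (((hev.and hev2).and hev3).and hev4)
  refine ⟨k0, fun k hk => ?_⟩
  obtain ⟨⟨⟨hL, hk2⟩, hkM⟩, hk4⟩ := hk0 k hk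
  have hL1 : 1 ≤ Real.log k := by linarith
  have hkpos : (0 : ℝ) < k := by
    have : 0 < k := by omega
    exact_mod_cast this
  -- the modulus
  obtain ⟨N, h1, h2, hNM, hNy⟩ : ∃ N : ℕ, D0 * k ≤ N ∧ N ≤ D0 * k + M' ∧ M ∣ N ∧ y ∣ N := by
    refine ⟨M' * (D0 * k / M' + 1), (Nat.lt_mul_div_succ (D0 * k) hM0).le, ?_,
      ⟨y * (D0 * k / M' + 1), by rw [hM', Nat.mul_assoc]⟩,
      ⟨M * (D0 * k / M' + 1), by rw [hM']; ring⟩⟩
    rw [Nat.mul_add, Nat.mul_one]
    exact Nat.add_le_add_right (Nat.mul_div_le (D0 * k) M') M'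
  have hkD : k ≤ D0 * k := Nat.le_mul_of_pos_left k hD0
  have hN2 : N ≤ 2 * (D0 * k) := by omega
  have hN0 : 0 < N := by omega
  have : NeZero N := ⟨hN0.ne'⟩
  have : NeZero M := ⟨by omega⟩
  -- the prime
  obtain ⟨X, hX1, hX2, hX3, hXB⟩ : ∃ X : ℕ, ⌈C * Real.log k⌉₊ ≤ X ∧ 4 * Nat.log 2 N + 4 ≤ X ∧ P ≤ X ∧
      (X : ℝ) ≤ B * Real.log k := by
    refine ⟨max (max ⌈C * Real.log k⌉₊ (4 * Nat.log 2 N + 4)) P,
      (le_max_left _ _).trans (le_max_left _ _), (le_max_right _ _).trans (le_max_left _ _),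
      le_max_right _ _, ?_⟩
    rw [Nat.cast_max, Nat.cast_max]
    apply max_le
    · apply max_le
      · have f1 : C * Real.log k ≤ |C| * Real.log k :=
          mul_le_mul_of_nonneg_right (le_abs_self C) (by linarith)
        have f2 : ((⌈C * Real.log k⌉₊ : ℕ) : ℝ) ≤ |C| * Real.log k + 1 := by
          refine (Nat.cast_le.2 (Nat.ceil_mono f1)).trans ?_
          exact (Nat.ceil_lt_add_one (by positivity)).le
        rw [hB, add_mul]
        linarith
      · push_cast
        have f1 : ((Nat.log 2 N : ℕ) : ℝ) ≤ 3 / 2 * (Real.log (2 * D0) + Real.log k) := by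
          refine (natLog_le _ hN0).trans ?_
          rw [← Real.log_mul (by positivity) hkpos.ne']
          apply mul_le_mul_of_nonneg_left _ (by norm_num)
          apply Real.log_le_log
          · exact_mod_cast hN0
          · have : N ≤ 2 * D0 * k := by
              rw [Nat.mul_assoc]
              exact hN2
            exact_mod_cast this
        have f2 : 7 * Real.log k ≤ B * Real.log k :=
          mul_le_mul_of_nonneg_right (by linarith) (by linarith)
        linarith
    · have : (8 : ℝ) * Real.log k ≤ B * Real.log k := mul_le_mul_of_nonneg_right hB8 (by linarith)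
      linarith
  obtain ⟨Q, hQ, hXQ, hQX, hNQ, _⟩ := Combi.exists_Q N X hX2
  have : Fact Q.Prime := ⟨hQ⟩
  have hNQ' : N ≤ M * Q ^ (Q / 4 + 1) := hNQ.trans (Nat.le_mul_of_pos_left _ (by omega))
  have hcls : Fintype.card (E → YY) ∣ N := by rw [card_cls]; exact hNy
  have : Nonempty (E → YY) := ⟨fun _ => Classical.arbitrary _⟩
  obtain ⟨γ, hγ⟩ := exists_equi (α := E → YY) N hcls
  have hQB : (Q : ℝ) ≤ 2 * (B * Real.log k) := by
    have : (Q : ℝ) ≤ 2 * X := by exact_mod_cast hQX
    linarith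
  have hXR : (X : ℝ) ≤ Q := by exact_mod_cast hXQ.le
  have hOm : (Fintype.card (Combi.Om Q M d) : ℝ) ≤ Real.log k ^ 3 := by
    have e1 : (Fintype.card (Combi.Om Q M d) : ℝ) = (d * (2 * d + 1)) * (Q * Q) := by
      simp only [Fintype.card_prod, Fintype.card_fin, ZMod.card]
      push_cast [hM]
      ring
    rw [e1]
    have e2 : (Q : ℝ) * Q ≤ (2 * (B * Real.log k)) * (2 * (B * Real.log k)) :=
      mul_le_mul hQB hQB (Nat.cast_nonneg _) (by positivity)
    have e3 : ((d : ℝ) * (2 * d + 1)) * (Q * Q)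
        ≤ (d * (2 * d + 1)) * ((2 * (B * Real.log k)) * (2 * (B * Real.log k))) :=
      mul_le_mul_of_nonneg_left e2 (by positivity)
    refine e3.trans ?_
    have e4 : ((d : ℝ) * (2 * d + 1)) * ((2 * (B * Real.log k)) * (2 * (B * Real.log k)))
        = (4 * (d * (2 * d + 1)) * B ^ 2) * Real.log k ^ 2 := by ring
    rw [e4, pow_succ (Real.log k) 2, mul_comm]
    apply mul_le_mul_of_nonneg_left _ (by positivity)
    linarith
  have hrow : ((N / M / Q + 1 : ℕ) : ℝ) ≤ eps * k := by
    have hQ0 : (0 : ℝ) < Q := by exact_mod_cast hQ.pos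
    have e0 : N / M / Q ≤ N / Q := Nat.div_le_div_right (Nat.div_le_self N M)
    have e1 : ((N / Q : ℕ) : ℝ) ≤ eps * k / 2 := by
      refine Nat.cast_div_le.trans ?_
      rw [div_le_iff₀ hQ0]
      have f1 : (N : ℝ) ≤ 2 * (D0 * k) := by exact_mod_cast hN2
      have f2 : 4 * (D0 : ℝ) / eps ≤ Q := by
        refine hP1.trans (le_trans ?_ hXR)
        exact_mod_cast hX3
      rw [div_le_iff₀ heps] at f2
      have f3 : 4 * (D0 : ℝ) * k ≤ Q * eps * k := mul_le_mul_of_nonneg_right f2 hkpos.le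
      linarith
    have e2 : 1 ≤ eps * k / 2 := by
      rw [div_le_iff₀ heps] at hk2
      linarith
    have e3 : ((N / M / Q : ℕ) : ℝ) ≤ ((N / Q : ℕ) : ℝ) := by exact_mod_cast e0
    push_cast
    linarith
  have hq1 : C * Real.log k ≤ (Q : ℝ) := by
    refine (Nat.le_ceil _).trans (le_trans ?_ hXR)
    exact_mod_cast hX1
  have hq2 : (Q : ℝ) ≤ eps * k := by
    refine hQB.trans (le_trans ?_ hk4)
    have e1 : 2 * B * Real.log k ≤ Real.log k * Real.log k :=
      mul_le_mul_of_nonneg_right (by linarith) (by linarith)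
    have e2 : Real.log k * Real.log k * 1 ≤ Real.log k * Real.log k * Real.log k :=
      mul_le_mul_of_nonneg_left hL1 (by positivity)
    calc 2 * (B * Real.log k) = 2 * B * Real.log k := by ring
      _ ≤ Real.log k * Real.log k := e1
      _ = Real.log k * Real.log k * 1 := by ring
      _ ≤ Real.log k * Real.log k * Real.log k := e2
      _ = Real.log k ^ 3 := by ring
  have hMd : 2 * d ≤ M := by omega
  have hrow' : ∀ w, ((Finset.univ.filter fun c : Ty N d => w ∈ (mk hNM hMd hNQ' e0 γ).U c).card : ℝ)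
      ≤ eps * k := by
    intro w
    have h := mk_row hNM hMd hNQ' e0 γ w
    refine le_trans ?_ hrow
    exact_mod_cast h
  have hmeet := mk_meet hNM hMd hNQ' e0 γ
  refine ⟨N, inferInstance, Combi.Om Q M d, inferInstance, mk hNM hMd hNQ' e0 γ, rfl, h1, hN2, hNM,
    hq1, hq2, ?_, ?_, hOm.trans hk4, hOm, ?_⟩
  · intro w
    exact le_trans (Nat.cast_le.2 (filter_le fun _ h => h)) (hrow' w)
  · intro a
    exact le_trans (filter_le fun _ h => h) (hmeet a)
  · intro v hv
    have h5 := hγ (fun t => ⟨v t, hv t⟩)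
    rw [card_cls] at h5
    refine Eq.trans ?_ h5
    refine congrArg (fun x : ℕ => x * 140 ^ Fintype.card E) ?_
    refine filter_eq fun i => ?_
    constructor
    · intro h
      funext t
      exact Subtype.ext (congrFun h t)
    · intro h
      funext t
      exact congrArg Subtype.val (congrFun h t)

/-! ### Pairs of classes covering all pairs of values -/

/-- The classes `v, v'` cover all pairs of values. -/
def Covers {E : Type} (v v' : E → F) : Prop := ∀ y ∈ Y, ∀ y' ∈ Y, ∃ t, v t = y ∧ v' t = y'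

open FrI in
/-- Pairs of residues whose classes do not cover all pairs of values. -/
theorem card_not_covers {N : ℕ} [NeZero N] {E : Type} [Fintype E] (γ : ZMod N → E → F)
    (hY : ∀ i t, γ i t ∈ Y)
    (h : ∀ v : E → F, (∀ t, v t ∈ Y) →
        (Finset.univ.filter fun i => γ i = v).card * 140 ^ Fintype.card E = N) :
    (Finset.univ.filter fun x : ZMod N × ZMod N => ¬ Covers (γ x.1) (γ x.2)).card *
      (140 ^ 2) ^ Fintype.card E ≤ (140 ^ 2 * (140 ^ 2 - 1) ^ Fintype.card E) * N ^ 2 := by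
  set B : Finset (E → YY × YY) := Finset.univ.filter fun f => ¬ Function.Surjective f with hB
  have hBc : B.card ≤ 140 ^ 2 * (140 ^ 2 - 1) ^ Fintype.card E := by
    have h0 := card_not_surj E (YY × YY)
    have e : Fintype.card (YY × YY) = 140 ^ 2 := by rw [Fintype.card_prod, card_YY, ← pow_two]
    rw [e] at h0
    exact le_trans (filter_le fun _ h => h) h0
  have h1 : (Finset.univ.filter fun x : ZMod N × ZMod N => ¬ Covers (γ x.1) (γ x.2)) ⊆
      B.biUnion fun f => (Finset.univ.filter fun i => γ i = fun t => ((f t).1 : F)) ×ˢ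
        (Finset.univ.filter fun i => γ i = fun t => ((f t).2 : F)) := by
    intro x hx
    have hx2 := (Finset.mem_filter.1 hx).2
    rw [Finset.mem_biUnion]
    refine ⟨fun t => (⟨γ x.1 t, hY _ _⟩, ⟨γ x.2 t, hY _ _⟩), ?_, ?_⟩
    · refine Finset.mem_filter.2 ⟨Finset.mem_univ _, fun hs => hx2 ?_⟩
      intro y hy y' hy'
      obtain ⟨t, ht⟩ := hs (⟨y, hy⟩, ⟨y', hy'⟩)
      exact ⟨t, congrArg (fun z : YY × YY => (z.1 : F)) ht, congrArg (fun z : YY × YY => (z.2 : F)) ht⟩
    · exact Finset.mem_product.2 ⟨Finset.mem_filter.2 ⟨Finset.mem_univ _, rfl⟩,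
        Finset.mem_filter.2 ⟨Finset.mem_univ _, rfl⟩⟩
  have h2 := (Finset.card_le_card h1).trans Finset.card_biUnion_le
  calc _ ≤ (∑ f ∈ B, ((Finset.univ.filter fun i => γ i = fun t => ((f t).1 : F)) ×ˢ
        (Finset.univ.filter fun i => γ i = fun t => ((f t).2 : F))).card) * (140 ^ 2) ^ Fintype.card E :=
        Nat.mul_le_mul_right _ h2
    _ = ∑ _f ∈ B, N ^ 2 := by
        rw [Finset.sum_mul]
        refine Finset.sum_congr rfl fun f _ => ?_
        rw [Finset.card_product]
        have e1 := h (fun t => ((f t).1 : F)) fun t => (f t).1.2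
        have e2 := h (fun t => ((f t).2 : F)) fun t => (f t).2.2
        calc _ = ((Finset.univ.filter fun i => γ i = fun t => ((f t).1 : F)).card * 140 ^ Fintype.card E) *
              ((Finset.univ.filter fun i => γ i = fun t => ((f t).2 : F)).card * 140 ^ Fintype.card E) := by
                rw [← pow_mul, Nat.mul_comm 2, pow_mul]
                ring
          _ = N ^ 2 := by rw [e1, e2, pow_two]
    _ = B.card * N ^ 2 := by rw [Finset.sum_const, smul_eq_mul]
    _ ≤ _ := Nat.mul_le_mul_right _ hBc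

/-- every line is a line of exactly `d` types -/
theorem card_ln {N d : ℕ} [NeZero N] (s : Fin 3) (j : ZMod N) :
    (Finset.univ.filter fun c : Ty N d => ln c s = j).card = d := by
  have : (Finset.univ.filter fun c : Ty N d => ln c s = j)
      = Finset.univ.image (fun l : Fin d => ((j - ((s.val * l.val : ℕ) : ZMod N), l) : Ty N d)) := by
    ext a
    simp only [Finset.mem_filter, Finset.mem_univ, true_and, Finset.mem_image]
    constructor
    · intro h
      refine ⟨a.2, Prod.ext ?_ rfl⟩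
      rw [← h]
      unfold ln
      ring
    · rintro ⟨l, rfl⟩
      unfold ln
      ring
  rw [this, Finset.card_image_of_injective, Finset.card_univ, Fintype.card_fin]
  intro l m h
  exact (Prod.mk.inj h).2

/-- Pairs of types whose classes do not cover all pairs of values. -/
theorem card_not_covers_types {N d : ℕ} [NeZero N] {E : Type} [Fintype E] (γ : ZMod N → E → F)
    (hY : ∀ i t, γ i t ∈ Y)
    (h : ∀ v : E → F, (∀ t, v t ∈ Y) →
        (Finset.univ.filter fun i => γ i = v).card * 140 ^ Fintype.card E = N) :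
    (Finset.univ.filter fun x : Ty N d × Ty N d => ¬ Covers (γ (ln x.1 1)) (γ (ln x.2 1))).card *
      (140 ^ 2) ^ Fintype.card E ≤ (140 ^ 2 * (140 ^ 2 - 1) ^ Fintype.card E) * (N * d) ^ 2 := by
  have h1 : (Finset.univ.filter fun x : Ty N d × Ty N d => ¬ Covers (γ (ln x.1 1)) (γ (ln x.2 1))) ⊆
      (Finset.univ.filter fun x : ZMod N × ZMod N => ¬ Covers (γ x.1) (γ x.2)).biUnion fun x =>
        (Finset.univ.filter fun c : Ty N d => ln c 1 = x.1) ×ˢ
        (Finset.univ.filter fun c : Ty N d => ln c 1 = x.2) := by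
    intro x hx
    refine Finset.mem_biUnion.2 ⟨(ln x.1 1, ln x.2 1),
      Finset.mem_filter.2 ⟨Finset.mem_univ _, (Finset.mem_filter.1 hx).2⟩, ?_⟩
    exact Finset.mem_product.2 ⟨Finset.mem_filter.2 ⟨Finset.mem_univ _, rfl⟩,
        Finset.mem_filter.2 ⟨Finset.mem_univ _, rfl⟩⟩
  have h2 := (Finset.card_le_card h1).trans Finset.card_biUnion_le
  rw [Finset.sum_congr rfl fun x _ => by rw [Finset.card_product, card_ln, card_ln],
    Finset.sum_const, smul_eq_mul] at h2
  have h3 := card_not_covers γ hY h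
  calc _ ≤ ((Finset.univ.filter fun x : ZMod N × ZMod N => ¬ Covers (γ x.1) (γ x.2)).card * (d * d)) *
        (140 ^ 2) ^ Fintype.card E := Nat.mul_le_mul_right _ h2
    _ = ((Finset.univ.filter fun x : ZMod N × ZMod N => ¬ Covers (γ x.1) (γ x.2)).card *
        (140 ^ 2) ^ Fintype.card E) * (d * d) := by ring
    _ ≤ ((140 ^ 2 * (140 ^ 2 - 1) ^ Fintype.card E) * N ^ 2) * (d * d) := Nat.mul_le_mul_right _ h3
    _ = _ := by ring

/-! ### Final form -/

/-- Existence of frames: `E0` depends only on `εJ`. -/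
def FrameInst : Prop := ∀ εJ > (0 : ℝ), ∃ E₀ : ℕ, ∀ (D₀ d : ℕ), 0 < D₀ → ∀ θ > (0 : ℝ), ∀ C : ℝ,
  ∃ k₀ : ℕ, ∀ k : ℕ, k₀ ≤ k → ∃ (N m : ℕ) (_ : NeZero N) (fr : Frame N d (Fin E₀) (Fin m)),
    Sizes fr (Fin k) D₀ θ C ∧ EvJ fr εJ

/-- Renaming the rows. -/
def Frame.rename {N d : ℕ} {E Om Om' : Type} [Fintype Om] [Fintype Om'] (fr : Frame N d E Om)
    (e : Om ≃ Om') : Frame N d E Om' where
  U := fun c => (fr.U c).map e.toEmbedding
  γ := fr.γ
  e0 := fr.e0
  q := fr.q
  hγ := fr.hγ
  card_U := fun c => by rw [Finset.card_map]; exact fr.card_U c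
  card_inter := fun c c' h => by
    rw [← Finset.map_inter, Finset.card_map]
    exact fr.card_inter c c' h
  share_two := fr.share_two
  line_disj := fun c c' w hw hw' => by
    rw [Finset.mem_map_equiv] at hw hw'
    exact fr.line_disj c c' _ hw hw'
  private_lines := fun b c c' w s s' hb hc hc' => by
    rw [Finset.mem_map_equiv] at hb hc hc'
    exact fr.private_lines b c c' _ s s' hb hc hc'
  star_disj := fun b c c' s s' h1 h2 h3 => by
    rw [Finset.disjoint_map]
    exact fr.star_disj b c c' s s' h1 h2 h3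

theorem frameInst : FrameInst := by
  intro εJ hεJ
  have hr : Filter.Tendsto (fun n : ℕ => (140 : ℝ) ^ 2 * ((140 ^ 2 - 1) / 140 ^ 2) ^ n) Filter.atTop (nhds 0) := by
    have := (tendsto_pow_atTop_nhds_zero_of_lt_one (r := ((140 : ℝ) ^ 2 - 1) / 140 ^ 2) (by norm_num)
      (by norm_num)).const_mul ((140 : ℝ) ^ 2)
    rwa [mul_zero] at this
  obtain ⟨E₀, hE, hE1⟩ := ((hr.eventually (ge_mem_nhds hεJ)).and (Filter.eventually_ge_atTop 1)).exists
  refine ⟨E₀, fun D₀ d hD₀ θ hθ C => ?_⟩
  obtain ⟨k0, hk0⟩ := exists_frame (Fin E₀) ⟨0, by omega⟩ D₀ d C θ hD₀ hθ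
  refine ⟨k0, fun k hk => ?_⟩
  obtain ⟨N, hN, Om, hOm, fr, -, h1, h2, h3, h4, -, h6, -, h8, -, h10⟩ := hk0 k hk
  have hNpos : 0 < N := Nat.pos_of_ne_zero (NeZero.ne N)
  refine ⟨N, Fintype.card Om, hN, fr.rename (Fintype.equivFin Om), ⟨?_, ?_, ?_, ?_, ?_, ?_, ?_⟩, ?_⟩
  · rw [Fintype.card_fin]; exact h1
  · rw [Fintype.card_fin, Nat.mul_assoc]; exact h2
  · have := Nat.le_of_dvd hNpos h3
    omega
  · rw [Fintype.card_fin, Fintype.card_fin]; exact h8
  · intro w
    rw [Fintype.card_fin]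
    refine le_trans (Nat.cast_le.2 (FrI.filter_le fun c hc => ?_)) (h6 ((Fintype.equivFin Om).symm w))
    have hc' : w ∈ (fr.U c).map (Fintype.equivFin Om).toEmbedding := hc
    rw [Finset.mem_map_equiv] at hc'
    exact hc'
  · rw [Fintype.card_fin]; exact h4
  · intro u hu
    have := h10 u hu
    exact_mod_cast this
  · have hJ := card_not_covers_types (d := d) fr.γ fr.hγ h10
    rw [Fintype.card_fin] at hJ
    have hJ' : ((Finset.univ.filter fun ab : Ty N d × Ty N d =>
        ¬ Covers (fr.γ (ln ab.1 1)) (fr.γ (ln ab.2 1))).card : ℝ) * (140 ^ 2) ^ E₀ ≤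
        (140 ^ 2 * (140 ^ 2 - 1) ^ E₀) * (N * d) ^ 2 := by
      have h0 : (((140 ^ 2 * (140 ^ 2 - 1) ^ E₀) * (N * d) ^ 2 : ℕ) : ℝ) =
          (140 ^ 2 * (140 ^ 2 - 1) ^ E₀) * (N * d) ^ 2 := by
        push_cast
        norm_num
      rw [← h0]
      exact_mod_cast hJ
    have h5 : (Finset.univ.filter fun ab : Ty N d × Ty N d =>
        ¬ JointOnto (fr.rename (Fintype.equivFin Om)) ab.1 ab.2).card ≤
        (Finset.univ.filter fun ab : Ty N d × Ty N d =>
        ¬ Covers (fr.γ (ln ab.1 1)) (fr.γ (ln ab.2 1))).card := FrI.filter_le fun c hc => hc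
    have hp : (0 : ℝ) < (140 ^ 2) ^ E₀ := by positivity
    rw [← le_div_iff₀ hp] at hJ'
    refine (Nat.cast_le.2 h5).trans (hJ'.trans ?_)
    rw [div_pow] at hE
    calc (140 ^ 2 * (140 ^ 2 - 1) ^ E₀) * ((N : ℝ) * d) ^ 2 / (140 ^ 2) ^ E₀
        = (140 ^ 2 * ((140 ^ 2 - 1) ^ E₀ / (140 ^ 2) ^ E₀)) * ((N : ℝ) * d) ^ 2 := by ring
      _ ≤ εJ * (N * d) ^ 2 := mul_le_mul_of_nonneg_right hE (by positivity)

end Vale.Agent.P060.HW
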