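import Vale.Agent.P060.HW.GlDef
import Vale.Agent.P060.HW.Blocks

/-!
# P060/HW: common interface of the TV blocks

`MM K` = pairs of tensors; `XX (B, B')` = the functional `(Q, Q') ↦ pr Q B + pr Q' B'`;
`Fms δ a a' ι ι'` = the pairs of forms (a subtype); `Xf ω` = the functional of a pair of forms;
`PLaw.prob` = the probability space of a pair law; `SS K` = pairs of symmetric tensors;
`GA fr p h a a' A` = trivial tensors and tensors visible from the lines in `A`.
The deficit is `Lat.D hw.prob Xf G`, the conditional deficit `Lat.Dc hw.prob Xf G A`.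
-/

open scoped Classical

noncomputable section

set_option linter.unusedSectionVars false

namespace Vale.Agent.P060.HW

open Module

/-- Pairs of tensors. -/
abbrev MM (K : Type*) := Matrix K K F × Matrix K K F

section General

variable {K T : Type*} [Fintype K]

lemma pr_add (Q Q' B : Matrix K K F) : pr (Q + Q') B = pr Q B + pr Q' B := by
  unfold pr
  rw [← Finset.sum_add_distrib]
  refine Finset.sum_congr rfl fun i _ => ?_
  rw [← Finset.sum_add_distrib]
  refine Finset.sum_congr rfl fun j _ => ?_
  rw [Matrix.add_apply, add_mul]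

lemma pr_smul (c : F) (Q B : Matrix K K F) : pr (c • Q) B = c * pr Q B := by
  unfold pr
  rw [Finset.mul_sum]
  refine Finset.sum_congr rfl fun i _ => ?_
  rw [Finset.mul_sum]
  refine Finset.sum_congr rfl fun j _ => ?_
  rw [Matrix.smul_apply, smul_eq_mul, mul_assoc]

/-- A pair of matrices as a functional on pairs of tensors. -/
def XX (x : MM K) : Dual F (MM K) where
  toFun Q := pr Q.1 x.1 + pr Q.2 x.2
  map_add' Q Q' := by
    rw [Prod.fst_add, Prod.snd_add, pr_add, pr_add]; ring
  map_smul' c Q := by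
    rw [Prod.smul_fst, Prod.smul_snd, pr_smul, pr_smul, RingHom.id_apply, smul_eq_mul]; ring

lemma XX_apply (x Q : MM K) : XX x Q = pr Q.1 x.1 + pr Q.2 x.2 := rfl

/-- The pairs of forms of types `a, a'` and bits `ι, ι'`. -/
def Fms (δ : Design K T) (a a' : T) (ι ι' : Bool) : Type _ :=
  {x : MM K // x.1 ∈ δ.Form a ι ∧ x.2 ∈ δ.Form a' ι'}

section FmsSec

variable {δ : Design K T} {a a' : T} {ι ι' : Bool}

/-- the underlying pair of matrices -/
def Fms.val (ω : Fms δ a a' ι ι') : MM K := Subtype.val ω

lemma Fms.mem (ω : Fms δ a a' ι ι') : ω.val.1 ∈ δ.Form a ι ∧ ω.val.2 ∈ δ.Form a' ι' :=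
  Subtype.property ω

lemma Fms.val_injective : Function.Injective (Fms.val : Fms δ a a' ι ι' → MM K) :=
  Subtype.val_injective

instance : Finite (Fms δ a a' ι ι') := Finite.of_injective _ Fms.val_injective

instance : Fintype (Fms δ a a' ι ι') := Fintype.ofFinite _

/-- The pair of forms as a functional on pairs of tensors. -/
def Xf (ω : Fms δ a a' ι ι') : Dual F (MM K) := XX ω.val

end FmsSec

/-- Symmetric tensors. -/
def Sy (K : Type*) : Submodule F (Matrix K K F) where
  carrier := {Q | Q.IsSymm}
  zero_mem' := Matrix.isSymm_zero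
  add_mem' := fun h h' => h.add h'
  smul_mem' := fun c _ h => h.smul c

/-- Pairs of symmetric tensors. -/
def SS (K : Type*) : Submodule F (MM K) := (Sy K).prod (Sy K)

/-- The probability space of a pair law. -/
def PLaw.prob {δ : Design K T} {a a' : T} {ι ι' : Bool} {Λ M : ℝ}
    {w : Matrix K K F → Matrix K K F → ℝ} (hw : PLaw δ a a' ι ι' Λ M w) :
    FinProb (Fms δ a a' ι ι') where
  w x := w x.val.1 x.val.2
  nonneg x := hw.nonneg _ _
  sum_one := by
    rw [← hw.sum_one, ← Fintype.sum_prod_type' (fun B B' => w B B')]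
    refine Finset.sum_bij_ne_zero (fun x _ _ => x.val) (fun _ _ _ => Finset.mem_univ _)
      (fun x _ _ y _ _ h => Fms.val_injective h) (fun x _ hx => ?_) (fun _ _ _ => rfl)
    exact ⟨⟨x, hw.supp _ _ hx⟩, Finset.mem_univ _, hx, rfl⟩

/-- Pairs of trivial tensors. -/
def Design.N2 (δ : Design K T) (a a' : T) : Submodule F (MM K) := (δ.Nn a).prod (δ.Nn a')

end General

variable {N d : ℕ} {E P Om : Type} [Fintype E] [Fintype P] [Fintype Om] [NeZero N]

/-- Trivial tensors and tensors visible from the lines in `A`. -/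
def GA (fr : Frame N d E Om) (p : Lin N → Co E P Om → F) (h : Ext fr p) (a a' : Ty N d)
    (A : Finset (Lin N)) : Submodule F (MM (Co E P Om)) := Gp p A ⊔ (dsg fr p h).N2 a a'

/-- The mutual information of `G` and `G'` given `A` and the common part (nonnegative). -/
def Lat.mi {Ω : Type*} [Fintype Ω] {K : Type*} [Field K] [Finite K] {V : Type*} [AddCommGroup V]
    [Module K V] [FiniteDimensional K V] (Pr : FinProb Ω) (X : Ω → Dual K V)
    (G G' A : Submodule K V) : ℝ :=
  Lat.D Pr X (A ⊔ G ⊔ G') + Lat.D Pr X ((A ⊔ G) ⊓ (A ⊔ G')) - Lat.D Pr X (A ⊔ G)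
    - Lat.D Pr X (A ⊔ G')

end Vale.Agent.P060.HW
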