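import Vale.Agent.P060.HW.K2Frame
import Vale.Agent.P060.HW.TVI

/-! # P060/HW: `Gaa` and `GA` are the same spaces. -/

open scoped Classical

noncomputable section

set_option linter.unusedSectionVars false

namespace Vale.Agent.P060.HW

variable {N d : ℕ} {E P Om : Type} [Fintype E] [Fintype P] [Fintype Om] [NeZero N]

theorem Gaa_eq_GA (fr : Frame N d E Om) (p : Lin N → Co E P Om → F) (h : Ext fr p)
    (a a' : Ty N d) (A : Finset (Lin N)) : Gaa fr p h a a' A = GA fr p h a a' A :=
  K2F.Gaa_eq fr p h a a' A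

theorem GA_empty (fr : Frame N d E Om) (p : Lin N → Co E P Om → F) (h : Ext fr p)
    (a a' : Ty N d) : GA fr p h a a' ∅ = (dsg fr p h).N2 a a' := by
  unfold GA
  rw [K2F.Gp_empty, bot_sup_eq]

end Vale.Agent.P060.HW
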