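import Vale.Agent.P060.HW.EvXDef

/-!
# P060/HW: the closure event `EvCl`, the existence of GX and the extraction of independent families

`EvCl p m x`: the span of `≤ m` lines (on the coordinates in `P`) contains fewer than `x` other lines.
`extract`: every line-disjoint family of many sets of at most `6` lines contains a subfamily of `M'`
members all of whose lines are independent, together with `S` and with every row class.
-/

open scoped Classical

noncomputable section

set_option linter.unusedSectionVars false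

namespace Vale.Agent.P060.HW

open Module Finset

variable {N d : ℕ} {E P Om : Type} [Fintype E] [Fintype P] [Fintype Om] [NeZero N]

/-- The restriction of a line vector to the coordinates in `P`. -/
def resP (p : Lin N → Co E P Om → F) (u : Lin N) : P → F := fun j => p u (Sum.inl (Sum.inr j))

/-- The span of `≤ m` lines contains fewer than `x` other lines. -/
def EvCl (p : Lin N → Co E P Om → F) (m x : ℕ) : Prop :=
  ∀ S : Finset (Lin N), S.card ≤ m →
    (univ.filter fun u : Lin N => u ∉ S ∧
      resP p u ∈ Submodule.span F (resP p '' (S : Set (Lin N)))).card < x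

/-- Independence of a set of lines on the coordinates in `P`. -/
def LIP (p : Lin N → Co E P Om → F) (S : Finset (Lin N)) : Prop :=
  LinearIndependent F (fun u : S => fun j : P => p u (Sum.inl (Sum.inr j)))

lemma lip_iff {p : Lin N → Co E P Om → F} {S : Finset (Lin N)} :
    LIP p S ↔ LinearIndepOn F (resP p) (S : Set (Lin N)) := Iff.rfl

lemma LIP.mono {p : Lin N → Co E P Om → F} {S S' : Finset (Lin N)} (h : LIP p S') (hS : S ⊆ S') :
    LIP p S := by
  rw [lip_iff] at h ⊢
  exact h.mono (by exact_mod_cast hS)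

/-- A dependent extension of an independent set. -/
lemma exists_of_not_lip {p : Lin N → Co E P Om → F} {S T : Finset (Lin N)} (h : LIP p S)
    (hn : ¬ LIP p (S ∪ T)) : ∃ u ∈ T, u ∉ S ∧
      resP p u ∈ Submodule.span F (resP p '' ((S ∪ T.erase u : Finset (Lin N)) : Set (Lin N))) := by
  by_contra hcon
  push Not at hcon
  apply hn
  rw [lip_iff] at h ⊢
  -- add the elements of `T` one by one
  have key : ∀ T' ⊆ T, LinearIndepOn F (resP p) ((S ∪ T' : Finset (Lin N)) : Set (Lin N)) := by
    intro T'
    induction T' using Finset.induction_on with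
    | empty => intro _; simpa using h
    | insert a T' ha ih =>
      intro hT
      have ih' := ih ((Finset.subset_insert _ _).trans hT)
      by_cases haS : a ∈ S
      · have : S ∪ insert a T' = S ∪ T' := by
          ext y
          simp only [mem_union, mem_insert]
          constructor
          · rintro (h1 | rfl | h1)
            · exact Or.inl h1
            · exact Or.inl haS
            · exact Or.inr h1
          · rintro (h1 | h1)
            · exact Or.inl h1
            · exact Or.inr (Or.inr h1)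
        rw [this]
        exact ih'
      · have h2 := hcon a (hT (Finset.mem_insert_self _ _)) haS
        have h3 : ((S ∪ insert a T' : Finset (Lin N)) : Set (Lin N))
            = insert a ((S ∪ T' : Finset (Lin N)) : Set (Lin N)) := by
          push_cast
          rw [Set.union_insert]
        rw [h3]
        refine ih'.insert fun h4 => h2 ?_
        refine Submodule.span_mono (Set.image_mono ?_) h4
        intro y hy
        have hy' : y ∈ S ∪ T' := by exact_mod_cast hy
        have : y ∈ S ∪ T.erase a := by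
          rw [mem_union] at hy' ⊢
          rcases hy' with h5 | h5
          · exact Or.inl h5
          · refine Or.inr (mem_erase.2 ⟨fun h6 => ha (h6 ▸ h5), ?_⟩)
            exact hT (Finset.mem_insert_of_mem h5)
        exact_mod_cast this
  exact key T subset_rfl

/-- A dependent extension modulo `S`. -/
lemma exists_of_not_indOver {p : Lin N → Co E P Om → F} {S T : Finset (Lin N)}
    (hn : ¬ IndOver p S T) : ∃ u ∈ T, u ∉ S ∧
      resP p u ∈ Submodule.span F (resP p '' ((S ∪ T.erase u : Finset (Lin N)) : Set (Lin N))) := by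
  unfold IndOver at hn
  rw [Fintype.not_linearIndependent_iff] at hn
  obtain ⟨c, hc, i, hi⟩ := hn
  obtain ⟨hiT, hiS⟩ := Finset.mem_sdiff.1 i.2
  refine ⟨i, hiT, hiS, ?_⟩
  set Q := Submodule.span F (resP p '' ((S ∪ T.erase i : Finset (Lin N)) : Set (Lin N))) with hQ
  have hS : Submodule.span F (Set.range fun v : S => pP p v) ≤ Q := by
    refine Submodule.span_le.2 ?_
    rintro _ ⟨v, rfl⟩
    refine Submodule.subset_span ⟨v, ?_, rfl⟩
    have : (v : Lin N) ∈ S ∪ T.erase i := mem_union_left _ v.2
    exact_mod_cast this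
  have h1 : ∑ j, c j • resP p j ∈ Q := by
    apply hS
    rw [← Submodule.Quotient.mk_eq_zero]
    have h2 : (Submodule.span F (Set.range fun v : S => pP p v)).mkQ (∑ j, c j • resP p j) = 0 := by
      rw [map_sum, ← hc]
      refine Finset.sum_congr rfl fun j _ => ?_
      rw [map_smul]
      rfl
    exact h2
  rw [← Finset.add_sum_erase _ _ (mem_univ i)] at h1
  have h3 : ∑ j ∈ univ.erase i, c j • resP p j ∈ Q := by
    refine Submodule.sum_mem _ fun j hj => Submodule.smul_mem _ _ (Submodule.subset_span ?_)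
    refine ⟨j, ?_, rfl⟩
    have hji : (j : Lin N) ≠ i := fun h => (mem_erase.1 hj).1 (Subtype.ext h)
    have : (j : Lin N) ∈ S ∪ T.erase i :=
      mem_union_right _ (mem_erase.2 ⟨hji, (Finset.mem_sdiff.1 j.2).1⟩)
    exact_mod_cast this
  have h4 : c i • resP p i ∈ Q := (Submodule.add_mem_iff_left _ h3).1 h1
  exact (Submodule.smul_mem_iff _ hi).1 h4

/-- Few members of a disjoint family of sets of at most `6` lines have a line in the span of `S` and
of their other lines. -/
lemma card_bad_lt {p : Lin N → Co E P Om → F} {m x : ℕ} (hX : EvCl p m x) {I : Type*}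
    (L : I → Finset (Lin N)) (hL : ∀ i, (L i).card ≤ 6) (J : Finset I)
    (hJ : ∀ i ∈ J, ∀ j ∈ J, i ≠ j → Disjoint (L i) (L j)) (S : Finset (Lin N))
    (hm : S.card + 5 * x ≤ m) (hbad : ∀ i ∈ J, ∃ u ∈ L i, u ∉ S ∧
      resP p u ∈ Submodule.span F (resP p '' ((S ∪ (L i).erase u : Finset (Lin N)) :
        Set (Lin N)))) : J.card < x := by
  by_contra hcon
  push Not at hcon
  obtain ⟨J', hJ', hc⟩ := Finset.exists_subset_card_eq hcon
  choose! u hu1 hu2 hu3 using fun i (hi : i ∈ J') => hbad i (hJ' hi)
  set S'' := S ∪ J'.biUnion fun i => (L i).erase (u i) with hS''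
  have h1 : S''.card ≤ m := by
    refine (Finset.card_union_le _ _).trans ((Nat.add_le_add_left ?_ _).trans hm)
    refine Finset.card_biUnion_le.trans ?_
    calc ∑ i ∈ J', ((L i).erase (u i)).card ≤ ∑ _i ∈ J', 5 := by
          refine Finset.sum_le_sum fun i hi => ?_
          rw [Finset.card_erase_of_mem (hu1 i hi)]
          have := hL i
          omega
      _ = 5 * x := by rw [Finset.sum_const, hc, smul_eq_mul, mul_comm]
  have h2 := hX S'' h1
  have h3 : J'.card ≤ (univ.filter fun v : Lin N => v ∉ S'' ∧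
      resP p v ∈ Submodule.span F (resP p '' (S'' : Set (Lin N)))).card := by
    refine Finset.card_le_card_of_injOn u ?_ ?_
    · intro i hi
      have hi' : i ∈ J' := by exact_mod_cast hi
      simp only [coe_filter, mem_univ, true_and, Set.mem_ofPred_eq]
      constructor
      · intro h4
        rw [hS'', mem_union] at h4
        rcases h4 with h4 | h4
        · exact hu2 i hi' h4
        · obtain ⟨j, hj, h5⟩ := mem_biUnion.1 h4
          obtain ⟨h6, h7⟩ := mem_erase.1 h5
          by_cases hij : i = j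
          · subst hij
            exact h6 rfl
          · exact (Finset.disjoint_left.1 (hJ i (hJ' hi') j (hJ' hj) hij)) (hu1 i hi') h7
      · refine Submodule.span_mono (Set.image_mono ?_) (hu3 i hi')
        intro y hy
        have hy' : y ∈ S ∪ (L i).erase (u i) := by exact_mod_cast hy
        have : y ∈ S'' := by
          rw [hS'', mem_union]
          rcases mem_union.1 hy' with h5 | h5
          · exact Or.inl h5
          · exact Or.inr (mem_biUnion.2 ⟨i, hi', h5⟩)
        exact_mod_cast this
    · intro i hi j hj hij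
      have hi' : i ∈ J' := by exact_mod_cast hi
      have hj' : j ∈ J' := by exact_mod_cast hj
      by_contra hne
      have h5 := hu1 j hj'
      rw [← hij] at h5
      exact (Finset.disjoint_left.1 (hJ i (hJ' hi') j (hJ' hj') hne)) (hu1 i hi') h5
  omega

lemma card_dependent_lt {p : Lin N → Co E P Om → F} {m x : ℕ} (hX : EvCl p m x) {I : Type*}
    (L : I → Finset (Lin N)) (hL : ∀ i, (L i).card ≤ 6) (J : Finset I)
    (hJ : ∀ i ∈ J, ∀ j ∈ J, i ≠ j → Disjoint (L i) (L j)) (S : Finset (Lin N)) (hS : LIP p S)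
    (hm : S.card + 5 * x ≤ m) (hbad : ∀ i ∈ J, ¬ LIP p (S ∪ L i)) : J.card < x :=
  card_bad_lt hX L hL J hJ S hm fun i hi => exists_of_not_lip hS (hbad i hi)

lemma card_lins (c : Ty N d) : (lins c).card ≤ 3 :=
  Finset.card_image_le.trans (by rw [Finset.card_univ, Fintype.card_fin])

lemma card_lins2 (β : Ty N d × Ty N d) : (lins2 β).card ≤ 6 := by
  refine (Finset.card_union_le _ _).trans ?_
  have h1 := card_lins β.1
  have h2 := card_lins β.2
  omega

/-- The closure event implies GX. -/
theorem evX_of_evCl {p : Lin N → Co E P Om → F} {m x : ℕ} (hX : EvCl p m x)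
    (hm : Fintype.card P / 2 + 5 * x ≤ m) (d : ℕ) : EvX d p x := by
  intro S hS 𝓕 hLD _ hbad
  refine (card_bad_lt hX lins2 (fun β => card_lins2 β) 𝓕 hLD S ?_
    fun β hβ => exists_of_not_indOver (hbad β hβ)).le
  omega

/-- **Extraction.**  `R w` are the row classes. -/
theorem extract {p : Lin N → Co E P Om → F} {m x : ℕ} (hX : EvCl p m x) {W : Type*} [Fintype W]
    (R : W → Finset (Lin N)) {ρ : ℕ} (hR : ∀ w, (R w).card ≤ ρ) (S : Finset (Lin N))
    (hS : ∀ w, LIP p (S ∪ R w)) {M : ℕ} (L : Fin M → Finset (Lin N)) (hL : ∀ i, (L i).card ≤ 6)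
    (hd : ∀ i j, i ≠ j → Disjoint (L i) (L j)) (M' : ℕ)
    (hM : M' + Fintype.card W * x < M) (hm : S.card + 6 * M' + ρ + 5 * x ≤ m) :
    ∃ g : Fin M' → Fin M, Function.Injective g ∧
      ∀ w, LIP p (S ∪ (univ.biUnion fun t => L (g t)) ∪ R w) := by
  have key : ∀ t ≤ M', ∃ G : Finset (Fin M), G.card = t ∧
      ∀ w, LIP p (S ∪ G.biUnion L ∪ R w) := by
    intro t
    induction t with
    | zero => intro _; exact ⟨∅, rfl, fun w => by simpa using hS w⟩
    | succ t ih =>
      intro ht
      obtain ⟨G, hG, hG'⟩ := ih (by omega)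
      by_contra hcon
      push Not at hcon
      have h1 : ∀ i ∉ G, ∃ w, ¬ LIP p (S ∪ G.biUnion L ∪ R w ∪ L i) := by
        intro i hi
        obtain ⟨w, hw⟩ := hcon (insert i G) (by rw [Finset.card_insert_of_notMem hi, hG])
        refine ⟨w, fun h => hw (h.mono ?_)⟩
        rw [Finset.biUnion_insert]
        intro y
        simp only [mem_union]
        tauto
      have h2 : (univ \ G : Finset (Fin M)) ⊆ (univ : Finset W).biUnion fun w =>
          (univ \ G).filter fun i => ¬ LIP p (S ∪ G.biUnion L ∪ R w ∪ L i) := by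
        intro i hi
        obtain ⟨w, hw⟩ := h1 i (Finset.mem_sdiff.1 hi).2
        exact mem_biUnion.2 ⟨w, mem_univ _, mem_filter.2 ⟨hi, hw⟩⟩
      have h3 : ∀ w : W, ((univ \ G).filter fun i =>
          ¬ LIP p (S ∪ G.biUnion L ∪ R w ∪ L i)).card < x := by
        intro w
        refine card_dependent_lt hX L hL _ (fun i _ j _ hij => hd i j hij)
          (S ∪ G.biUnion L ∪ R w) (hG' w) ?_ fun i hi => (mem_filter.1 hi).2
        have h4 : (G.biUnion L).card ≤ 6 * t := by
          refine Finset.card_biUnion_le.trans ?_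
          calc ∑ i ∈ G, (L i).card ≤ ∑ _i ∈ G, 6 := Finset.sum_le_sum fun i _ => hL i
            _ = 6 * t := by rw [Finset.sum_const, hG, smul_eq_mul, mul_comm]
        have h5 := Finset.card_union_le (S ∪ G.biUnion L) (R w)
        have h6 := Finset.card_union_le S (G.biUnion L)
        have h7 := hR w
        omega
      have h4 := (Finset.card_le_card h2).trans Finset.card_biUnion_le
      have h5 : ∑ w : W, ((univ \ G).filter fun i =>
          ¬ LIP p (S ∪ G.biUnion L ∪ R w ∪ L i)).card ≤ Fintype.card W * x := by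
        calc _ ≤ ∑ _w : W, x := Finset.sum_le_sum fun w _ => (h3 w).le
          _ = _ := by rw [Finset.sum_const, Finset.card_univ, smul_eq_mul]
      have h6 : (univ \ G : Finset (Fin M)).card = M - t := by
        rw [Finset.card_sdiff_of_subset (Finset.subset_univ _), Finset.card_univ,
          Fintype.card_fin, hG]
      omega
  obtain ⟨G, hG, hG'⟩ := key M' le_rfl
  refine ⟨fun t => (G.orderIsoOfFin hG t : Fin M), ?_, ?_⟩
  · intro s t hst
    exact (G.orderIsoOfFin hG).injective (Subtype.ext hst)
  · intro w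
    refine (hG' w).mono ?_
    refine Finset.union_subset_union (Finset.union_subset_union subset_rfl ?_) subset_rfl
    intro y hy
    obtain ⟨t, -, ht⟩ := mem_biUnion.1 hy
    exact mem_biUnion.2 ⟨_, (G.orderIsoOfFin hG t).2, ht⟩

/-! ### Existence -/

/-- The number of systems of vectors such that the vectors in `D` lie in the span of those in `S`. -/
lemma card_span_le {L V : Type*} [Fintype L] [AddCommGroup V] [Module F V]
    [Fintype V] (S D : Finset L) (hSD : Disjoint S D) :
    (univ.filter fun f : L → V => ∀ u ∈ D, f u ∈ Submodule.span F (f '' (S : Set L))).card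
      ≤ Fintype.card V ^ (Fintype.card L - D.card) * 2521 ^ (S.card * D.card) := by
  set Φ : ({u // u ∉ D} → V) × (D → S → F) → (L → V) := fun q u =>
    if h : u ∈ D then ∑ v : S, q.2 ⟨u, h⟩ v • q.1 ⟨v, Finset.disjoint_left.1 hSD v.2⟩
      else q.1 ⟨u, h⟩ with hΦ
  have h1 : (univ.filter fun f : L → V => ∀ u ∈ D, f u ∈ Submodule.span F (f '' (S : Set L)))
      ⊆ univ.image Φ := by
    intro f hf
    have hf' := (mem_filter.1 hf).2
    have h2 : ∀ u ∈ D, ∃ c : S → F, ∑ v : S, c v • f v = f u := by
      intro u hu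
      have h3 := hf' u hu
      have h4 : f '' (S : Set L) = Set.range (fun v : S => f v) := by
        ext y
        simp
      rw [h4] at h3
      exact (Submodule.mem_span_range_iff_exists_fun F).1 h3
    choose! c hc using h2
    refine mem_image.2 ⟨(fun u => f u, fun u => c u), mem_univ _, ?_⟩
    funext u
    simp only [hΦ]
    split_ifs with h
    · exact hc u h
    · rfl
  refine (Finset.card_le_card h1).trans (Finset.card_image_le.trans (le_of_eq ?_))
  rw [Finset.card_univ, Fintype.card_prod, Fintype.card_fun, Fintype.card_fun, Fintype.card_fun,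
    Fintype.card_subtype_compl, Fintype.card_coe, Fintype.card_coe, ZMod.card, ← pow_mul]

/-- The closure event for systems of vectors. -/
def ClX {L V : Type*} [Fintype L] [AddCommGroup V] [Module F V] (f : L → V) (m x : ℕ) : Prop :=
  ∀ S : Finset L, S.card ≤ m →
    (univ.filter fun u : L => u ∉ S ∧ f u ∈ Submodule.span F (f '' (S : Set L))).card < x

lemma card_not_clX {L V : Type*} [Fintype L] [AddCommGroup V] [Module F V]
    [Fintype V] (m x : ℕ) :
    (univ.filter fun f : L → V => ¬ ClX f m x).card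
      ≤ 2 ^ Fintype.card L * (2 ^ Fintype.card L *
        (Fintype.card V ^ (Fintype.card L - x) * 2521 ^ (m * x))) := by
  have h1 : (univ.filter fun f : L → V => ¬ ClX f m x) ⊆
      (univ.filter fun S : Finset L => S.card ≤ m).biUnion fun S =>
        (univ.filter fun D : Finset L => D.card = x ∧ Disjoint S D).biUnion fun D =>
          univ.filter fun f : L → V => ∀ u ∈ D, f u ∈ Submodule.span F (f '' (S : Set L)) := by
    intro f hf
    have hf' := (mem_filter.1 hf).2
    unfold ClX at hf'
    push Not at hf'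
    obtain ⟨S, hS, hx⟩ := hf'
    obtain ⟨D, hD, hc⟩ := Finset.exists_subset_card_eq hx
    refine mem_biUnion.2 ⟨S, mem_filter.2 ⟨mem_univ _, hS⟩, mem_biUnion.2 ⟨D, mem_filter.2
      ⟨mem_univ _, hc, ?_⟩, mem_filter.2 ⟨mem_univ _, fun u hu => (mem_filter.1 (hD hu)).2.2⟩⟩⟩
    rw [Finset.disjoint_right]
    exact fun u hu => (mem_filter.1 (hD hu)).2.1
  refine (Finset.card_le_card h1).trans (Finset.card_biUnion_le.trans ?_)
  refine (Finset.sum_le_card_nsmul _ _ (2 ^ Fintype.card L *
        (Fintype.card V ^ (Fintype.card L - x) * 2521 ^ (m * x))) fun S hS => ?_).trans ?_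
  · refine Finset.card_biUnion_le.trans ((Finset.sum_le_card_nsmul _ _
      (Fintype.card V ^ (Fintype.card L - x) * 2521 ^ (m * x)) fun D hD => ?_).trans ?_)
    · obtain ⟨h2, h3⟩ := (mem_filter.1 hD).2
      refine (card_span_le S D h3).trans ?_
      rw [h2]
      exact Nat.mul_le_mul_left _ (Nat.pow_le_pow_right (by norm_num)
        (Nat.mul_le_mul_right _ (mem_filter.1 hS).2))
    · rw [smul_eq_mul]
      refine Nat.mul_le_mul_right _ ((Finset.card_filter_le _ _).trans (le_of_eq ?_))
      rw [Finset.card_univ, Fintype.card_finset]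
  · rw [smul_eq_mul]
    refine Nat.mul_le_mul_right _ ((Finset.card_filter_le _ _).trans (le_of_eq ?_))
    rw [Finset.card_univ, Fintype.card_finset]

lemma natCard_not_clX {L V : Type*} [Fintype L] [AddCommGroup V] [Module F V]
    [Fintype V] (m x : ℕ) :
    Nat.card {f : L → V // ¬ ClX f m x}
      ≤ 2 ^ Nat.card L * (2 ^ Nat.card L *
        (Nat.card V ^ (Nat.card L - x) * 2521 ^ (m * x))) := by
  rw [Nat.card_eq_fintype_card, Nat.card_eq_fintype_card, Nat.card_eq_fintype_card,
    Fintype.card_subtype]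
  exact card_not_clX m x

/-- The designs of a frame: arbitrary values on `P` and on `Om`. -/
def dzEquiv (fr : Frame N d E Om) (P : Type) [Fintype P] :
    Dz fr P ≃ (Lin N → P → F) × (Lin N → Om → F) where
  toFun p := (resP p.1, fun u w => p.1 u (Sum.inr w))
  invFun q := ⟨fun u j => match j with
      | Sum.inl (Sum.inl t) => if u.1 = 1 then fr.γ u.2 t else 0
      | Sum.inl (Sum.inr j) => q.1 u j
      | Sum.inr w => q.2 u w, fun s i t => rfl⟩
  left_inv p := by
    apply Subtype.ext
    funext u j
    rcases j with (t | j) | w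
    · exact (p.2 u.1 u.2 t).symm
    · rfl
    · rfl
  right_inv q := rfl

/-- An event on the coordinates in `P` which is rare for systems of vectors in `P → F` is rare. -/
lemma rare_resP (fr : Frame N d E Om) (A : (Lin N → P → F) → Prop)
    (h : 100 * Nat.card {f : Lin N → P → F // A f} ≤ Nat.card (Lin N → P → F)) :
    Rare {p : Dz fr P | A (resP p.1)} := by
  unfold Rare
  have h1 : Nat.card {p : Dz fr P | A (resP p.1)}
      = Nat.card ({q : (Lin N → P → F) × (Lin N → Om → F) // A q.1}) :=
    Nat.card_congr ((dzEquiv fr P).subtypeEquiv fun p => Iff.rfl)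
  have h2 : Nat.card ({q : (Lin N → P → F) × (Lin N → Om → F) // A q.1})
      = Nat.card {f : Lin N → P → F // A f} * Nat.card (Lin N → Om → F) := by
    rw [Nat.card_congr (Equiv.prodSubtypeFstEquivSubtypeProd (α := Lin N → P → F)
      (β := Lin N → Om → F) (p := A)), Nat.card_prod]
  rw [h1, h2, Nat.card_congr (dzEquiv fr P), Nat.card_prod, ← mul_assoc]
  exact Nat.mul_le_mul_right _ h

lemma evCl_iff (p : Lin N → Co E P Om → F) (m x : ℕ) : EvCl p m x ↔ ClX (resP p) m x := by
  constructor
  · intro h S hS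
    convert h S hS using 2
    ext u
    simp only [mem_filter, mem_univ, true_and]
  · intro h S hS
    convert h S hS using 2
    ext u
    simp only [mem_filter, mem_univ, true_and]

lemma numX (D₀ N k x : ℕ) (hx : x = 4 * D₀ + 4) (hk : 7 + 56 * x ^ 2 ≤ k)
    (hN : N ≤ 2 * D₀ * k) :
    100 * (2 ^ (3 * N) * (2 ^ (3 * N) * ((2521 ^ k) ^ (3 * N - x) * 2521 ^ ((k / 2 + 5 * x) * x))))
      ≤ (2521 ^ k) ^ (3 * N - x) * 2521 ^ (k * x) := by
  have hkx : k / 2 + 5 * x ≤ k := by
    have h1 : 1 ≤ x := by omega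
    have h2 : x ≤ x ^ 2 := by nlinarith
    omega
  have h3 : 100 * (2 ^ (3 * N) * 2 ^ (3 * N)) * 2521 ^ ((k / 2 + 5 * x) * x)
      ≤ 2521 ^ (k * x) := by
    have h4 : k * x = (k / 2 + 5 * x) * x + (k - (k / 2 + 5 * x)) * x := by
      rw [← add_mul]
      congr 1
      omega
    rw [h4, pow_add, mul_comm]
    refine Nat.mul_le_mul_left _ ?_
    have h5 : 7 + 12 * D₀ * k ≤ 11 * ((k - (k / 2 + 5 * x)) * x) := by
      have h6 : k ≤ 2 * (k - (k / 2 + 5 * x)) + 10 * x := by omega
      have h7 : k * x ≤ (2 * (k - (k / 2 + 5 * x)) + 10 * x) * x := Nat.mul_le_mul_right _ h6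
      have h8 : 11 * (k * x) = 44 * D₀ * k + 44 * k := by rw [hx]; ring
      nlinarith
    have h7 : 3 * N + 3 * N ≤ 12 * D₀ * k := by nlinarith
    calc 100 * (2 ^ (3 * N) * 2 ^ (3 * N)) ≤ 2 ^ 7 * 2 ^ (12 * D₀ * k) := by
          rw [← pow_add]
          exact Nat.mul_le_mul (by norm_num) (Nat.pow_le_pow_right (by norm_num) h7)
      _ = 2 ^ (7 + 12 * D₀ * k) := by rw [← pow_add]
      _ ≤ 2 ^ (11 * ((k - (k / 2 + 5 * x)) * x)) := Nat.pow_le_pow_right (by norm_num) h5
      _ = (2 ^ 11) ^ ((k - (k / 2 + 5 * x)) * x) := by rw [pow_mul]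
      _ ≤ 2521 ^ ((k - (k / 2 + 5 * x)) * x) := Nat.pow_le_pow_left (by norm_num) _
  calc 100 * (2 ^ (3 * N) * (2 ^ (3 * N) *
        ((2521 ^ k) ^ (3 * N - x) * 2521 ^ ((k / 2 + 5 * x) * x))))
      = (2521 ^ k) ^ (3 * N - x) *
        (100 * (2 ^ (3 * N) * 2 ^ (3 * N)) * 2521 ^ ((k / 2 + 5 * x) * x)) := by ring
    _ ≤ _ := Nat.mul_le_mul_left _ h3

/-- EXISTENCE of the closure event. -/
theorem rare_evCl (D₀ d : ℕ) (E : Type) [Fintype E] (N : ℕ) (P Om : Type) [Fintype P]
    [Fintype Om] [NeZero N] (fr : Frame N d E Om) {θ : ℝ}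
    (hk : 7 + 56 * (4 * D₀ + 4) ^ 2 ≤ Fintype.card P) (hS : Sizes fr P D₀ θ 0) :
    Rare {p : Dz fr P | ¬ EvCl p.1 (Fintype.card P / 2 + 5 * (4 * D₀ + 4)) (4 * D₀ + 4)} := by
  simp only [evCl_iff]
  refine rare_resP fr
    (fun f => ¬ ClX f (Fintype.card P / 2 + 5 * (4 * D₀ + 4)) (4 * D₀ + 4)) ?_
  have hL : Nat.card (Lin N) = 3 * N := by
    rw [Nat.card_prod, Nat.card_zmod, Nat.card_eq_fintype_card, Fintype.card_fin]
  by_cases hxN : 4 * D₀ + 4 ≤ 3 * N
  · have h1 := natCard_not_clX (L := Lin N) (V := P → F)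
      (Fintype.card P / 2 + 5 * (4 * D₀ + 4)) (4 * D₀ + 4)
    refine (Nat.mul_le_mul_left 100 h1).trans ?_
    have hV : Nat.card (P → F) = 2521 ^ Fintype.card P := by
      rw [Nat.card_fun, Nat.card_zmod, Nat.card_eq_fintype_card]
    have hW : Nat.card (Lin N → P → F) = (2521 ^ Fintype.card P) ^ (3 * N - (4 * D₀ + 4)) *
        2521 ^ (Fintype.card P * (4 * D₀ + 4)) := by
      rw [Nat.card_fun, hL, hV, pow_mul 2521 (Fintype.card P) (4 * D₀ + 4), ← pow_add]
      congr 1
      omega
    rw [hW, hL, hV]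
    exact numX D₀ N _ _ rfl hk hS.hN'
  · have h1 : IsEmpty {f : Lin N → P → F //
        ¬ ClX f (Fintype.card P / 2 + 5 * (4 * D₀ + 4)) (4 * D₀ + 4)} := by
      refine ⟨fun f => f.2 fun S _ => ?_⟩
      refine lt_of_le_of_lt (Finset.card_le_univ _) ?_
      rw [← Nat.card_eq_fintype_card, hL]
      omega
    rw [Nat.card_of_isEmpty, Nat.mul_zero]
    exact Nat.zero_le _

/-- EXISTENCE of GX. -/
theorem exX : ExX := by
  intro D₀
  refine ⟨4 * D₀ + 4, fun d E _ => ⟨1, one_pos, 7 + 56 * (4 * D₀ + 4) ^ 2, ?_⟩⟩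
  intro N P Om _ _ _ fr hk hS
  have h1 := rare_evCl D₀ d E N P Om fr hk hS
  unfold Rare at h1 ⊢
  refine le_trans (Nat.mul_le_mul_left _ ?_) h1
  refine Nat.card_mono (Set.toFinite _) ?_
  intro p hp h2
  exact hp (evX_of_evCl h2 le_rfl d)

end Vale.Agent.P060.HW
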