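import Vale.Agent.P060.HW.Frame

/-!
# P060/HW: the space of tensors visible from a set of lines

`smB` is the bilinear map `sm`; `Gu p u` is the space of the tensors `sm z (p u)`, `Gl p S` the sum
of these spaces over the lines in `S`.
-/

open scoped Classical

noncomputable section

set_option linter.unusedSectionVars false

namespace Vale.Agent.P060.HW

open Module

section SM

variable {K : Type*} [Fintype K]

/-- `sm` as a bilinear map. -/
def smB : (K → F) →ₗ[F] (K → F) →ₗ[F] Matrix K K F :=
  LinearMap.mk₂ F sm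
    (fun a b c => by
      unfold sm
      rw [Matrix.add_vecMulVec, Matrix.vecMulVec_add]; abel)
    (fun c a b => by
      unfold sm
      rw [Matrix.smul_vecMulVec, Matrix.vecMulVec_smul, smul_add])
    (fun a b c => by
      unfold sm
      rw [Matrix.vecMulVec_add, Matrix.add_vecMulVec]; abel)
    (fun c a b => by
      unfold sm
      rw [Matrix.vecMulVec_smul, Matrix.smul_vecMulVec, smul_add])

lemma smB_apply (z g : K → F) : smB z g = sm z g := rfl

lemma smB_comm (z g : K → F) : smB z g = smB g z := by
  rw [smB_apply, smB_apply]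
  unfold sm
  rw [add_comm]

/-- the tensors `sm z g`, `z` arbitrary -/
def Gr (g : K → F) : Submodule F (Matrix K K F) := LinearMap.range (smB.flip g)

lemma mem_Gr (z g : K → F) : smB z g ∈ Gr g := ⟨z, rfl⟩

lemma mem_Gr' (z g : K → F) : smB g z ∈ Gr g := by
  rw [smB_comm]; exact mem_Gr z g

variable {L : Type*} [DecidableEq L]

/-- the tensors visible from the line `u` -/
def Gu (p : L → K → F) (u : L) : Submodule F (Matrix K K F) := Gr (p u)

/-- the tensors visible from the lines in `S` -/
def Gl (p : L → K → F) (S : Finset L) : Submodule F (Matrix K K F) := S.sup (Gu p)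

lemma Gl_mono (p : L → K → F) {S S' : Finset L} (h : S ⊆ S') : Gl p S ≤ Gl p S' :=
  Finset.sup_mono h

lemma Gl_union (p : L → K → F) (S S' : Finset L) : Gl p (S ∪ S') = Gl p S ⊔ Gl p S' :=
  Finset.sup_union

lemma Gu_le_Gl (p : L → K → F) {S : Finset L} {u : L} (h : u ∈ S) : Gu p u ≤ Gl p S :=
  Finset.le_sup (f := Gu p) h

lemma smB_mem_Gl (p : L → K → F) {S : Finset L} {u : L} (h : u ∈ S) (z : K → F) :
    smB z (p u) ∈ Gl p S := Gu_le_Gl p h (mem_Gr z (p u))

lemma smB_mem_Gl' (p : L → K → F) {S : Finset L} {u : L} (h : u ∈ S) (z : K → F) :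
    smB (p u) z ∈ Gl p S := by
  rw [smB_comm]; exact smB_mem_Gl p h z

lemma exists_of_mem_Gl (p : L → K → F) {S : Finset L} {Q : Matrix K K F} (hQ : Q ∈ Gl p S) :
    ∃ z : L → K → F, (∀ u, u ∉ S → z u = 0) ∧ ∑ u ∈ S, smB (z u) (p u) = Q := by
  induction S using Finset.induction_on generalizing Q with
  | empty =>
    refine ⟨0, fun _ _ => rfl, ?_⟩
    have : Q = 0 := by simpa [Gl] using hQ
    rw [this, Finset.sum_empty]
  | insert a S ha ih =>
    rw [Gl, Finset.sup_insert, Submodule.mem_sup] at hQ
    obtain ⟨q1, ⟨z1, rfl⟩, q2, h2, rfl⟩ := hQ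
    obtain ⟨z, hz, rfl⟩ := ih h2
    refine ⟨Function.update z a z1, fun u hu => ?_, ?_⟩
    · rw [Finset.mem_insert, not_or] at hu
      rw [Function.update_of_ne hu.1]
      exact hz u hu.2
    · rw [Finset.sum_insert ha, Function.update_self]
      congr 1
      refine Finset.sum_congr rfl fun u hu => ?_
      rw [Function.update_of_ne]
      rintro rfl
      exact ha hu

end SM

/-- the tensors visible from a type pair, for the pair of forms -/
def Gp {K L : Type*} [Fintype K] [DecidableEq L] (p : L → K → F) (S : Finset L) :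
    Submodule F (Matrix K K F × Matrix K K F) := (Gl p S).prod (Gl p S)

end Vale.Agent.P060.HW
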