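import Vale.Agent.P060.HW.TVLS

/-! The greedy lemma `greedy_pairs` is in `TVLS`; this file only re-exports it. -/
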