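import Vale.Agent.P060.HW.RedThm

/-!
# Truncation of the cheap coupling

From output (b) of the reduction one passes to a coupling with pointwise bounded density and
pointwise bounded marginals.
-/

open scoped Classical

noncomputable section

namespace Vale.Agent.P060.HW

/-- Truncated form of output (b): pointwise density at most `Λ`, marginal at most `4 / |X|`. -/
def OutC {X : Type*} [Fintype X] (Adj : X → X → Prop) (Λ ε I : ℝ) : Prop :=
  ∃ ν : X → X → ℝ, (∀ x y, 0 ≤ ν x y) ∧ ∑ x, ∑ y, ν x y = 1 ∧ (∀ x y, ν x y = ν y x) ∧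
    (∀ x y, ν x y ≠ 0 → ¬ Adj x y) ∧
    (∀ x y, ν x y * (Fintype.card X : ℝ) ^ 2 ≤ Λ) ∧
    (∀ x, (∑ y, ν x y) * (Fintype.card X : ℝ) ≤ 4) ∧
    ∑ x, |∑ y, ν x y - 1 / (Fintype.card X : ℝ)| ≤ ε ∧
    ∑ x, ∑ x', ∑ y, ∑ y',
      (if Adj x y ∧ Adj x y' ∧ Adj x' y ∧ Adj x' y' then ν x x' * ν y y' else 0) ≤ I

/-- Markov inequality for the log-density. -/
lemma mass_large {Z : Type*} [Fintype Z] (f : Z → ℝ) (h0 : ∀ z, 0 ≤ f z) (h1 : ∑ z, f z = 1)
    {K L : ℝ} (hL : 0 < L)
    (hK : ∑ z, f z * Real.log (f z * (Fintype.card Z : ℝ)) ≤ K) :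
    ∑ z, (if Real.exp L < f z * (Fintype.card Z : ℝ) then f z else 0) ≤ (K + 1) / L := by
  have hne : Nonempty Z := by
    by_contra h
    rw [not_nonempty_iff] at h
    simp at h1
  have hN : (0 : ℝ) < Fintype.card Z := by exact_mod_cast Fintype.card_pos
  rw [le_div_iff₀ hL, Finset.sum_mul]
  have key : ∀ z, (if Real.exp L < f z * (Fintype.card Z : ℝ) then f z else 0) * L
      ≤ f z * Real.log (f z * (Fintype.card Z : ℝ)) + 1 / (Fintype.card Z : ℝ) := by
    intro z
    have hlow : -(1 / (Fintype.card Z : ℝ)) ≤ f z * Real.log (f z * (Fintype.card Z : ℝ)) := by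
      rcases (h0 z).eq_or_lt with h | h
      · rw [← h]; simp
      · have h3 := Real.one_sub_inv_le_log_of_pos (mul_pos h hN)
        have h4 := mul_le_mul_of_nonneg_left h3 h.le
        have h5 : f z * (1 - (f z * (Fintype.card Z : ℝ))⁻¹) = f z - 1 / (Fintype.card Z : ℝ) := by
          field_simp
        rw [h5] at h4
        linarith
    split_ifs with hz
    · have hpos : 0 < f z := by
        rcases (h0 z).eq_or_lt with h | h
        · rw [← h, zero_mul] at hz
          exact absurd hz (not_lt.2 (Real.exp_pos L).le)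
        · exact h
      have h6 : L ≤ Real.log (f z * (Fintype.card Z : ℝ)) := by
        rw [Real.le_log_iff_exp_le (by positivity)]
        exact hz.le
      have h7 := mul_le_mul_of_nonneg_left h6 hpos.le
      have h8 : 0 < 1 / (Fintype.card Z : ℝ) := by positivity
      linarith
    · linarith
  refine (Finset.sum_le_sum fun z _ => key z).trans ?_
  rw [Finset.sum_add_distrib, Finset.sum_const, nsmul_eq_mul, Finset.card_univ, mul_one_div,
    div_self hN.ne']
  linarith

/-- The mass of points with large marginal. -/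
lemma mass_marg {X : Type*} [Fintype X] (f : X → ℝ) (N : ℝ) (hN : 0 < N) {ε : ℝ}
    (h : ∑ x, |f x - 1 / N| ≤ ε) :
    ∑ x, (if 3 < f x * N then f x else 0) ≤ 3 / 2 * ε := by
  refine le_trans ?_ (mul_le_mul_of_nonneg_left h (by norm_num))
  rw [Finset.mul_sum]
  refine Finset.sum_le_sum fun x _ => ?_
  split_ifs with hx
  · have h1 : 3 / N < f x := by rwa [div_lt_iff₀ hN]
    have h2 : f x - 1 / N ≤ |f x - 1 / N| := le_abs_self _
    have h3 : 1 / N = (3 / N) / 3 := by ring
    linarith
  · positivity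

theorem outC_of_outB {X : Type*} [Fintype X] [Nonempty X] {Adj : X → X → Prop}
    {K ε I : ℝ} (hK : 0 ≤ K) (hε : 0 < ε) (hε1 : ε ≤ 1 / 40) (h : OutB Adj K ε I) :
    OutC Adj (2 * Real.exp ((K + 1) / ε)) (12 * ε) (2 * I) := by
  obtain ⟨ν, h0, h1, hsy, h2, h3, h4, h5⟩ := h
  set N : ℝ := (Fintype.card X : ℝ) with hN
  have hN0 : 0 < N := by rw [hN]; exact_mod_cast Fintype.card_pos
  set L : ℝ := (K + 1) / ε with hL
  have hL0 : 0 < L := by positivity
  set m : X → ℝ := fun x => ∑ y, ν x y with hm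
  have hm0 : ∀ x, 0 ≤ m x := fun x => Finset.sum_nonneg fun y _ => h0 x y
  -- the good set
  set Bad : X → X → Prop := fun x y => Real.exp L < ν x y * N ^ 2 ∨ 3 < m x * N ∨ 3 < m y * N
    with hBad
  have hBsym : ∀ x y, Bad x y ↔ Bad y x := by
    intro x y
    simp only [hBad]
    rw [hsy x y]
    tauto
  set ρ : X → X → ℝ := fun x y => if Bad x y then 0 else ν x y with hρ
  have hρ0 : ∀ x y, 0 ≤ ρ x y := fun x y => by
    simp only [hρ]; split_ifs; exacts [le_rfl, h0 x y]
  have hρν : ∀ x y, ρ x y ≤ ν x y := fun x y => by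
    simp only [hρ]; split_ifs; exacts [h0 x y, le_rfl]
  -- lost mass
  have hlost : ∑ x, ∑ y, (ν x y - ρ x y) ≤ 4 * ε := by
    have hA : ∑ x, ∑ y, (if Real.exp L < ν x y * N ^ 2 then ν x y else 0) ≤ ε := by
      have := mass_large (Z := X × X) (fun z => ν z.1 z.2) (fun z => h0 _ _)
        (by rw [Fintype.sum_prod_type]; exact h1) hL0 (K := K)
        (by
          rw [Fintype.sum_prod_type]
          simp only [Fintype.card_prod]
          push_cast
          have : ∀ x y, ν x y * Real.log (ν x y * (N * N)) = ν x y * Real.log (ν x y * N ^ 2) := by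
            intro x y; rw [sq]
          simp only [← hN, this]
          exact h3)
      rw [Fintype.sum_prod_type] at this
      simp only [Fintype.card_prod] at this
      push_cast at this
      simp only [← hN, ← sq] at this
      refine this.trans (le_of_eq ?_)
      rw [hL]
      field_simp
    have hM : ∑ x, (if 3 < m x * N then m x else 0) ≤ 3 / 2 * ε := mass_marg m N hN0 h4
    have hB : ∑ x, ∑ y, (if 3 < m x * N then ν x y else 0) ≤ 3 / 2 * ε := by
      refine le_trans (le_of_eq ?_) hM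
      refine Finset.sum_congr rfl fun x _ => ?_
      split_ifs
      · rfl
      · simp
    have hC : ∑ x, ∑ y, (if 3 < m y * N then ν x y else 0) ≤ 3 / 2 * ε := by
      refine le_trans (le_of_eq ?_) hB
      rw [Finset.sum_comm]
      refine Finset.sum_congr rfl fun x _ => Finset.sum_congr rfl fun y _ => ?_
      rw [hsy]
    have hpt : ∀ x y, ν x y - ρ x y ≤ (if Real.exp L < ν x y * N ^ 2 then ν x y else 0)
        + ((if 3 < m x * N then ν x y else 0) + (if 3 < m y * N then ν x y else 0)) := by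
      intro x y
      have := h0 x y
      simp only [hρ]
      by_cases hb : Bad x y
      · rw [if_pos hb]
        simp only [hBad] at hb
        rcases hb with hb | hb | hb
        · rw [if_pos hb]
          split_ifs <;> linarith
        · rw [if_pos hb]
          split_ifs <;> linarith
        · rw [if_pos hb]
          split_ifs <;> linarith
      · rw [if_neg hb, sub_self]
        split_ifs <;> linarith
    calc ∑ x, ∑ y, (ν x y - ρ x y)
        ≤ ∑ x, ∑ y, ((if Real.exp L < ν x y * N ^ 2 then ν x y else 0)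
          + ((if 3 < m x * N then ν x y else 0) + (if 3 < m y * N then ν x y else 0))) :=
          Finset.sum_le_sum fun x _ => Finset.sum_le_sum fun y _ => hpt x y
      _ = ∑ x, ∑ y, (if Real.exp L < ν x y * N ^ 2 then ν x y else 0)
          + (∑ x, ∑ y, (if 3 < m x * N then ν x y else 0)
            + ∑ x, ∑ y, (if 3 < m y * N then ν x y else 0)) := by
          simp only [Finset.sum_add_distrib]
      _ ≤ 4 * ε := by linarith
  set M : ℝ := ∑ x, ∑ y, ρ x y with hMdef
  have hM1 : 1 - 4 * ε ≤ M := by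
    have : ∑ x, ∑ y, (ν x y - ρ x y) = 1 - M := by
      simp only [Finset.sum_sub_distrib]
      rw [h1]
    linarith
  have hM2 : M ≤ 1 := by
    rw [← h1]
    exact Finset.sum_le_sum fun x _ => Finset.sum_le_sum fun y _ => hρν x y
  have hM0 : 0 < M := by linarith
  have hMinv : 1 / M ≤ 1 + 5 * ε := by
    rw [div_le_iff₀ hM0]
    nlinarith
  have hMinv0 : 0 < 1 / M := by positivity
  have hMinv1 : 1 ≤ 1 / M := by rw [le_div_iff₀ hM0]; linarith
  have hMinv2 : 1 / M ≤ 9 / 8 := by linarith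
  refine ⟨fun x y => ρ x y * (1 / M), ?_, ?_, ?_, ?_, ?_, ?_, ?_, ?_⟩
  · intro x y
    exact mul_nonneg (hρ0 x y) hMinv0.le
  · simp only [← Finset.sum_mul]
    rw [← hMdef, mul_one_div, div_self hM0.ne']
  · intro x y
    simp only [hρ]
    by_cases hb : Bad x y
    · rw [if_pos hb, if_pos ((hBsym x y).1 hb)]
    · rw [if_neg hb, if_neg (fun h' => hb ((hBsym x y).2 h')), hsy x y]
  · intro x y hxy
    apply h2
    intro h'
    apply hxy
    simp only [hρ]
    by_cases hb : Bad x y
    · rw [if_pos hb, zero_mul]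
    · rw [if_neg hb, h', zero_mul]
  · intro x y
    have hb1 : ρ x y * N ^ 2 ≤ Real.exp L := by
      simp only [hρ]
      split_ifs with hb
      · rw [zero_mul]; exact (Real.exp_pos L).le
      · simp only [hBad, not_or, not_lt] at hb
        exact hb.1
    have hb2 : 0 ≤ ρ x y * N ^ 2 := mul_nonneg (hρ0 x y) (by positivity)
    calc ρ x y * (1 / M) * N ^ 2 = (ρ x y * N ^ 2) * (1 / M) := by ring
      _ ≤ Real.exp L * 2 := by
          apply mul_le_mul hb1 (by linarith) hMinv0.le (Real.exp_pos L).le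
      _ = 2 * Real.exp L := by ring
  · intro x
    rw [← Finset.sum_mul]
    have hb : (∑ y, ρ x y) * N ≤ 3 := by
      by_cases hx : 3 < m x * N
      · have : ∑ y, ρ x y = 0 := Finset.sum_eq_zero fun y _ => by
          simp only [hρ]
          rw [if_pos]
          exact Or.inr (Or.inl hx)
        rw [this, zero_mul]; norm_num
      · refine le_trans ?_ (not_lt.1 hx)
        exact mul_le_mul_of_nonneg_right (Finset.sum_le_sum fun y _ => hρν x y) hN0.le
    have hb0 : 0 ≤ (∑ y, ρ x y) * N :=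
      mul_nonneg (Finset.sum_nonneg fun y _ => hρ0 x y) hN0.le
    calc (∑ y, ρ x y) * (1 / M) * N = ((∑ y, ρ x y) * N) * (1 / M) := by ring
      _ ≤ 3 * (9 / 8) := by
          apply mul_le_mul hb hMinv2 hMinv0.le (by norm_num)
      _ ≤ 4 := by norm_num
  · have hpt : ∀ x, |∑ y, ρ x y * (1 / M) - 1 / N|
        ≤ |m x - 1 / N| + (∑ y, (ν x y - ρ x y)) + (1 / M - 1) * ∑ y, ρ x y := by
      intro x
      have e1 : ∑ y, ρ x y * (1 / M) - 1 / N
          = (m x - 1 / N) - (∑ y, (ν x y - ρ x y)) + (1 / M - 1) * ∑ y, ρ x y := by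
        rw [← Finset.sum_mul, Finset.sum_sub_distrib]
        simp only [hm]
        ring
      rw [e1]
      have p1 : 0 ≤ ∑ y, (ν x y - ρ x y) :=
        Finset.sum_nonneg fun y _ => by linarith [hρν x y]
      have p2 : 0 ≤ (1 / M - 1) * ∑ y, ρ x y :=
        mul_nonneg (by linarith) (Finset.sum_nonneg fun y _ => hρ0 x y)
      rw [abs_le]
      have q1 := neg_abs_le (m x - 1 / N)
      have q2 := le_abs_self (m x - 1 / N)
      constructor <;> linarith
    refine (Finset.sum_le_sum fun x _ => hpt x).trans ?_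
    rw [Finset.sum_add_distrib, Finset.sum_add_distrib, ← Finset.mul_sum, ← hMdef]
    have q1 : (1 / M - 1) * M ≤ 5 * ε * 1 :=
      mul_le_mul (by linarith) hM2 hM0.le (by positivity)
    linarith
  · have hpt : ∀ x x' y y', (if Adj x y ∧ Adj x y' ∧ Adj x' y ∧ Adj x' y' then
        ρ x x' * (1 / M) * (ρ y y' * (1 / M)) else 0)
        ≤ 2 * (if Adj x y ∧ Adj x y' ∧ Adj x' y ∧ Adj x' y' then ν x x' * ν y y' else 0) := by
      intro x x' y y'
      split_ifs
      · have e1 : ρ x x' * ρ y y' ≤ ν x x' * ν y y' :=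
          mul_le_mul (hρν _ _) (hρν _ _) (hρ0 _ _) (h0 _ _)
        have e0 : 0 ≤ ρ x x' * ρ y y' := mul_nonneg (hρ0 _ _) (hρ0 _ _)
        have e2 : (1 / M) * (1 / M) ≤ 2 := by nlinarith
        calc ρ x x' * (1 / M) * (ρ y y' * (1 / M)) = (ρ x x' * ρ y y') * ((1 / M) * (1 / M)) := by
              ring
          _ ≤ (ν x x' * ν y y') * 2 :=
              mul_le_mul e1 e2 (by positivity) (e0.trans e1)
          _ = _ := by ring
      · simp
    refine (Finset.sum_le_sum fun x _ => Finset.sum_le_sum fun x' _ =>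
      Finset.sum_le_sum fun y _ => Finset.sum_le_sum fun y' _ => hpt x x' y y').trans ?_
    simp only [← Finset.mul_sum]
    linarith

lemma outC_mono {X : Type*} [Fintype X] {Adj : X → X → Prop} {K ε I K' ε' I' : ℝ} (hK : K ≤ K')
    (hε : ε ≤ ε') (hI : I ≤ I') (h : OutC Adj K ε I) : OutC Adj K' ε' I' := by
  obtain ⟨q, h1, h2, h3, h4, h5, h6, h7, h8⟩ := h
  exact ⟨q, h1, h2, h3, h4, fun x y => (h5 x y).trans hK, h6, h7.trans hε, h8.trans hI⟩

/-- **Entropic reduction, truncated form.** -/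
theorem reduction_trunc (ε : ℝ) (hε : 0 < ε) : ∃ C : ℝ, ∃ n0 : ℕ, ∀ n : ℕ, n0 ≤ n →
    (∀ G : SimpleGraph (Fin n), G.indepNum ≤ 2 →
      G.chromaticNumber ≤ (hadwigerNumber G : ℕ∞)) →
    ∀ (X : Type*) [Fintype X] [Nonempty X] (Adj : X → X → Prop),
      (∀ x y, Adj x y → Adj y x) → (∀ x y z, Adj x y → Adj y z → Adj x z → False) →
      OutA Adj C (C / n) ∨
      OutC Adj ((n : ℝ) ^ C) ε (C * (Real.log n) ^ 2 / n) := by
  set ε₁ : ℝ := min ε 1 / 40 with hε₁
  have hε₁0 : 0 < ε₁ := by
    have : 0 < min ε 1 := lt_min hε one_pos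
    positivity
  have hε₁1 : ε₁ ≤ 1 / 40 := by
    have : min ε 1 ≤ 1 := min_le_right _ _
    rw [hε₁]; linarith
  have hε₁2 : 40 * ε₁ ≤ ε := by
    have : min ε 1 ≤ ε := min_le_left _ _
    rw [hε₁]; linarith
  obtain ⟨C, n0, hC⟩ := reduction ε₁ hε₁0
  set C0 : ℝ := max C 1 with hC0
  have hC01 : 1 ≤ C0 := le_max_right _ _
  have hC0C : C ≤ C0 := le_max_left _ _
  set C1 : ℝ := (2 + C0 + 1) / ε₁ + 1 with hC1
  have hC1C : 2 * C0 ≤ C1 := by
    have h1 : (2 + C0 + 1) / ε₁ ≥ (2 + C0 + 1) * 40 := by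
      rw [ge_iff_le, le_div_iff₀ hε₁0]
      nlinarith
    rw [hC1]; linarith
  have ev1 : ∀ᶠ n : ℕ in Filter.atTop, 1 ≤ Real.log n :=
    (Real.tendsto_log_atTop.comp tendsto_natCast_atTop_atTop).eventually_ge_atTop 1
  obtain ⟨n1, hn1⟩ := Filter.eventually_atTop.1 ev1
  refine ⟨C1, max n0 n1, fun n hn hHad X _ _ Adj hsym htri => ?_⟩
  have hlog := hn1 n ((le_max_right _ _).trans hn)
  have hnpos : (0 : ℝ) < n := by
    by_contra h
    have h2 : (n : ℝ) = 0 := le_antisymm (not_lt.1 h) (Nat.cast_nonneg n)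
    rw [h2, Real.log_zero] at hlog
    linarith
  rcases hC n ((le_max_left _ _).trans hn) hHad X Adj hsym htri with h | h
  · left
    refine outA_mono (by linarith) ?_ h
    exact div_le_div_of_nonneg_right (by linarith) hnpos.le
  · right
    have h' : OutB Adj ((1 + ε₁) * Real.log n + C0) ε₁ (C0 * (Real.log n) ^ 2 / n) := by
      refine outB_mono (by linarith) le_rfl ?_ h
      exact div_le_div_of_nonneg_right (mul_le_mul_of_nonneg_right hC0C (sq_nonneg _)) hnpos.le
    have h2 := outC_of_outB (by positivity) hε₁0 hε₁1 h'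
    refine outC_mono ?_ (by linarith) ?_ h2
    · rw [Real.rpow_def_of_pos hnpos]
      have h3 : (2 : ℝ) ≤ Real.exp 1 := by
        have := Real.add_one_le_exp (1 : ℝ); linarith
      calc 2 * Real.exp (((1 + ε₁) * Real.log n + C0 + 1) / ε₁)
          ≤ Real.exp 1 * Real.exp (((1 + ε₁) * Real.log n + C0 + 1) / ε₁) :=
            mul_le_mul_of_nonneg_right h3 (Real.exp_pos _).le
        _ = Real.exp (1 + ((1 + ε₁) * Real.log n + C0 + 1) / ε₁) := by rw [Real.exp_add]
        _ ≤ Real.exp (Real.log n * C1) := by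
            apply Real.exp_le_exp.2
            rw [hC1]
            have e1 : ((1 + ε₁) * Real.log n + C0 + 1) / ε₁
                ≤ Real.log n * ((2 + C0 + 1) / ε₁) := by
              rw [← mul_div_assoc]
              apply div_le_div_of_nonneg_right _ hε₁0.le
              nlinarith
            linarith
    · calc 2 * (C0 * (Real.log n) ^ 2 / n) = (2 * C0) * (Real.log n) ^ 2 / n := by ring
        _ ≤ C1 * (Real.log n) ^ 2 / n :=
            div_le_div_of_nonneg_right (mul_le_mul_of_nonneg_right hC1C (sq_nonneg _)) hnpos.le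

end Vale.Agent.P060.HW
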