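import Vale.Agent.P060.HW.Field
import Vale.Agent.P060.HW.Trunc

/-!
# The abstract host

Vertices are triples (type, bit, parameter); the form of a vertex of type `a` and bit `ι` is a
symmetric matrix `B` with `B g_a = ι e₀`, vanishing rows `U a`, and `(B g_c)_w = 0` for `w ∈ U c`.
Two vertices are adjacent iff `B_x g_b - B_y g_a` is a multiple `u e_t`, `t ∈ E`, `u ∈ Y`.
-/

open scoped Classical

noncomputable section

set_option linter.unusedSectionVars false

namespace Vale.Agent.P060.HW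

/-- The data of the construction: coordinates `K`, types `T`. -/
structure Design (K T : Type*) where
  /-- the visible coordinates -/
  E : Finset K
  /-- a distinguished visible coordinate -/
  e0 : K
  he0 : e0 ∈ E
  /-- the vector of a type -/
  g : T → K → F
  /-- the zero rows of a type -/
  U : T → Finset K
  hU : ∀ a, ∀ w ∈ U a, w ∉ E
  hg : ∀ a, ∀ t ∈ E, g a t ∈ Y

namespace Design

variable {K T : Type*} [Fintype K] (δ : Design K T)

/-- The common linear conditions. -/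
def Com : Submodule F (Matrix K K F) where
  carrier := {B | B.IsSymm ∧ ∀ c, ∀ w ∈ δ.U c, (B.mulVec (δ.g c)) w = 0}
  zero_mem' := ⟨Matrix.isSymm_zero, fun c w _ => by simp⟩
  add_mem' := by
    rintro A B ⟨hA, hA'⟩ ⟨hB, hB'⟩
    refine ⟨hA.add hB, fun c w hw => ?_⟩
    rw [Matrix.add_mulVec, Pi.add_apply, hA' c w hw, hB' c w hw, add_zero]
  smul_mem' := by
    rintro r A ⟨hA, hA'⟩
    refine ⟨hA.smul r, fun c w hw => ?_⟩
    rw [Matrix.smul_mulVec, Pi.smul_apply, hA' c w hw, smul_zero]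

lemma mem_Com {B : Matrix K K F} :
    B ∈ δ.Com ↔ B.IsSymm ∧ ∀ c, ∀ w ∈ δ.U c, (B.mulVec (δ.g c)) w = 0 := Iff.rfl

/-- The direction space of the forms of type `a`. -/
def Dir (a : T) : Submodule F (Matrix K K F) where
  carrier := {B | B ∈ δ.Com ∧ (∀ w ∈ δ.U a, ∀ v, B w v = 0) ∧ B.mulVec (δ.g a) = 0}
  zero_mem' := ⟨Submodule.zero_mem _, fun w _ v => rfl, by simp⟩
  add_mem' := by
    rintro A B ⟨hA, hA', hA''⟩ ⟨hB, hB', hB''⟩
    refine ⟨Submodule.add_mem _ hA hB, fun w hw v => ?_, ?_⟩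
    · rw [Matrix.add_apply, hA' w hw, hB' w hw, add_zero]
    · rw [Matrix.add_mulVec, hA'', hB'', add_zero]
  smul_mem' := by
    rintro r A ⟨hA, hA', hA''⟩
    refine ⟨Submodule.smul_mem _ r hA, fun w hw v => ?_, ?_⟩
    · rw [Matrix.smul_apply, hA' w hw, smul_zero]
    · rw [Matrix.smul_mulVec, hA'', smul_zero]

lemma mem_Dir {a : T} {B : Matrix K K F} : B ∈ δ.Dir a ↔
    B ∈ δ.Com ∧ (∀ w ∈ δ.U a, ∀ v, B w v = 0) ∧ B.mulVec (δ.g a) = 0 := Iff.rfl

lemma g_e0_ne (a : T) : δ.g a δ.e0 ≠ 0 := ne_zero_of_mem_Y (δ.hg a _ δ.he0)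

/-- The particular form with `B g_a = e₀`. -/
def B0 (a : T) : Matrix K K F := fun i j =>
  if i = δ.e0 ∧ j = δ.e0 then (δ.g a δ.e0)⁻¹ else 0

lemma B0_mulVec (a : T) (v : K → F) (i : K) :
    ((δ.B0 a).mulVec v) i = if i = δ.e0 then (δ.g a δ.e0)⁻¹ * v δ.e0 else 0 := by
  unfold Matrix.mulVec dotProduct B0
  by_cases hi : i = δ.e0
  · rw [if_pos hi, Finset.sum_eq_single δ.e0]
    · simp [hi]
    · intro j _ hj
      simp [hj]
    · intro h; exact absurd (Finset.mem_univ _) h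
  · rw [if_neg hi]
    exact Finset.sum_eq_zero fun j _ => by simp [hi]

lemma B0_mem_Com (a : T) : δ.B0 a ∈ δ.Com := by
  refine ⟨?_, fun c w hw => ?_⟩
  · ext i j
    simp only [Matrix.transpose_apply, B0, and_comm]
  · rw [B0_mulVec, if_neg]
    intro h
    exact δ.hU c w hw (h ▸ δ.he0)

lemma B0_row (a b : T) {w : K} (hw : w ∈ δ.U b) (v : K) : δ.B0 a w v = 0 := by
  unfold B0
  rw [if_neg]
  rintro ⟨h, -⟩
  exact δ.hU b w hw (h ▸ δ.he0)

lemma B0_g (a : T) : (δ.B0 a).mulVec (δ.g a) = Pi.single δ.e0 1 := by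
  funext i
  rw [B0_mulVec, Pi.single_apply]
  split_ifs
  · exact inv_mul_cancel₀ (δ.g_e0_ne a)
  · rfl

/-- A linear surjection onto the direction space. -/
def proj (a : T) : Matrix K K F →ₗ[F] δ.Dir a :=
  (LinearMap.exists_leftInverse_of_injective (δ.Dir a).subtype
    (LinearMap.ker_eq_bot.2 (δ.Dir a).injective_subtype)).choose

lemma proj_apply (a : T) (B : δ.Dir a) : δ.proj a (B : Matrix K K F) = B := by
  have := (LinearMap.exists_leftInverse_of_injective (δ.Dir a).subtype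
    (LinearMap.ker_eq_bot.2 (δ.Dir a).injective_subtype)).choose_spec
  exact LinearMap.congr_fun this B

lemma proj_surjective (a : T) : Function.Surjective (δ.proj a) := fun B => ⟨B, δ.proj_apply a B⟩

variable (K T) in
/-- Vertices: type, bit, parameter. -/
abbrev Vtx := T × Bool × Matrix K K F

/-- The form of a vertex. -/
def frm (x : Vtx K T) : Matrix K K F :=
  (if x.2.1 then δ.B0 x.1 else 0) + (δ.proj x.1 x.2.2 : Matrix K K F)

lemma frm_mem_Com (x : Vtx K T) : δ.frm x ∈ δ.Com := by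
  unfold frm
  refine Submodule.add_mem _ ?_ (δ.proj x.1 x.2.2).2.1
  split_ifs
  · exact δ.B0_mem_Com _
  · exact Submodule.zero_mem _

lemma frm_symm (x : Vtx K T) : (δ.frm x).IsSymm := (δ.frm_mem_Com x).1

lemma frm_row (x : Vtx K T) {w : K} (hw : w ∈ δ.U x.1) (v : K) : δ.frm x w v = 0 := by
  unfold frm
  rw [Matrix.add_apply, (δ.proj x.1 x.2.2).2.2.1 w hw v, add_zero]
  split_ifs
  · exact δ.B0_row _ _ hw v
  · rfl

lemma frm_row_mulVec (x : Vtx K T) {w : K} (hw : w ∈ δ.U x.1) (v : K → F) :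
    ((δ.frm x).mulVec v) w = 0 := by
  unfold Matrix.mulVec dotProduct
  refine Finset.sum_eq_zero fun j _ => ?_
  show δ.frm x w j * v j = 0
  rw [δ.frm_row x hw j, zero_mul]

lemma frm_test (x : Vtx K T) (c : T) {w : K} (hw : w ∈ δ.U c) :
    ((δ.frm x).mulVec (δ.g c)) w = 0 := (δ.frm_mem_Com x).2 c w hw

lemma frm_self (x : Vtx K T) :
    (δ.frm x).mulVec (δ.g x.1) = if x.2.1 then Pi.single δ.e0 1 else 0 := by
  unfold frm
  rw [Matrix.add_mulVec, (δ.proj x.1 x.2.2).2.2.2, add_zero]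
  split_ifs
  · exact δ.B0_g _
  · simp

/-- The difference vector of two vertices. -/
def dif (x y : Vtx K T) : K → F := (δ.frm x).mulVec (δ.g y.1) - (δ.frm y).mulVec (δ.g x.1)

lemma dif_swap (x y : Vtx K T) : δ.dif y x = - δ.dif x y := by
  unfold dif; rw [neg_sub]

/-- Adjacency. -/
def Adj (x y : Vtx K T) : Prop := ∃ t ∈ δ.E, ∃ u ∈ Y, δ.dif x y = Pi.single t u

lemma adj_symm (x y : Vtx K T) (h : δ.Adj x y) : δ.Adj y x := by
  obtain ⟨t, ht, u, hu, h⟩ := h
  refine ⟨t, ht, -u, neg_mem_Y hu, ?_⟩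
  rw [dif_swap, h, Pi.single_neg]

lemma symm_dot {B : Matrix K K F} (hB : B.IsSymm) (u v : K → F) :
    dotProduct u (B.mulVec v) = dotProduct v (B.mulVec u) := by
  rw [Matrix.dotProduct_mulVec, ← Matrix.mulVec_transpose, hB, dotProduct_comm]

lemma cocycle (x y z : Vtx K T) :
    dotProduct (δ.g z.1) (δ.dif x y) + dotProduct (δ.g x.1) (δ.dif y z)
      = dotProduct (δ.g y.1) (δ.dif x z) := by
  unfold dif
  simp only [dotProduct_sub]
  rw [symm_dot (δ.frm_symm x) (δ.g z.1) (δ.g y.1), symm_dot (δ.frm_symm y) (δ.g z.1) (δ.g x.1),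
    symm_dot (δ.frm_symm z) (δ.g x.1) (δ.g y.1)]
  ring

lemma triangle_free (x y z : Vtx K T) (hxy : δ.Adj x y) (hyz : δ.Adj y z) (hxz : δ.Adj x z) :
    False := by
  obtain ⟨t₁, ht₁, u₁, hu₁, h₁⟩ := hxy
  obtain ⟨t₂, ht₂, u₂, hu₂, h₂⟩ := hyz
  obtain ⟨t₃, ht₃, u₃, hu₃, h₃⟩ := hxz
  have h := δ.cocycle x y z
  rw [h₁, h₂, h₃, dotProduct_single, dotProduct_single, dotProduct_single] at h
  have h4 := sum_free (mul_mem_Y (δ.hg z.1 t₁ ht₁) hu₁) (mul_mem_Y (δ.hg x.1 t₂ ht₂) hu₂)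
  rw [h] at h4
  exact h4 (mul_mem_Y (δ.hg y.1 t₃ ht₃) hu₃)

/-- Vertices of the same type with different bits are adjacent. -/
lemma adj_of_bit {x y : Vtx K T} (h : x.1 = y.1) (hb : x.2.1 ≠ y.2.1) : δ.Adj x y := by
  have h1 : δ.dif x y = (if x.2.1 then Pi.single δ.e0 1 else 0)
      - (if y.2.1 then Pi.single δ.e0 1 else 0) := by
    unfold dif
    rw [← δ.frm_self x, ← δ.frm_self y, h]
  cases hx : x.2.1 <;> cases hy : y.2.1
  · exact absurd (hx.trans hy.symm) hb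
  · refine ⟨δ.e0, δ.he0, -1, neg_mem_Y one_mem_Y, ?_⟩
    rw [h1, hx, hy, Pi.single_neg]
    simp
  · refine ⟨δ.e0, δ.he0, 1, one_mem_Y, ?_⟩
    rw [h1, hx, hy]
    simp
  · exact absurd (hx.trans hy.symm) hb

end Design

end Vale.Agent.P060.HW
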