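import Vale.Agent.P060.HW.Ent

open scoped Classical

noncomputable section

namespace Vale.Agent.P060.HW

namespace FinProb

variable {Ω : Type*} [Fintype Ω] (P : FinProb Ω) {α β γ δ : Type*}

/-- Conditional mutual information dominates the mass which the product of the conditional laws
gives to triples outside the support. -/
lemma offsupp_le_info (f : Ω → α) (g : Ω → β) (h : Ω → γ) (s : Finset (α × β × γ))
    (hs : ∀ x ∈ s, P.p (fun ω => (f ω, g ω, h ω)) x = 0) :
    ∑ x ∈ s, P.p (fun ω => (f ω, h ω)) (x.1, x.2.2) * P.p (fun ω => (g ω, h ω)) (x.2.1, x.2.2)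
        / P.p h x.2.2
      ≤ P.H (fun ω => (f ω, h ω)) + P.H (fun ω => (g ω, h ω))
        - P.H (fun ω => (f ω, g ω, h ω)) - P.H h := by
  set A : α × γ → ℝ := P.p (fun ω => (f ω, h ω)) with hA
  set B : β × γ → ℝ := P.p (fun ω => (g ω, h ω)) with hB
  set C : α × β × γ → ℝ := P.p (fun ω => (f ω, g ω, h ω)) with hC
  set D : γ → ℝ := P.p h with hD
  have hA0 : ∀ x, 0 ≤ A x := fun x => P.p_nonneg _ x
  have hB0 : ∀ x, 0 ≤ B x := fun x => P.p_nonneg _ x
  have hC0 : ∀ x, 0 ≤ C x := fun x => P.p_nonneg _ x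
  have hD0 : ∀ x, 0 ≤ D x := fun x => P.p_nonneg _ x
  set box := (Finset.univ.image f) ×ˢ ((Finset.univ.image g) ×ˢ (Finset.univ.image h)) with hbox
  set T : α × β × γ → ℝ := fun x => A (x.1, x.2.2) * B (x.2.1, x.2.2) / D x.2.2 with hT
  have hT0 : ∀ x, 0 ≤ T x := fun x => div_nonneg (mul_nonneg (hA0 _) (hB0 _)) (hD0 _)
  have hTout : ∀ x, x ∉ box → T x = 0 := by
    intro x hx
    simp only [hbox, Finset.mem_product, Finset.mem_image, Finset.mem_univ, true_and] at hx
    by_cases h1 : ∃ ω, f ω = x.1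
    · by_cases h2 : ∃ ω, g ω = x.2.1
      · by_cases h3 : ∃ ω, h ω = x.2.2
        · exact absurd ⟨h1, h2, h3⟩ hx
        · have : D x.2.2 = 0 := P.p_eq_zero_of_notMem fun ω hω => h3 ⟨ω, hω⟩
          simp [hT, this]
      · have : B (x.2.1, x.2.2) = 0 := P.p_eq_zero_of_notMem fun ω hω => by
          apply h2; exact ⟨ω, (Prod.ext_iff.1 hω).1⟩
        simp [hT, this]
    · have : A (x.1, x.2.2) = 0 := P.p_eq_zero_of_notMem fun ω hω => by
        apply h1; exact ⟨ω, (Prod.ext_iff.1 hω).1⟩
      simp [hT, this]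
  have key : ∑ ω, P.w ω * (Real.log (A (f ω, h ω)) + Real.log (B (g ω, h ω))
      - Real.log (C (f ω, g ω, h ω)) - Real.log (D (h ω))) ≤ - ∑ x ∈ s, T x := by
    have h1 : ∀ ω, P.w ω * (Real.log (A (f ω, h ω)) + Real.log (B (g ω, h ω))
        - Real.log (C (f ω, g ω, h ω)) - Real.log (D (h ω)))
        ≤ P.w ω * (A (f ω, h ω) * B (g ω, h ω) / (C (f ω, g ω, h ω) * D (h ω)) - 1) := by
      intro ω
      rcases P.w_zero_or_pos ω with hw | hw
      · simp [hw]
      · refine mul_le_mul_of_nonneg_left ?_ hw.le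
        have a0 : 0 < A (f ω, h ω) := P.p_pos hw (fun ω => (f ω, h ω))
        have b0 : 0 < B (g ω, h ω) := P.p_pos hw (fun ω => (g ω, h ω))
        have c0 : 0 < C (f ω, g ω, h ω) := P.p_pos hw (fun ω => (f ω, g ω, h ω))
        have d0 : 0 < D (h ω) := P.p_pos hw h
        rw [← Real.log_mul a0.ne' b0.ne', ← Real.log_div (by positivity) c0.ne',
          ← Real.log_div (by positivity) d0.ne', div_div]
        exact Real.log_le_sub_one_of_pos (by positivity)
    have h2 : ∑ ω, P.w ω * (A (f ω, h ω) * B (g ω, h ω) / (C (f ω, g ω, h ω) * D (h ω)) - 1)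
        = ∑ ω, P.w ω * (A (f ω, h ω) * B (g ω, h ω) / (C (f ω, g ω, h ω) * D (h ω))) - 1 := by
      simp only [mul_sub, mul_one, Finset.sum_sub_distrib, P.sum_one]
    have h3 : ∑ ω, P.w ω * (A (f ω, h ω) * B (g ω, h ω) / (C (f ω, g ω, h ω) * D (h ω)))
        ≤ 1 - ∑ x ∈ s, T x := by
      have e1 := P.sum_fiber (fun ω => (f ω, g ω, h ω))
        (fun x : α × β × γ => A (x.1, x.2.2) * B (x.2.1, x.2.2) / (C x * D x.2.2))
      simp only at e1
      rw [e1]
      have e2 : ∑ x ∈ Finset.univ.image (fun ω => (f ω, g ω, h ω)),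
          P.p (fun ω => (f ω, g ω, h ω)) x
            * (A (x.1, x.2.2) * B (x.2.1, x.2.2) / (C x * D x.2.2))
          ≤ ∑ x ∈ (Finset.univ.image (fun ω => (f ω, g ω, h ω))).filter (fun x => C x ≠ 0),
            T x := by
        rw [Finset.sum_filter]
        refine Finset.sum_le_sum fun x _ => ?_
        rw [← hC]
        rcases (hC0 x).eq_or_lt with hx | hx
        · rw [← hx, zero_mul]
          simp
        · rw [mul_comm (C x) (D x.2.2), ← div_div, mul_div_cancel₀ _ hx.ne']
          simp [hx.ne', hT]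
      have e4 : ∑ x ∈ box, T x = 1 := by
        have e4a : ∑ x ∈ box, T x = ∑ c ∈ Finset.univ.image h, D c * D c / D c := by
          rw [hbox, Finset.sum_product]
          simp_rw [Finset.sum_product]
          have : ∀ a ∈ Finset.univ.image f, ∑ b ∈ Finset.univ.image g,
              ∑ c ∈ Finset.univ.image h, T (a, b, c)
                = ∑ c ∈ Finset.univ.image h, A (a, c) * D c / D c := by
            intro a _
            rw [Finset.sum_comm]
            refine Finset.sum_congr rfl fun c _ => ?_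
            simp only [hT]
            rw [← Finset.sum_div, ← Finset.mul_sum, hB, P.sum_p_pair_left g h c]
          rw [Finset.sum_congr rfl this, Finset.sum_comm]
          refine Finset.sum_congr rfl fun c _ => ?_
          rw [← Finset.sum_div, ← Finset.sum_mul, hA, P.sum_p_pair_left f h c]
        rw [e4a, ← P.sum_p_image h]
        refine Finset.sum_congr rfl fun c _ => ?_
        rcases (hD0 c).eq_or_lt with hx | hx
        · rw [← hD, ← hx]; simp
        · rw [mul_div_assoc, div_self hx.ne', mul_one]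
      have e5 : ∑ x ∈ (Finset.univ.image (fun ω => (f ω, g ω, h ω))).filter (fun x => C x ≠ 0),
            T x + ∑ x ∈ s, T x ≤ ∑ x ∈ box, T x := by
        have hs' : ∑ x ∈ s, T x = ∑ x ∈ s.filter (· ∈ box), T x := by
          rw [Finset.sum_filter]
          refine Finset.sum_congr rfl fun x _ => ?_
          split_ifs with hx
          · rfl
          · exact hTout x hx
        rw [hs', ← Finset.sum_union]
        · refine Finset.sum_le_sum_of_subset_of_nonneg ?_ (fun x _ _ => hT0 x)
          intro x hx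
          rcases Finset.mem_union.1 hx with hx | hx
          · obtain ⟨ω, -, rfl⟩ := Finset.mem_image.1 (Finset.mem_filter.1 hx).1
            simp [hbox]
          · exact (Finset.mem_filter.1 hx).2
        · rw [Finset.disjoint_left]
          intro x hx hx'
          exact (Finset.mem_filter.1 hx).2 (hs x (Finset.mem_filter.1 hx').1)
      linarith
    have h4 := Finset.sum_le_sum (s := Finset.univ) fun ω _ => h1 ω
    linarith
  have e : P.H (fun ω => (f ω, h ω)) + P.H (fun ω => (g ω, h ω))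
      - P.H (fun ω => (f ω, g ω, h ω)) - P.H h
      = -∑ ω, P.w ω * (Real.log (A (f ω, h ω)) + Real.log (B (g ω, h ω))
      - Real.log (C (f ω, g ω, h ω)) - Real.log (D (h ω))) := by
    unfold H
    rw [← Finset.sum_add_distrib, ← Finset.sum_sub_distrib, ← Finset.sum_sub_distrib,
      ← Finset.sum_neg_distrib]
    refine Finset.sum_congr rfl fun ω _ => ?_
    simp only [hA, hB, hC, hD]
    ring
  linarith

/-- Entropy is invariant under a weight preserving bijection of the sample space. -/
lemma p_comp_equiv (Φ : Ω ≃ Ω) (hΦ : ∀ ω, P.w (Φ ω) = P.w ω) (f : Ω → α) (a : α) :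
    P.p (fun ω => f (Φ ω)) a = P.p f a := by
  unfold p
  rw [← Equiv.sum_comp Φ (fun ω => if f ω = a then P.w ω else 0)]
  exact Finset.sum_congr rfl fun ω _ => by rw [hΦ ω]

lemma H_comp_equiv (Φ : Ω ≃ Ω) (hΦ : ∀ ω, P.w (Φ ω) = P.w ω) (f : Ω → α) :
    P.H (fun ω => f (Φ ω)) = P.H f :=
  P.H_eq_of_law P _ _ (P.p_comp_equiv Φ hΦ f)

/-- Averages are attained: some outcome of `h` of positive probability is below the average. -/
lemma exists_le_avg (h : Ω → γ) (φ : γ → ℝ) (c : ℝ)
    (hc : ∑ ω, P.w ω * φ (h ω) ≤ c) : ∃ ω, 0 < P.w ω ∧ φ (h ω) ≤ c := by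
  by_contra hcon
  push Not at hcon
  have h1 : ∑ ω, P.w ω * c < ∑ ω, P.w ω * φ (h ω) := by
    have hex : ∃ ω, 0 < P.w ω := by
      by_contra hno
      push Not at hno
      have : ∑ ω, P.w ω ≤ 0 := Finset.sum_nonpos fun ω _ => hno ω
      rw [P.sum_one] at this
      linarith
    obtain ⟨ω₀, h0⟩ := hex
    refine Finset.sum_lt_sum (fun ω _ => ?_) ⟨ω₀, Finset.mem_univ _, ?_⟩
    · rcases P.w_zero_or_pos ω with hw | hw
      · simp [hw]
      · exact mul_le_mul_of_nonneg_left (hcon ω hw).le hw.le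
    · exact mul_lt_mul_of_pos_left (hcon ω₀ h0) h0
  rw [← Finset.sum_mul, P.sum_one, one_mul] at h1
  linarith

end FinProb

end Vale.Agent.P060.HW
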