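import Vale.Agent.P060.HW.Lat

/-!
# P060/HW: the entropy deficit of a typical member of a family of subspaces

`sum_Dc_le_four`: for a family `G : Fin n → Submodule K V` such that no three of
`G i`, `⨆_{j ∈ T} G j`, `⨆_{j ∈ T'} G j` (`T`, `T'` disjoint, `i ∉ T ∪ T'`) have a common part
beyond `A`, the sum of the deficits `Dc (G i | A)` is at most four times the total deficit.
`mass_Dc_le`: the weighted form for a large family of subspaces with a conflict relation.
-/

open Module

namespace Vale.Agent.P060.HW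

namespace Lat

section K2

variable {K V Ω : Type*} [Field K] [Finite K] [AddCommGroup V] [Module K V]
  [FiniteDimensional K V] [Fintype Ω] (P : FinProb Ω) (X : Ω → Dual K V)

/-- the part of `G i` determined by `A` and the `G j`, `j ∈ T` -/
def shr {ι : Type*} (G : ι → Submodule K V) (A : Submodule K V) (i : ι) (T : Finset ι) :
    Submodule K V := (G i ⊔ A) ⊓ (T.sup G ⊔ A)

omit [Finite K] [FiniteDimensional K V] in
/-- telescoping inside a finite set of indices -/
theorem sum_Dc_finset {n : ℕ} (G : Fin n → Submodule K V) (A : Submodule K V)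
    (S : Finset (Fin n)) :
    ∑ i ∈ S, Dc P X (G i) ((S.filter (· < i)).sup G ⊔ A) = D P X (S.sup G ⊔ A) - D P X A := by
  induction S using Finset.induction_on_max with
  | empty => simp
  | insert a S ha ih =>
    have haS : a ∉ S := fun h => lt_irrefl _ (ha a h)
    rw [Finset.sum_insert haS]
    have h1 : (insert a S).filter (· < a) = S := by
      ext x
      simp only [Finset.mem_filter, Finset.mem_insert]
      constructor
      · rintro ⟨rfl | h, h'⟩
        · exact absurd h' (lt_irrefl _)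
        · exact h
      · intro h
        exact ⟨Or.inr h, ha x h⟩
    have h2 : ∀ i ∈ S, (insert a S).filter (· < i) = S.filter (· < i) := by
      intro i hi
      ext x
      simp only [Finset.mem_filter, Finset.mem_insert]
      constructor
      · rintro ⟨rfl | h, h'⟩
        · exact absurd (h'.trans (ha i hi)) (lt_irrefl _)
        · exact ⟨h, h'⟩
      · rintro ⟨h, h'⟩
        exact ⟨Or.inr h, h'⟩
    rw [h1, Finset.sum_congr rfl fun i hi => by rw [h2 i hi], ih, Finset.sup_insert]
    unfold Dc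
    rw [← sup_assoc]
    ring

omit [Finite K] in
/-- conditioning on the `G j`, `j ∈ T`, costs at most the deficit of the shared part -/
theorem Dc_cond_ge {ι : Type*} (G : ι → Submodule K V) (A : Submodule K V) (i : ι)
    (T : Finset ι) :
    Dc P X (G i) A - (D P X (shr G A i T) - D P X A) ≤ Dc P X (G i) (T.sup G ⊔ A) := by
  have h1 := D_supermodular P X (G i ⊔ A) (T.sup G ⊔ A)
  have h2 : G i ⊔ A ⊔ (T.sup G ⊔ A) = G i ⊔ (T.sup G ⊔ A) := by
    rw [sup_assoc]
    congr 1
    rw [← sup_assoc, sup_comm A, sup_assoc, sup_idem]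
  rw [h2] at h1
  unfold Dc shr
  linarith

/-- the shared parts with disjoint sets are independent over `A` -/
theorem shr_add_le {ι : Type*} (G : ι → Submodule K V) (A : Submodule K V) (i : ι)
    (T T' : Finset ι) (h : (G i ⊔ A) ⊓ (T.sup G ⊔ A) ⊓ (T'.sup G ⊔ A) ≤ A) :
    (D P X (shr G A i T) - D P X A) + (D P X (shr G A i T') - D P X A) ≤ Dc P X (G i) A := by
  have h1 := D_supermodular P X (shr G A i T) (shr G A i T')
  have h2 : D P X (shr G A i T ⊔ shr G A i T') ≤ D P X (G i ⊔ A) :=
    D_mono P X (sup_le inf_le_left inf_le_left)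
  have h3 : D P X (shr G A i T ⊓ shr G A i T') ≤ D P X A := by
    refine D_mono P X (le_trans ?_ h)
    exact le_inf (le_trans inf_le_left (le_of_eq rfl)) (le_trans inf_le_right inf_le_right)
  unfold Dc
  linarith

/-- the indices before `i` with the same colour -/
def same {n : ℕ} (c : Fin n → Bool) (i : Fin n) : Finset (Fin n) :=
  Finset.univ.filter fun j => j < i ∧ c j = c i

/-- change the colour of `i` -/
def flipAt {n : ℕ} (i : Fin n) (c : Fin n → Bool) : Fin n → Bool := Function.update c i (!c i)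

lemma flipAt_flipAt {n : ℕ} (i : Fin n) (c : Fin n → Bool) : flipAt i (flipAt i c) = c := by
  funext j
  unfold flipAt
  by_cases h : j = i
  · subst h
    simp
  · simp [h]

lemma disjoint_same {n : ℕ} (c : Fin n → Bool) (i : Fin n) :
    Disjoint (same c i) (same (flipAt i c) i) := by
  rw [Finset.disjoint_left]
  intro j h1 h2
  simp only [same, Finset.mem_filter, Finset.mem_univ, true_and] at h1 h2
  obtain ⟨h3, h4⟩ := h1
  obtain ⟨-, h5⟩ := h2
  unfold flipAt at h5
  rw [Function.update_of_ne h3.ne, Function.update_self] at h5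
  rw [h4] at h5
  cases hc : c i <;> simp [hc] at h5

lemma notMem_same {n : ℕ} (c : Fin n → Bool) (i : Fin n) : i ∉ same c i := by
  simp [same]

/-- **The deficits of a family in general position.** -/
theorem sum_Dc_le_four {n : ℕ} (G : Fin n → Submodule K V) (A : Submodule K V)
    (h3 : ∀ (i : Fin n) (T T' : Finset (Fin n)), Disjoint T T' → i ∉ T → i ∉ T' →
      (G i ⊔ A) ⊓ (T.sup G ⊔ A) ⊓ (T'.sup G ⊔ A) ≤ A) :
    ∑ i, Dc P X (G i) A ≤ 4 * Dc P X (Finset.univ.sup G) A := by
  classical
  set W := Dc P X (Finset.univ.sup G) A with hW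
  set φ : Fin n → (Fin n → Bool) → ℝ := fun i c => D P X (shr G A i (same c i)) - D P X A with hφ
  -- averaging the shared part
  have e1 : ∀ i, 2 * ∑ c, φ i c ≤ (2 ^ n : ℝ) * Dc P X (G i) A := by
    intro i
    have h1 : ∑ c, φ i (flipAt i c) = ∑ c, φ i c :=
      Fintype.sum_equiv ⟨flipAt i, flipAt i, flipAt_flipAt i, flipAt_flipAt i⟩ _ _ fun _ => rfl
    calc 2 * ∑ c, φ i c = ∑ c, (φ i c + φ i (flipAt i c)) := by
          rw [Finset.sum_add_distrib, h1]; ring
      _ ≤ ∑ _c : Fin n → Bool, Dc P X (G i) A := by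
          refine Finset.sum_le_sum fun c _ => ?_
          exact shr_add_le P X G A i _ _
            (h3 i _ _ (disjoint_same c i) (notMem_same c i) (notMem_same _ i))
      _ = (2 ^ n : ℝ) * Dc P X (G i) A := by
          rw [Finset.sum_const, Finset.card_univ, nsmul_eq_mul]
          simp
  -- each colouring
  have e2 : ∀ c : Fin n → Bool, ∑ i, (Dc P X (G i) A - φ i c) ≤ 2 * W := by
    intro c
    have h1 : ∀ i, Dc P X (G i) A - φ i c ≤ Dc P X (G i) ((same c i).sup G ⊔ A) :=
      fun i => Dc_cond_ge P X G A i (same c i)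
    have h2 : ∀ b : Bool, ∑ i ∈ Finset.univ.filter (fun i => c i = b),
        Dc P X (G i) ((same c i).sup G ⊔ A) ≤ W := by
      intro b
      set S := Finset.univ.filter (fun i => c i = b) with hS
      have h4 : ∀ i ∈ S, same c i = S.filter (· < i) := by
        intro i hi
        ext j
        simp only [hS, Finset.mem_filter, Finset.mem_univ, true_and] at hi
        simp only [same, hS, Finset.mem_filter, Finset.mem_univ, true_and, hi]
        exact and_comm
      rw [Finset.sum_congr rfl fun i hi => by rw [h4 i hi], sum_Dc_finset, hW]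
      unfold Dc
      have := D_mono P X (sup_le_sup_right (Finset.sup_mono (f := G) (Finset.subset_univ S)) A)
      linarith
    calc ∑ i, (Dc P X (G i) A - φ i c) ≤ ∑ i, Dc P X (G i) ((same c i).sup G ⊔ A) :=
          Finset.sum_le_sum fun i _ => h1 i
      _ = ∑ b : Bool, ∑ i ∈ Finset.univ.filter (fun i => c i = b),
            Dc P X (G i) ((same c i).sup G ⊔ A) := by
          rw [Finset.sum_fiberwise]
      _ ≤ ∑ _b : Bool, W := Finset.sum_le_sum fun b _ => h2 b
      _ = 2 * W := by simp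
  have e3 : ∑ c : Fin n → Bool, ∑ i, (Dc P X (G i) A - φ i c) ≤ (2 ^ n : ℝ) * (2 * W) := by
    refine (Finset.sum_le_sum fun c _ => e2 c).trans ?_
    rw [Finset.sum_const, Finset.card_univ, nsmul_eq_mul]
    simp
  have e4 : ∑ c : Fin n → Bool, ∑ i, (Dc P X (G i) A - φ i c)
      = (2 ^ n : ℝ) * ∑ i, Dc P X (G i) A - ∑ i, ∑ c, φ i c := by
    rw [Finset.sum_comm, Finset.mul_sum, ← Finset.sum_sub_distrib]
    refine Finset.sum_congr rfl fun i _ => ?_
    rw [Finset.sum_sub_distrib, Finset.sum_const, Finset.card_univ, nsmul_eq_mul]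
    simp
  have e5 : 2 * ∑ i, ∑ c, φ i c ≤ (2 ^ n : ℝ) * ∑ i, Dc P X (G i) A := by
    rw [Finset.mul_sum, Finset.mul_sum]
    exact Finset.sum_le_sum fun i _ => e1 i
  rw [e4] at e3
  have h2n : (0 : ℝ) < 2 ^ n := by positivity
  have e6 : (2 ^ n : ℝ) * ∑ i, Dc P X (G i) A ≤ (2 ^ n : ℝ) * (4 * W) := by nlinarith
  exact le_of_mul_le_mul_left e6 h2n

/-- greedy choice of pairwise non-conflicting elements -/
theorem exists_conflict_free {B : Type*} [DecidableEq B] (Q : B → ℝ) (hQ : ∀ b, 0 ≤ Q b)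
    (R : B → B → Prop) [DecidableRel R] (hR : ∀ b b', R b b' → R b' b) {δ : ℝ}
    (hδ0 : 0 ≤ δ) (M : ℕ) (S : Finset B)
    (hδ : ∀ b ∈ S, ∑ b' ∈ S.filter (fun b' => R b b' ∨ b' = b), Q b' ≤ δ)
    (hM : M * δ < ∑ b ∈ S, Q b) :
    ∃ f : Fin M → B, Function.Injective f ∧ (∀ i, f i ∈ S) ∧
      ∀ i j, i ≠ j → ¬ R (f i) (f j) := by
  induction M generalizing S with
  | zero => exact ⟨Fin.elim0, fun i => i.elim0, fun i => i.elim0, fun i => i.elim0⟩
  | succ M ih =>
    have hne : S.Nonempty := by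
      by_contra h
      rw [Finset.not_nonempty_iff_eq_empty] at h
      subst h
      have : (0 : ℝ) ≤ ((M + 1 : ℕ) : ℝ) * δ := by positivity
      simp only [Finset.sum_empty] at hM
      linarith
    obtain ⟨b0, hb0⟩ := hne
    set S' := S.filter (fun b' => ¬ (R b0 b' ∨ b' = b0)) with hS'
    have h1 : ∑ b ∈ S, Q b = ∑ b' ∈ S.filter (fun b' => R b0 b' ∨ b' = b0), Q b'
        + ∑ b' ∈ S', Q b' := (Finset.sum_filter_add_sum_filter_not S _ _).symm
    have h2 : (M : ℝ) * δ < ∑ b ∈ S', Q b := by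
      have := hδ b0 hb0
      push_cast at hM
      rw [h1] at hM
      linarith
    obtain ⟨f, f1, f2, f3⟩ := ih S' (fun b hb => by
      refine le_trans ?_ (hδ b (Finset.mem_of_mem_filter b hb))
      exact Finset.sum_le_sum_of_subset_of_nonneg
        (Finset.filter_subset_filter _ (Finset.filter_subset _ _)) fun b' _ _ => hQ b') h2
    have f4 : ∀ i, ¬ R b0 (f i) ∧ f i ≠ b0 := by
      intro i
      have := (Finset.mem_filter.1 (f2 i)).2
      push Not at this
      exact this
    refine ⟨Fin.cons b0 f, ?_, ?_, ?_⟩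
    · rw [Fin.cons_injective_iff]
      refine ⟨?_, f1⟩
      rintro ⟨i, hi⟩
      exact (f4 i).2 hi
    · intro i
      refine Fin.cases ?_ (fun i => ?_) i
      · exact hb0
      · exact Finset.mem_of_mem_filter _ (f2 i)
    · intro i j
      refine Fin.cases ?_ (fun i => ?_) i
      · refine Fin.cases ?_ (fun j => ?_) j
        · intro h; exact absurd rfl h
        · intro _
          exact (f4 j).1
      · refine Fin.cases ?_ (fun j => ?_) j
        · intro _ h
          exact (f4 i).1 (hR _ _ h)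
        · intro h
          exact f3 i j fun h' => h (by rw [h'])

/-- **The weighted form.**  If every conflict-free family of `M` members of `S` is in general
position over `A`, then the members of `S` of deficit larger than `lam` have mass at most `M δ`,
where `δ` bounds the mass of a conflict neighbourhood and `4 𝒦 ≤ M lam`. -/
theorem mass_Dc_le {B : Type*} [DecidableEq B] (Q : B → ℝ) (hQ : ∀ b, 0 ≤ Q b)
    (R : B → B → Prop) [DecidableRel R] (hR : ∀ b b', R b b' → R b' b)
    (G : B → Submodule K V) (A : Submodule K V) (S : Finset B) {δ lam 𝒦 : ℝ} (hδ0 : 0 ≤ δ)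
    {M : ℕ} (hM : 0 < M)
    (hδ : ∀ b ∈ S, ∑ b' ∈ S.filter (fun b' => R b b' ∨ b' = b), Q b' ≤ δ)
    (h3 : ∀ f : Fin M → B, Function.Injective f → (∀ i, f i ∈ S) →
      (∀ i j, i ≠ j → ¬ R (f i) (f j)) →
      ∀ (i : Fin M) (T T' : Finset (Fin M)), Disjoint T T' → i ∉ T → i ∉ T' →
        (G (f i) ⊔ A) ⊓ (T.sup (fun j => G (f j)) ⊔ A) ⊓ (T'.sup (fun j => G (f j)) ⊔ A) ≤ A)
    (hK : D P X ⊤ - D P X A ≤ 𝒦) (hlam : 4 * 𝒦 ≤ M * lam) :
    ∑ b ∈ S with lam < Dc P X (G b) A, Q b ≤ M * δ := by
  by_contra hcon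
  push Not at hcon
  obtain ⟨f, f1, f2, f3⟩ := exists_conflict_free Q hQ R hR hδ0 M
    (S.filter fun b => lam < Dc P X (G b) A) (fun b hb => by
      refine le_trans ?_ (hδ b (Finset.mem_of_mem_filter b hb))
      exact Finset.sum_le_sum_of_subset_of_nonneg
        (Finset.filter_subset_filter _ (Finset.filter_subset _ _)) fun b' _ _ => hQ b') hcon
  have h1 := sum_Dc_le_four P X (fun i => G (f i)) A
    (h3 f f1 (fun i => Finset.mem_of_mem_filter _ (f2 i)) f3)
  have h2 : Dc P X (Finset.univ.sup fun i => G (f i)) A ≤ 𝒦 := by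
    have := D_mono P X (le_top : (Finset.univ.sup fun i => G (f i)) ⊔ A ≤ ⊤)
    unfold Dc
    linarith
  have h4 : (M : ℝ) * lam < ∑ i, Dc P X (G (f i)) A := by
    have h5 : ∀ i, lam < Dc P X (G (f i)) A := fun i => (Finset.mem_filter.1 (f2 i)).2
    calc (M : ℝ) * lam = ∑ _i : Fin M, lam := by simp
      _ < ∑ i, Dc P X (G (f i)) A := by
          refine Finset.sum_lt_sum (fun i _ => (h5 i).le) ⟨⟨0, hM⟩, Finset.mem_univ _, h5 _⟩
  linarith

omit [Finite K] [FiniteDimensional K V] in
/-- telescoping in the reverse order -/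
theorem sum_Dc_finset_rev {n : ℕ} (G : Fin n → Submodule K V) (A : Submodule K V)
    (S : Finset (Fin n)) :
    ∑ i ∈ S, Dc P X (G i) ((S.filter (i < ·)).sup G ⊔ A) = D P X (S.sup G ⊔ A) - D P X A := by
  induction S using Finset.induction_on_min with
  | empty => simp
  | insert a S ha ih =>
    have haS : a ∉ S := fun h => lt_irrefl _ (ha a h)
    rw [Finset.sum_insert haS]
    have h1 : (insert a S).filter (a < ·) = S := by
      ext x
      simp only [Finset.mem_filter, Finset.mem_insert]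
      constructor
      · rintro ⟨rfl | h, h'⟩
        · exact absurd h' (lt_irrefl _)
        · exact h
      · intro h
        exact ⟨Or.inr h, ha x h⟩
    have h2 : ∀ i ∈ S, (insert a S).filter (i < ·) = S.filter (i < ·) := by
      intro i hi
      ext x
      simp only [Finset.mem_filter, Finset.mem_insert]
      constructor
      · rintro ⟨rfl | h, h'⟩
        · exact absurd (h'.trans (ha i hi)) (lt_irrefl _)
        · exact ⟨h, h'⟩
      · rintro ⟨h, h'⟩
        exact ⟨Or.inr h, h'⟩
    rw [h1, Finset.sum_congr rfl fun i hi => by rw [h2 i hi], ih, Finset.sup_insert]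
    unfold Dc
    rw [← sup_assoc]
    ring

/-- **Lemma (H).**  If no part of `E t` beyond `A` is determined both by the earlier and by the
later members, the sum of the deficits is at most twice the total deficit. -/
theorem sum_Dc_le_two {n : ℕ} (E : Fin n → Submodule K V) (A : Submodule K V)
    (h : ∀ t : Fin n, (E t ⊔ A) ⊓ ((Finset.univ.filter (· < t)).sup E ⊔ A)
      ⊓ ((Finset.univ.filter (t < ·)).sup E ⊔ A) ≤ A) :
    ∑ t, Dc P X (E t) A ≤ 2 * Dc P X (Finset.univ.sup E) A := by
  have e1 := sum_Dc_finset P X E A Finset.univ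
  have e2 := sum_Dc_finset_rev P X E A Finset.univ
  have e3 : ∀ t : Fin n, Dc P X (E t) A ≤
      Dc P X (E t) ((Finset.univ.filter (· < t)).sup E ⊔ A)
        + Dc P X (E t) ((Finset.univ.filter (t < ·)).sup E ⊔ A) := by
    intro t
    have h1 := Dc_cond_ge P X E A t (Finset.univ.filter (· < t))
    have h2 := Dc_cond_ge P X E A t (Finset.univ.filter (t < ·))
    have h4 := shr_add_le P X E A t _ _ (h t)
    linarith
  have e4 := Finset.sum_le_sum fun t (_ : t ∈ Finset.univ) => e3 t
  rw [Finset.sum_add_distrib, e1, e2] at e4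
  unfold Dc at e4 ⊢
  linarith

/-- **The weighted form of (H).**  Let every conflict-free family of `M` members of `S` contain a
subfamily of `M'` members in general position over `A`.  Then the members of `S` of deficit larger
than `lam` have mass at most `M δ`, where `δ` bounds the mass of a conflict neighbourhood and
`2 𝒦 < M' lam`. -/
theorem mass_Dc_le_two {B : Type*} [DecidableEq B] (Q : B → ℝ) (hQ : ∀ b, 0 ≤ Q b)
    (R : B → B → Prop) [DecidableRel R] (hR : ∀ b b', R b b' → R b' b)
    (G : B → Submodule K V) (A : Submodule K V) (S : Finset B) {δ lam 𝒦 : ℝ} (hδ0 : 0 ≤ δ)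
    {M M' : ℕ}
    (hδ : ∀ b ∈ S, ∑ b' ∈ S.filter (fun b' => R b b' ∨ b' = b), Q b' ≤ δ)
    (h3 : ∀ f : Fin M → B, Function.Injective f → (∀ i, f i ∈ S) →
      (∀ i j, i ≠ j → ¬ R (f i) (f j)) →
      ∃ g : Fin M' → Fin M, Function.Injective g ∧
        ∀ t : Fin M', (G (f (g t)) ⊔ A)
          ⊓ ((Finset.univ.filter (· < t)).sup (fun j => G (f (g j))) ⊔ A)
          ⊓ ((Finset.univ.filter (t < ·)).sup (fun j => G (f (g j))) ⊔ A) ≤ A)
    (hK : D P X ⊤ - D P X A ≤ 𝒦) (hlam : 2 * 𝒦 < M' * lam) :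
    ∑ b ∈ S with lam < Dc P X (G b) A, Q b ≤ M * δ := by
  by_contra hcon
  push Not at hcon
  obtain ⟨f, f1, f2, f3⟩ := exists_conflict_free Q hQ R hR hδ0 M
    (S.filter fun b => lam < Dc P X (G b) A) (fun b hb => by
      refine le_trans ?_ (hδ b (Finset.mem_of_mem_filter b hb))
      exact Finset.sum_le_sum_of_subset_of_nonneg
        (Finset.filter_subset_filter _ (Finset.filter_subset _ _)) fun b' _ _ => hQ b') hcon
  obtain ⟨g, -, g2⟩ := h3 f f1 (fun i => Finset.mem_of_mem_filter _ (f2 i)) f3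
  have h1 := sum_Dc_le_two P X (fun t => G (f (g t))) A g2
  have h2 : Dc P X (Finset.univ.sup fun t => G (f (g t))) A ≤ 𝒦 := by
    have := D_mono P X (le_top : (Finset.univ.sup fun t => G (f (g t))) ⊔ A ≤ ⊤)
    unfold Dc
    linarith
  have h4 : (M' : ℝ) * lam ≤ ∑ t, Dc P X (G (f (g t))) A := by
    calc (M' : ℝ) * lam = ∑ _t : Fin M', lam := by simp
      _ ≤ ∑ t, Dc P X (G (f (g t))) A :=
          Finset.sum_le_sum fun t _ => (Finset.mem_filter.1 (f2 (g t))).2.le
  linarith

/-- `mass_Dc_le_two` with an arbitrary top space `T0`. -/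
theorem mass_Dc_le_two' {B : Type*} [DecidableEq B] (Q : B → ℝ) (hQ : ∀ b, 0 ≤ Q b)
    (R : B → B → Prop) [DecidableRel R] (hR : ∀ b b', R b b' → R b' b)
    (G : B → Submodule K V) (A T0 : Submodule K V) (S : Finset B) {δ lam 𝒦 : ℝ} (hδ0 : 0 ≤ δ)
    {M M' : ℕ}
    (hδ : ∀ b ∈ S, ∑ b' ∈ S.filter (fun b' => R b b' ∨ b' = b), Q b' ≤ δ)
    (h3 : ∀ f : Fin M → B, Function.Injective f → (∀ i, f i ∈ S) →
      (∀ i j, i ≠ j → ¬ R (f i) (f j)) →
      ∃ g : Fin M' → Fin M, Function.Injective g ∧
        ∀ t : Fin M', (G (f (g t)) ⊔ A)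
          ⊓ ((Finset.univ.filter (· < t)).sup (fun j => G (f (g j))) ⊔ A)
          ⊓ ((Finset.univ.filter (t < ·)).sup (fun j => G (f (g j))) ⊔ A) ≤ A)
    (hA : A ≤ T0) (hG : ∀ b, G b ≤ T0)
    (hK : D P X T0 - D P X A ≤ 𝒦) (hlam : 2 * 𝒦 < M' * lam) :
    ∑ b ∈ S with lam < Dc P X (G b) A, Q b ≤ M * δ := by
  by_contra hcon
  push Not at hcon
  obtain ⟨f, f1, f2, f3⟩ := exists_conflict_free Q hQ R hR hδ0 M
    (S.filter fun b => lam < Dc P X (G b) A) (fun b hb => by
      refine le_trans ?_ (hδ b (Finset.mem_of_mem_filter b hb))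
      exact Finset.sum_le_sum_of_subset_of_nonneg
        (Finset.filter_subset_filter _ (Finset.filter_subset _ _)) fun b' _ _ => hQ b') hcon
  obtain ⟨g, -, g2⟩ := h3 f f1 (fun i => Finset.mem_of_mem_filter _ (f2 i)) f3
  have h1 := sum_Dc_le_two P X (fun t => G (f (g t))) A g2
  have h2 : Dc P X (Finset.univ.sup fun t => G (f (g t))) A ≤ 𝒦 := by
    have := D_mono P X (sup_le (Finset.sup_le fun t _ => hG (f (g t))) hA :
      (Finset.univ.sup fun t => G (f (g t))) ⊔ A ≤ T0)
    unfold Dc
    linarith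
  have h4 : (M' : ℝ) * lam ≤ ∑ t, Dc P X (G (f (g t))) A := by
    calc (M' : ℝ) * lam = ∑ _t : Fin M', lam := by simp
      _ ≤ ∑ t, Dc P X (G (f (g t))) A :=
          Finset.sum_le_sum fun t _ => (Finset.mem_filter.1 (f2 (g t))).2.le
  linarith

end K2

end Lat

end Vale.Agent.P060.HW
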