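import Vale.Agent.P060.HW.GlDef
import Vale.Agent.P060.HW.AN

/-!
# P060/HW: the triple intersection of the spaces of visible tensors

`t3_single`: for pairwise disjoint sets of lines `C, B₁, B₂, A` with `lins a ⊆ A` in general
position, no tensor beyond those visible from `A` (and the trivial ones for `a`) is visible from
`C ∪ A`, from `B₁ ∪ A` and from `B₂ ∪ A`.  `t3_pair`: the same for pairs of forms.
-/

open scoped Classical

noncomputable section

set_option linter.unusedSectionVars false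

namespace Vale.Agent.P060.HW

open Module

variable {N d : ℕ} {E P Om : Type} [Fintype E] [Fintype P] [Fintype Om] [NeZero N]

/-- independence on `P`, in coordinates -/
lemma li_zero {p : Lin N → Co E P Om → F} {S : Finset (Lin N)}
    (hS : LinearIndependent F (fun u : S => fun j : P => p u (Sum.inl (Sum.inr j))))
    (c : Lin N → F) (hc : ∀ j : P, ∑ v ∈ S, c v * p v (Sum.inl (Sum.inr j)) = 0) :
    ∀ v ∈ S, c v = 0 := by
  intro v hv
  have h1 := Fintype.linearIndependent_iff.1 hS (fun u : S => c u) (by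
    funext j
    rw [Finset.sum_apply]
    have := hc j
    rw [← Finset.sum_coe_sort] at this
    simpa [smul_eq_mul] using this) ⟨v, hv⟩
  exact h1

/-- the visible tensors from a set `A` of lines, together with the trivial tensors -/
def Ga (fr : Frame N d E Om) (p : Lin N → Co E P Om → F) (h : Ext fr p) (a : Ty N d)
    (A : Finset (Lin N)) : Submodule F (Matrix (Co E P Om) (Co E P Om) F) :=
  Gl p A ⊔ (dsg fr p h).Nn a

lemma gv_eq_sum_lins (p : Lin N → Co E P Om → F) (b : Ty N d) : gv p b = ∑ u ∈ lins b, p u := by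
  unfold gv lins
  rw [Finset.sum_image]
  intro s _ s' _ h
  exact (Prod.ext_iff.1 h).1

/-- data of a representation obtained from `AN` -/
lemma rep_of_mem (fr : Frame N d E Om) (p : Lin N → Co E P Om → F) (h : Ext fr p)
    (a : Ty N d) {C B A S : Finset (Lin N)} (hC : C ⊆ S) (hB : B ⊆ S) (hA : A ⊆ S)
    (ha : lins a ⊆ A)
    (hS : LinearIndependent F (fun u : S => fun j : P => p u (Sum.inl (Sum.inr j))))
    (hR : ∀ w ∉ fr.U a, LinearIndependent F
      (fun u : (S ∪ rowLines fr w : Finset (Lin N)) => fun j : P => p u (Sum.inl (Sum.inr j))))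
    (z₁ z₂ : Lin N → Co E P Om → F) (hz₁ : ∀ u, u ∉ C → z₁ u = 0) (hz₂ : ∀ u, u ∉ B → z₂ u = 0)
    (hmem : ∑ u ∈ C, smB (z₁ u) (p u) - ∑ u ∈ B, smB (z₂ u) (p u) ∈ Ga fr p h a A) :
    ∃ (c : Lin N → Lin N → F) (x : Om → Ty N d → F),
      (∀ u v, c u v = - c v u) ∧ (∀ u v, u ∉ S → c u v = 0) ∧
      (∀ w b, x w b ≠ 0 → w ∈ fr.U b ∧ ∀ s, lin b s ∈ S) ∧
      (∀ u ∈ S, u ∉ A → ∀ j : E ⊕ P, z₁ u (Sum.inl j) - z₂ u (Sum.inl j)
        = ∑ v ∈ S, c u v * p v (Sum.inl j)) ∧
      (∀ u ∈ S, u ∉ A → ∀ w ∉ fr.U a, z₁ u (Sum.inr w) - z₂ u (Sum.inr w)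
        = ∑ v ∈ S, c u v * p v (Sum.inr w) + ∑ b, x w b * (if u ∈ lins b then 1 else 0)) := by
  obtain ⟨qA, hqA, n, hn, e⟩ := Submodule.mem_sup.1 hmem
  obtain ⟨zA, hzA, rfl⟩ := exists_of_mem_Gl p hqA
  have hsub : ∀ (T : Finset (Lin N)) (z : Lin N → Co E P Om → F), T ⊆ S →
      (∀ u, u ∉ T → z u = 0) → ∑ u ∈ T, smB (z u) (p u) = ∑ u ∈ S, smB (z u) (p u) := by
    intro T z hT hz
    refine Finset.sum_subset hT fun u _ hu => ?_
    rw [hz u hu, map_zero, LinearMap.zero_apply]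
  have hmem2 : ∑ u ∈ S, sm ((z₁ u - z₂ u) - zA u) (p u) ∈ (dsg fr p h).Nn a := by
    have : ∑ u ∈ S, sm ((z₁ u - z₂ u) - zA u) (p u) = n := by
      have h1 : ∀ u, sm ((z₁ u - z₂ u) - zA u) (p u)
          = smB (z₁ u) (p u) - smB (z₂ u) (p u) - smB (zA u) (p u) := by
        intro u
        rw [← smB_apply, map_sub, map_sub, LinearMap.sub_apply, LinearMap.sub_apply]
      rw [Finset.sum_congr rfl fun u _ => h1 u, Finset.sum_sub_distrib, Finset.sum_sub_distrib,
        ← hsub C z₁ hC hz₁, ← hsub B z₂ hB hz₂, ← hsub A zA hA hzA, ← e]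
      abel
    rw [this]; exact hn
  obtain ⟨y, c, x, c1, c2, c3, c4, c5⟩ := an N d E P Om fr p h a S
    (fun s => hA (ha (an_mem_lins.2 ⟨s, rfl⟩))) hS hR _ hmem2
  refine ⟨c, x, c1, c2, c3, ?_, ?_⟩
  · intro u hu huA j
    have h1 := c4 u hu j
    have h2 : u ∉ lins a := fun h' => huA (ha h')
    rw [if_neg h2, zero_add, hzA u huA, sub_zero] at h1
    exact h1
  · intro u hu huA w hw
    have h1 := c5 u hu w hw
    have h2 : u ∉ lins a := fun h' => huA (ha h')
    rw [if_neg h2, zero_add, hzA u huA, sub_zero] at h1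
    exact h1

/-- a line lies in at most one type with a given zero row -/
lemma usum (fr : Frame N d E Om) {x : Om → Ty N d → F} {S : Finset (Lin N)}
    (hx : ∀ w b, x w b ≠ 0 → w ∈ fr.U b ∧ ∀ s, lin b s ∈ S) {w : Om} {b : Ty N d} {u : Lin N}
    (hw : w ∈ fr.U b) (hu : u ∈ lins b) :
    ∑ b', x w b' * (if u ∈ lins b' then 1 else 0) = x w b := by
  rw [Finset.sum_eq_single b]
  · rw [if_pos hu, mul_one]
  · intro b' _ hb'
    by_cases h1 : x w b' = 0
    · rw [h1, zero_mul]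
    · rw [if_neg, mul_zero]
      intro h2
      obtain ⟨s, hs⟩ := an_mem_lins.1 hu
      obtain ⟨s', hs'⟩ := an_mem_lins.1 h2
      rw [← hs'] at hs
      have h3 : s = s' := (Prod.ext_iff.1 hs).1
      subst h3
      exact fr.line_disj b b' w hw (hx w b' h1).1 (Ne.symm hb') s (Prod.ext_iff.1 hs).2
  · intro h'; exact absurd (Finset.mem_univ _) h'

theorem t3_single (fr : Frame N d E Om) (p : Lin N → Co E P Om → F) (h : Ext fr p)
    (a : Ty N d) {C B₁ B₂ A : Finset (Lin N)} (ha : lins a ⊆ A) (hCA : Disjoint C A)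
    (hC₁ : Disjoint C B₁) (hC₂ : Disjoint C B₂) (h₁₂ : Disjoint B₁ B₂) (h₁A : Disjoint B₁ A)
    (h₂A : Disjoint B₂ A)
    (hS : LinearIndependent F
      (fun u : (C ∪ B₁ ∪ B₂ ∪ A : Finset (Lin N)) => fun j : P => p u (Sum.inl (Sum.inr j))))
    (hR : ∀ w ∉ fr.U a, LinearIndependent F
      (fun u : (C ∪ B₁ ∪ B₂ ∪ A ∪ rowLines fr w : Finset (Lin N)) =>
        fun j : P => p u (Sum.inl (Sum.inr j)))) :
    (Gl p C ⊔ Ga fr p h a A) ⊓ (Gl p B₁ ⊔ Ga fr p h a A) ⊓ (Gl p B₂ ⊔ Ga fr p h a A)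
      ≤ Ga fr p h a A := by
  set S := C ∪ B₁ ∪ B₂ ∪ A with hSdef
  have sC : C ⊆ S := fun u hu => by simp [hSdef, hu]
  have s1 : B₁ ⊆ S := fun u hu => by simp [hSdef, hu]
  have s2 : B₂ ⊆ S := fun u hu => by simp [hSdef, hu]
  have sA : A ⊆ S := fun u hu => by simp [hSdef, hu]
  have hmS : ∀ u ∈ S, u ∈ C ∨ u ∈ B₁ ∨ u ∈ B₂ ∨ u ∈ A := by
    intro u hu
    simp only [hSdef, Finset.mem_union] at hu
    tauto
  rintro Q ⟨⟨hQ1, hQ2⟩, hQ3⟩
  obtain ⟨q1, hq1, a1, ha1, e1⟩ := Submodule.mem_sup.1 hQ1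
  obtain ⟨q2, hq2, a2, ha2, e2⟩ := Submodule.mem_sup.1 hQ2
  obtain ⟨q3, hq3, a3, ha3, e3⟩ := Submodule.mem_sup.1 hQ3
  obtain ⟨z₁, hz₁, rfl⟩ := exists_of_mem_Gl p hq1
  obtain ⟨z₂, hz₂, rfl⟩ := exists_of_mem_Gl p hq2
  obtain ⟨z₃, hz₃, rfl⟩ := exists_of_mem_Gl p hq3
  have m2 : ∑ u ∈ C, smB (z₁ u) (p u) - ∑ u ∈ B₁, smB (z₂ u) (p u) ∈ Ga fr p h a A := by
    have : ∑ u ∈ C, smB (z₁ u) (p u) - ∑ u ∈ B₁, smB (z₂ u) (p u) = a2 - a1 := by
      rw [sub_eq_sub_iff_add_eq_add, e1, add_comm, e2]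
    rw [this]; exact Submodule.sub_mem _ ha2 ha1
  have m3 : ∑ u ∈ C, smB (z₁ u) (p u) - ∑ u ∈ B₂, smB (z₃ u) (p u) ∈ Ga fr p h a A := by
    have : ∑ u ∈ C, smB (z₁ u) (p u) - ∑ u ∈ B₂, smB (z₃ u) (p u) = a3 - a1 := by
      rw [sub_eq_sub_iff_add_eq_add, e1, add_comm, e3]
    rw [this]; exact Submodule.sub_mem _ ha3 ha1
  obtain ⟨c, x, c1, c2, c3, c4, c5⟩ := rep_of_mem fr p h a sC s1 sA ha hS hR z₁ z₂ hz₁ hz₂ m2
  obtain ⟨c', x', c1', c2', c3', c4', c5'⟩ :=
    rep_of_mem fr p h a sC s2 sA ha hS hR z₁ z₃ hz₁ hz₃ m3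
  -- disjointness in pointwise form
  have dCA : ∀ u ∈ C, u ∉ A := fun u hu h' => Finset.disjoint_left.1 hCA hu h'
  have dC1 : ∀ u ∈ C, u ∉ B₁ := fun u hu h' => Finset.disjoint_left.1 hC₁ hu h'
  have dC2 : ∀ u ∈ C, u ∉ B₂ := fun u hu h' => Finset.disjoint_left.1 hC₂ hu h'
  have d12 : ∀ u ∈ B₁, u ∉ B₂ := fun u hu h' => Finset.disjoint_left.1 h₁₂ hu h'
  have d1A : ∀ u ∈ B₁, u ∉ A := fun u hu h' => Finset.disjoint_left.1 h₁A hu h'
  have d2A : ∀ u ∈ B₂, u ∉ A := fun u hu h' => Finset.disjoint_left.1 h₂A hu h'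
  -- the coefficients
  have F1 : ∀ u ∈ B₂, ∀ v, c u v = 0 := by
    intro u hu v
    have e : z₁ u = 0 := hz₁ u fun h' => dC2 u h' hu
    have e' : z₂ u = 0 := hz₂ u fun h' => d12 u h' hu
    by_cases hv : v ∈ S
    · refine li_zero hS (c u) (fun j => ?_) v hv
      have := c4 u (s2 hu) (d2A u hu) (Sum.inr j)
      rw [e, e'] at this
      simpa using this.symm
    · rw [c1, c2 v u hv, neg_zero]
  have F2 : ∀ u ∈ B₁, ∀ v, c' u v = 0 := by
    intro u hu v
    have e : z₁ u = 0 := hz₁ u fun h' => dC1 u h' hu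
    have e' : z₃ u = 0 := hz₃ u fun h' => d12 u hu h'
    by_cases hv : v ∈ S
    · refine li_zero hS (c' u) (fun j => ?_) v hv
      have := c4' u (s1 hu) (d1A u hu) (Sum.inr j)
      rw [e, e'] at this
      simpa using this.symm
    · rw [c1', c2' v u hv, neg_zero]
  have F3 : ∀ u ∈ C, ∀ v, c u v = c' u v := by
    intro u hu v
    have e : z₂ u = 0 := hz₂ u (dC1 u hu)
    have e' : z₃ u = 0 := hz₃ u (dC2 u hu)
    by_cases hv : v ∈ S
    · have := li_zero hS (fun v => c u v - c' u v) (fun j => ?_) v hv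
      · exact sub_eq_zero.1 this
      · have h4 := c4 u (sC hu) (dCA u hu) (Sum.inr j)
        have h4' := c4' u (sC hu) (dCA u hu) (Sum.inr j)
        rw [e] at h4
        rw [e'] at h4'
        simp only [sub_mul, Finset.sum_sub_distrib]
        rw [← h4, ← h4']
        simp
    · rw [c1, c2 v u hv, c1' u v, c2' v u hv]
  have F4 : ∀ u ∈ C, ∀ v, v ∉ C → v ∉ A → c u v = 0 := by
    intro u hu v hvC hvA
    by_cases hv : v ∈ S
    · rcases hmS v hv with h' | h' | h' | h'
      · exact absurd h' hvC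
      · rw [F3 u hu v, c1', F2 v h' u, neg_zero]
      · rw [c1, F1 v h' u, neg_zero]
      · exact absurd h' hvA
    · rw [c1, c2 v u hv, neg_zero]
  -- the row terms
  have G1 : ∀ u ∈ C, ∀ w ∉ fr.U a, ∑ b, x w b * (if u ∈ lins b then (1 : F) else 0)
      = ∑ b, x' w b * (if u ∈ lins b then (1 : F) else 0) := by
    intro u hu w hw
    have e : z₂ u = 0 := hz₂ u (dC1 u hu)
    have e' : z₃ u = 0 := hz₃ u (dC2 u hu)
    have h5 := c5 u (sC hu) (dCA u hu) w hw
    have h5' := c5' u (sC hu) (dCA u hu) w hw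
    rw [e] at h5
    rw [e'] at h5'
    have h6 : ∑ v ∈ S, c u v * p v (Sum.inr w) = ∑ v ∈ S, c' u v * p v (Sum.inr w) :=
      Finset.sum_congr rfl fun v _ => by rw [F3 u hu v]
    rw [h6] at h5
    simp only [Pi.zero_apply, sub_zero] at h5 h5'
    rw [h5] at h5'
    exact add_left_cancel h5'
  have G2 : ∀ u ∈ B₂, ∀ w ∉ fr.U a, ∑ b, x w b * (if u ∈ lins b then (1 : F) else 0) = 0 := by
    intro u hu w hw
    have e : z₁ u = 0 := hz₁ u fun h' => dC2 u h' hu
    have e' : z₂ u = 0 := hz₂ u fun h' => d12 u h' hu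
    have h5 := c5 u (s2 hu) (d2A u hu) w hw
    rw [e, e'] at h5
    have h6 : ∑ v ∈ S, c u v * p v (Sum.inr w) = 0 :=
      Finset.sum_eq_zero fun v _ => by rw [F1 u hu v, zero_mul]
    rw [h6] at h5
    simpa using h5.symm
  have G3 : ∀ u ∈ B₁, ∀ w ∉ fr.U a, ∑ b, x' w b * (if u ∈ lins b then (1 : F) else 0) = 0 := by
    intro u hu w hw
    have e : z₁ u = 0 := hz₁ u fun h' => dC1 u h' hu
    have e' : z₃ u = 0 := hz₃ u fun h' => d12 u hu h'
    have h5 := c5' u (s1 hu) (d1A u hu) w hw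
    rw [e, e'] at h5
    have h6 : ∑ v ∈ S, c' u v * p v (Sum.inr w) = 0 :=
      Finset.sum_eq_zero fun v _ => by rw [F2 u hu v, zero_mul]
    rw [h6] at h5
    simpa using h5.symm
  have G4 : ∀ w ∉ fr.U a, ∀ b, x w b ≠ 0 → ∀ u ∈ C, u ∈ lins b → lins b ⊆ C ∪ A := by
    intro w hw b hxb u hu hub v hvb
    obtain ⟨hwb, hbS⟩ := c3 w b hxb
    obtain ⟨s, rfl⟩ := an_mem_lins.1 hvb
    rcases hmS _ (hbS s) with h' | h' | h' | h'
    · exact Finset.mem_union_left _ h'
    · exfalso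
      have e1 : x' w b = 0 := by
        rw [← usum fr c3' hwb hvb]; exact G3 _ h' w hw
      have e2 : x w b = x' w b := by
        rw [← usum fr c3 hwb hub, ← usum fr c3' hwb hub]; exact G1 u hu w hw
      exact hxb (e2.trans e1)
    · exfalso
      exact hxb (by rw [← usum fr c3 hwb hvb]; exact G2 _ h' w hw)
    · exact Finset.mem_union_right _ h'
  -- conclusion
  suffices hfin : ∑ u ∈ C, smB (z₁ u) (p u) ∈ Ga fr p h a A by
    rw [← e1]; exact Submodule.add_mem _ hfin ha1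
  set r : Lin N → Co E P Om → F := fun u => z₁ u - ∑ v ∈ S, c u v • p v with hr
  have hdec : ∀ u ∈ C, z₁ u = ∑ v ∈ C, c u v • p v + ∑ v ∈ A, c u v • p v + r u := by
    intro u hu
    have h1 : ∑ v ∈ S, c u v • p v = ∑ v ∈ C, c u v • p v + ∑ v ∈ A, c u v • p v := by
      rw [← Finset.sum_union hCA]
      refine (Finset.sum_subset (Finset.union_subset sC sA) fun v _ hv => ?_).symm
      rw [Finset.mem_union, not_or] at hv
      rw [F4 u hu v hv.1 hv.2, zero_smul]
    rw [hr]; simp only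
    rw [h1]; abel
  have hr0 : ∀ u ∈ C, ∀ j, r u (Sum.inl j) = 0 := by
    intro u hu j
    have h4 := c4 u (sC hu) (dCA u hu) j
    rw [hz₂ u (dC1 u hu)] at h4
    rw [hr]
    simp only [Pi.sub_apply, Finset.sum_apply, Pi.smul_apply, smul_eq_mul]
    rw [← h4]; simp
  have hrw : ∀ u ∈ C, ∀ w ∉ fr.U a, r u (Sum.inr w)
      = ∑ b, x w b * (if u ∈ lins b then (1 : F) else 0) := by
    intro u hu w hw
    have h5 := c5 u (sC hu) (dCA u hu) w hw
    rw [hz₂ u (dC1 u hu)] at h5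
    rw [hr]
    simp only [Pi.sub_apply, Finset.sum_apply, Pi.smul_apply, smul_eq_mul]
    simp only [Pi.zero_apply, sub_zero] at h5
    rw [h5]; ring
  have hsum : ∑ u ∈ C, smB (z₁ u) (p u) = ∑ u ∈ C, smB (∑ v ∈ C, c u v • p v) (p u)
      + ∑ u ∈ C, smB (∑ v ∈ A, c u v • p v) (p u) + ∑ u ∈ C, smB (r u) (p u) := by
    rw [← Finset.sum_add_distrib, ← Finset.sum_add_distrib]
    refine Finset.sum_congr rfl fun u hu => ?_
    conv_lhs => rw [hdec u hu]
    rw [map_add, map_add, LinearMap.add_apply, LinearMap.add_apply]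
  have t1 : ∑ u ∈ C, smB (∑ v ∈ C, c u v • p v) (p u) = 0 := by
    have h1 : ∀ u, smB (∑ v ∈ C, c u v • p v) (p u) = ∑ v ∈ C, c u v • smB (p v) (p u) := by
      intro u
      rw [map_sum, LinearMap.sum_apply]
      exact Finset.sum_congr rfl fun v _ => by rw [map_smul, LinearMap.smul_apply]
    rw [Finset.sum_congr rfl fun u _ => h1 u]
    set T := ∑ u ∈ C, ∑ v ∈ C, c u v • smB (p v) (p u) with hT
    have h2 : T = -T := by
      conv_lhs => rw [hT, Finset.sum_comm]
      rw [hT, ← Finset.sum_neg_distrib]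
      refine Finset.sum_congr rfl fun u _ => ?_
      rw [← Finset.sum_neg_distrib]
      refine Finset.sum_congr rfl fun v _ => ?_
      rw [c1 v u, smB_comm (p u) (p v), neg_smul]
    have h3 : (2 : F) • T = 0 := by
      rw [two_smul]
      nth_rewrite 2 [h2]
      exact add_neg_cancel T
    exact (smul_eq_zero.1 h3).resolve_left (by decide)
  have t2 : ∑ u ∈ C, smB (∑ v ∈ A, c u v • p v) (p u) ∈ Gl p A := by
    refine Submodule.sum_mem _ fun u _ => ?_
    rw [map_sum, LinearMap.sum_apply]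
    refine Submodule.sum_mem _ fun v hv => ?_
    rw [map_smul, LinearMap.smul_apply]
    exact Submodule.smul_mem _ _ (smB_mem_Gl' p hv _)
  have t3 : ∑ u ∈ C, smB (r u) (p u) ∈ Ga fr p h a A := by
    have h1 : ∀ u ∈ C, smB (r u) (p u)
        = ∑ w : Om, r u (Sum.inr w) • smB (Pi.single (Sum.inr w) 1) (p u) := by
      intro u hu
      have h2 : r u = ∑ w : Om, r u (Sum.inr w) • (Pi.single (Sum.inr w) 1 : Co E P Om → F) := by
        funext j
        rw [Finset.sum_apply]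
        rcases j with j | w
        · rw [hr0 u hu j]
          refine (Finset.sum_eq_zero fun w _ => ?_).symm
          rw [Pi.smul_apply, Pi.single_eq_of_ne Sum.inl_ne_inr, smul_zero]
        · rw [Finset.sum_eq_single w]
          · rw [Pi.smul_apply, Pi.single_eq_same, smul_eq_mul, mul_one]
          · intro w' _ hw'
            rw [Pi.smul_apply, Pi.single_eq_of_ne (by simpa using Ne.symm hw'), smul_zero]
          · intro h'; exact absurd (Finset.mem_univ _) h'
      conv_lhs => rw [h2]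
      rw [map_sum, LinearMap.sum_apply]
      exact Finset.sum_congr rfl fun w _ => by rw [map_smul, LinearMap.smul_apply]
    rw [Finset.sum_congr rfl h1, Finset.sum_comm]
    refine Submodule.sum_mem _ fun w _ => ?_
    by_cases hw : w ∈ fr.U a
    · refine Submodule.sum_mem _ fun u _ => Submodule.smul_mem _ _ ?_
      refine Submodule.mem_sup_right (Submodule.subset_span (Or.inl (Or.inr ?_)))
      exact ⟨Sum.inr w, Finset.mem_image_of_mem _ hw, p u, by rw [smB_apply]; congr; exact Subsingleton.elim _ _⟩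
    · have h2 : ∑ u ∈ C, r u (Sum.inr w) • smB (Pi.single (Sum.inr w) 1) (p u)
          = ∑ b, x w b • smB (Pi.single (Sum.inr w) 1) (∑ u ∈ C ∩ lins b, p u) := by
        have h3 : ∀ u ∈ C, r u (Sum.inr w) • smB (Pi.single (Sum.inr w) 1) (p u)
            = ∑ b, (x w b * (if u ∈ lins b then (1 : F) else 0)) •
              smB (Pi.single (Sum.inr w) 1) (p u) := by
          intro u hu
          rw [hrw u hu w hw, Finset.sum_smul]
        rw [Finset.sum_congr rfl h3, Finset.sum_comm]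
        refine Finset.sum_congr rfl fun b _ => ?_
        rw [map_sum, Finset.smul_sum, ← Finset.filter_mem_eq_inter, Finset.sum_filter]
        refine Finset.sum_congr rfl fun u _ => ?_
        split_ifs
        · rw [mul_one]
        · rw [mul_zero, zero_smul]
      rw [h2]
      refine Submodule.sum_mem _ fun b _ => ?_
      by_cases hxb : x w b = 0
      · rw [hxb, zero_smul]; exact Submodule.zero_mem _
      · refine Submodule.smul_mem _ _ ?_
        by_cases hne : (C ∩ lins b).Nonempty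
        · obtain ⟨u, hu⟩ := hne
          rw [Finset.mem_inter] at hu
          have hsub := G4 w hw b hxb u hu.1 hu.2
          have h4 : ∑ u ∈ C ∩ lins b, p u = gv p b - ∑ u ∈ A ∩ lins b, p u := by
            rw [gv_eq_sum_lins, eq_sub_iff_add_eq, ← Finset.sum_union]
            · refine Finset.sum_congr ?_ fun _ _ => rfl
              rw [← Finset.union_inter_distrib_right]
              exact Finset.inter_eq_right.2 hsub
            · exact Disjoint.mono Finset.inter_subset_left Finset.inter_subset_left hCA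
          rw [h4, map_sub]
          refine Submodule.sub_mem _ ?_ ?_
          · refine Submodule.mem_sup_right (Submodule.subset_span (Or.inl (Or.inl ?_)))
            exact ⟨b, Sum.inr w, Finset.mem_image_of_mem _ (c3 w b hxb).1, by
              rw [smB_apply]; congr; exact Subsingleton.elim _ _⟩
          · rw [map_sum]
            refine Submodule.sum_mem _ fun v hv => ?_
            exact Submodule.mem_sup_left (smB_mem_Gl p (Finset.mem_of_mem_inter_left hv) _)
        · rw [Finset.not_nonempty_iff_eq_empty] at hne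
          rw [hne, Finset.sum_empty, map_zero]
          exact Submodule.zero_mem _
  rw [hsum, t1, zero_add]
  exact Submodule.add_mem _ (Submodule.mem_sup_left t2) t3

/-- the pairs of tensors visible from `A`, together with the trivial ones -/
def Gaa (fr : Frame N d E Om) (p : Lin N → Co E P Om → F) (h : Ext fr p) (a a' : Ty N d)
    (A : Finset (Lin N)) :
    Submodule F (Matrix (Co E P Om) (Co E P Om) F × Matrix (Co E P Om) (Co E P Om) F) :=
  (Ga fr p h a A).prod (Ga fr p h a' A)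

/-- **TRI** for pairs of forms. -/
theorem t3_pair (fr : Frame N d E Om) (p : Lin N → Co E P Om → F) (h : Ext fr p)
    (a a' : Ty N d) {C B₁ B₂ A : Finset (Lin N)} (ha : lins a ⊆ A) (ha' : lins a' ⊆ A)
    (hCA : Disjoint C A)
    (hC₁ : Disjoint C B₁) (hC₂ : Disjoint C B₂) (h₁₂ : Disjoint B₁ B₂) (h₁A : Disjoint B₁ A)
    (h₂A : Disjoint B₂ A)
    (hS : LinearIndependent F
      (fun u : (C ∪ B₁ ∪ B₂ ∪ A : Finset (Lin N)) => fun j : P => p u (Sum.inl (Sum.inr j))))
    (hR : ∀ w, LinearIndependent F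
      (fun u : (C ∪ B₁ ∪ B₂ ∪ A ∪ rowLines fr w : Finset (Lin N)) =>
        fun j : P => p u (Sum.inl (Sum.inr j)))) :
    (Gp p C ⊔ Gaa fr p h a a' A) ⊓ (Gp p B₁ ⊔ Gaa fr p h a a' A) ⊓ (Gp p B₂ ⊔ Gaa fr p h a a' A)
      ≤ Gaa fr p h a a' A := by
  unfold Gp Gaa
  rw [Submodule.prod_sup_prod, Submodule.prod_sup_prod, Submodule.prod_sup_prod,
    Submodule.prod_inf_prod, Submodule.prod_inf_prod]
  exact Submodule.prod_mono
    (t3_single fr p h a ha hCA hC₁ hC₂ h₁₂ h₁A h₂A hS fun w _ => hR w)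
    (t3_single fr p h a' ha' hCA hC₁ hC₂ h₁₂ h₁A h₂A hS fun w _ => hR w)

end Vale.Agent.P060.HW
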