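import Vale.Agent.P060.HW.K2
import Vale.Agent.P060.HW.T3Frame
import Vale.Agent.P060.HW.EvXDef
import Vale.Agent.P060.HW.Blocks

/-!
# P060/HW: the deficit of a typical pair of types over an arbitrary past

`K2_frame`: over every past `A` in general position, the pairs of types whose lines have a large
entropy deficit given `A` have small mass.
-/

open scoped Classical

noncomputable section

set_option linter.unusedSectionVars false

namespace Vale.Agent.P060.HW

open Module

namespace K2F

variable {N d : ℕ} {E P Om : Type} [Fintype E] [Fintype P] [Fintype Om] [NeZero N]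

/-- Independence of the lines in `S` on the coordinates in `P`. -/
def LI (p : Lin N → Co E P Om → F) (S : Finset (Lin N)) : Prop :=
  LinearIndependent F (fun u : S => fun j : P => p u (Sum.inl (Sum.inr j)))

lemma LI.mono {p : Lin N → Co E P Om → F} {S S' : Finset (Lin N)} (h : LI p S') (hs : S ⊆ S') :
    LI p S := by
  have := LinearIndependent.comp h (fun u : S => (⟨u.1, hs u.2⟩ : S'))
    (fun u v huv => Subtype.ext (by simpa using huv))
  exact this

/-- adding lines which are independent modulo `S` -/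
lemma LI.union {p : Lin N → Co E P Om → F} {S T : Finset (Lin N)} (h : LI p S)
    (hT : IndOver p S T) : LI p (S ∪ T) := by
  have hST : S ∪ T = S ∪ (T \ S) := by rw [Finset.union_sdiff_self_eq_union]
  unfold LI
  rw [Fintype.linearIndependent_iff]
  intro g hg
  set G : Lin N → F := fun u => if hu : u ∈ S ∪ T then g ⟨u, hu⟩ else 0 with hG
  have hGg : ∀ u : (S ∪ T : Finset (Lin N)), G u = g u := by
    intro u
    rw [hG]; simp only
    rw [dif_pos u.2]
  have h1 : ∑ u ∈ S ∪ T, G u • pP p u = 0 := by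
    rw [← Finset.sum_coe_sort (S ∪ T) (fun u => G u • pP p u), ← hg]
    exact Finset.sum_congr rfl fun u _ => by rw [hGg u]; rfl
  rw [hST, Finset.sum_union Finset.disjoint_sdiff] at h1
  have h2 : ∀ u ∈ T \ S, G u = 0 := by
    have h3 : ∑ u ∈ T \ S, G u • (Submodule.span F (Set.range fun v : S => pP p v)).mkQ (pP p u)
        = 0 := by
      have h4 : ∑ u ∈ S, G u • pP p u ∈ Submodule.span F (Set.range fun v : S => pP p v) :=
        Submodule.sum_mem _ fun u hu => Submodule.smul_mem _ _
          (Submodule.subset_span ⟨⟨u, hu⟩, rfl⟩)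
      have h5 := congrArg (Submodule.span F (Set.range fun v : S => pP p v)).mkQ h1
      have h4' : (Submodule.span F (Set.range fun v : S => pP p v)).mkQ
          (∑ u ∈ S, G u • pP p u) = 0 := (Submodule.Quotient.mk_eq_zero _).2 h4
      rw [map_add, map_zero, h4', zero_add, map_sum] at h5
      rw [← h5]
      exact Finset.sum_congr rfl fun u _ => by rw [map_smul]
    intro u hu
    have h6 := Fintype.linearIndependent_iff.1 hT (fun v : (T \ S : Finset (Lin N)) => G v) (by
      rw [← h3, ← Finset.sum_coe_sort (T \ S)]) ⟨u, hu⟩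
    exact h6
  have h7 : ∑ u ∈ S, G u • pP p u = 0 := by
    rw [Finset.sum_eq_zero (s := T \ S) fun u hu => by rw [h2 u hu, zero_smul], add_zero] at h1
    exact h1
  have h8 : ∀ u ∈ S, G u = 0 := by
    intro u hu
    have h6 := Fintype.linearIndependent_iff.1 h (fun v : S => G v) (by
      rw [← h7, ← Finset.sum_coe_sort S]; rfl) ⟨u, hu⟩
    exact h6
  intro u
  rw [← hGg u]
  rcases Finset.mem_union.1 u.2 with hu | hu
  · exact h8 u hu
  · by_cases hus : (u : Lin N) ∈ S
    · exact h8 u hus
    · exact h2 u (Finset.mem_sdiff.2 ⟨hu, hus⟩)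

/-- the lines of the rows, with an additional empty row -/
def RL (fr : Frame N d E Om) : Option Om → Finset (Lin N)
  | none => ∅
  | some w => rowLines fr w

/-- the lines of a finite family of pairs -/
def UL {m : ℕ} (f : Fin m → Ty N d × Ty N d) : Finset (Lin N) :=
  Finset.univ.biUnion fun t => lins2 (f t)

lemma card_lins_le (c : Ty N d) : (lins c).card ≤ 3 := by
  unfold lins
  exact Finset.card_image_le.trans (by simp)

lemma card_lins2_le (β : Ty N d × Ty N d) : (lins2 β).card ≤ 6 := by
  unfold lins2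
  refine (Finset.card_union_le _ _).trans ?_
  have h1 := card_lins_le β.1
  have h2 := card_lins_le β.2
  omega

lemma card_UL_le {m : ℕ} (f : Fin m → Ty N d × Ty N d) : (UL f).card ≤ 6 * m := by
  unfold UL
  refine Finset.card_biUnion_le.trans ?_
  refine (Finset.sum_le_sum fun t _ => card_lins2_le (f t)).trans ?_
  rw [Finset.sum_const, Finset.card_univ, Fintype.card_fin, smul_eq_mul, mul_comm]

/-- **Greedy extraction.** -/
theorem extract (fr : Frame N d E Om) (p : Lin N → Co E P Om → F) {x0 M M' : ℕ}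
    (hX : EvX d p x0) (A : Finset (Lin N)) (hA : ∀ w, LI p (A ∪ RL fr w))
    (hcard : ∀ w, 2 * (A.card + 6 * M' + (RL fr w).card) ≤ Fintype.card P)
    (hM : M' + (Fintype.card Om + 1) * x0 ≤ M) (f : Fin M → Ty N d × Ty N d)
    (hf : Function.Injective f) (hne : ∀ i, (f i).1 ≠ (f i).2)
    (hdis : ∀ i j, i ≠ j → Disjoint (lins2 (f i)) (lins2 (f j))) :
    ∀ m ≤ M', ∃ g : Fin m → Fin M, Function.Injective g ∧
      ∀ w, LI p (A ∪ UL (fun t => f (g t)) ∪ RL fr w) := by
  intro m
  induction m with
  | zero =>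
    intro _
    refine ⟨Fin.elim0, fun i => i.elim0, fun w => ?_⟩
    have : UL (fun t : Fin 0 => f (Fin.elim0 t)) = ∅ := by
      unfold UL; simp
    rw [this, Finset.union_empty]
    exact hA w
  | succ m ih =>
    intro hm
    obtain ⟨g, g1, g2⟩ := ih (by omega)
    set U := UL (fun t => f (g t)) with hU
    set Sw : Option Om → Finset (Lin N) := fun w => A ∪ U ∪ RL fr w with hSw
    have hUc : U.card ≤ 6 * m := card_UL_le _
    have hSc : ∀ w, 2 * (Sw w).card ≤ Fintype.card P := by
      intro w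
      have h1 := Finset.card_union_le (A ∪ U) (RL fr w)
      have h2 := Finset.card_union_le A U
      have h3 := hcard w
      rw [hSw]; simp only
      omega
    -- bad indices for the row `w`
    set Bw : Option Om → Finset (Fin M) :=
      fun w => Finset.univ.filter fun i => ¬ IndOver p (Sw w) (lins2 (f i)) with hBw
    have hBc : ∀ w, (Bw w).card ≤ x0 := by
      intro w
      have h1 := hX (Sw w) (hSc w) ((Bw w).image f) (by
        intro β hβ β' hβ' hne'
        obtain ⟨i, hi, rfl⟩ := Finset.mem_image.1 hβ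
        obtain ⟨j, hj, rfl⟩ := Finset.mem_image.1 hβ'
        exact hdis i j fun h => hne' (by rw [h])) (by
        intro β hβ
        obtain ⟨i, hi, rfl⟩ := Finset.mem_image.1 hβ
        exact hne i) (by
        intro β hβ
        obtain ⟨i, hi, rfl⟩ := Finset.mem_image.1 hβ
        exact (Finset.mem_filter.1 hi).2)
      rwa [Finset.card_image_of_injective _ hf] at h1
    have hex : ∃ i : Fin M, i ∉ Finset.univ.image g ∪ Finset.univ.biUnion Bw := by
      by_contra hcon
      push Not at hcon
      have h1 : (Finset.univ : Finset (Fin M)).card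
          ≤ (Finset.univ.image g ∪ Finset.univ.biUnion Bw).card :=
        Finset.card_le_card fun i _ => hcon i
      have h2 := Finset.card_union_le (Finset.univ.image g) (Finset.univ.biUnion Bw)
      have h3 : (Finset.univ.image g).card ≤ m := Finset.card_image_le.trans (by simp)
      have h4 : (Finset.univ.biUnion Bw).card ≤ (Fintype.card Om + 1) * x0 := by
        refine Finset.card_biUnion_le.trans ((Finset.sum_le_sum fun w _ => hBc w).trans ?_)
        rw [Finset.sum_const, Finset.card_univ, Fintype.card_option, smul_eq_mul]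
      rw [Finset.card_univ, Fintype.card_fin] at h1
      omega
    obtain ⟨i, hi⟩ := hex
    rw [Finset.mem_union, not_or] at hi
    obtain ⟨hi1, hi2⟩ := hi
    have hi3 : ∀ w, IndOver p (Sw w) (lins2 (f i)) := by
      intro w
      by_contra h'
      exact hi2 (Finset.mem_biUnion.2 ⟨w, Finset.mem_univ _,
        Finset.mem_filter.2 ⟨Finset.mem_univ _, h'⟩⟩)
    refine ⟨Fin.cons i g, ?_, fun w => ?_⟩
    · rw [Fin.cons_injective_iff]
      refine ⟨?_, g1⟩
      rintro ⟨t, ht⟩
      exact hi1 (Finset.mem_image.2 ⟨t, Finset.mem_univ _, ht⟩)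
    · have h1 : LI p (Sw w ∪ lins2 (f i)) := (g2 w).union (hi3 w)
      refine h1.mono ?_
      have h2 : UL (fun t => f ((Fin.cons i g : Fin (m + 1) → Fin M) t)) ⊆ U ∪ lins2 (f i) := by
        intro u hu
        obtain ⟨t, -, ht⟩ := Finset.mem_biUnion.1 hu
        refine Fin.cases ?_ (fun t => ?_) t ht
        · intro h'
          exact Finset.mem_union_right _ h'
        · intro h'
          exact Finset.mem_union_left _ (Finset.mem_biUnion.2 ⟨t, Finset.mem_univ _, h'⟩)
      intro u hu
      rw [hSw]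
      simp only [Finset.mem_union] at hu ⊢
      rcases hu with (hu | hu) | hu
      · exact Or.inl (Or.inl (Or.inl hu))
      · rcases Finset.mem_union.1 (h2 hu) with h' | h'
        · exact Or.inl (Or.inl (Or.inr h'))
        · exact Or.inr h'
      · exact Or.inl (Or.inr hu)

/-- types through a line -/
lemma card_types_le (u : Lin N) : (Finset.univ.filter fun c : Ty N d => u ∈ lins c).card ≤ d := by
  have h1 : (Finset.univ.filter fun c : Ty N d => u ∈ lins c)
      ⊆ Finset.univ.image (fun l : Fin d => ((u.2 - ((u.1.val * l.val : ℕ) : ZMod N), l) : Ty N d)) := by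
    intro c hc
    rw [Finset.mem_filter] at hc
    obtain ⟨s, hs⟩ := an_mem_lins.1 hc.2
    refine Finset.mem_image.2 ⟨c.2, Finset.mem_univ _, ?_⟩
    have h2 : u.1 = s := by rw [← hs]; rfl
    have h3 : u.2 = ln c s := by rw [← hs]; rfl
    refine Prod.ext ?_ rfl
    rw [h2, h3]
    unfold Combi.ln
    simp
  exact (Finset.card_le_card h1).trans (Finset.card_image_le.trans (by simp))

lemma card_Ty : Fintype.card (Ty N d) = N * d := by
  rw [Fintype.card_prod, ZMod.card, Fintype.card_fin]

/-- mass of the pairs meeting a line -/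
lemma mass_line_le {ρ : Ty N d × Ty N d → ℝ} {M₀ : ℝ} (hM₀ : 0 ≤ M₀) (hρ : TCoup M₀ ρ) (u : Lin N) :
    ∑ β ∈ Finset.univ.filter (fun β : Ty N d × Ty N d => u ∈ lins2 β), ρ β ≤ 2 * M₀ / N := by
  have hN : (0 : ℝ) < N := by
    have := NeZero.pos N
    exact_mod_cast this
  rcases Nat.eq_zero_or_pos d with hd | hd
  · subst hd
    have : (Finset.univ.filter (fun β : Ty N 0 × Ty N 0 => u ∈ lins2 β)) = ∅ := by
      apply Finset.eq_empty_of_forall_notMem
      intro β _
      exact β.1.2.elim0
    rw [this, Finset.sum_empty]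
    positivity
  · have hd' : (0 : ℝ) < d := by exact_mod_cast hd
    have hT : (Fintype.card (Ty N d) : ℝ) = N * d := by rw [card_Ty]; push_cast; ring
    set B := Finset.univ.filter fun c : Ty N d => u ∈ lins c with hB
    have hBc : (B.card : ℝ) ≤ d := by exact_mod_cast card_types_le u
    have h1 : ∑ β ∈ Finset.univ.filter (fun β : Ty N d × Ty N d => u ∈ lins2 β), ρ β
        ≤ ∑ β ∈ B ×ˢ (Finset.univ : Finset (Ty N d)), ρ β
          + ∑ β ∈ (Finset.univ : Finset (Ty N d)) ×ˢ B, ρ β := by
      refine le_trans (Finset.sum_le_sum_of_subset_of_nonneg (t := B ×ˢ Finset.univ ∪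
        Finset.univ ×ˢ B) ?_ fun β _ _ => hρ.nonneg β) ?_
      · intro β hβ
        rw [Finset.mem_filter] at hβ
        rcases Finset.mem_union.1 hβ.2 with h' | h'
        · exact Finset.mem_union_left _ (Finset.mem_product.2
            ⟨Finset.mem_filter.2 ⟨Finset.mem_univ _, h'⟩, Finset.mem_univ _⟩)
        · exact Finset.mem_union_right _ (Finset.mem_product.2
            ⟨Finset.mem_univ _, Finset.mem_filter.2 ⟨Finset.mem_univ _, h'⟩⟩)
      · rw [← Finset.sum_union_inter]
        have : 0 ≤ ∑ β ∈ B ×ˢ (Finset.univ : Finset (Ty N d)) ∩ Finset.univ ×ˢ B, ρ β :=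
          Finset.sum_nonneg fun β _ => hρ.nonneg β
        linarith
    have h2 : ∑ β ∈ B ×ˢ (Finset.univ : Finset (Ty N d)), ρ β ≤ M₀ / N := by
      rw [Finset.sum_product]
      calc ∑ b ∈ B, ∑ b', ρ (b, b') ≤ ∑ b ∈ B, M₀ / (N * d) := by
            refine Finset.sum_le_sum fun b _ => ?_
            rw [le_div_iff₀ (by positivity), ← hT]
            exact hρ.left b
        _ = B.card * (M₀ / (N * d)) := by rw [Finset.sum_const, nsmul_eq_mul]
        _ ≤ d * (M₀ / (N * d)) := mul_le_mul_of_nonneg_right hBc (by positivity)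
        _ = M₀ / N := by field_simp
    have h3 : ∑ β ∈ (Finset.univ : Finset (Ty N d)) ×ˢ B, ρ β ≤ M₀ / N := by
      rw [Finset.sum_product_right]
      calc ∑ b' ∈ B, ∑ b, ρ (b, b') ≤ ∑ b' ∈ B, M₀ / (N * d) := by
            refine Finset.sum_le_sum fun b _ => ?_
            rw [le_div_iff₀ (by positivity), ← hT]
            exact hρ.right b
        _ = B.card * (M₀ / (N * d)) := by rw [Finset.sum_const, nsmul_eq_mul]
        _ ≤ d * (M₀ / (N * d)) := mul_le_mul_of_nonneg_right hBc (by positivity)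
        _ = M₀ / N := by field_simp
    calc _ ≤ M₀ / N + M₀ / N := h1.trans (add_le_add h2 h3)
      _ = 2 * M₀ / N := by ring

lemma sum_biUnion_le' {ι α : Type*} [DecidableEq α] (s : Finset ι) (t : ι → Finset α) (f : α → ℝ)
    (hf : ∀ a, 0 ≤ f a) : ∑ a ∈ s.biUnion t, f a ≤ ∑ i ∈ s, ∑ a ∈ t i, f a := by
  induction s using Finset.induction_on with
  | empty => simp
  | insert i s hi ih =>
    rw [Finset.biUnion_insert, Finset.sum_insert hi]
    have h1 := Finset.sum_union_inter (s₁ := t i) (s₂ := s.biUnion t) (f := f)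
    have h2 : 0 ≤ ∑ a ∈ t i ∩ s.biUnion t, f a := Finset.sum_nonneg fun a _ => hf a
    linarith

/-- mass of the pairs meeting a pair -/
lemma mass_meet_le {ρ : Ty N d × Ty N d → ℝ} (hρ : TCoup 8 ρ) (β : Ty N d × Ty N d)
    (S : Finset (Ty N d × Ty N d)) (hS : ∀ β' ∈ S, ¬ Disjoint (lins2 β) (lins2 β')) :
    ∑ β' ∈ S, ρ β' ≤ 96 / N := by
  have hN : (0 : ℝ) < N := by
    have := NeZero.pos N
    exact_mod_cast this
  set t : Lin N → Finset (Ty N d × Ty N d) :=
    fun u => Finset.univ.filter (fun β' : Ty N d × Ty N d => u ∈ lins2 β') with ht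
  have h1 : S ⊆ (lins2 β).biUnion t := by
    intro β' hβ'
    obtain ⟨u, hu, hu'⟩ := Finset.not_disjoint_iff.1 (hS β' hβ')
    exact Finset.mem_biUnion.2 ⟨u, hu, Finset.mem_filter.2 ⟨Finset.mem_univ _, hu'⟩⟩
  have h2 : ∑ β' ∈ S, ρ β' ≤ ∑ β' ∈ (lins2 β).biUnion t, ρ β' :=
    Finset.sum_le_sum_of_subset_of_nonneg h1 fun β' _ _ => hρ.nonneg β'
  have h3 := sum_biUnion_le' (lins2 β) t ρ fun β' => hρ.nonneg β'
  have h4 : ∀ u ∈ lins2 β, ∑ β' ∈ t u, ρ β' ≤ 16 / (N : ℝ) := by
    intro u _
    have := mass_line_le (by norm_num) hρ u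
    have e : (2 : ℝ) * 8 / N = 16 / N := by norm_num
    rw [e] at this
    exact this
  have h5 : ∑ u ∈ lins2 β, ∑ β' ∈ t u, ρ β' ≤ (lins2 β).card * (16 / (N : ℝ)) := by
    refine (Finset.sum_le_sum h4).trans (le_of_eq ?_)
    rw [Finset.sum_const, nsmul_eq_mul]
  have h6 : ((lins2 β).card : ℝ) * (16 / (N : ℝ)) ≤ 6 * (16 / (N : ℝ)) := by
    refine mul_le_mul_of_nonneg_right ?_ (by positivity)
    exact_mod_cast card_lins2_le β
  have h7 : (6 : ℝ) * (16 / (N : ℝ)) = 96 / N := by ring
  exact h2.trans (h3.trans (h5.trans (h6.trans h7.le)))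

/-- `Gp` of a union -/
lemma Gp_union {K L : Type*} [Fintype K] [DecidableEq L] (p : L → K → F) (S S' : Finset L) :
    Gp p (S ∪ S') = Gp p S ⊔ Gp p S' := by
  unfold Gp
  rw [Gl_union, Submodule.prod_sup_prod]

lemma Gp_empty {K L : Type*} [Fintype K] [DecidableEq L] (p : L → K → F) :
    Gp p (∅ : Finset L) = ⊥ := by
  unfold Gp Gl
  rw [Finset.sup_empty]
  exact Submodule.prod_bot

lemma Gp_mono {K L : Type*} [Fintype K] [DecidableEq L] (p : L → K → F) {S S' : Finset L}
    (h : S ⊆ S') : Gp p S ≤ Gp p S' :=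
  Submodule.prod_mono (Gl_mono p h) (Gl_mono p h)

lemma Gaa_eq (fr : Frame N d E Om) (p : Lin N → Co E P Om → F) (h : Ext fr p) (a a' : Ty N d)
    (A : Finset (Lin N)) :
    Gaa fr p h a a' A = Gp p A ⊔ ((dsg fr p h).Nn a).prod ((dsg fr p h).Nn a') := by
  unfold Gaa Ga Gp
  rw [Submodule.prod_sup_prod]

lemma Gaa_union (fr : Frame N d E Om) (p : Lin N → Co E P Om → F) (h : Ext fr p) (a a' : Ty N d)
    (A B : Finset (Lin N)) :
    Gaa fr p h a a' (A ∪ B) = Gp p B ⊔ Gaa fr p h a a' A := by
  rw [Gaa_eq, Gaa_eq, Gp_union, ← sup_assoc, sup_comm (Gp p B)]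

lemma Gaa_mono (fr : Frame N d E Om) (p : Lin N → Co E P Om → F) (h : Ext fr p) (a a' : Ty N d)
    {A B : Finset (Lin N)} (hAB : A ⊆ B) : Gaa fr p h a a' A ≤ Gaa fr p h a a' B := by
  rw [Gaa_eq, Gaa_eq]
  exact sup_le_sup_right (Gp_mono p hAB) _

lemma sup_Gp {m : ℕ} (p : Lin N → Co E P Om → F) (f : Fin m → Ty N d × Ty N d)
    (T : Finset (Fin m)) :
    T.sup (fun t => Gp p (lins2 (f t))) = Gp p (T.biUnion fun t => lins2 (f t)) := by
  induction T using Finset.induction_on with
  | empty => rw [Finset.sup_empty, Finset.biUnion_empty, Gp_empty]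
  | insert t T ht ih => rw [Finset.sup_insert, Finset.biUnion_insert, Gp_union, ih]

/-- **K2 for frames.** -/
theorem K2_frame {Ω : Type*} [Fintype Ω] (fr : Frame N d E Om) (p : Lin N → Co E P Om → F)
    (h : Ext fr p) (a a' : Ty N d) {x0 M M' : ℕ} (hX : EvX d p x0) (A : Finset (Lin N))
    (ha : lins a ⊆ A) (ha' : lins a' ⊆ A) (hA0 : LI p A) (hA : ∀ w, LI p (A ∪ rowLines fr w))
    (hcard0 : 2 * (A.card + 6 * M') ≤ Fintype.card P)
    (hcard : ∀ w, 2 * (A.card + 6 * M' + (rowLines fr w).card) ≤ Fintype.card P)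
    (hM : M' + (Fintype.card Om + 1) * x0 ≤ M)
    (Pr : FinProb Ω)
    (X : Ω → Dual F (Matrix (Co E P Om) (Co E P Om) F × Matrix (Co E P Om) (Co E P Om) F))
    (T0 : Submodule F (Matrix (Co E P Om) (Co E P Om) F × Matrix (Co E P Om) (Co E P Om) F))
    (hT0 : ∀ S : Finset (Lin N), Gaa fr p h a a' S ≤ T0) {𝒦 lam : ℝ}
    (hK : Lat.D Pr X T0 - Lat.D Pr X (Gaa fr p h a a' ∅) ≤ 𝒦) (hlam : 2 * 𝒦 < M' * lam)
    {ρ : Ty N d × Ty N d → ℝ} (hρ : TCoup 8 ρ) :
    ∑ β, (if Disjoint (lins2 β) A ∧
        lam < Lat.D Pr X (Gaa fr p h a a' (A ∪ lins2 β)) - Lat.D Pr X (Gaa fr p h a a' A)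
      then ρ β else 0) ≤ M * (96 / N) := by
  classical
  have hN : (0 : ℝ) < N := by
    have := NeZero.pos N
    exact_mod_cast this
  set S : Finset (Ty N d × Ty N d) := Finset.univ.filter fun β => Disjoint (lins2 β) A ∧ β.1 ≠ β.2
    with hS
  have hA' : ∀ w, LI p (A ∪ RL fr w) := by
    intro w
    cases w with
    | none => rw [RL, Finset.union_empty]; exact hA0
    | some w => exact hA w
  have hcard' : ∀ w, 2 * (A.card + 6 * M' + (RL fr w).card) ≤ Fintype.card P := by
    intro w
    cases w with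
    | none => simpa [RL] using hcard0
    | some w => exact hcard w
  have key := Lat.mass_Dc_le_two' Pr X ρ hρ.nonneg
    (fun β β' : Ty N d × Ty N d => ¬ Disjoint (lins2 β) (lins2 β'))
    (fun β β' hh h' => hh h'.symm) (fun β => Gp p (lins2 β)) (Gaa fr p h a a' A) T0 S
    (δ := 96 / N) (lam := lam) (𝒦 := 𝒦) (M := M) (M' := M') (by positivity)
    (by
      intro β hβ
      refine mass_meet_le hρ β _ fun β' hβ' => ?_
      rcases (Finset.mem_filter.1 hβ').2 with h1 | h1
      · exact h1
      · rw [h1]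
        intro h2
        have h3 : lin β.1 0 ∈ lins2 β :=
          Finset.mem_union_left _ (an_mem_lins.2 ⟨0, rfl⟩)
        exact Finset.disjoint_left.1 h2 h3 h3)
    (by
      intro f f1 f2 f3
      have hdis : ∀ i j, i ≠ j → Disjoint (lins2 (f i)) (lins2 (f j)) := by
        intro i j hij
        have := f3 i j hij
        rwa [not_not] at this
      have f2A : ∀ i, Disjoint (lins2 (f i)) A := fun i => (Finset.mem_filter.1 (f2 i)).2.1
      obtain ⟨g, g1, g2⟩ := extract fr p hX A hA' hcard' hM f f1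
        (fun i => (Finset.mem_filter.1 (f2 i)).2.2) hdis M' le_rfl
      refine ⟨g, g1, fun t => ?_⟩
      rw [sup_Gp p (fun j => f (g j)), sup_Gp p (fun j => f (g j))]
      set B₁ := (Finset.univ.filter (· < t)).biUnion fun j => lins2 (f (g j)) with hB₁
      set B₂ := (Finset.univ.filter (t < ·)).biUnion fun j => lins2 (f (g j)) with hB₂
      have hd : ∀ j, j ≠ t → Disjoint (lins2 (f (g t))) (lins2 (f (g j))) :=
        fun j hj => hdis _ _ fun h' => hj (g1 h').symm
      have k1 : Disjoint (lins2 (f (g t))) B₁ := by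
        rw [hB₁, Finset.disjoint_biUnion_right]
        intro j hj
        exact hd j (Finset.mem_filter.1 hj).2.ne
      have k2 : Disjoint (lins2 (f (g t))) B₂ := by
        rw [hB₂, Finset.disjoint_biUnion_right]
        intro j hj
        exact hd j (Finset.mem_filter.1 hj).2.ne'
      have k3 : Disjoint B₁ B₂ := by
        rw [hB₁, hB₂, Finset.disjoint_biUnion_left]
        intro i hi
        rw [Finset.disjoint_biUnion_right]
        intro j hj
        refine hdis _ _ fun h' => ?_
        have h1 := (Finset.mem_filter.1 hi).2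
        have h2 := (Finset.mem_filter.1 hj).2
        exact absurd (h1.trans h2) (by rw [g1 h']; exact lt_irrefl _)
      have k4 : Disjoint B₁ A := by
        rw [hB₁, Finset.disjoint_biUnion_left]
        exact fun j _ => f2A _
      have k5 : Disjoint B₂ A := by
        rw [hB₂, Finset.disjoint_biUnion_left]
        exact fun j _ => f2A _
      have hsub : lins2 (f (g t)) ∪ B₁ ∪ B₂ ∪ A ⊆ A ∪ UL (fun t => f (g t)) := by
        intro u hu
        simp only [Finset.mem_union] at hu ⊢
        rcases hu with ((hu | hu) | hu) | hu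
        · exact Or.inr (Finset.mem_biUnion.2 ⟨t, Finset.mem_univ _, hu⟩)
        · obtain ⟨j, -, hj⟩ := Finset.mem_biUnion.1 hu
          exact Or.inr (Finset.mem_biUnion.2 ⟨j, Finset.mem_univ _, hj⟩)
        · obtain ⟨j, -, hj⟩ := Finset.mem_biUnion.1 hu
          exact Or.inr (Finset.mem_biUnion.2 ⟨j, Finset.mem_univ _, hj⟩)
        · exact Or.inl hu
      exact t3_pair fr p h a a' ha ha' (f2A _) k1 k2 k3 k4 k5
        ((g2 none).mono (hsub.trans Finset.subset_union_left))
        (fun w => (g2 (some w)).mono (Finset.union_subset_union hsub (Finset.Subset.refl _))))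
    (hT0 A) (fun β => le_trans (by rw [Gaa_eq]; exact le_sup_left) (hT0 (lins2 β)))
    (by
      have := Lat.D_mono Pr X (Gaa_mono fr p h a a' (Finset.empty_subset A))
      linarith) hlam
  refine le_trans (le_of_eq ?_) key
  rw [Finset.sum_filter, hS, Finset.sum_filter]
  refine Finset.sum_congr rfl fun β _ => ?_
  have e1 : Lat.Dc Pr X (Gp p (lins2 β)) (Gaa fr p h a a' A)
      = Lat.D Pr X (Gaa fr p h a a' (A ∪ lins2 β)) - Lat.D Pr X (Gaa fr p h a a' A) := by
    rw [Gaa_union]; rfl
  rw [e1]
  by_cases h1 : Disjoint (lins2 β) A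
  · by_cases h2 : β.1 = β.2
    · have : ρ β = 0 := by
        have := hρ.ne β.1
        obtain ⟨b, b'⟩ := β
        simp only at h2 this
        rw [h2] at this ⊢
        exact this
      simp [this]
    · simp [h1, h2]
  · simp [h1]

end K2F

end Vale.Agent.P060.HW
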