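import Vale.Agent.P060.HW.AN
import Vale.Agent.P060.HW.Ann

/-!
# LA-EXT: the dual form of the annihilator lemma

Rows `y u` (`u ∈ S`) satisfying the obvious linear conditions are the values `B p_u` of a direction
`B` of type `a`.
-/

open scoped Classical

noncomputable section

set_option linter.unusedSectionVars false

namespace Vale.Agent.P060.HW.LAX

open Module

variable {N d : ℕ} {E P Om : Type} [Fintype E] [Fintype P] [Fintype Om] [NeZero N]

lemma pr_sm {K : Type*} [Fintype K] (u v : K → F) {B : Matrix K K F} (hB : B.IsSymm) :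
    pr (sm u v) B = 2 * (u ⬝ᵥ B.mulVec v) := by
  have h1 : pr (sm u v) B = u ⬝ᵥ B.mulVec v + v ⬝ᵥ B.mulVec u := by
    unfold pr
    simp only [sm, Matrix.add_apply, Matrix.vecMulVec_apply, add_mul, Finset.sum_add_distrib,
      dotProduct, Matrix.mulVec, Finset.mul_sum]
    congr 1 <;>
    · refine Finset.sum_congr rfl fun i _ => Finset.sum_congr rfl fun j _ => ?_
      ring
  rw [h1, Design.symm_dot hB v u, two_mul]

lemma pr_add {K : Type*} [Fintype K] (Q Q' B : Matrix K K F) : pr (Q + Q') B = pr Q B + pr Q' B := by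
  simp only [pr, Matrix.add_apply, add_mul, Finset.sum_add_distrib]

lemma pr_sum {K : Type*} [Fintype K] {ι : Type*} (s : Finset ι) (Q : ι → Matrix K K F)
    (B : Matrix K K F) : pr (∑ i ∈ s, Q i) B = ∑ i ∈ s, pr (Q i) B := by
  classical
  induction s using Finset.induction_on with
  | empty => simp [pr]
  | insert i s hi ih => rw [Finset.sum_insert hi, Finset.sum_insert hi, pr_add, ih]

lemma sm_isSymm {K : Type*} (u v : K → F) : (sm u v).IsSymm := by
  ext i j
  simp only [sm, Matrix.transpose_apply, Matrix.add_apply, Matrix.vecMulVec_apply]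
  ring

lemma sm_zero_left {K : Type*} (v : K → F) : sm (0 : K → F) v = 0 := by
  ext i j
  simp [sm]

lemma lin_inj {N d : ℕ} (c : Ty N d) : Function.Injective (lin c) := by
  intro s s' h
  exact (Prod.ext_iff.1 h).1

lemma mem_lins {N d : ℕ} {c : Ty N d} {u : Lin N} : u ∈ lins c ↔ u.2 = ln c u.1 := by
  unfold lins
  rw [Finset.mem_image]
  constructor
  · rintro ⟨s, -, rfl⟩
    rfl
  · intro h
    exact ⟨u.1, Finset.mem_univ _, Prod.ext rfl h.symm⟩

lemma lin_mem_lins {N d : ℕ} (c : Ty N d) (s : Fin 3) : lin c s ∈ lins c :=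
  Finset.mem_image_of_mem _ (Finset.mem_univ _)

lemma gv_eq_sum (p : Lin N → Co E P Om → F) (c : Ty N d) : gv p c = ∑ u ∈ lins c, p u := by
  unfold gv lins
  rw [Finset.sum_image fun s _ s' _ h => lin_inj c h]

/-- Two types with a common zero row and a common line are equal. -/
lemma eq_of_row (fr : Frame N d E Om) {c c' : Ty N d} {w : Om} (h : w ∈ fr.U c)
    (h' : w ∈ fr.U c') {u : Lin N} (hu : u ∈ lins c) (hu' : u ∈ lins c') : c = c' := by
  by_contra hne
  exact fr.line_disj c c' w h h' hne u.1 ((mem_lins.1 hu).symm.trans (mem_lins.1 hu'))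

/-- the functional on families of vectors -/
lemma fam_functional {L K : Type*} [Fintype L] [Fintype K] (ξ : (L → K → F) →ₗ[F] F)
    (Y : L → K → F) :
    ξ Y = ∑ u, (fun j => ξ (Pi.single u (Pi.single j 1))) ⬝ᵥ Y u := by
  have h1 : Y = ∑ u, ∑ j, Y u j • Pi.single u (Pi.single j (1 : F)) := by
    funext u j
    rw [Finset.sum_apply, Finset.sum_apply]
    rw [Finset.sum_eq_single u]
    · rw [Finset.sum_apply, Finset.sum_apply, Finset.sum_eq_single j]
      · simp
      · intro j' _ hj'
        simp [hj'.symm]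
      · intro h; exact absurd (Finset.mem_univ _) h
    · intro u' _ hu'
      rw [Finset.sum_apply, Finset.sum_apply]
      refine Finset.sum_eq_zero fun j' _ => ?_
      rw [Pi.smul_apply, Pi.smul_apply, Pi.single_eq_of_ne hu'.symm]
      simp
    · intro h; exact absurd (Finset.mem_univ _) h
  conv_lhs => rw [h1]
  rw [map_sum]
  refine Finset.sum_congr rfl fun u _ => ?_
  rw [map_sum, dotProduct]
  refine Finset.sum_congr rfl fun j _ => ?_
  rw [map_smul, smul_eq_mul, mul_comm]

/-- Duality: if every relation `∑ z_u ⊗ p_u` trivial for type `a` kills `y`, then `y` is a family of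
values. -/
theorem ext_of_dual (hconv : AnnConverse) {K T : Type} [Fintype K] (δ : Design K T) (a : T)
    {L : Type} [Fintype L] (p : L → K → F) (S : Finset L) (y : L → K → F)
    (H : ∀ z : L → K → F, (∀ u ∉ S, z u = 0) → ∑ u ∈ S, sm (z u) (p u) ∈ δ.Nn a →
      ∑ u ∈ S, z u ⬝ᵥ y u = 0) :
    ∃ B ∈ δ.Dir a, ∀ u ∈ S, B.mulVec (p u) = y u := by
  let Φ : δ.Dir a →ₗ[F] (L → K → F) :=
    { toFun := fun B u => if u ∈ S then (B : Matrix K K F).mulVec (p u) else 0
      map_add' := by
        intro A B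
        funext u
        simp only [Submodule.coe_add, Matrix.add_mulVec, Pi.add_apply]
        split_ifs <;> simp
      map_smul' := by
        intro r A
        funext u
        simp only [Submodule.coe_smul, Matrix.smul_mulVec, Pi.smul_apply, RingHom.id_apply]
        split_ifs <;> simp }
  by_cases hy : (fun u => if u ∈ S then y u else 0) ∈ LinearMap.range Φ
  · obtain ⟨B, hB⟩ := hy
    refine ⟨B, B.2, fun u hu => ?_⟩
    have h1 := congrFun hB u
    simpa [Φ, hu] using h1
  · exfalso
    obtain ⟨ξ, hξ, hξ'⟩ := Submodule.exists_le_ker_of_notMem hy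
    set z : L → K → F := fun u => if u ∈ S then fun j => ξ (Pi.single u (Pi.single j 1)) else 0
      with hz
    have key : ∀ Y : L → K → F, (∀ u ∉ S, Y u = 0) → ξ Y = ∑ u ∈ S, z u ⬝ᵥ Y u := by
      intro Y hY
      rw [fam_functional ξ Y]
      symm
      apply Finset.sum_subset_zero_on_sdiff (Finset.subset_univ S)
      · intro u hu
        rw [Finset.mem_sdiff] at hu
        rw [hY u hu.2, dotProduct_zero]
      · intro u hu
        simp only [hz, if_pos hu]
    have h1 : ∑ u ∈ S, sm (z u) (p u) ∈ δ.Nn a := by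
      refine hconv K T δ a _ ?_ ?_
      · unfold Matrix.IsSymm
        rw [Matrix.transpose_sum]
        exact Finset.sum_congr rfl fun u _ => sm_isSymm _ _
      · intro B hB
        rw [pr_sum]
        have h2 : ξ (Φ ⟨B, hB⟩) = 0 := hξ' ⟨_, rfl⟩
        rw [key _ (fun u hu => by simp [Φ, hu])] at h2
        have h3 : ∀ u ∈ S, pr (sm (z u) (p u)) B = 2 * (z u ⬝ᵥ Φ ⟨B, hB⟩ u) := by
          intro u hu
          rw [pr_sm _ _ hB.1.1]
          simp [Φ, hu]
        rw [Finset.sum_congr rfl h3, ← Finset.mul_sum, h2, mul_zero]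
    have h2 := H z (fun u hu => by simp [hz, hu]) h1
    apply hξ
    rw [key _ (fun u hu => by simp [hu])]
    rw [← h2]
    exact Finset.sum_congr rfl fun u hu => by simp [hu]

lemma two_ne : (2 : F) ≠ 0 := ann_two_ne

/-- An antisymmetric times a symmetric double sum vanishes. -/
lemma anti_sum {L : Type*} (S : Finset L) (c m : L → L → F) (hc : ∀ u v, c u v = - c v u)
    (hm : ∀ u ∈ S, ∀ v ∈ S, m u v = m v u) : ∑ u ∈ S, ∑ v ∈ S, c u v * m u v = 0 := by
  have h1 : ∑ u ∈ S, ∑ v ∈ S, c u v * m u v = - ∑ u ∈ S, ∑ v ∈ S, c u v * m u v := by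
    conv_lhs => rw [Finset.sum_comm]
    rw [← Finset.sum_neg_distrib]
    refine Finset.sum_congr rfl fun u hu => ?_
    rw [← Finset.sum_neg_distrib]
    refine Finset.sum_congr rfl fun v hv => ?_
    rw [hc v u, hm v hv u hu, neg_mul]
  have h2 : (2 : F) * ∑ u ∈ S, ∑ v ∈ S, c u v * m u v = 0 := by
    rw [two_mul]
    nth_rewrite 2 [h1]
    rw [add_neg_cancel]
  exact (mul_eq_zero.1 h2).resolve_left two_ne

/-- LA-EXT. -/
theorem la_ext (fr : Frame N d E Om) (p : Lin N → Co E P Om → F) (h : Ext fr p) (a : Ty N d)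
    (S : Finset (Lin N))
    (hcase : lins a ⊆ S ∨ ∃ s s', s ≠ s' ∧ lin a s ∉ S ∧ lin a s' ∉ S)
    (hi : LinearIndependent F (fun u : (S ∪ lins a : Finset (Lin N)) =>
      fun j : P => p u (Sum.inl (Sum.inr j))))
    (hw : ∀ w ∉ fr.U a, LinearIndependent F
      (fun u : ((S ∪ lins a) ∪ rowLines fr w : Finset (Lin N)) =>
        fun j : P => p u (Sum.inl (Sum.inr j))))
    (y : Lin N → Co E P Om → F)
    (h1 : ∀ u ∈ S, ∀ v ∈ S, y u ⬝ᵥ p v = y v ⬝ᵥ p u)
    (h2 : ∀ u ∈ S, y u ⬝ᵥ gv p a = 0)
    (h3 : ∀ u ∈ S, ∀ w ∈ fr.U a, y u (Sum.inr w) = 0)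
    (h4 : ∀ c : Ty N d, lins c ⊆ S → ∀ w ∈ fr.U c, ∑ u ∈ lins c, y u (Sum.inr w) = 0)
    (h5 : lins a ⊆ S → ∑ u ∈ lins a, y u = 0) :
    ∃ B ∈ (dsg fr p h).Dir a, ∀ u ∈ S, B.mulVec (p u) = y u := by
  refine ext_of_dual annConverse (dsg fr p h) a p S y fun z hz hQ => ?_
  set S' : Finset (Lin N) := S ∪ lins a with hS'
  have hSS' : S ⊆ S' := Finset.subset_union_left
  have haS' : lins a ⊆ S' := Finset.subset_union_right
  have hQ' : ∑ u ∈ S', sm (z u) (p u) ∈ (dsg fr p h).Nn a := by
    rw [← Finset.sum_subset hSS' fun u _ hu => by rw [hz u hu, sm_zero_left]]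
    exact hQ
  obtain ⟨y0, c, x, hc, hcS, hx, hzE, hzO⟩ := an N d E P Om fr p h a S'
    (fun s => haS' (lin_mem_lins a s)) hi hw z hQ'
  -- the rows which matter
  have hlin : ∀ (g : Lin N → F), (∀ i : P, ∑ v ∈ S', g v * p v (Sum.inl (Sum.inr i)) = 0) →
      ∀ v ∈ S', g v = 0 := by
    intro g hg v hv
    have h6 := (Fintype.linearIndependent_iff.1 hi) (fun u => g u) (by
      funext i
      rw [Finset.sum_apply]
      simp only [Pi.smul_apply, smul_eq_mul, Pi.zero_apply]
      rw [← hg i]
      exact Finset.sum_coe_sort S' fun v => g v * p v (Sum.inl (Sum.inr i)))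
    exact h6 ⟨v, hv⟩
  -- common part of the computation
  have hmain : ∀ (x' : Om → Ty N d → F), (∀ w b, x' w b ≠ 0 → w ∈ fr.U b ∧ lins b ⊆ S) →
      (∀ u ∈ S, ∀ j, (∀ w ∈ fr.U a, j ≠ Sum.inr w) → z u j = (if u ∈ lins a then y0 j else 0)
        + ∑ v ∈ S', c u v * p v j
        + Sum.elim (fun _ => (0 : F))
            (fun w => ∑ b, x' w b * (if u ∈ lins b then 1 else 0)) j) →
      ∑ u ∈ S, z u ⬝ᵥ y u = ∑ u ∈ S, (if u ∈ lins a then y0 ⬝ᵥ y u else 0)
        + ∑ u ∈ S, ∑ v ∈ S', c u v * (p v ⬝ᵥ y u) := by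
    intro x' hx' hz'
    have h6 : ∀ u ∈ S, z u ⬝ᵥ y u = (if u ∈ lins a then y0 ⬝ᵥ y u else 0)
        + ∑ v ∈ S', c u v * (p v ⬝ᵥ y u)
        + ∑ w, (∑ b, x' w b * (if u ∈ lins b then 1 else 0)) * y u (Sum.inr w) := by
      intro u hu
      have h7 : z u ⬝ᵥ y u = ∑ j, ((if u ∈ lins a then y0 j else 0)
        + ∑ v ∈ S', c u v * p v j
        + Sum.elim (fun _ => (0 : F))
            (fun w => ∑ b, x' w b * (if u ∈ lins b then 1 else 0)) j) * y u j := by
        rw [dotProduct]
        refine Finset.sum_congr rfl fun j _ => ?_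
        by_cases hj : ∀ w ∈ fr.U a, j ≠ Sum.inr w
        · rw [hz' u hu j hj]
        · push Not at hj
          obtain ⟨w, hw', rfl⟩ := hj
          rw [h3 u hu w hw', mul_zero, mul_zero]
      rw [h7]
      simp only [add_mul, Finset.sum_add_distrib]
      congr 1
      · congr 1
        · split_ifs
          · rfl
          · simp
        · rw [show (∑ v ∈ S', c u v * (p v ⬝ᵥ y u)) = ∑ v ∈ S', ∑ j, c u v * p v j * y u j from
            Finset.sum_congr rfl fun v _ => by
              rw [dotProduct, Finset.mul_sum]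
              exact Finset.sum_congr rfl fun j _ => by ring]
          rw [Finset.sum_comm]
          exact Finset.sum_congr rfl fun j _ => by rw [Finset.sum_mul]
      · rw [Fintype.sum_sum_type]
        simp
    rw [Finset.sum_congr rfl h6, Finset.sum_add_distrib, Finset.sum_add_distrib, add_eq_left]
    rw [Finset.sum_comm]
    refine Finset.sum_eq_zero fun w _ => ?_
    simp only [Finset.sum_mul]
    rw [Finset.sum_comm]
    refine Finset.sum_eq_zero fun b _ => ?_
    by_cases hxb : x' w b = 0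
    · simp [hxb]
    · obtain ⟨hwb, hbS⟩ := hx' w b hxb
      have h7 : ∑ u ∈ S, x' w b * (if u ∈ lins b then 1 else 0) * y u (Sum.inr w)
          = x' w b * ∑ u ∈ S, (if u ∈ lins b then y u (Sum.inr w) else 0) := by
        rw [Finset.mul_sum]
        refine Finset.sum_congr rfl fun u _ => ?_
        split_ifs <;> simp
      rw [h7, ← Finset.sum_filter, Finset.filter_mem_eq_inter, Finset.inter_eq_right.2 hbS,
        h4 b hbS w hwb, mul_zero]
  have hsym : ∀ u ∈ S, ∀ v ∈ S, p v ⬝ᵥ y u = p u ⬝ᵥ y v := by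
    intro u hu v hv
    rw [dotProduct_comm, h1 u hu v hv, dotProduct_comm]
  rcases hcase with haS | ⟨s, s', hss', hs, hs'⟩
  · -- all lines of `a` are in `S`
    have hSeq : S' = S := Finset.union_eq_left.2 haS
    rw [hmain (fun w b => if w ∈ fr.U a then 0 else x w b) ?_ ?_]
    · rw [hSeq, anti_sum S c (fun u v => p v ⬝ᵥ y u) hc fun u hu v hv => hsym u hu v hv, add_zero,
        ← Finset.sum_filter, Finset.filter_mem_eq_inter, Finset.inter_eq_right.2 haS,
        ← dotProduct_sum, h5 haS, dotProduct_zero]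
    · intro w b hb
      split_ifs at hb with hwa
      · exact absurd rfl hb
      · obtain ⟨h6, h7⟩ := hx w b hb
        refine ⟨h6, fun u hu => ?_⟩
        obtain ⟨t, -, rfl⟩ := Finset.mem_image.1 hu
        have := h7 t
        rwa [hSeq] at this
    · intro u hu j hj
      rcases j with j | w
      · rw [hzE u (hSS' hu) j]
        simp
      · have hwa : w ∉ fr.U a := fun hwa => hj w hwa rfl
        rw [hzO u (hSS' hu) w hwa]
        simp [hwa]
  · -- two lines of `a` are not in `S`
    have hua : ∀ t, lin a t ∉ S → z (lin a t) = 0 := fun t ht => hz _ ht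
    have hz0 : ∀ u ∈ lins a, u ∉ S → z u = 0 := fun u _ hu => hz u hu
    set κ : Lin N → F := fun v => c (lin a s) v with hκ
    have hE0 : ∀ u ∈ lins a, u ∉ S → ∀ j : E ⊕ P,
        ∑ v ∈ S', c u v * p v (Sum.inl j) = - y0 (Sum.inl j) := by
      intro u hu huS j
      have h6 := hzE u (haS' hu) j
      rw [hz u huS, Pi.zero_apply, if_pos hu] at h6
      linear_combination -h6
    have hcκ : ∀ u ∈ lins a, u ∉ S → ∀ v ∈ S', c u v = κ v := by
      intro u hu huS v hv
      have h6 := hlin (fun v => c u v - c (lin a s) v) (fun i => by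
        simp only [sub_mul, Finset.sum_sub_distrib]
        rw [hE0 u hu huS (Sum.inr i), hE0 _ (lin_mem_lins a s) hs (Sum.inr i), sub_self]) v hv
      exact sub_eq_zero.1 h6
    have hcc : ∀ u, c u u = 0 := by
      intro u
      have h6 := hc u u
      have h7 : (2 : F) * c u u = 0 := by
        rw [two_mul]
        nth_rewrite 2 [h6]
        rw [add_neg_cancel]
      exact (mul_eq_zero.1 h7).resolve_left two_ne
    have hκ0 : ∀ v ∈ lins a, v ∉ S → κ v = 0 := by
      intro v hv hvS
      rw [← hcκ v hv hvS v (haS' hv), hcc]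
    -- rows in `Om`
    have hX : ∀ w ∉ fr.U a, ∀ u ∈ lins a, u ∉ S →
        ∑ b, x w b * (if u ∈ lins b then 1 else 0)
          = - (y0 (Sum.inr w) + ∑ v ∈ S', κ v * p v (Sum.inr w)) := by
      intro w hwa u hu huS
      have h6 := hzO u (haS' hu) w hwa
      rw [hz u huS, Pi.zero_apply, if_pos hu,
        Finset.sum_congr rfl fun v hv => by rw [hcκ u hu huS v hv]] at h6
      linear_combination -h6
    have hX0 : ∀ w ∉ fr.U a, y0 (Sum.inr w) + ∑ v ∈ S', κ v * p v (Sum.inr w) = 0 := by
      intro w hwa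
      by_contra hne
      have e1 := hX w hwa _ (lin_mem_lins a s) hs
      have e2 := hX w hwa _ (lin_mem_lins a s') hs'
      have n1 : ∑ b, x w b * (if lin a s ∈ lins b then 1 else 0) ≠ 0 := by
        rw [e1]; exact neg_ne_zero.2 hne
      have n2 : ∑ b, x w b * (if lin a s' ∈ lins b then 1 else 0) ≠ 0 := by
        rw [e2]; exact neg_ne_zero.2 hne
      obtain ⟨b, -, hb⟩ := Finset.exists_ne_zero_of_sum_ne_zero n1
      obtain ⟨b', -, hb'⟩ := Finset.exists_ne_zero_of_sum_ne_zero n2
      have hb1 : lin a s ∈ lins b := by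
        by_contra h'; rw [if_neg h', mul_zero] at hb; exact hb rfl
      have hb2 : lin a s' ∈ lins b' := by
        by_contra h'; rw [if_neg h', mul_zero] at hb'; exact hb' rfl
      exact fr.private_lines a b b' w s s' hwa (hx w b (left_ne_zero_of_mul hb)).1
        (hx w b' (left_ne_zero_of_mul hb')).1 hss' (LAX.mem_lins.1 hb1) (LAX.mem_lins.1 hb2)
    have hXu : ∀ w ∉ fr.U a, ∀ u ∈ lins a, u ∉ S →
        ∑ b, x w b * (if u ∈ lins b then 1 else 0) = 0 := by
      intro w hwa u hu huS
      rw [hX w hwa u hu huS, hX0 w hwa, neg_zero]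
    have hxS : ∀ w b, w ∉ fr.U a → x w b ≠ 0 → lins b ⊆ S := by
      intro w b hwa hb u hu
      by_contra huS
      obtain ⟨hwb, hbS⟩ := hx w b hb
      have hua : u ∈ lins a := by
        obtain ⟨t, -, rfl⟩ := Finset.mem_image.1 hu
        rcases Finset.mem_union.1 (hbS t) with h' | h'
        · exact absurd h' huS
        · exact h'
      have h6 := hXu w hwa u hua huS
      rw [Finset.sum_eq_single b] at h6
      · rw [if_pos hu, mul_one] at h6
        exact hb h6
      · intro b' _ hbb'
        by_cases hxb' : x w b' = 0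
        · rw [hxb', zero_mul]
        · rw [if_neg, mul_zero]
          intro hu'
          exact hbb' (LAX.eq_of_row fr (hx w b' hxb').1 hwb hu' hu)
      · intro h'; exact absurd (Finset.mem_univ _) h'
    have hy0 : ∀ u ∈ S, y0 ⬝ᵥ y u = - ∑ v ∈ S', κ v * (p v ⬝ᵥ y u) := by
      intro u hu
      rw [dotProduct]
      have h6 : ∀ j, y0 j * y u j = - ∑ v ∈ S', κ v * (p v j * y u j) := by
        intro j
        rcases j with j | w
        · rw [show y0 (Sum.inl j) = - ∑ v ∈ S', κ v * p v (Sum.inl j) from by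
            rw [hE0 _ (lin_mem_lins a s) hs j, neg_neg], neg_mul, Finset.sum_mul]
          congr 1
          exact Finset.sum_congr rfl fun v _ => by ring
        · by_cases hwa : w ∈ fr.U a
          · rw [h3 u hu w hwa, mul_zero]
            simp
          · rw [show y0 (Sum.inr w) = - ∑ v ∈ S', κ v * p v (Sum.inr w) from
              eq_neg_of_add_eq_zero_left (hX0 w hwa), neg_mul, Finset.sum_mul]
            congr 1
            exact Finset.sum_congr rfl fun v _ => by ring
      rw [Finset.sum_congr rfl fun j _ => h6 j, Finset.sum_neg_distrib, Finset.sum_comm]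
      congr 1
      refine Finset.sum_congr rfl fun v _ => ?_
      rw [dotProduct, Finset.mul_sum]
    rw [hmain (fun w b => if w ∈ fr.U a then 0 else x w b) ?_ ?_]
    · have hsplit : ∀ f : Lin N → F, ∑ v ∈ S', f v = ∑ v ∈ S, f v + ∑ v ∈ lins a \ S, f v := by
        intro f
        rw [hS', ← Finset.sum_union Finset.disjoint_sdiff]
        congr 1
        ext v
        simp only [Finset.mem_union, Finset.mem_sdiff]
        tauto
      have t1 : ∀ u ∈ S, (if u ∈ lins a then y0 ⬝ᵥ y u else 0)
          = - ∑ v ∈ S, κ v * (if u ∈ lins a then p u ⬝ᵥ y v else 0) := by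
        intro u hu
        split_ifs with hua
        · rw [hy0 u hu, hsplit, Finset.sum_eq_zero (s := lins a \ S), add_zero]
          · congr 1
            exact Finset.sum_congr rfl fun v hv => by rw [hsym u hu v hv]
          · intro v hv
            rw [Finset.mem_sdiff] at hv
            rw [hκ0 v hv.1 hv.2, zero_mul]
        · simp
      have t2 : ∀ u ∈ S, ∑ v ∈ S', c u v * (p v ⬝ᵥ y u) = ∑ v ∈ S, c u v * (p v ⬝ᵥ y u)
          - κ u * ∑ v ∈ lins a \ S, p v ⬝ᵥ y u := by
        intro u hu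
        rw [hsplit, sub_eq_add_neg, Finset.mul_sum, ← Finset.sum_neg_distrib]
        congr 1
        refine Finset.sum_congr rfl fun v hv => ?_
        rw [Finset.mem_sdiff] at hv
        rw [hc u v, hcκ v hv.1 hv.2 u (hSS' hu), neg_mul]
      rw [Finset.sum_congr rfl t1, Finset.sum_congr rfl t2, Finset.sum_sub_distrib,
        anti_sum S c (fun u v => p v ⬝ᵥ y u) hc fun u hu v hv => hsym u hu v hv, zero_sub,
        Finset.sum_neg_distrib, Finset.sum_comm, ← neg_add, ← Finset.sum_add_distrib, neg_eq_zero]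
      refine Finset.sum_eq_zero fun v hv => ?_
      have t3 : ∑ u ∈ S, κ v * (if u ∈ lins a then p u ⬝ᵥ y v else 0)
          = κ v * ∑ u ∈ lins a ∩ S, p u ⬝ᵥ y v := by
        rw [← Finset.mul_sum, ← Finset.sum_filter, Finset.filter_mem_eq_inter, Finset.inter_comm]
      rw [t3, ← mul_add]
      have t4 : ∑ u ∈ lins a ∩ S, p u ⬝ᵥ y v + ∑ u ∈ lins a \ S, p u ⬝ᵥ y v = gv p a ⬝ᵥ y v := by
        rw [← Finset.sum_union (Finset.disjoint_left.2 fun u hu hu' =>
            (Finset.mem_sdiff.1 hu').2 (Finset.mem_inter.1 hu).2),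
          show lins a ∩ S ∪ lins a \ S = lins a by
            ext u
            simp only [Finset.mem_union, Finset.mem_inter, Finset.mem_sdiff]
            tauto, LAX.gv_eq_sum, sum_dotProduct]
      rw [t4, dotProduct_comm, h2 v hv, mul_zero]
    · intro w b hb
      split_ifs at hb with hwa
      · exact absurd rfl hb
      · exact ⟨(hx w b hb).1, hxS w b hwa hb⟩
    · intro u hu j hj
      rcases j with j | w
      · rw [hzE u (hSS' hu) j]
        simp
      · have hwa : w ∉ fr.U a := fun hwa => hj w hwa rfl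
        rw [hzO u (hSS' hu) w hwa]
        simp [hwa]

end Vale.Agent.P060.HW.LAX
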