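import Vale.Agent.P060.HW.Blocks

/-!
# LDFAM: line-disjoint families in sets of pairs of types of positive mass
-/

open scoped Classical

noncomputable section

namespace Vale.Agent.P060.HW

open Module Finset

variable {N d : ℕ} [NeZero N]

omit [NeZero N] in
lemma ldf_card_lins (c : Ty N d) : (lins c).card ≤ 3 := by
  unfold lins
  refine Finset.card_image_le.trans ?_
  simp

omit [NeZero N] in
lemma ldf_card_lins2 (β : Ty N d × Ty N d) : (lins2 β).card ≤ 6 := by
  unfold lins2
  refine (Finset.card_union_le _ _).trans ?_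
  have h1 := ldf_card_lins β.1
  have h2 := ldf_card_lins β.2
  omega

/-- A line lies in at most `d` types. -/
lemma ldf_card_types (u : Lin N) :
    ((univ : Finset (Ty N d)).filter fun c => u ∈ lins c).card ≤ d := by
  have hinj : Set.InjOn (fun c : Ty N d => c.2)
      (((univ : Finset (Ty N d)).filter fun c => u ∈ lins c : Finset (Ty N d)) : Set (Ty N d)) := by
    intro c hc c' hc' h
    have hc1 := (Finset.mem_filter.1 (Finset.mem_coe.1 hc)).2
    have hc2 := (Finset.mem_filter.1 (Finset.mem_coe.1 hc')).2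
    unfold lins at hc1 hc2
    obtain ⟨s, -, hs⟩ := Finset.mem_image.1 hc1
    obtain ⟨s', -, hs'⟩ := Finset.mem_image.1 hc2
    unfold lin at hs hs'
    have e1 : s = s' := by
      have := congrArg Prod.fst (hs.trans hs'.symm)
      simpa using this
    subst e1
    have e2 : Combi.ln c s = Combi.ln c' s := by
      have := congrArg Prod.snd (hs.trans hs'.symm)
      simpa using this
    exact Combi.eq_of_share_of_dir e2 h
  rw [← Finset.card_image_of_injOn hinj]
  refine (Finset.card_le_univ _).trans ?_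
  simp

/-- The mass of the pairs which contain a given line. -/
lemma ldf_mass {ρ : Ty N d × Ty N d → ℝ} (hρ : TCoup 8 ρ) (hd : 0 < d) (u : Lin N) :
    ∑ β, (if u ∈ lins2 β then ρ β else 0) ≤ 16 / (N : ℝ) := by
  have hN : (0 : ℝ) < N := by exact_mod_cast Nat.pos_of_ne_zero (NeZero.ne N)
  have hd' : (0 : ℝ) < d := by exact_mod_cast hd
  have hcard : (Fintype.card (Ty N d) : ℝ) = N * d := by
    have : Fintype.card (Ty N d) = N * d := by
      show Fintype.card (ZMod N × Fin d) = N * d
      rw [Fintype.card_prod, ZMod.card, Fintype.card_fin]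
    rw [this]; push_cast; rfl
  have h1 : ∀ β : Ty N d × Ty N d, (if u ∈ lins2 β then ρ β else 0)
      ≤ (if u ∈ lins β.1 then ρ β else 0) + (if u ∈ lins β.2 then ρ β else 0) := by
    intro β
    have h0 := hρ.nonneg β
    unfold lins2
    by_cases ha : u ∈ lins β.1 <;> by_cases hb : u ∈ lins β.2 <;> simp [ha, hb, h0]
  refine (Finset.sum_le_sum fun β _ => h1 β).trans ?_
  rw [Finset.sum_add_distrib]
  have hcnt : (((univ : Finset (Ty N d)).filter fun c => u ∈ lins c).card : ℝ) ≤ d := by
    exact_mod_cast ldf_card_types u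
  have hone : ∀ m : Ty N d → ℝ, (∀ c, m c * (N * d) ≤ 8) →
      ∑ c, (if u ∈ lins c then m c else 0) ≤ 8 / (N : ℝ) := by
    intro m hm
    rw [← Finset.sum_filter]
    have h2 : ∀ c ∈ (univ : Finset (Ty N d)).filter (fun c => u ∈ lins c),
        m c ≤ 8 / ((N : ℝ) * d) := by
      intro c _
      rw [le_div_iff₀ (by positivity)]
      exact hm c
    refine (Finset.sum_le_card_nsmul _ _ _ h2).trans ?_
    rw [nsmul_eq_mul]
    calc (((univ : Finset (Ty N d)).filter fun c => u ∈ lins c).card : ℝ) * (8 / ((N : ℝ) * d))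
        ≤ d * (8 / ((N : ℝ) * d)) := mul_le_mul_of_nonneg_right hcnt (by positivity)
      _ = 8 / (N : ℝ) := by field_simp
  have e1 : ∑ β : Ty N d × Ty N d, (if u ∈ lins β.1 then ρ β else 0) ≤ 8 / (N : ℝ) := by
    rw [Fintype.sum_prod_type]
    refine (le_of_eq ?_).trans (hone (fun c => ∑ c', ρ (c, c')) fun c => by
      have := hρ.left c; rwa [hcard] at this)
    refine Finset.sum_congr rfl fun c _ => ?_
    by_cases h : u ∈ lins c <;> simp [h]
  have e2 : ∑ β : Ty N d × Ty N d, (if u ∈ lins β.2 then ρ β else 0) ≤ 8 / (N : ℝ) := by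
    rw [Fintype.sum_prod_type_right]
    refine (le_of_eq ?_).trans (hone (fun c' => ∑ c, ρ (c, c')) fun c' => by
      have := hρ.right c'; rwa [hcard] at this)
    refine Finset.sum_congr rfl fun c _ => ?_
    by_cases h : u ∈ lins c <;> simp [h]
  calc _ ≤ 8 / (N : ℝ) + 8 / (N : ℝ) := add_le_add e1 e2
    _ = 16 / (N : ℝ) := by ring

/-- **LDFAM** -/
theorem ldFam : LDFam := by
  intro N d _ hd _ ρ hρ A ε hε
  have hN : (0 : ℝ) < N := by exact_mod_cast Nat.pos_of_ne_zero (NeZero.ne N)
  set B : Finset (Ty N d × Ty N d) := A.filter fun β => β.1 ≠ β.2 with hB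
  set Fam : Finset (Finset (Ty N d × Ty N d)) := B.powerset.filter LD with hFam
  have hne : Fam.Nonempty := ⟨∅, by
    rw [hFam, Finset.mem_filter]
    exact ⟨Finset.empty_mem_powerset _, fun β hβ => absurd hβ (Finset.notMem_empty _)⟩⟩
  obtain ⟨S, hS, hmax⟩ := Finset.exists_max_image Fam Finset.card hne
  obtain ⟨hSB, hSd⟩ := Finset.mem_filter.1 hS
  rw [Finset.mem_powerset] at hSB
  refine ⟨S, hSB.trans (Finset.filter_subset _ _), hSd, fun β hβ =>
    (Finset.mem_filter.1 (hSB hβ)).2, ?_⟩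
  set Ls : Finset (Lin N) := S.biUnion lins2 with hLs
  have hLc : (Ls.card : ℝ) ≤ 6 * S.card := by
    have h1 : Ls.card ≤ S.card * 6 :=
      Finset.card_biUnion_le_card_mul _ _ _ fun β _ => ldf_card_lins2 β
    have h2 : (Ls.card : ℝ) ≤ ((S.card * 6 : ℕ) : ℝ) := by exact_mod_cast h1
    push_cast at h2
    linarith
  have hhit : ∀ β ∈ B, ∃ u ∈ Ls, u ∈ lins2 β := by
    intro β hb
    by_contra hcon
    push Not at hcon
    have hdis : Disjoint (lins2 β) Ls := by
      rw [Finset.disjoint_left]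
      intro u hu hu'
      exact hcon u hu' hu
    have hbS : β ∉ S := by
      intro hbS
      have hu : lin β.1 0 ∈ lins2 β :=
        Finset.mem_union_left _ (Finset.mem_image_of_mem _ (mem_univ _))
      exact hcon _ (Finset.mem_biUnion.2 ⟨β, hbS, hu⟩) hu
    have hone : ∀ β' ∈ S, Disjoint (lins2 β) (lins2 β') := fun β' hb' =>
      hdis.mono_right (Finset.subset_biUnion_of_mem lins2 hb')
    have hmem : insert β S ∈ Fam := by
      rw [hFam, Finset.mem_filter, Finset.mem_powerset]
      refine ⟨Finset.insert_subset hb hSB, ?_⟩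
      intro b1 h1 b2 h2 h12
      rcases Finset.mem_insert.1 h1 with rfl | h1' <;> rcases Finset.mem_insert.1 h2 with rfl | h2'
      · exact absurd rfl h12
      · exact hone b2 h2'
      · exact (hone b1 h1').symm
      · exact hSd b1 h1' b2 h2' h12
    have := hmax _ hmem
    rw [Finset.card_insert_of_notMem hbS] at this
    omega
  have hAB : ∑ β ∈ A, ρ β = ∑ β ∈ B, ρ β := by
    rw [hB, Finset.sum_filter]
    refine Finset.sum_congr rfl fun β _ => ?_
    split_ifs with h
    · rfl
    · have hβ : β = (β.1, β.1) := by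
        push Not at h
        exact Prod.ext rfl h.symm
      rw [hβ]; exact hρ.ne _
  have h1 : ∀ β ∈ B, ρ β ≤ ∑ u ∈ Ls, (if u ∈ lins2 β then ρ β else 0) := by
    intro β hb
    have hnn : ∀ u ∈ Ls, 0 ≤ (if u ∈ lins2 β then ρ β else 0) := fun u _ => by
      split_ifs; exacts [hρ.nonneg β, le_rfl]
    obtain ⟨u, hu, hub⟩ := hhit β hb
    have := Finset.single_le_sum hnn hu
    rwa [if_pos hub] at this
  have h2 : ∑ β ∈ A, ρ β ≤ 96 / (N : ℝ) * S.card := by
    rw [hAB]
    calc ∑ β ∈ B, ρ β ≤ ∑ β ∈ B, ∑ u ∈ Ls, (if u ∈ lins2 β then ρ β else 0) :=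
          Finset.sum_le_sum h1
      _ ≤ ∑ β, ∑ u ∈ Ls, (if u ∈ lins2 β then ρ β else 0) := by
          refine Finset.sum_le_sum_of_subset_of_nonneg (Finset.subset_univ _) fun β _ _ => ?_
          refine Finset.sum_nonneg fun u _ => ?_
          split_ifs; exacts [hρ.nonneg β, le_rfl]
      _ = ∑ u ∈ Ls, ∑ β, (if u ∈ lins2 β then ρ β else 0) := Finset.sum_comm
      _ ≤ ∑ _u ∈ Ls, 16 / (N : ℝ) := Finset.sum_le_sum fun u _ => ldf_mass hρ hd u
      _ = Ls.card * (16 / (N : ℝ)) := by rw [Finset.sum_const, nsmul_eq_mul]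
      _ ≤ 6 * S.card * (16 / (N : ℝ)) := mul_le_mul_of_nonneg_right hLc (by positivity)
      _ = 96 / (N : ℝ) * S.card := by ring
  have h3 : ε ≤ 96 / (N : ℝ) * S.card := (hε.le).trans h2
  have h4 : ε * N ≤ 96 * S.card := by
    have h5 : 96 / (N : ℝ) * S.card * N = 96 * S.card := by field_simp
    calc ε * N ≤ 96 / (N : ℝ) * S.card * N := mul_le_mul_of_nonneg_right h3 hN.le
      _ = 96 * S.card := h5
  have h6 : (0 : ℝ) ≤ S.card := Nat.cast_nonneg _
  have h7 : ε * N / 1000 ≤ 96 * S.card / 1000 := by linarith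
  linarith

end Vale.Agent.P060.HW
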