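import Vale.Agent.P060.HW.CountD

/-! The rank step: tests whose tensors span a small space modulo `N` and whose first parts
differ from a fixed one by vectors which are visible row by row. -/

namespace Vale.Agent.P060.HW

open Module Submodule

section Rank

variable {F ι : Type*} [Field F] [Fintype ι] {d : ℕ}

omit [Fintype ι] in
theorem smm_add_left (h h' g : Fin d → ι → F) :
    smm (fun i => h i + h' i) g = smm h g + smm h' g := by
  rw [smm, smm, smm, ← Finset.sum_add_distrib]
  refine Finset.sum_congr rfl fun i _ => ?_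
  ext x y
  simp only [sm, Matrix.add_apply, Matrix.vecMulVec_apply, Pi.add_apply]
  ring

omit [Fintype ι] in
theorem smm_sum_right {D : Type*} [Fintype D] (hs : Fin d → ι → F) (lam : D → F)
    (g : D → Fin d → ι → F) :
    ∑ b, lam b • smm hs (g b) = smm hs fun i => ∑ b, lam b • g b i := by
  ext x y
  simp only [smm, sm, Matrix.sum_apply, Matrix.smul_apply, Matrix.add_apply,
    Matrix.vecMulVec_apply, Finset.sum_apply, Pi.smul_apply, smul_eq_mul, Finset.mul_sum,
    Finset.sum_mul, ← Finset.sum_add_distrib]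
  rw [Finset.sum_comm]
  refine Finset.sum_congr rfl fun i _ => Finset.sum_congr rfl fun b _ => ?_
  ring

/-- The rank step. -/
theorem rank_step {D : Type*} [Fintype D] (Lam N : Submodule F (Matrix ι ι F))
    (h g : D → Fin d → ι → F) (hs : Fin d → ι → F)
    (hmem : ∀ b, smm (h b) (g b) ∈ Lam ⊔ N)
    (hrow : ∀ lam : D → F, (∑ b, lam b • smm (fun i => h b i - hs i) (g b)) ∈ N → lam = 0) :
    Fintype.card D ≤ finrank F Lam + d * Fintype.card ι := by
  classical
  by_contra hcon
  rw [not_le] at hcon
  have hm : ∀ lam : D → F, N.mkQ (∑ b, lam b • smm (h b) (g b)) ∈ Lam.map N.mkQ := by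
    intro lam
    have h1 : ∑ b, lam b • smm (h b) (g b) ∈ Lam ⊔ N :=
      sum_mem fun b _ => smul_mem _ _ (hmem b)
    obtain ⟨x, hx, y, hy, hxy⟩ := mem_sup.mp h1
    refine ⟨x, hx, ?_⟩
    rw [← hxy, map_add, Submodule.mkQ_apply N y, (Submodule.Quotient.mk_eq_zero N).mpr hy,
      add_zero]
  -- the relations
  let f₁ : (D → F) →ₗ[F] ↥(Lam.map N.mkQ) :=
    LinearMap.codRestrict (Lam.map N.mkQ)
      (N.mkQ ∘ₗ Fintype.linearCombination F fun b => smm (h b) (g b)) fun lam => by
        simpa [Fintype.linearCombination_apply] using hm lam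
  let f : (D → F) →ₗ[F] ↥(Lam.map N.mkQ) × (Fin d → ι → F) :=
    LinearMap.prod f₁ (Fintype.linearCombination F fun b => g b)
  have hlt : finrank F (↥(Lam.map N.mkQ) × (Fin d → ι → F)) < finrank F (D → F) := by
    rw [Module.finrank_prod, Module.finrank_fintype_fun_eq_card, Module.finrank_pi_fintype]
    simp only [Module.finrank_fintype_fun_eq_card, Finset.sum_const, Finset.card_univ,
      Fintype.card_fin, smul_eq_mul]
    have := Submodule.finrank_map_le N.mkQ Lam
    omega
  obtain ⟨lam, hlam, hne⟩ := Submodule.exists_mem_ne_zero_of_ne_bot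
    (LinearMap.ker_ne_bot_of_finrank_lt hlt (f := f))
  apply hne
  apply hrow
  have h0 := LinearMap.mem_ker.mp hlam
  have h1 : f₁ lam = 0 := congrArg Prod.fst h0
  have h2 : ∑ b, lam b • g b = 0 := by
    have := congrArg Prod.snd h0
    simpa [f, Fintype.linearCombination_apply] using this
  have h3 : ∑ b, lam b • smm (h b) (g b) ∈ N := by
    have h4 : N.mkQ (∑ b, lam b • smm (h b) (g b)) = 0 := by
      have := congrArg Subtype.val h1
      simpa [f₁, Fintype.linearCombination_apply] using this
    rwa [Submodule.mkQ_apply, Submodule.Quotient.mk_eq_zero] at h4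
  have h5 : ∑ b, lam b • smm (fun i => h b i - hs i) (g b) =
      (∑ b, lam b • smm (h b) (g b)) - ∑ b, lam b • smm hs (g b) := by
    rw [← Finset.sum_sub_distrib]
    refine Finset.sum_congr rfl fun b _ => ?_
    rw [← smul_sub]
    congr 1
    rw [eq_sub_iff_add_eq, ← smm_add_left]
    congr 1
    funext i
    exact sub_add_cancel _ _
  rw [h5, smm_sum_right]
  have h6 : (fun i => ∑ b, lam b • g b i) = (0 : Fin d → ι → F) := by
    funext i
    have := congrFun h2 i
    simpa using this
  have h7 : smm hs (0 : Fin d → ι → F) = 0 := by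
    ext x y
    simp [smm, sm, Matrix.sum_apply]
  rw [h6, h7, sub_zero]
  exact h3

/-- A private vector: in a relation between sums of independent vectors the coefficient of a
sum with a vector of its own vanishes. -/
theorem coeff_private {L S V : Type*} [AddCommGroup V] [Module F V] [Fintype S] (p : L → V)
    (L' : Finset L) (hind : LinearIndependent F fun u : L' => p u) (ln : S → Finset L)
    (hln : ∀ s, ln s ⊆ L') (mu : S → F) (hrel : ∑ s, mu s • ∑ u ∈ ln s, p u = 0) (s₀ : S) (u₀ : L)
    (hu₀ : u₀ ∈ ln s₀) (hpriv : ∀ s, s ≠ s₀ → mu s = 0 ∨ u₀ ∉ ln s) : mu s₀ = 0 := by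
  classical
  have h1 : ∑ u : L', (∑ s, if (u : L) ∈ ln s then mu s else 0) • p u = 0 := by
    rw [← hrel]
    simp only [Finset.sum_smul]
    rw [Finset.sum_comm]
    refine Finset.sum_congr rfl fun s _ => ?_
    rw [Finset.smul_sum, Finset.sum_coe_sort L' fun u => (if u ∈ ln s then mu s else 0) • p u]
    rw [← Finset.sum_subset (hln s)]
    · refine Finset.sum_congr rfl fun u hu => ?_
      rw [if_pos hu]
    · intro u _ hu
      rw [if_neg hu, zero_smul]
  have h2 := Fintype.linearIndependent_iff.mp hind _ h1 ⟨u₀, hln s₀ hu₀⟩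
  rw [Finset.sum_eq_single s₀] at h2
  · simpa [hu₀] using h2
  · intro s _ hs
    rcases hpriv s hs with h | h
    · simp [h]
    · simp [h]
  · intro h
    exact absurd (Finset.mem_univ _) h

end Rank

end Vale.Agent.P060.HW
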