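import Vale.Agent.P060.HW.Frame
import Vale.Agent.P060.HW.Rank

/-! The rank step on a frame: rows of the trivial tensors and private lines. -/

open scoped Classical

noncomputable section

set_option linter.unusedSectionVars false

namespace Vale.Agent.P060.HW

open Module

/-- A private vector, when only the sums with nonzero coefficient are controlled. -/
theorem coeff_private' {K L S V : Type*} [Field K] [AddCommGroup V] [Module K V] [Fintype S]
    (p : L → V) (L' : Finset L) (hind : LinearIndependent K fun u : L' => p u)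
    (ln : S → Finset L) (mu : S → K) (hln : ∀ s, mu s ≠ 0 → ln s ⊆ L')
    (hrel : ∑ s, mu s • ∑ u ∈ ln s, p u = 0) (s₀ : S) (u₀ : L)
    (hu₀ : u₀ ∈ ln s₀) (hpriv : ∀ s, s ≠ s₀ → mu s ≠ 0 → u₀ ∉ ln s) : mu s₀ = 0 := by
  by_contra hne
  refine hne (coeff_private p L' hind (fun s => if mu s = 0 then ∅ else ln s) ?_ mu ?_ s₀ u₀ ?_ ?_)
  · intro s
    by_cases h : mu s = 0
    · simp [h]
    · rw [if_neg h]
      exact hln s h
  · rw [← hrel]
    refine Finset.sum_congr rfl fun s _ => ?_
    by_cases h : mu s = 0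
    · simp [h]
    · rw [if_neg h]
  · rw [if_neg hne]
    exact hu₀
  · intro s hs
    by_cases h : mu s = 0
    · exact Or.inl h
    · rw [if_neg h]
      exact Or.inr (hpriv s hs h)

variable {N d : ℕ} {E P Om : Type} [Fintype E] [Fintype P] [Fintype Om] [NeZero N]

/-- The trivial tensors without those of the own test vector. -/
def Nz (fr : Frame N d E Om) (p : Lin N → Co E P Om → F) (a : Ty N d) :
    Submodule F (Matrix (Co E P Om) (Co E P Om) F) :=
  Submodule.span F
    ({Q | ∃ c, ∃ w ∈ fr.U c, Q = sm (Pi.single (Sum.inr w) 1) (gv p c)} ∪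
     {Q | ∃ w ∈ fr.U a, ∃ v, Q = sm (Pi.single (Sum.inr w) 1) v})

lemma sm_apply {K : Type*} (h g : K → F) (x y : K) : sm h g x y = h x * g y + g x * h y := by
  simp [sm, Matrix.vecMulVec_apply]

/-- The row of a trivial tensor. -/
theorem row_block (fr : Frame N d E Om) (p : Lin N → Co E P Om → F) (a : Ty N d)
    {Q : Matrix (Co E P Om) (Co E P Om) F} (hQ : Q ∈ Nz fr p a) {w : Om} (hw : w ∉ fr.U a) :
    ∃ mu : Ty N d → F, (∀ c, mu c ≠ 0 → w ∈ fr.U c) ∧
      ∀ j : E ⊕ P, Q (Sum.inr w) (Sum.inl j) = ∑ c, mu c * gv p c (Sum.inl j) := by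
  unfold Nz at hQ
  induction hQ using Submodule.span_induction with
  | mem Q hQ =>
    rcases hQ with ⟨c, w', hw', rfl⟩ | ⟨w', hw', v, rfl⟩
    · by_cases h : w = w'
      · subst h
        refine ⟨Pi.single c 1, ?_, fun j => ?_⟩
        · intro c' hc'
          by_cases hcc : c' = c
          · rw [hcc]
            exact hw'
          · exact absurd (Pi.single_eq_of_ne hcc _) hc'
        · rw [sm_apply, Finset.sum_eq_single c]
          · simp
          · intro c' _ hcc
            rw [Pi.single_eq_of_ne hcc, zero_mul]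
          · intro h
            exact absurd (Finset.mem_univ _) h
      · refine ⟨0, fun c hc => absurd rfl hc, fun j => ?_⟩
        rw [sm_apply]
        simp [h]
    · have h : w ≠ w' := fun h => hw (h ▸ hw')
      refine ⟨0, fun c hc => absurd rfl hc, fun j => ?_⟩
      rw [sm_apply]
      simp [h]
  | zero => exact ⟨0, fun c hc => absurd rfl hc, fun j => by simp⟩
  | add Q Q' _ _ ih ih' =>
    obtain ⟨mu, hmu, h⟩ := ih
    obtain ⟨mu', hmu', h'⟩ := ih'
    refine ⟨mu + mu', fun c hc => ?_, fun j => ?_⟩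
    · by_cases h1 : mu c = 0
      · refine hmu' c fun h2 => hc ?_
        rw [Pi.add_apply, h1, h2, add_zero]
      · exact hmu c h1
    · rw [Matrix.add_apply, h, h', ← Finset.sum_add_distrib]
      exact Finset.sum_congr rfl fun c _ => by rw [Pi.add_apply, add_mul]
  | smul r Q _ ih =>
    obtain ⟨mu, hmu, h⟩ := ih
    refine ⟨r • mu, fun c hc => ?_, fun j => ?_⟩
    · refine hmu c fun h2 => hc ?_
      rw [Pi.smul_apply, h2, smul_zero]
    · rw [Matrix.smul_apply, h, smul_eq_mul, Finset.mul_sum]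
      exact Finset.sum_congr rfl fun c _ => by rw [Pi.smul_apply, smul_eq_mul, mul_assoc]

lemma rr_mem_lins {c : Ty N d} {u : Lin N} : u ∈ lins c ↔ ln c u.1 = u.2 := by
  unfold lins lin
  rw [Finset.mem_image]
  constructor
  · rintro ⟨s, -, rfl⟩
    rfl
  · intro h
    exact ⟨u.1, Finset.mem_univ _, by rw [h]⟩

lemma rr_card_lins_le (c : Ty N d) : (lins c).card ≤ 3 := by
  unfold lins
  exact Finset.card_image_le.trans (by simp)

lemma lin_injective (c : Ty N d) : Function.Injective (lin c) := fun s s' h =>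
  congrArg Prod.fst h

lemma rr_gv_eq_sum (p : Lin N → Co E P Om → F) (c : Ty N d) : gv p c = ∑ u ∈ lins c, p u := by
  unfold gv lins
  rw [Finset.sum_image fun s _ s' _ h => lin_injective c h]

/-- A type without the zero row `w` has, besides another type, a line of its own. -/
theorem exists_private (fr : Frame N d E Om) {t t' : Ty N d} (htt : t ≠ t') {w : Om}
    (hw : w ∉ fr.U t) : ∃ s : Fin 3, lin t s ∉ lins t' ∧ ∀ c, w ∈ fr.U c → lin t s ∉ lins c := by
  by_contra hcon
  push Not at hcon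
  -- at most one line is shared with `t'`
  have h1 : ∀ s s' : Fin 3, lin t s ∈ lins t' → lin t s' ∈ lins t' → s = s' := by
    intro s s' hs hs'
    by_contra hne
    exact htt (fr.share_two t t' s s' hne (rr_mem_lins.mp hs).symm (rr_mem_lins.mp hs').symm)
  -- at most one line is covered
  have h2 : ∀ s s' : Fin 3, (∃ c, w ∈ fr.U c ∧ lin t s ∈ lins c) →
      (∃ c, w ∈ fr.U c ∧ lin t s' ∈ lins c) → s = s' := by
    rintro s s' ⟨c, hc, hs⟩ ⟨c', hc', hs'⟩
    by_contra hne
    exact fr.private_lines t c c' w s s' hw hc hc' hne (rr_mem_lins.mp hs).symm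
      (rr_mem_lins.mp hs').symm
  have h3 : ∀ s : Fin 3, lin t s ∈ lins t' ∨ ∃ c, w ∈ fr.U c ∧ lin t s ∈ lins c := by
    intro s
    by_cases h : lin t s ∈ lins t'
    · exact Or.inl h
    · exact Or.inr (hcon s h)
  rcases h3 0 with h | h <;> rcases h3 1 with h' | h' <;> rcases h3 2 with h'' | h''
  · exact absurd (h1 0 1 h h') (by decide)
  · exact absurd (h1 0 1 h h') (by decide)
  · exact absurd (h1 0 2 h h'') (by decide)
  · exact absurd (h2 1 2 h' h'') (by decide)
  · exact absurd (h1 1 2 h' h'') (by decide)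
  · exact absurd (h2 0 2 h h'') (by decide)
  · exact absurd (h2 0 1 h h') (by decide)
  · exact absurd (h2 0 1 h h') (by decide)

/-- The two test vectors of a pair of types. -/
def gg (p : Lin N → Co E P Om → F) (β : Ty N d × Ty N d) : Fin 2 → Co E P Om → F :=
  ![gv p β.1, gv p β.2]

/-- The types of a pair. -/
def tt (β : Ty N d × Ty N d) : Fin 2 → Ty N d := ![β.1, β.2]

lemma gg_apply (p : Lin N → Co E P Om → F) (β : Ty N d × Ty N d) (i : Fin 2) :
    gg p β i = gv p (tt β i) := by
  fin_cases i <;> rfl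

/-- Independence of all small sets of lines on the coordinates in `P`. -/
def Gen (p : Lin N → Co E P Om → F) (m : ℕ) : Prop := ∀ S : Finset (Lin N), S.card ≤ m →
  LinearIndependent F (fun u : S => fun j : P => p u (Sum.inl (Sum.inr j)))

/-- The row hypothesis of the rank step. -/
theorem row_vanish (fr : Frame N d E Om) (p : Lin N → Co E P Om → F) (a : Ty N d) {m : ℕ}
    (hgen : Gen p m) {D : Type} [Fintype D] (β : D → Ty N d × Ty N d)
    (hβ : ∀ b, (β b).1 ≠ (β b).2)
    (hdis : ∀ b b', b ≠ b' → Disjoint (lins2 (β b)) (lins2 (β b')))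
    (dl : D → Fin 2 → Co E P Om → F) (hsupp : ∀ b i j, dl b i (Sum.inl j) = 0)
    (hcnt : ∀ w, w ∉ fr.U a → 6 * (Finset.univ.filter fun b => ∃ i, dl b i (Sum.inr w) ≠ 0).card +
      3 * (Finset.univ.filter fun c : Ty N d => w ∈ fr.U c).card ≤ m)
    (hvis : ∀ b, ∃ w, w ∉ fr.U a ∧ ∃ i, dl b i (Sum.inr w) ≠ 0 ∧ w ∉ fr.U (tt (β b) i))
    (lam : D → F) (hrel : ∑ b, lam b • smm (dl b) (gg p (β b)) ∈ Nz fr p a) : lam = 0 := by
  funext b₀
  obtain ⟨w, hwa, i₀, hne, hwt⟩ := hvis b₀
  obtain ⟨mu, hmu, hrow⟩ := row_block fr p a hrel hwa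
  -- the relation between the test vectors on the coordinates in `P`
  let q : Lin N → P → F := fun u j => p u (Sum.inl (Sum.inr j))
  let ls : (D × Fin 2) ⊕ Ty N d → Finset (Lin N) :=
    Sum.elim (fun x => lins (tt (β x.1) x.2)) lins
  let co : (D × Fin 2) ⊕ Ty N d → F :=
    Sum.elim (fun x => lam x.1 * dl x.1 x.2 (Sum.inr w)) fun c => - mu c
  have hq : ∀ c : Ty N d, ∀ j, (∑ u ∈ lins c, q u) j = gv p c (Sum.inl (Sum.inr j)) := by
    intro c j
    rw [rr_gv_eq_sum, Finset.sum_apply, Finset.sum_apply]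
  have hR : ∑ s, co s • ∑ u ∈ ls s, q u = 0 := by
    funext j
    have h1 := hrow (Sum.inr j)
    rw [Matrix.sum_apply] at h1
    have h2 : ∀ b, (lam b • smm (dl b) (gg p (β b))) (Sum.inr w) (Sum.inl (Sum.inr j)) =
        ∑ i, (lam b * dl b i (Sum.inr w)) * gv p (tt (β b) i) (Sum.inl (Sum.inr j)) := by
      intro b
      rw [Matrix.smul_apply, smm, Matrix.sum_apply, smul_eq_mul, Finset.mul_sum]
      refine Finset.sum_congr rfl fun i _ => ?_
      rw [sm_apply, hsupp, mul_zero, add_zero, gg_apply, mul_assoc]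
    rw [Finset.sum_congr rfl fun b _ => h2 b] at h1
    rw [Fintype.sum_sum_type, Pi.add_apply, Finset.sum_apply, Finset.sum_apply, Pi.zero_apply,
      Fintype.sum_prod_type]
    have h3 : ∀ c : Ty N d, (co (Sum.inr c) • ∑ u ∈ ls (Sum.inr c), q u) j =
        - (mu c * gv p c (Sum.inl (Sum.inr j))) := by
      intro c
      rw [Pi.smul_apply, smul_eq_mul]
      change (- mu c) * (∑ u ∈ lins c, q u) j = _
      rw [hq, neg_mul]
    have h4 : ∀ b i, (co (Sum.inl (b, i)) • ∑ u ∈ ls (Sum.inl (b, i)), q u) j =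
        (lam b * dl b i (Sum.inr w)) * gv p (tt (β b) i) (Sum.inl (Sum.inr j)) := by
      intro b i
      rw [Pi.smul_apply, smul_eq_mul]
      change (lam b * dl b i (Sum.inr w)) * (∑ u ∈ lins (tt (β b) i), q u) j = _
      rw [hq]
    rw [Finset.sum_congr rfl fun b _ => Finset.sum_congr rfl fun i _ => h4 b i, h1,
      Finset.sum_congr rfl fun c _ => h3 c, Finset.sum_neg_distrib, add_neg_cancel]
  -- the private line
  have htt : tt (β b₀) i₀ ≠ tt (β b₀) (1 - i₀) := by
    have := hβ b₀
    fin_cases i₀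
    · exact this
    · exact fun h => this h.symm
  obtain ⟨s, hs1, hs2⟩ := exists_private fr htt hwt
  let L' : Finset (Lin N) :=
    ((Finset.univ.filter fun b => ∃ i, dl b i (Sum.inr w) ≠ 0).biUnion fun b => lins2 (β b)) ∪
      ((Finset.univ.filter fun c : Ty N d => w ∈ fr.U c).biUnion lins)
  have hL' : L'.card ≤ m := by
    refine le_trans (Finset.card_union_le _ _) (le_trans ?_ (hcnt w hwa))
    refine Nat.add_le_add ?_ ?_
    · refine Finset.card_biUnion_le.trans ((Finset.sum_le_card_nsmul _ _ 6 fun b _ => ?_).trans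
        (le_of_eq ?_))
      · refine (Finset.card_union_le _ _).trans ?_
        have := rr_card_lins_le (β b).1
        have := rr_card_lins_le (β b).2
        omega
      · rw [smul_eq_mul, mul_comm]
    · refine Finset.card_biUnion_le.trans ((Finset.sum_le_card_nsmul _ _ 3 fun c _ =>
        rr_card_lins_le c).trans (le_of_eq ?_))
      rw [smul_eq_mul, mul_comm]
  have hsub : ∀ b i, lins (tt (β b) i) ⊆ lins2 (β b) := by
    intro b i
    fin_cases i
    · exact Finset.subset_union_left
    · exact Finset.subset_union_right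
  have hzero : co (Sum.inl (b₀, i₀)) = 0 := by
    refine coeff_private' q L' (hgen L' hL') ls co ?_ hR (Sum.inl (b₀, i₀)) (lin (tt (β b₀) i₀) s)
      (Finset.mem_image_of_mem _ (Finset.mem_univ _)) ?_
    · rintro (⟨b, i⟩ | c) hco
      · have h1 : dl b i (Sum.inr w) ≠ 0 := right_ne_zero_of_mul hco
        refine Finset.Subset.trans (hsub b i) (Finset.Subset.trans ?_ Finset.subset_union_left)
        exact Finset.subset_biUnion_of_mem (fun b => lins2 (β b))
          (Finset.mem_filter.mpr ⟨Finset.mem_univ _, i, h1⟩)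
      · have h1 : mu c ≠ 0 := fun h => hco (by change - mu c = 0; rw [h, neg_zero])
        refine Finset.Subset.trans ?_ Finset.subset_union_right
        exact Finset.subset_biUnion_of_mem lins
          (Finset.mem_filter.mpr ⟨Finset.mem_univ _, hmu c h1⟩)
    · rintro (⟨b, i⟩ | c) hs hco
      · change lin (tt (β b₀) i₀) s ∉ lins (tt (β b) i)
        by_cases hb : b = b₀
        · subst hb
          have hi : i = 1 - i₀ := by
            have : i ≠ i₀ := fun h => hs (by rw [h])
            fin_cases i <;> fin_cases i₀ <;> simp_all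
          rw [hi]
          exact hs1
        · intro hmem
          have h1 := hdis b b₀ hb
          refine Finset.disjoint_left.mp h1 (hsub b i hmem) (hsub b₀ i₀ ?_)
          exact Finset.mem_image_of_mem _ (Finset.mem_univ _)
      · have h1 : mu c ≠ 0 := fun h => hco (by change - mu c = 0; rw [h, neg_zero])
        exact hs2 c (hmu c h1)
  exact (mul_eq_zero.mp hzero).resolve_right hne

/-- The rank step on a frame. -/
theorem rank_rows (fr : Frame N d E Om) (p : Lin N → Co E P Om → F) (a : Ty N d) {m : ℕ}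
    (hgen : Gen p m) {D : Type} [Fintype D] (β : D → Ty N d × Ty N d)
    (hβ : ∀ b, (β b).1 ≠ (β b).2)
    (hdis : ∀ b b', b ≠ b' → Disjoint (lins2 (β b)) (lins2 (β b')))
    (Lam : Submodule F (Matrix (Co E P Om) (Co E P Om) F))
    (h : D → Fin 2 → Co E P Om → F) (hs : Fin 2 → Co E P Om → F)
    (hmem : ∀ b, smm (h b) (gg p (β b)) ∈ Lam ⊔ Nz fr p a)
    (hsupp : ∀ b i j, h b i (Sum.inl j) = hs i (Sum.inl j))
    (hcnt : ∀ w, w ∉ fr.U a →
      6 * (Finset.univ.filter fun b => ∃ i, h b i (Sum.inr w) ≠ hs i (Sum.inr w)).card +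
      3 * (Finset.univ.filter fun c : Ty N d => w ∈ fr.U c).card ≤ m)
    (hvis : ∀ b, ∃ w, w ∉ fr.U a ∧ ∃ i, h b i (Sum.inr w) ≠ hs i (Sum.inr w) ∧
      w ∉ fr.U (tt (β b) i)) :
    Fintype.card D ≤ finrank F Lam + 2 * Fintype.card (Co E P Om) := by
  refine rank_step Lam (Nz fr p a) h (fun b => gg p (β b)) hs hmem fun lam hlam => ?_
  refine row_vanish fr p a hgen β hβ hdis (fun b i => h b i - hs i) ?_ ?_ ?_ lam hlam
  · intro b i j
    rw [Pi.sub_apply, hsupp, sub_self]
  · intro w hw
    simpa only [Pi.sub_apply, sub_ne_zero] using hcnt w hw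
  · intro b
    obtain ⟨w, hw, i, hi, hwt⟩ := hvis b
    exact ⟨w, hw, i, by rw [Pi.sub_apply]; exact sub_ne_zero.mpr hi, hwt⟩

end Vale.Agent.P060.HW
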