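import Vale.Agent.P060.HW.Good
import Vale.Agent.P060.HW.CountQ
import Vale.Agent.P060.HW.RankRow

/-! Restriction of tensors to the coordinates in `P ∪ Z` and normalised first parts. -/

open scoped Classical

noncomputable section

set_option linter.unusedSectionVars false

namespace Vale.Agent.P060.HW

open Module

variable {N d : ℕ} {E P Om : Type} [Fintype E] [Fintype P] [Fintype Om] [NeZero N]

/-- The coordinates which are kept. -/
def kp (Z : Finset Om) (j : Co E P Om) : Prop :=
  match j with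
  | Sum.inl (Sum.inl _) => False
  | Sum.inl (Sum.inr _) => True
  | Sum.inr w => w ∈ Z

lemma rz_apply (Z : Finset Om) (v : Co E P Om → F) (j : Co E P Om) :
    rz Z v j = if kp Z j then v j else 0 := by
  rcases j with (j | j) | w
  · have h : ¬ kp Z (Sum.inl (Sum.inl j) : Co E P Om) := fun h => h
    rw [if_neg h]
    rfl
  · have h : kp Z (Sum.inl (Sum.inr j) : Co E P Om) := trivial
    rw [if_pos h]
    rfl
  · have h1 : rz Z v (Sum.inr w) = if w ∈ Z then v (Sum.inr w) else 0 := rfl
    by_cases h : w ∈ Z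
    · have h' : kp Z (Sum.inr w : Co E P Om) := h
      rw [h1, if_pos h, if_pos h']
    · have h' : ¬ kp Z (Sum.inr w : Co E P Om) := h
      rw [h1, if_neg h, if_neg h']

/-- Restriction of matrices. -/
def rzm (Z : Finset Om) : Matrix (Co E P Om) (Co E P Om) F →ₗ[F]
    Matrix (Co E P Om) (Co E P Om) F where
  toFun Q := Matrix.of fun i j => if kp Z i ∧ kp Z j then Q i j else 0
  map_add' Q Q' := by
    ext i j
    simp only [Matrix.add_apply, Matrix.of_apply]
    split_ifs <;> simp
  map_smul' c Q := by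
    ext i j
    simp only [Matrix.smul_apply, RingHom.id_apply, Matrix.of_apply]
    split_ifs <;> simp

lemma rzm_apply (Z : Finset Om) (Q : Matrix (Co E P Om) (Co E P Om) F) (i j : Co E P Om) :
    rzm Z Q i j = if kp Z i ∧ kp Z j then Q i j else 0 := rfl

lemma rzm_sm (Z : Finset Om) (u v : Co E P Om → F) :
    rzm Z (sm u v) = sm (rz Z u) (rz Z v) := by
  ext i j
  rw [rzm_apply, sm_apply, sm_apply, rz_apply, rz_apply, rz_apply, rz_apply]
  by_cases hi : kp Z i <;> by_cases hj : kp Z j <;> simp [hi, hj]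

lemma rzm_smm (Z : Finset Om) {D : ℕ} (h g : Fin D → Co E P Om → F) :
    rzm Z (smm h g) = smm (fun i => rz Z (h i)) (fun i => rz Z (g i)) := by
  rw [smm, smm, map_sum]
  exact Finset.sum_congr rfl fun i _ => rzm_sm Z _ _

lemma sm_zero_left {K : Type*} (v : K → F) : sm (0 : K → F) v = 0 := by
  ext i j
  simp [sm, Matrix.vecMulVec_apply]

lemma single_eq {K : Type*} (i₁ i₂ : DecidableEq K) (w : K) (c : F) :
    @Pi.single K (fun _ => F) _ i₁ w c = @Pi.single K (fun _ => F) _ i₂ w c := by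
  rw [Subsingleton.elim i₁ i₂]

lemma rz_single (Z : Finset Om) (inst : DecidableEq (Co E P Om)) (w : Om) :
    rz Z (@Pi.single (Co E P Om) (fun _ => F) _ inst (Sum.inr w) 1) =
      if w ∈ Z then (Pi.single (Sum.inr w) 1 : Co E P Om → F) else 0 := by
  rw [single_eq inst (instDecidableEqSum) (Sum.inr w) 1]
  funext j
  rw [rz_apply]
  rcases j with (j | j) | w'
  · split_ifs <;> simp
  · split_ifs <;> simp
  · by_cases h : w' = w
    · subst h
      by_cases hZ : w' ∈ Z
      · simp [kp, hZ]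
      · simp [kp, hZ]
    · split_ifs <;> simp [h]

/-- The restriction of a trivial tensor, when no row of `Z` is a zero row of `a`. -/
lemma rzm_Nn (fr : Frame N d E Om) (p : Lin N → Co E P Om → F) (hp : Ext fr p) (a : Ty N d)
    (Z : Finset Om) (hZ : ∀ w ∈ Z, w ∉ fr.U a) (J : Finset (Ty N d × Ty N d))
    (H : Ty N d × Ty N d → Fin 2 → Co E P Om → F) {Q : Matrix (Co E P Om) (Co E P Om) F}
    (hQ : Q ∈ (dsg fr p hp).Nn a) : rzm Z Q ∈ LamZ fr p Z a J H := by
  have hle : (dsg fr p hp).Nn a ≤ (LamZ fr p Z a J H).comap (rzm (E := E) (P := P) Z) := by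
    unfold Design.Nn
    rw [Submodule.span_le]
    rintro Q ((⟨c, w, hw, rfl⟩ | ⟨w, hw, v, rfl⟩) | ⟨v, rfl⟩)
    · obtain ⟨w', hw', rfl⟩ := Finset.mem_image.mp hw
      rw [SetLike.mem_coe, Submodule.mem_comap, rzm_sm, rz_single]
      split_ifs with h
      · exact Submodule.subset_span (Or.inl (Or.inr ⟨c, w', h, hw',
          congrArg (fun x => sm x _) (single_eq _ _ _ _)⟩))
      · rw [sm_zero_left]
        exact Submodule.zero_mem _
    · obtain ⟨w', hw', rfl⟩ := Finset.mem_image.mp hw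
      rw [SetLike.mem_coe, Submodule.mem_comap, rzm_sm, rz_single,
        if_neg fun h => hZ w' h hw', sm_zero_left]
      exact Submodule.zero_mem _
    · rw [SetLike.mem_coe, Submodule.mem_comap, rzm_sm]
      exact Submodule.subset_span (Or.inr ⟨v, rfl⟩)
  exact hle hQ

/-- The span of the tensors of a basis. -/
def SpJ (p : Lin N → Co E P Om → F) (J : Finset (Ty N d × Ty N d))
    (H : Ty N d × Ty N d → Fin 2 → Co E P Om → F) :
    Submodule F (Matrix (Co E P Om) (Co E P Om) F) :=
  Submodule.span F {Q | ∃ β ∈ J, Q = smm (H β) (g2 p β)}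

lemma rzm_mem_LamZ (fr : Frame N d E Om) (p : Lin N → Co E P Om → F) (hp : Ext fr p) (a : Ty N d)
    (Z : Finset Om) (hZ : ∀ w ∈ Z, w ∉ fr.U a) (J : Finset (Ty N d × Ty N d))
    (H : Ty N d × Ty N d → Fin 2 → Co E P Om → F) {Q : Matrix (Co E P Om) (Co E P Om) F}
    (hQ : Q ∈ SpJ p J H ⊔ (dsg fr p hp).Nn a) : rzm Z Q ∈ LamZ fr p Z a J H := by
  have hle : SpJ p J H ⊔ (dsg fr p hp).Nn a ≤
      (LamZ fr p Z a J H).comap (rzm (E := E) (P := P) Z) := by
    refine sup_le ?_ fun Q hQ => rzm_Nn fr p hp a Z hZ J H hQ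
    unfold SpJ
    rw [Submodule.span_le]
    rintro Q ⟨β, hβ, rfl⟩
    rw [SetLike.mem_coe, Submodule.mem_comap, rzm_smm]
    exact Submodule.subset_span (Or.inl (Or.inl ⟨β, hβ, rfl⟩))
  exact hle hQ

/-! ### The kernel of the tensor map -/

lemma two_ne : (2 : F) ≠ 0 := by
  intro h
  have h1 : ((2 : ℕ) : F) = 0 := by exact_mod_cast h
  rw [ZMod.natCast_eq_zero_iff] at h1
  exact absurd (Nat.le_of_dvd (by norm_num) h1) (by norm_num)

lemma qf_mulVec {K : Type*} [Fintype K] {D : ℕ} (B : Matrix (Fin D) (Fin D) F)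
    (g : Fin D → K → F) (v : K → F) :
    (qf B g).mulVec v = ∑ i, ∑ j, (B i j * (g j ⬝ᵥ v)) • g i := by
  rw [qf, Matrix.sum_mulVec]
  refine Finset.sum_congr rfl fun i _ => ?_
  rw [Matrix.sum_mulVec]
  refine Finset.sum_congr rfl fun j _ => ?_
  ext x
  rw [Matrix.smul_mulVec, Pi.smul_apply, Pi.smul_apply, smul_eq_mul, smul_eq_mul]
  simp only [Matrix.mulVec, dotProduct, Matrix.vecMulVec_apply, Finset.mul_sum, Finset.sum_mul]
  exact Finset.sum_congr rfl fun y _ => by ring

/-- Tensors of an independent pair vanish only for multiples of `(g 1, - g 0)`. -/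
theorem ker_two {K : Type*} [Fintype K] {W : Submodule F (K → F)} {g : Fin 2 → K → F}
    (hg : IndMod W g) {u : Fin 2 → K → F} (hu : smm u g = 0) :
    ∃ s : F, u 0 = s • g 1 ∧ u 1 = - s • g 0 := by
  have hg0 : IndMod (⊥ : Submodule F (K → F)) g := fun c hc =>
    hg c (by rw [(Submodule.mem_bot F).mp hc]; exact W.zero_mem)
  have hmv : ∀ v : K → F, (∑ i, (g i ⬝ᵥ v) • u i) + ∑ i, (u i ⬝ᵥ v) • g i = 0 := by
    intro v
    rw [← smm_mulVec, hu, Matrix.zero_mulVec]
  -- the entries of `u` lie in the span of `g`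
  have hspan : ∀ i, u i ∈ Submodule.span F (Set.range g) := by
    intro i
    by_contra hcon
    obtain ⟨v, hv, hv1⟩ := exists_sep hcon
    have h1 := hmv v
    rw [Finset.sum_eq_zero fun i _ => by
      rw [hv (g i) (Submodule.subset_span ⟨i, rfl⟩), zero_smul], zero_add] at h1
    have h2 := hg0 (fun i => u i ⬝ᵥ v) (by rw [h1]; exact Submodule.zero_mem _)
    have h3 := congrFun h2 i
    rw [hv1] at h3
    exact one_ne_zero h3
  choose A hA using fun i => (Submodule.mem_span_range_iff_exists_fun F).mp (hspan i)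
  have hsplit := smm_split (0 : Fin 2 → K → F) g (Matrix.of A)
  have hu' : (fun i => (0 : Fin 2 → K → F) i + ∑ j, (Matrix.of A) i j • g j) = u := by
    funext i
    rw [Pi.zero_apply, zero_add]
    exact hA i
  have hz : smm (0 : Fin 2 → K → F) g = 0 := by
    ext x y
    simp [smm, sm, Matrix.sum_apply]
  rw [hu', hu, hz, zero_add] at hsplit
  -- the symmetric part of the coefficients vanishes
  have hB : ∀ k l, A k l + A l k = 0 := by
    intro k l
    obtain ⟨vk, -, hvk⟩ := exists_vals hg0 (Pi.single k 1)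
    obtain ⟨vl, -, hvl⟩ := exists_vals hg0 (Pi.single l 1)
    have h1 : ((qf (Matrix.of A + (Matrix.of A).transpose) g).mulVec vl) ⬝ᵥ vk = 0 := by
      rw [← hsplit, Matrix.zero_mulVec, zero_dotProduct]
    rw [qf_mulVec, sum_dotProduct] at h1
    simp only [sum_dotProduct, smul_dotProduct, hvk, hvl, smul_eq_mul, Matrix.add_apply,
      Matrix.transpose_apply, Matrix.of_apply] at h1
    simpa [Pi.single_apply] using h1
  refine ⟨A 0 1, ?_, ?_⟩
  · have h00 : A 0 0 = 0 := by
      have := hB 0 0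
      rw [← two_mul] at this
      exact (mul_eq_zero.mp this).resolve_left two_ne
    rw [← hA 0, Fin.sum_univ_two, h00, zero_smul, zero_add]
  · have h11 : A 1 1 = 0 := by
      have := hB 1 1
      rw [← two_mul] at this
      exact (mul_eq_zero.mp this).resolve_left two_ne
    have h10 : A 1 0 = - A 0 1 := eq_neg_of_add_eq_zero_left (hB 1 0)
    rw [← hA 1, Fin.sum_univ_two, h11, zero_smul, add_zero, h10]

end Vale.Agent.P060.HW
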