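import Vale.Agent.P060.HW.LS1

/-! Normalised first parts lie in a small space, up to few exceptional pairs. -/

open scoped Classical

noncomputable section

set_option linter.unusedSectionVars false

namespace Vale.Agent.P060.HW

open Module

variable {N d : ℕ} {E P Om : Type} [Fintype E] [Fintype P] [Fintype Om] [NeZero N]

lemma lins_tt_subset (β : Ty N d × Ty N d) (i : Fin 2) : lins (tt β i) ⊆ lins2 β := by
  fin_cases i
  · exact Finset.subset_union_left
  · exact Finset.subset_union_right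

lemma g2_apply (p : Lin N → Co E P Om → F) (β : Ty N d × Ty N d) (i : Fin 2) :
    g2 p β i = gv p (tt β i) := by
  fin_cases i <;> rfl

lemma card_lins2_le (β : Ty N d × Ty N d) : (lins2 β).card ≤ 6 := by
  refine (Finset.card_union_le _ _).trans ?_
  have := rr_card_lins_le β.1
  have := rr_card_lins_le β.2
  omega

/-- Different types have a line which the other one does not have. -/
theorem exists_own (fr : Frame N d E Om) {t t' : Ty N d} (htt : t ≠ t') :
    ∃ s : Fin 3, lin t s ∉ lins t' := by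
  by_contra hcon
  push Not at hcon
  exact htt (fr.share_two t t' 0 1 (by decide) (rr_mem_lins.mp (hcon 0)).symm
    (rr_mem_lins.mp (hcon 1)).symm)

/-- Members of a line-disjoint family meeting a set of lines. -/
theorem ld_meet {𝓕 : Finset (Ty N d × Ty N d)} (hLD : LD 𝓕) (L : Finset (Lin N)) :
    (𝓕.filter fun β => ¬ Disjoint (lins2 β) L).card ≤ L.card := by
  have h1 : ∀ β ∈ 𝓕.filter (fun β => ¬ Disjoint (lins2 β) L), ∃ u, u ∈ lins2 β ∧ u ∈ L := by
    intro β hβ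
    exact Finset.not_disjoint_iff.mp (Finset.mem_filter.mp hβ).2
  choose! f hf using h1
  refine Finset.card_le_card_of_injOn f (fun β hβ => (hf β hβ).2) ?_
  intro β hβ β' hβ' h
  by_contra hne
  have h2 := hLD β (Finset.mem_filter.mp hβ).1 β' (Finset.mem_filter.mp hβ').1 hne
  refine Finset.disjoint_left.mp h2 (hf β hβ).1 ?_
  rw [h]
  exact (hf β' hβ').1

lemma rz_rz_empty (Z : Finset Om) (v : Co E P Om → F) : rz ∅ (rz Z v) = rz ∅ v := by
  funext j
  rw [rz_apply, rz_apply, rz_apply]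
  rcases j with (j | j) | w
  · simp [kp]
  · simp [kp]
  · simp [kp]

/-- Few members of a line-disjoint family are dependent modulo a small space. -/
theorem few_dep (fr : Frame N d E Om) (p : Lin N → Co E P Om → F) {κ : ℕ} (h1 : Ev1 p κ)
    {S : ℕ} (hS : 6 * (S + 1) ≤ κ) (W : Submodule F (Co E P Om → F)) (hW : finrank F W ≤ S)
    (𝓕 : Finset (Ty N d × Ty N d)) (hLD : LD 𝓕) (hne : ∀ β ∈ 𝓕, β.1 ≠ β.2)
    (hdep : ∀ β ∈ 𝓕, ¬ IndMod W fun i => rz ∅ (g2 p β i)) : 𝓕.card ≤ S := by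
  by_contra hcon
  rw [not_le] at hcon
  obtain ⟨𝓖, h𝓖, hcard⟩ := Finset.exists_subset_card_eq hcon
  -- combinations in `W`
  have hc : ∀ β : 𝓖, ∃ c : Fin 2 → F, (∑ i, c i • rz ∅ (g2 p β.1 i)) ∈ W ∧ c ≠ 0 := by
    intro β
    have h2 := hdep β (h𝓖 β.2)
    unfold IndMod at h2
    push Not at h2
    exact h2
  choose c hcW hc0 using hc
  let f : (𝓖 → F) →ₗ[F] W := Fintype.linearCombination F fun β : 𝓖 =>
    (⟨∑ i, c β i • rz ∅ (g2 p β.1 i), hcW β⟩ : W)
  have hlt : finrank F W < finrank F (𝓖 → F) := by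
    rw [Module.finrank_fintype_fun_eq_card, Fintype.card_coe, hcard]
    omega
  obtain ⟨mu, hmu, hmu0⟩ := Submodule.exists_mem_ne_zero_of_ne_bot
    (LinearMap.ker_ne_bot_of_finrank_lt hlt (f := f))
  have hrel : ∑ β : 𝓖, mu β • ∑ i, c β i • rz ∅ (g2 p β.1 i) = 0 := by
    have h2 := congrArg Subtype.val (LinearMap.mem_ker.mp hmu)
    simpa [f, Fintype.linearCombination_apply] using h2
  obtain ⟨β₀, hβ₀⟩ : ∃ β, mu β ≠ 0 := by
    by_contra h
    push Not at h
    exact hmu0 (funext h)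
  obtain ⟨i₀, hi₀⟩ : ∃ i, c β₀ i ≠ 0 := by
    by_contra h
    push Not at h
    exact hc0 β₀ (funext h)
  let q : Lin N → P → F := fun u j => p u (Sum.inl (Sum.inr j))
  let ls : 𝓖 × Fin 2 → Finset (Lin N) := fun x => lins (tt (x.1 : Ty N d × Ty N d) x.2)
  let co : 𝓖 × Fin 2 → F := fun x => mu x.1 * c x.1 x.2
  have hR : ∑ s, co s • ∑ u ∈ ls s, q u = 0 := by
    funext j
    have h2 := congrFun hrel (Sum.inl (Sum.inr j))
    rw [Finset.sum_apply, Pi.zero_apply] at h2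
    rw [Finset.sum_apply, Pi.zero_apply, Fintype.sum_prod_type, ← h2]
    refine Finset.sum_congr rfl fun β _ => ?_
    rw [Pi.smul_apply, Finset.sum_apply, smul_eq_mul, Finset.mul_sum]
    refine Finset.sum_congr rfl fun i _ => ?_
    rw [Pi.smul_apply, Pi.smul_apply, smul_eq_mul, smul_eq_mul, rz_apply,
      if_pos (show kp ∅ (Sum.inl (Sum.inr j) : Co E P Om) from trivial), g2_apply, rr_gv_eq_sum, Finset.sum_apply, Finset.sum_apply]
    change mu β * c β i * _ = mu β * (c β i * _)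
    rw [mul_assoc]
  have htt : tt (β₀ : Ty N d × Ty N d) i₀ ≠ tt (β₀ : Ty N d × Ty N d) (1 - i₀) := by
    have := hne β₀ (h𝓖 β₀.2)
    fin_cases i₀
    · exact this
    · exact fun h => this h.symm
  obtain ⟨s, hs⟩ := exists_own fr htt
  let L' : Finset (Lin N) := 𝓖.biUnion lins2
  have hL' : L'.card ≤ κ := by
    refine le_trans (Finset.card_biUnion_le.trans ((Finset.sum_le_card_nsmul _ _ 6 fun β _ =>
      card_lins2_le β).trans ?_)) hS
    rw [smul_eq_mul, hcard, mul_comm]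
  have hzero : co (β₀, i₀) = 0 := by
    refine coeff_private' q L' (h1 L' hL') ls co ?_ hR (β₀, i₀)
      (lin (tt (β₀ : Ty N d × Ty N d) i₀) s) (Finset.mem_image_of_mem _ (Finset.mem_univ _)) ?_
    · rintro ⟨β, i⟩ _
      exact (lins_tt_subset (β : Ty N d × Ty N d) i).trans
        (Finset.subset_biUnion_of_mem lins2 β.2)
    · rintro ⟨β, i⟩ hs' _
      change _ ∉ lins (tt (β : Ty N d × Ty N d) i)
      by_cases hb : β = β₀
      · subst hb
        have hi : i = 1 - i₀ := by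
          have : i ≠ i₀ := fun h => hs' (by rw [h])
          fin_cases i <;> fin_cases i₀ <;> simp_all
        rw [hi]
        exact hs
      · intro hmem
        have h2 := hLD β (h𝓖 β.2) β₀ (h𝓖 β₀.2) fun h => hb (Subtype.ext h)
        exact Finset.disjoint_left.mp h2 (lins_tt_subset _ i hmem)
          (lins_tt_subset _ i₀ (Finset.mem_image_of_mem _ (Finset.mem_univ _)))
  exact mul_ne_zero hβ₀ hi₀ hzero

/-- Exceptional pairs for a set of rows. -/
def excZ (fr : Frame N d E Om) (a : Ty N d) (𝓕 J : Finset (Ty N d × Ty N d)) (Z : Finset Om) :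
    Finset (Ty N d × Ty N d) :=
  (𝓕.filter fun β => ¬ Disjoint (lins2 β) (lins a)) ∪ J ∪
    Z.biUnion fun w => 𝓕.filter fun β => ¬ Disjoint (lins2 β) (rowLines fr w)

lemma card_rowLines_le (fr : Frame N d E Om) {A : ℕ}
    (hA : ∀ w, (Finset.univ.filter fun c : Ty N d => w ∈ fr.U c).card ≤ A) (w : Om) :
    (rowLines fr w).card ≤ 3 * A := by
  unfold rowLines
  refine Finset.card_biUnion_le.trans ((Finset.sum_le_card_nsmul _ _ 3 fun c _ =>
    rr_card_lins_le c).trans ?_)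
  rw [smul_eq_mul, mul_comm]
  exact Nat.mul_le_mul_left _ (hA w)

lemma card_excZ (fr : Frame N d E Om) {A : ℕ}
    (hA : ∀ w, (Finset.univ.filter fun c : Ty N d => w ∈ fr.U c).card ≤ A) (a : Ty N d)
    {𝓕 J : Finset (Ty N d × Ty N d)} (hLD : LD 𝓕) {R t : ℕ} (hJR : J.card ≤ R) {Z : Finset Om}
    (hZ : Z.card ≤ t) : (excZ fr a 𝓕 J Z).card ≤ 3 + R + t * (3 * A) := by
  unfold excZ
  refine (Finset.card_union_le _ _).trans (Nat.add_le_add ((Finset.card_union_le _ _).trans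
    (Nat.add_le_add ((ld_meet hLD _).trans (rr_card_lins_le a)) hJR)) ?_)
  refine Finset.card_biUnion_le.trans ((Finset.sum_le_card_nsmul _ _ (3 * A) fun w _ =>
    (ld_meet hLD _).trans (card_rowLines_le fr hA w)).trans ?_)
  rw [smul_eq_mul]
  exact Nat.mul_le_mul_right _ hZ

/-- Event (i) for a family: a small space and few bad members. -/
theorem evI_apply (fr : Frame N d E Om) (p : Lin N → Co E P Om → F) (a : Ty N d)
    {t R s m A : ℕ} (hI : EvI fr p t R s m)
    (hA : ∀ w, (Finset.univ.filter fun c : Ty N d => w ∈ fr.U c).card ≤ A)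
    {𝓕 J : Finset (Ty N d × Ty N d)} (hLD : LD 𝓕) (hne : ∀ β ∈ 𝓕, β.1 ≠ β.2) (hJ : J ⊆ 𝓕)
    (hJR : J.card ≤ R) (H : Ty N d × Ty N d → Fin 2 → Co E P Om → F) (Z : Finset Om)
    (hZ : Z.card ≤ t) :
    ∃ (W : Submodule F (Co E P Om → F)) (Bd : Finset (Ty N d × Ty N d)), finrank F W ≤ s ∧
      Bd.card ≤ m + (3 + R + t * (3 * A)) ∧
      ∀ β ∈ 𝓕, β ∉ Bd → ¬ BadZ p Z (LamZ fr p Z a J H) W β := by
  obtain ⟨W, hW, -, hbad⟩ := hI Z hZ a J H hJR
  refine ⟨W, ((𝓕 \ excZ fr a 𝓕 J Z).filter fun β => BadZ p Z (LamZ fr p Z a J H) W β) ∪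
    excZ fr a 𝓕 J Z, hW, ?_, ?_⟩
  · refine (Finset.card_union_le _ _).trans (Nat.add_le_add ?_ (card_excZ fr hA a hLD hJR hZ))
    refine hbad _ ?_ ?_ ?_ ?_ ?_ ?_
    · intro β hβ β' hβ' hb
      exact hLD β (Finset.mem_sdiff.mp (Finset.mem_filter.mp hβ).1).1 β'
        (Finset.mem_sdiff.mp (Finset.mem_filter.mp hβ').1).1 hb
    · intro β hβ
      exact hne β (Finset.mem_sdiff.mp (Finset.mem_filter.mp hβ).1).1
    · intro β hβ
      obtain ⟨hβ1, hβ2⟩ := Finset.mem_sdiff.mp (Finset.mem_filter.mp hβ).1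
      by_contra hcon
      refine hβ2 ?_
      unfold excZ
      exact Finset.mem_union_left _ (Finset.mem_union_left _
        (Finset.mem_filter.mpr ⟨hβ1, hcon⟩))
    · intro β hβ β' hβ'
      obtain ⟨hβ1, hβ2⟩ := Finset.mem_sdiff.mp (Finset.mem_filter.mp hβ).1
      refine hLD β hβ1 β' (hJ hβ') fun h => hβ2 ?_
      unfold excZ
      exact Finset.mem_union_left _ (Finset.mem_union_right _ (h ▸ hβ'))
    · intro β hβ w hw
      obtain ⟨hβ1, hβ2⟩ := Finset.mem_sdiff.mp (Finset.mem_filter.mp hβ).1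
      by_contra hcon
      refine hβ2 ?_
      unfold excZ
      exact Finset.mem_union_right _ (Finset.mem_biUnion.mpr ⟨w, hw,
        Finset.mem_filter.mpr ⟨hβ1, hcon⟩⟩)
    · intro β hβ
      exact (Finset.mem_filter.mp hβ).2
  · intro β hβ hβB hb
    rw [Finset.mem_union, not_or] at hβB
    exact hβB.1 (Finset.mem_filter.mpr ⟨Finset.mem_sdiff.mpr ⟨hβ, hβB.2⟩, hb⟩)

lemma smm_sub_left {K : Type*} {D : ℕ} (h w g : Fin D → K → F) :
    smm (fun i => h i - w i) g = smm h g - smm w g := by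
  rw [eq_sub_iff_add_eq, ← smm_add_left]
  congr 1
  funext i
  exact sub_add_cancel _ _

/-- Shifting by a multiple of `(g 1, - g 0)` does not change the tensor. -/
lemma smm_shift {K : Type*} (h g : Fin 2 → K → F) (s : F) :
    smm ![h 0 - s • g 1, h 1 + s • g 0] g = smm h g := by
  ext x y
  simp only [smm, sm, Fin.sum_univ_two, Matrix.add_apply, Matrix.vecMulVec_apply,
    Matrix.cons_val_zero, Matrix.cons_val_one, Pi.sub_apply, Pi.add_apply, Pi.smul_apply,
    smul_eq_mul]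
  ring

/-- One side: first parts can be normalised so that their restrictions lie in small spaces. -/
theorem one_side (fr : Frame N d E Om) (p : Lin N → Co E P Om → F) (hp : Ext fr p) (a : Ty N d)
    {κ t R s m A : ℕ} (h1 : Ev1 p κ) (hI : EvI fr p t R s m) (hκ : 6 * (2 * s + 1) ≤ κ)
    (hA : ∀ w, (Finset.univ.filter fun c : Ty N d => w ∈ fr.U c).card ≤ A)
    {𝓕 J : Finset (Ty N d × Ty N d)} (hLD : LD 𝓕) (hne : ∀ β ∈ 𝓕, β.1 ≠ β.2) (hJ : J ⊆ 𝓕)
    (hJR : J.card ≤ R) (H : Ty N d × Ty N d → Fin 2 → Co E P Om → F)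
    (hspan : ∀ β ∈ 𝓕, smm (H β) (g2 p β) ∈ SpJ p J H ⊔ (dsg fr p hp).Nn a) :
    ∃ Ht : Ty N d × Ty N d → Fin 2 → Co E P Om → F,
      (∀ β, smm (Ht β) (g2 p β) = smm (H β) (g2 p β)) ∧
      ∀ Z : Finset Om, Z.card ≤ t → (∀ w ∈ Z, w ∉ fr.U a) →
        ∃ (W : Submodule F (Co E P Om → F)) (Bd : Finset (Ty N d × Ty N d)), finrank F W ≤ s ∧
          Bd.card ≤ 2 * (m + (3 + R + t * (3 * A))) + 2 * s ∧
          ∀ β ∈ 𝓕, β ∉ Bd → ∀ i, rz Z (Ht β i) ∈ W := by
  obtain ⟨W0, Bd0, hW0, hBd0, hgood0⟩ := evI_apply fr p a hI hA hLD hne hJ hJR H ∅ (Nat.zero_le _)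
  -- the normalisation
  have hex : ∀ β, ∃ σ : F, β ∈ 𝓕 → β ∉ Bd0 →
      rz ∅ (H β 0 - σ • g2 p β 1) ∈ W0 ∧ rz ∅ (H β 1 + σ • g2 p β 0) ∈ W0 := by
    intro β
    by_cases hβ : β ∈ 𝓕 ∧ β ∉ Bd0
    · have hb := hgood0 β hβ.1 hβ.2
      unfold BadZ at hb
      rw [not_or, not_not] at hb
      obtain ⟨hind, hh⟩ := hb
      push Not at hh
      have h2 := rzm_mem_LamZ fr p hp a ∅ (by simp) J H (hspan β hβ.1)
      rw [rzm_smm] at h2
      obtain ⟨w, hw, hwe⟩ := hh (H β) h2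
      have h3 : smm (fun i => rz ∅ (H β i) - w i) (fun i => rz ∅ (g2 p β i)) = 0 := by
        rw [smm_sub_left, hwe, sub_self]
      obtain ⟨σ, hs0, hs1⟩ := ker_two hind h3
      refine ⟨σ, fun _ _ => ⟨?_, ?_⟩⟩
      · have h4 : rz ∅ (H β 0 - σ • g2 p β 1) = w 0 := by
          rw [map_sub, map_smul, sub_eq_iff_eq_add, ← hs0]
          abel
        rw [h4]
        exact hw 0
      · have h4 : rz ∅ (H β 1 + σ • g2 p β 0) = w 1 := by
          have h5 : σ • rz ∅ (g2 p β 0) = - (rz ∅ (H β 1) - w 1) := by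
            rw [hs1, neg_smul, neg_neg]
          rw [map_add, map_smul, h5]
          abel
        rw [h4]
        exact hw 1
    · exact ⟨0, fun h h' => absurd ⟨h, h'⟩ hβ⟩
  choose σ hσ using hex
  refine ⟨fun β => ![H β 0 - σ β • g2 p β 1, H β 1 + σ β • g2 p β 0],
    fun β => smm_shift _ _ _, ?_⟩
  intro Z hZ hZa
  obtain ⟨W, Bd, hW, hBd, hgood⟩ := evI_apply fr p a hI hA hLD hne hJ hJR H Z hZ
  let W2 : Submodule F (Co E P Om → F) := W0 ⊔ W.map (rz ∅)
  have hW2 : finrank F W2 ≤ 2 * s := by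
    refine (Submodule.finrank_add_le_finrank_add_finrank _ _).trans ?_
    have := Submodule.finrank_map_le (rz (E := E) (P := P) (Om := Om) ∅) W
    omega
  let Bd2 : Finset (Ty N d × Ty N d) :=
    𝓕.filter fun β => ¬ IndMod W2 fun i => rz ∅ (g2 p β i)
  have hBd2 : Bd2.card ≤ 2 * s := by
    refine few_dep fr p h1 hκ W2 hW2 Bd2 ?_ ?_ ?_
    · intro β hβ β' hβ' hb
      exact hLD β (Finset.mem_filter.mp hβ).1 β' (Finset.mem_filter.mp hβ').1 hb
    · intro β hβ
      exact hne β (Finset.mem_filter.mp hβ).1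
    · intro β hβ
      exact (Finset.mem_filter.mp hβ).2
  refine ⟨W, Bd0 ∪ Bd ∪ Bd2, hW, ?_, ?_⟩
  · refine (Finset.card_union_le _ _).trans (Nat.add_le_add ((Finset.card_union_le _ _).trans ?_)
      hBd2)
    omega
  · intro β hβ hβB
    rw [Finset.mem_union, Finset.mem_union, not_or, not_or] at hβB
    obtain ⟨⟨hb0, hb1⟩, hb2⟩ := hβB
    have hind2 : IndMod W2 fun i => rz ∅ (g2 p β i) := by
      by_contra hcon
      exact hb2 (Finset.mem_filter.mpr ⟨hβ, hcon⟩)
    have hb := hgood β hβ hb1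
    unfold BadZ at hb
    rw [not_or, not_not] at hb
    obtain ⟨hind, hh⟩ := hb
    push Not at hh
    set Hb : Fin 2 → Co E P Om → F := ![H β 0 - σ β • g2 p β 1, H β 1 + σ β • g2 p β 0] with hHb
    have h2 : rzm Z (smm Hb (g2 p β)) ∈ LamZ fr p Z a J H := by
      rw [hHb, smm_shift]
      exact rzm_mem_LamZ fr p hp a Z hZa J H (hspan β hβ)
    rw [rzm_smm] at h2
    obtain ⟨w, hw, hwe⟩ := hh Hb h2
    have h3 : smm (fun i => rz Z (Hb i) - w i) (fun i => rz Z (g2 p β i)) = 0 := by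
      rw [smm_sub_left, hwe, sub_self]
    obtain ⟨τ, ht0, ht1⟩ := ker_two hind h3
    -- the multiple vanishes
    have hτ : τ = 0 := by
      have h4 : τ • rz ∅ (g2 p β 1) ∈ W2 := by
        have h5 : τ • rz ∅ (g2 p β 1) = rz ∅ (Hb 0) - rz ∅ (w 0) := by
          have h6 := congrArg (rz (E := E) (P := P) ∅) ht0
          rw [map_sub, rz_rz_empty, map_smul, rz_rz_empty] at h6
          exact h6.symm
        rw [h5]
        refine Submodule.sub_mem _ (Submodule.mem_sup_left (hσ β hβ hb0).1)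
          (Submodule.mem_sup_right ⟨w 0, hw 0, rfl⟩)
      have h5 := hind2 (Pi.single 1 τ) (by
        rw [Fin.sum_univ_two]
        simpa using h4)
      simpa using congrFun h5 1
    rw [hτ, zero_smul, sub_eq_zero] at ht0
    rw [hτ, neg_zero, zero_smul, sub_eq_zero] at ht1
    intro i
    fin_cases i
    · change rz Z (Hb 0) ∈ W
      rw [ht0]
      exact hw 0
    · change rz Z (Hb 1) ∈ W
      rw [ht1]
      exact hw 1

end Vale.Agent.P060.HW
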