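import Vale.Agent.P060.HW.LS2
import Vale.Agent.P060.HW.Energy

/-! A large class of pairs with the same first parts, up to trivial tensors. -/

open scoped Classical

noncomputable section

set_option linter.unusedSectionVars false

namespace Vale.Agent.P060.HW

open Module

variable {N d : ℕ} {E P Om : Type} [Fintype E] [Fintype P] [Fintype Om] [NeZero N]

lemma card_image_le_image {A B C : Type*} (G : Finset A) (f : A → B) (φ : A → C)
    (h : ∀ x ∈ G, ∀ y ∈ G, φ x = φ y → f x = f y) : (G.image f).card ≤ (G.image φ).card := by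
  rcases isEmpty_or_nonempty A with hA | hA
  · rw [Finset.eq_empty_of_isEmpty G]
    simp
  have hex : ∀ y ∈ G.image f, ∃ x, x ∈ G ∧ f x = y := fun y hy => Finset.mem_image.mp hy
  choose! g hg hgf using hex
  refine Finset.card_le_card_of_injOn (fun y => φ (g y)) ?_ ?_
  · intro y hy
    exact Finset.mem_image_of_mem _ (hg y hy)
  · intro y hy y' hy' hyy
    rw [← hgf y hy, ← hgf y' hy']
    exact h _ (hg y hy) _ (hg y' hy') hyy

/-- A first part supported on zero rows gives a trivial tensor. -/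
theorem smm_supp_mem (fr : Frame N d E Om) (p : Lin N → Co E P Om → F) (hp : Ext fr p)
    (a : Ty N d) (β : Ty N d × Ty N d) (δ : Fin 2 → Co E P Om → F)
    (h0 : ∀ i j, δ i (Sum.inl j) = 0)
    (h1 : ∀ i w, δ i (Sum.inr w) ≠ 0 → w ∈ fr.U a ∨ w ∈ fr.U (tt β i)) :
    smm δ (g2 p β) ∈ (dsg fr p hp).Nn a := by
  rw [smm]
  refine Submodule.sum_mem _ fun i _ => ?_
  have h2 : sm (δ i) (g2 p β i) = ∑ w, δ i (Sum.inr w) •
      sm (Pi.single (Sum.inr w) 1 : Co E P Om → F) (g2 p β i) := by
    ext x y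
    rw [sm_apply, Matrix.sum_apply]
    simp only [Matrix.smul_apply, sm_apply, smul_eq_mul]
    have h3 : ∀ x : Co E P Om, δ i x = ∑ w, δ i (Sum.inr w) *
        (Pi.single (Sum.inr w) 1 : Co E P Om → F) x := by
      intro x
      rcases x with j | w
      · rw [h0]
        symm
        exact Finset.sum_eq_zero fun w _ => by simp
      · rw [Finset.sum_eq_single w]
        · simp
        · intro w' _ hw'
          have : (Sum.inr w : Co E P Om) ≠ Sum.inr w' := fun h => hw' (Sum.inr.inj h).symm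
          rw [Pi.single_eq_of_ne this, mul_zero]
        · intro h
          exact absurd (Finset.mem_univ _) h
    rw [h3 x, h3 y, Finset.sum_mul, Finset.mul_sum, ← Finset.sum_add_distrib]
    exact Finset.sum_congr rfl fun w _ => by ring
  rw [h2]
  refine Submodule.sum_mem _ fun w _ => ?_
  by_cases hw : δ i (Sum.inr w) = 0
  · rw [hw, zero_smul]
    exact Submodule.zero_mem _
  · refine Submodule.smul_mem _ _ (Submodule.subset_span ?_)
    rcases h1 i w hw with h | h
    · exact Or.inl (Or.inr ⟨Sum.inr w, Finset.mem_image_of_mem _ h, g2 p β i,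
        congrArg (fun x => sm x _) (single_eq _ _ _ _)⟩)
    · refine Or.inl (Or.inl ⟨tt β i, Sum.inr w, Finset.mem_image_of_mem _ h, ?_⟩)
      rw [g2_apply]
      exact congrArg (fun x => sm x _) (single_eq _ _ _ _)

/-- The tensors of the own test vector. -/
def Own (p : Lin N → Co E P Om → F) (a : Ty N d) :
    Submodule F (Matrix (Co E P Om) (Co E P Om) F) :=
  Submodule.span F (Set.range fun j : Co E P Om => sm (Pi.single j 1 : Co E P Om → F) (gv p a))

lemma sm_mem_Own (p : Lin N → Co E P Om → F) (a : Ty N d) (v : Co E P Om → F) :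
    sm v (gv p a) ∈ Own p a := by
  have h2 : sm v (gv p a) = ∑ j, v j • sm (Pi.single j 1 : Co E P Om → F) (gv p a) := by
    ext x y
    rw [sm_apply, Matrix.sum_apply]
    simp only [Matrix.smul_apply, sm_apply, smul_eq_mul, Pi.single_apply, mul_add, ite_mul,
      one_mul, zero_mul, mul_ite, mul_one, mul_zero, Finset.sum_add_distrib]
    simp [mul_comm]
  rw [h2]
  exact Submodule.sum_mem _ fun j _ => Submodule.smul_mem _ _ (Submodule.subset_span ⟨j, rfl⟩)

lemma finrank_Own (p : Lin N → Co E P Om → F) (a : Ty N d) :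
    finrank F (Own p a) ≤ Fintype.card (Co E P Om) :=
  finrank_range_le_card _

lemma Nn_le (fr : Frame N d E Om) (p : Lin N → Co E P Om → F) (hp : Ext fr p) (a : Ty N d) :
    (dsg fr p hp).Nn a ≤ Own p a ⊔ Nz fr p a := by
  unfold Design.Nn
  rw [Submodule.span_le]
  rintro Q ((⟨c, w, hw, rfl⟩ | ⟨w, hw, v, rfl⟩) | ⟨v, rfl⟩)
  · obtain ⟨w', hw', rfl⟩ := Finset.mem_image.mp hw
    refine Submodule.mem_sup_right (Submodule.subset_span (Or.inl ⟨c, w', hw', ?_⟩))
    exact congrArg (fun x => sm x _) (single_eq _ _ _ _)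
  · obtain ⟨w', hw', rfl⟩ := Finset.mem_image.mp hw
    refine Submodule.mem_sup_right (Submodule.subset_span (Or.inr ⟨w', hw', v, ?_⟩))
    exact congrArg (fun x => sm x _) (single_eq _ _ _ _)
  · exact Submodule.mem_sup_left (sm_mem_Own p a v)

lemma finrank_SpJ (p : Lin N → Co E P Om → F) (J : Finset (Ty N d × Ty N d))
    (H : Ty N d × Ty N d → Fin 2 → Co E P Om → F) : finrank F (SpJ p J H) ≤ J.card := by
  have h1 : SpJ p J H = Submodule.span F
      ((J.image fun β => smm (H β) (g2 p β) : Finset _) : Set (Matrix _ _ F)) := by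
    unfold SpJ
    congr 1
    ext Q
    rw [Finset.coe_image, Set.mem_image]
    constructor
    · rintro ⟨β, hβ, rfl⟩
      exact ⟨β, hβ, rfl⟩
    · rintro ⟨β, hβ, rfl⟩
      exact ⟨β, hβ, rfl⟩
  rw [h1]
  exact (finrank_span_finset_le_card _).trans Finset.card_image_le

/-- One side of the rank step. -/
theorem side_rank (fr : Frame N d E Om) (p : Lin N → Co E P Om → F) (hp : Ext fr p) (a : Ty N d)
    {κ R A b : ℕ} (h1 : Ev1 p κ)
    (hA : ∀ w, (Finset.univ.filter fun c : Ty N d => w ∈ fr.U c).card ≤ A)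
    {𝓕 J : Finset (Ty N d × Ty N d)} (hLD : LD 𝓕) (hne : ∀ β ∈ 𝓕, β.1 ≠ β.2)
    (hJR : J.card ≤ R) (H Ht : Ty N d × Ty N d → Fin 2 → Co E P Om → F)
    (hHt : ∀ β, smm (Ht β) (g2 p β) = smm (H β) (g2 p β))
    (hspan : ∀ β ∈ 𝓕, smm (H β) (g2 p β) ∈ SpJ p J H ⊔ (dsg fr p hp).Nn a)
    (T₁ : Finset (Ty N d × Ty N d)) (hT : T₁ ⊆ 𝓕) (hs : Fin 2 → Co E P Om → F)
    (hbase : ∀ β ∈ T₁, ∀ i j, Ht β i (Sum.inl j) = hs i (Sum.inl j))
    (hrow : ∀ w, w ∉ fr.U a →
      (T₁.filter fun β => ∃ i, Ht β i (Sum.inr w) ≠ hs i (Sum.inr w)).card ≤ b)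
    (hb : 6 * b + 3 * A ≤ κ) :
    (T₁.filter fun β => ¬ (smm (H β) (g2 p β) - smm hs (g2 p β) ∈ (dsg fr p hp).Nn a)).card ≤
      R + 3 * Fintype.card (Co E P Om) := by
  set D₀ : Finset (Ty N d × Ty N d) := T₁.filter fun β =>
    ∃ w, w ∉ fr.U a ∧ ∃ i, Ht β i (Sum.inr w) ≠ hs i (Sum.inr w) ∧ w ∉ fr.U (tt β i) with hD₀
  have hsub : (T₁.filter fun β => ¬ (smm (H β) (g2 p β) - smm hs (g2 p β) ∈
      (dsg fr p hp).Nn a)) ⊆ D₀ := by
    intro β hβ
    obtain ⟨hβ1, hβ2⟩ := Finset.mem_filter.mp hβ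
    refine Finset.mem_filter.mpr ⟨hβ1, ?_⟩
    by_contra hcon
    push Not at hcon
    apply hβ2
    rw [← hHt, ← smm_sub_left]
    refine smm_supp_mem fr p hp a β (fun i => Ht β i - hs i) ?_ ?_
    · intro i j
      rw [Pi.sub_apply, hbase β hβ1, sub_self]
    · intro i w hw
      rw [Pi.sub_apply, sub_ne_zero] at hw
      by_cases hwa : w ∈ fr.U a
      · exact Or.inl hwa
      · exact Or.inr (hcon w hwa i hw)
  refine (Finset.card_le_card hsub).trans ?_
  have h2 := rank_rows fr p a (m := κ) h1 (D := D₀) (fun β => β.1)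
    (fun β => hne _ (hT (Finset.mem_filter.mp β.2).1))
    (fun β β' hbb => hLD _ (hT (Finset.mem_filter.mp β.2).1) _
      (hT (Finset.mem_filter.mp β'.2).1) fun h => hbb (Subtype.ext h))
    (SpJ p J H ⊔ Own p a) (fun β => Ht β.1) hs ?_ ?_ ?_ ?_
  · rw [Fintype.card_coe] at h2
    refine h2.trans ?_
    have h3 : finrank F ↥(SpJ p J H ⊔ Own p a) ≤ R + Fintype.card (Co E P Om) :=
      (Submodule.finrank_add_le_finrank_add_finrank _ _).trans
        (Nat.add_le_add ((finrank_SpJ p J H).trans hJR) (finrank_Own p a))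
    omega
  · intro β
    have h3 := hspan _ (hT (Finset.mem_filter.mp β.2).1)
    rw [← hHt] at h3
    have h4 : SpJ p J H ⊔ (dsg fr p hp).Nn a ≤ SpJ p J H ⊔ Own p a ⊔ Nz fr p a := by
      rw [sup_assoc]
      exact sup_le_sup_left (Nn_le fr p hp a) _
    exact h4 h3
  · intro β i j
    exact hbase _ (Finset.mem_filter.mp β.2).1 i j
  · intro w hw
    refine le_trans (Nat.add_le_add (Nat.mul_le_mul_left 6 ?_) (Nat.mul_le_mul_left 3 (hA w))) hb
    refine le_trans ?_ (hrow w hw)
    refine Finset.card_le_card_of_injOn (fun β => (β : Ty N d × Ty N d)) ?_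
      fun β _ β' _ h => Subtype.ext h
    intro β hβ
    have h3 := (Finset.mem_filter.mp (Finset.mem_coe.mp hβ)).2
    exact Finset.mem_coe.mpr (Finset.mem_filter.mpr ⟨(Finset.mem_filter.mp β.2).1, h3⟩)
  · intro β
    exact (Finset.mem_filter.mp β.2).2

private lemma card_image_inst {A B : Type*} (i1 i2 : DecidableEq B) (f : A → B) (G : Finset A) :
    (@Finset.image A B i1 f G).card = (@Finset.image A B i2 f G).card := by
  rw [Subsingleton.elim i1 i2]

/-- The number of tuples from a small space. -/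
lemma card_pi_sub {n s : ℕ} (W : Submodule F (Co E P Om → F)) (hW : finrank F W ≤ s) :
    (Fintype.piFinset fun _ : Fin n => Finset.univ.filter fun v => v ∈ W).card ≤
      2521 ^ (n * s) := by
  rw [Fintype.card_piFinset, Finset.prod_const, Finset.card_univ, Fintype.card_fin, mul_comm,
    pow_mul]
  refine Nat.pow_le_pow_left ((card_sub W hW).trans (le_of_eq ?_)) n
  rw [ZMod.card]

/-- A large class of pairs with constant first parts up to trivial tensors. -/
theorem class_extract (fr : Frame N d E Om) (p : Lin N → Co E P Om → F) (hp : Ext fr p)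
    (a a' : Ty N d) {κ t R s m A b : ℕ} (h1 : Ev1 p κ) (hI : EvI fr p t R s m)
    (hκ : 6 * (2 * s + 1) ≤ κ)
    (hA : ∀ w, (Finset.univ.filter fun c : Ty N d => w ∈ fr.U c).card ≤ A)
    {𝓕 J : Finset (Ty N d × Ty N d)} (hLD : LD 𝓕) (hne : ∀ β ∈ 𝓕, β.1 ≠ β.2) (hJ : J ⊆ 𝓕)
    (hJR : J.card ≤ R) (H H' : Ty N d × Ty N d → Fin 2 → Co E P Om → F)
    (hspan : ∀ β ∈ 𝓕, smm (H β) (g2 p β) ∈ SpJ p J H ⊔ (dsg fr p hp).Nn a)
    (hspan' : ∀ β ∈ 𝓕, smm (H' β) (g2 p β) ∈ SpJ p J H' ⊔ (dsg fr p hp).Nn a')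
    (h𝓕 : 𝓕.Nonempty)
    (hX : 4 * (2 * (m + (3 + R + t * (3 * A))) + 2 * s) ≤ 𝓕.card)
    {M : ℕ} (hM : M = 2521 ^ (4 * s + 4 * Fintype.card E))
    {κ₀ : ℝ} (hκ₀ : 0 < κ₀) (hκt : 1 < κ₀ * (t + 1))
    (hb : κ₀ * 𝓕.card * (2 * M) ≤ b) (hbκ : 6 * b + 3 * A ≤ κ) :
    ∃ (T₂ : Finset (Ty N d × Ty N d)) (hs hs' : Fin 2 → Co E P Om → F), T₂ ⊆ 𝓕 ∧
      (𝓕.card : ℝ) ≤ 2 * M * (T₂.card + 2 * (R + 3 * Fintype.card (Co E P Om))) ∧
      ∀ β ∈ T₂, smm (H β) (g2 p β) - smm hs (g2 p β) ∈ (dsg fr p hp).Nn a ∧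
        smm (H' β) (g2 p β) - smm hs' (g2 p β) ∈ (dsg fr p hp).Nn a' := by
  obtain ⟨Ht, hHt, hsd⟩ := one_side fr p hp a h1 hI hκ hA hLD hne hJ hJR H hspan
  obtain ⟨Ht', hHt', hsd'⟩ := one_side fr p hp a' h1 hI hκ hA hLD hne hJ hJR H' hspan'
  have : Nonempty 𝓕 := h𝓕.coe_sort
  have hMpos : 0 < M := by rw [hM]; positivity
  -- labels and rows
  let c₀ : 𝓕 → (Fin 2 → E ⊕ P → F) × (Fin 2 → E ⊕ P → F) := fun β =>
    (fun i j => Ht β.1 i (Sum.inl j), fun i j => Ht' β.1 i (Sum.inl j))
  let hh : 𝓕 → Om → (Fin 2 → F) × (Fin 2 → F) := fun β w =>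
    (fun i => if w ∈ fr.U a then 0 else Ht β.1 i (Sum.inr w),
      fun i => if w ∈ fr.U a' then 0 else Ht' β.1 i (Sum.inr w))
  have hMr : (0 : ℝ) < M := Nat.cast_pos.mpr hMpos
  obtain ⟨T₁, t₁, ht₁, hT₁, hc, hrow⟩ := greedy_of_values c₀ hh (ε := 1 / 2) (M := M) hκ₀
    (by norm_num) hMpos (by
      intro Z hZ
      have hZt : Z.card ≤ t := by
        by_contra hcon
        rw [not_le] at hcon
        have h2 : ((t : ℝ) + 1) ≤ Z.card := by exact_mod_cast hcon
        have h3 : κ₀ * (t + 1) ≤ κ₀ * Z.card := mul_le_mul_of_nonneg_left h2 hκ₀.le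
        linarith
      obtain ⟨W, Bd, hW, hBd, hg⟩ := hsd (Z.filter fun w => w ∉ fr.U a)
        ((Finset.card_filter_le _ _).trans hZt) fun w hw => (Finset.mem_filter.mp hw).2
      obtain ⟨W', Bd', hW', hBd', hg'⟩ := hsd' (Z.filter fun w => w ∉ fr.U a')
        ((Finset.card_filter_le _ _).trans hZt) fun w hw => (Finset.mem_filter.mp hw).2
      let G : Finset 𝓕 := Finset.univ.filter fun β => β.1 ∉ Bd ∧ β.1 ∉ Bd'
      refine ⟨G, ?_, ?_⟩
      · -- the size of the good part
        have h2 : (Finset.univ.filter fun β : 𝓕 => ¬ (β.1 ∉ Bd ∧ β.1 ∉ Bd')).card ≤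
            Bd.card + Bd'.card := by
          refine le_trans ?_ (Finset.card_union_le Bd Bd')
          refine Finset.card_le_card_of_injOn (fun β => β.1) ?_ fun β _ β' _ h => Subtype.ext h
          intro β hβ
          have h3 := (Finset.mem_filter.mp (Finset.mem_coe.mp hβ)).2
          rw [not_and_or, not_not, not_not] at h3
          exact Finset.mem_coe.mpr (Finset.mem_union.mpr h3)
        have h3 := Finset.card_filter_add_card_filter_not (s := (Finset.univ : Finset 𝓕))
          (fun β => β.1 ∉ Bd ∧ β.1 ∉ Bd')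
        rw [Finset.card_univ, Fintype.card_coe] at h3
        rw [Fintype.card_coe]
        have h4 : 𝓕.card ≤ 2 * G.card := by
          change G.card + _ = _ at h3
          omega
        have h5 : (𝓕.card : ℝ) ≤ 2 * G.card := by exact_mod_cast h4
        linarith
      · -- the number of values
        let φ : 𝓕 → (Fin 2 → Co E P Om → F) × (Fin 2 → Co E P Om → F) ×
            ((Fin 2 → E → F) × (Fin 2 → E → F)) := fun β =>
          (fun i => rz (Z.filter fun w => w ∉ fr.U a) (Ht β.1 i),
            fun i => rz (Z.filter fun w => w ∉ fr.U a') (Ht' β.1 i),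
            (fun i e => Ht β.1 i (Sum.inl (Sum.inl e)), fun i e => Ht' β.1 i (Sum.inl (Sum.inl e))))
        have h2 := card_image_le_image G (fun β => (c₀ β, fun w : Z => hh β w)) φ (by
          intro x _ y _ hxy
          have e1 : ∀ i, rz (Z.filter fun w => w ∉ fr.U a) (Ht x.1 i) =
            rz (Z.filter fun w => w ∉ fr.U a) (Ht y.1 i) := fun i =>
              congrFun (congrArg Prod.fst hxy) i
          have e2 : ∀ i, rz (Z.filter fun w => w ∉ fr.U a') (Ht' x.1 i) =
            rz (Z.filter fun w => w ∉ fr.U a') (Ht' y.1 i) := fun i =>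
              congrFun (congrArg (fun q => q.2.1) hxy) i
          have e3 : ∀ i e, Ht x.1 i (Sum.inl (Sum.inl e)) = Ht y.1 i (Sum.inl (Sum.inl e)) :=
            fun i e => congrFun (congrFun (congrArg (fun q => q.2.2.1) hxy) i) e
          have e4 : ∀ i e, Ht' x.1 i (Sum.inl (Sum.inl e)) = Ht' y.1 i (Sum.inl (Sum.inl e)) :=
            fun i e => congrFun (congrFun (congrArg (fun q => q.2.2.2) hxy) i) e
          refine Prod.ext (Prod.ext ?_ ?_) ?_
          · funext i j
            rcases j with j | j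
            · exact e3 i j
            · have := congrFun (e1 i) (Sum.inl (Sum.inr j))
              rw [rz_apply, rz_apply, if_pos (show kp (Z.filter fun w => w ∉ fr.U a)
                (Sum.inl (Sum.inr j) : Co E P Om) from trivial), if_pos (show kp (Z.filter
                fun w => w ∉ fr.U a) (Sum.inl (Sum.inr j) : Co E P Om) from trivial)] at this
              exact this
          · funext i j
            rcases j with j | j
            · exact e4 i j
            · have := congrFun (e2 i) (Sum.inl (Sum.inr j))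
              rw [rz_apply, rz_apply, if_pos (show kp (Z.filter fun w => w ∉ fr.U a')
                (Sum.inl (Sum.inr j) : Co E P Om) from trivial), if_pos (show kp (Z.filter
                fun w => w ∉ fr.U a') (Sum.inl (Sum.inr j) : Co E P Om) from trivial)] at this
              exact this
          · funext w
            refine Prod.ext ?_ ?_
            · funext i
              change (if (w : Om) ∈ fr.U a then 0 else Ht x.1 i (Sum.inr w)) =
                if (w : Om) ∈ fr.U a then 0 else Ht y.1 i (Sum.inr w)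
              by_cases hw : (w : Om) ∈ fr.U a
              · rw [if_pos hw, if_pos hw]
              · rw [if_neg hw, if_neg hw]
                have h3 : kp (Z.filter fun w => w ∉ fr.U a) (Sum.inr (w : Om) : Co E P Om) :=
                  Finset.mem_filter.mpr ⟨w.2, hw⟩
                have := congrFun (e1 i) (Sum.inr w)
                rw [rz_apply, rz_apply, if_pos h3, if_pos h3] at this
                exact this
            · funext i
              change (if (w : Om) ∈ fr.U a' then 0 else Ht' x.1 i (Sum.inr w)) =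
                if (w : Om) ∈ fr.U a' then 0 else Ht' y.1 i (Sum.inr w)
              by_cases hw : (w : Om) ∈ fr.U a'
              · rw [if_pos hw, if_pos hw]
              · rw [if_neg hw, if_neg hw]
                have h3 : kp (Z.filter fun w => w ∉ fr.U a') (Sum.inr (w : Om) : Co E P Om) :=
                  Finset.mem_filter.mpr ⟨w.2, hw⟩
                have := congrFun (e2 i) (Sum.inr w)
                rw [rz_apply, rz_apply, if_pos h3, if_pos h3] at this
                exact this)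
        refine le_trans (le_of_eq ?_) (h2.trans ?_)
        · exact card_image_inst _ _ _ _
        have h3 : G.image φ ⊆ (Fintype.piFinset fun _ : Fin 2 =>
            Finset.univ.filter fun v => v ∈ W) ×ˢ ((Fintype.piFinset fun _ : Fin 2 =>
            Finset.univ.filter fun v => v ∈ W') ×ˢ (Finset.univ : Finset
              ((Fin 2 → E → F) × (Fin 2 → E → F)))) := by
          intro y hy
          obtain ⟨β, hβ, rfl⟩ := Finset.mem_image.mp hy
          obtain ⟨hβ1, hβ2⟩ := (Finset.mem_filter.mp hβ).2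
          refine Finset.mem_product.mpr ⟨?_, Finset.mem_product.mpr ⟨?_, Finset.mem_univ _⟩⟩
          · exact Fintype.mem_piFinset.mpr fun i => Finset.mem_filter.mpr
              ⟨Finset.mem_univ _, hg β.1 β.2 hβ1 i⟩
          · exact Fintype.mem_piFinset.mpr fun i => Finset.mem_filter.mpr
              ⟨Finset.mem_univ _, hg' β.1 β.2 hβ2 i⟩
        refine (Finset.card_le_card h3).trans ?_
        rw [Finset.card_product, Finset.card_product, Finset.card_univ, Fintype.card_prod,
          Fintype.card_fun, Fintype.card_fun, Fintype.card_fin, ZMod.card, hM]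
        calc _ ≤ 2521 ^ (2 * s) * (2521 ^ (2 * s) *
              ((2521 ^ Fintype.card E) ^ 2 * (2521 ^ Fintype.card E) ^ 2)) :=
              Nat.mul_le_mul (card_pi_sub W hW) (Nat.mul_le_mul_right _ (card_pi_sub W' hW'))
          _ = 2521 ^ (4 * s + 4 * Fintype.card E) := by
              rw [← pow_mul, ← pow_add, ← pow_add, ← pow_add]
              congr 1
              ring)
  rw [Fintype.card_coe] at hT₁
  -- the fixed first parts
  choose av hav using hrow
  let hs : Fin 2 → Co E P Om → F := fun i j => match j with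
    | Sum.inl j => (c₀ t₁).1 i j
    | Sum.inr w => (av w).1 i
  let hs' : Fin 2 → Co E P Om → F := fun i j => match j with
    | Sum.inl j => (c₀ t₁).2 i j
    | Sum.inr w => (av w).2 i
  let T₁' : Finset (Ty N d × Ty N d) := T₁.map ⟨Subtype.val, Subtype.val_injective⟩
  have hT₁' : T₁' ⊆ 𝓕 := by
    intro β hβ
    obtain ⟨x, -, rfl⟩ := Finset.mem_map.mp hβ
    exact x.2
  have hT₁c : T₁'.card = T₁.card := Finset.card_map _
  have hfew : ∀ w, (T₁.filter fun s => hh s w ≠ av w).card ≤ b := by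
    intro w
    have h2 : ((T₁.filter fun s => hh s w ≠ av w).card : ℝ) * ((1 - 1 / 2) / M) ≤
        κ₀ * 𝓕.card := by
      have h2 := hav w
      rw [Fintype.card_coe] at h2
      convert h2
    have h3 : ((T₁.filter fun s => hh s w ≠ av w).card : ℝ) ≤ κ₀ * 𝓕.card * (2 * M) := by
      have h4 : ((T₁.filter fun s => hh s w ≠ av w).card : ℝ) =
          ((T₁.filter fun s => hh s w ≠ av w).card : ℝ) * ((1 - 1 / 2) / M) * (2 * M) := by
        field_simp
        norm_num
      rw [h4]
      exact mul_le_mul_of_nonneg_right h2 (by positivity)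
    exact_mod_cast h3.trans hb
  have hmap : ∀ (w : Om) (q : Ty N d × Ty N d → Prop) [DecidablePred q],
      (∀ x : 𝓕, q x.1 → hh x w ≠ av w) → (T₁'.filter q).card ≤ b := by
    intro w q _ hqq
    refine le_trans ?_ (hfew w)
    have h2 : T₁'.filter q ⊆ (T₁.filter fun s => hh s w ≠ av w).map
        ⟨Subtype.val, Subtype.val_injective⟩ := by
      intro β hβ
      obtain ⟨hβ1, hβ2⟩ := Finset.mem_filter.mp hβ
      obtain ⟨x, hx, rfl⟩ := Finset.mem_map.mp hβ1
      exact Finset.mem_map.mpr ⟨x, Finset.mem_filter.mpr ⟨hx, hqq x hβ2⟩, rfl⟩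
    exact (Finset.card_le_card h2).trans (le_of_eq (Finset.card_map _))
  have r1 := side_rank fr p hp a h1 hA hLD hne hJR H Ht hHt hspan T₁' hT₁' hs
    (by
      intro β hβ i j
      obtain ⟨x, hx, rfl⟩ := Finset.mem_map.mp hβ
      exact congrFun (congrFun (congrArg Prod.fst (hc x hx)) i) j)
    (b := b) (by
      intro w hw
      refine hmap w _ ?_
      rintro x ⟨i, hi⟩ heq
      apply hi
      have h2 := congrFun (congrArg Prod.fst heq) i
      change (if w ∈ fr.U a then 0 else Ht x.1 i (Sum.inr w)) = (av w).1 i at h2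
      rw [if_neg hw] at h2
      exact h2) hbκ
  have r2 := side_rank fr p hp a' h1 hA hLD hne hJR H' Ht' hHt' hspan' T₁' hT₁' hs'
    (by
      intro β hβ i j
      obtain ⟨x, hx, rfl⟩ := Finset.mem_map.mp hβ
      exact congrFun (congrFun (congrArg Prod.snd (hc x hx)) i) j)
    (b := b) (by
      intro w hw
      refine hmap w _ ?_
      rintro x ⟨i, hi⟩ heq
      apply hi
      have h2 := congrFun (congrArg Prod.snd heq) i
      change (if w ∈ fr.U a' then 0 else Ht' x.1 i (Sum.inr w)) = (av w).2 i at h2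
      rw [if_neg hw] at h2
      exact h2) hbκ
  let T₂ : Finset (Ty N d × Ty N d) := T₁'.filter fun β =>
    smm (H β) (g2 p β) - smm hs (g2 p β) ∈ (dsg fr p hp).Nn a ∧
      smm (H' β) (g2 p β) - smm hs' (g2 p β) ∈ (dsg fr p hp).Nn a'
  refine ⟨T₂, hs, hs', (Finset.filter_subset _ _).trans hT₁', ?_, ?_⟩
  · have h2 : T₁'.card ≤ T₂.card + (R + 3 * Fintype.card (Co E P Om)) +
        (R + 3 * Fintype.card (Co E P Om)) := by
      have h3 : T₁' ⊆ T₂ ∪ (T₁'.filter fun β => ¬ (smm (H β) (g2 p β) - smm hs (g2 p β) ∈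
          (dsg fr p hp).Nn a)) ∪ (T₁'.filter fun β => ¬ (smm (H' β) (g2 p β) -
          smm hs' (g2 p β) ∈ (dsg fr p hp).Nn a')) := by
        intro β hβ
        by_cases q1 : smm (H β) (g2 p β) - smm hs (g2 p β) ∈ (dsg fr p hp).Nn a
        · by_cases q2 : smm (H' β) (g2 p β) - smm hs' (g2 p β) ∈ (dsg fr p hp).Nn a'
          · exact Finset.mem_union_left _ (Finset.mem_union_left _
              (Finset.mem_filter.mpr ⟨hβ, q1, q2⟩))
          · exact Finset.mem_union_right _ (Finset.mem_filter.mpr ⟨hβ, q2⟩)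
        · exact Finset.mem_union_left _ (Finset.mem_union_right _
            (Finset.mem_filter.mpr ⟨hβ, q1⟩))
      refine (Finset.card_le_card h3).trans ((Finset.card_union_le _ _).trans
        (Nat.add_le_add ((Finset.card_union_le _ _).trans (Nat.add_le_add_left r1 _)) r2))
    rw [hT₁c] at h2
    have h3 : (T₁.card : ℝ) ≤ T₂.card + 2 * (R + 3 * Fintype.card (Co E P Om)) := by
      have : (T₁.card : ℝ) ≤ ((T₂.card + (R + 3 * Fintype.card (Co E P Om)) +
        (R + 3 * Fintype.card (Co E P Om)) : ℕ) : ℝ) := by exact_mod_cast h2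
      push_cast at this
      linarith
    have h4 : (𝓕.card : ℝ) ≤ 2 * M * T₁.card := by
      have h5 : (1 - 1 / 2) / (M : ℝ) * 𝓕.card * (2 * M) ≤ T₁.card * (2 * M) :=
        mul_le_mul_of_nonneg_right hT₁ (by positivity)
      have h6 : (1 - 1 / 2) / (M : ℝ) * 𝓕.card * (2 * M) = 𝓕.card := by
        field_simp
        norm_num
      rw [h6] at h5
      linarith
    calc (𝓕.card : ℝ) ≤ 2 * M * T₁.card := h4
      _ ≤ 2 * M * (T₂.card + 2 * (R + 3 * Fintype.card (Co E P Om))) :=
        mul_le_mul_of_nonneg_left h3 (by positivity)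
  · intro β hβ
    exact (Finset.mem_filter.mp hβ).2

end Vale.Agent.P060.HW
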