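import Vale.Agent.P060.HW.Exch

/-!
# The vertices of a random sample given a short history: exponential moment bound
-/

open scoped Classical

noncomputable section

set_option linter.unusedSectionVars false

namespace Vale.Agent.P060.HW

namespace Samp

variable {X : Type*} [Fintype X] {n m r : ℕ} (D : Samp X n m r)

/-- The history seen through prescribed positions. -/
def enc (T : Finset (Fin m)) (τ : {i // i ∈ T} → Fin r → Fin n) (s : Fin n → X) :
    Fin m → Option (Fin r → X) :=
  fun i => if h : i ∈ T then some (fun k => s (τ ⟨i, h⟩ k)) else none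

lemma R_eq_enc (T : Finset (Fin m)) (ω : D.Om) :
    D.R T ω = enc T (fun i k => D.e ω.1.1 (ω.2 i.1) k) ω.1.1 := by
  funext i
  unfold R enc
  split_ifs with h
  · rfl
  · rfl

/-- The number of sample points in a set. -/
def cnt {ι : Type*} [Fintype ι] (s : ι → X) (A : Finset X) : ℕ :=
  (Finset.univ.filter (fun i => s i ∈ A)).card

/-- The compensated exponent. -/
def Fex (lam : ℝ) (s : Fin n → X) (A : Finset X) : ℝ :=
  lam * cnt s A - n * (Real.exp lam - 1) * (A.card / (Fintype.card X : ℝ))

lemma exp_cnt {ι : Type*} [Fintype ι] (lam : ℝ) (v : ι → X) (A : Finset X) :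
    Real.exp (lam * cnt v A) = ∏ i, (if v i ∈ A then Real.exp lam else 1) := by
  rw [Finset.prod_ite, Finset.prod_const, Finset.prod_const_one, mul_one, cnt,
    ← Real.exp_nat_mul, mul_comm]

lemma sum_exp_cnt {ι : Type*} [Fintype ι] [DecidableEq ι] (lam : ℝ) (A : Finset X) :
    ∑ v : ι → X, Real.exp (lam * cnt v A)
      = (∑ x : X, if x ∈ A then Real.exp lam else 1) ^ Fintype.card ι := by
  have h := Finset.prod_univ_sum (fun _ : ι => (Finset.univ : Finset X))
    (fun _ x => if x ∈ A then Real.exp lam else 1)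
  rw [Fintype.piFinset_univ, Finset.prod_const, Finset.card_univ] at h
  rw [h]
  exact Finset.sum_congr rfl fun v _ => exp_cnt lam v A

lemma sum_ite_exp_le (hX : 0 < Fintype.card X) (lam : ℝ) (A : Finset X) :
    ∑ x : X, (if x ∈ A then Real.exp lam else 1)
      ≤ Fintype.card X * Real.exp ((Real.exp lam - 1) * (A.card / (Fintype.card X : ℝ))) := by
  have hX' : (0 : ℝ) < Fintype.card X := by exact_mod_cast hX
  have h1 : ∑ x : X, (if x ∈ A then Real.exp lam else 1)
      = Fintype.card X + (Real.exp lam - 1) * A.card := by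
    have : ∀ x : X, (if x ∈ A then Real.exp lam else 1)
        = 1 + (if x ∈ A then Real.exp lam - 1 else 0) := by
      intro x; split_ifs <;> ring
    rw [Finset.sum_congr rfl fun x _ => this x, Finset.sum_add_distrib, ← Finset.sum_filter]
    simp
    ring
  rw [h1]
  have h2 := Real.add_one_le_exp ((Real.exp lam - 1) * (A.card / (Fintype.card X : ℝ)))
  have h3 : (Fintype.card X : ℝ) + (Real.exp lam - 1) * A.card
      = Fintype.card X * ((Real.exp lam - 1) * (A.card / (Fintype.card X : ℝ)) + 1) := by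
    field_simp
    ring
  rw [h3]
  exact mul_le_mul_of_nonneg_left h2 hX'.le

/-- The exponential moment under the planted law. -/
lemma planted_le (hX : 0 < Fintype.card X) {lam : ℝ} (hlam : 0 ≤ lam) (T : Finset (Fin m))
    (τ : {i // i ∈ T} → Fin r → Fin n) (A : (Fin m → Option (Fin r → X)) → Finset X) :
    ∑ s : Fin n → X, Real.exp (Fex lam s (A (enc T τ s)))
      ≤ Real.exp (lam * (T.card * r)) * (Fintype.card X : ℝ) ^ n := by
  have hX' : (0 : ℝ) < Fintype.card X := by exact_mod_cast hX
  have he : 0 ≤ Real.exp lam - 1 := by have := Real.add_one_le_exp lam; linarith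
  set U : Finset (Fin n) := Finset.univ.image (fun q : {i // i ∈ T} × Fin r => τ q.1 q.2) with hU
  have hUc : U.card ≤ T.card * r := by
    refine Finset.card_image_le.trans ?_
    simp
  have hmem : ∀ i k, τ i k ∈ U := fun i k => by
    rw [hU, Finset.mem_image]; exact ⟨(i, k), Finset.mem_univ _, rfl⟩
  set E := Equiv.piEquivPiSubtypeProd (fun i : Fin n => i ∈ U) (fun _ => X) with hE
  let cu : ({i // i ∈ U} → X) → (Fin m → Option (Fin r → X)) := fun u i =>
    if h : i ∈ T then some (fun k => u ⟨τ ⟨i, h⟩ k, hmem _ _⟩) else none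
  have hUval : ∀ u v (i : Fin n) (hi : i ∈ U), E.symm (u, v) i = u ⟨i, hi⟩ := by
    intro u v i hi
    simp [hE, Equiv.piEquivPiSubtypeProd, hi]
  have hVval : ∀ u v (i : Fin n) (hi : i ∉ U), E.symm (u, v) i = v ⟨i, hi⟩ := by
    intro u v i hi
    simp [hE, Equiv.piEquivPiSubtypeProd, hi]
  have henc : ∀ u v, enc T τ (E.symm (u, v)) = cu u := by
    intro u v
    funext i
    simp only [enc, cu]
    split_ifs with h
    · congr 1
      funext k
      rw [hUval u v _ (hmem _ _)]
    · rfl
  have hcnt : ∀ u v (B : Finset X), cnt (E.symm (u, v)) B ≤ U.card + cnt v B := by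
    intro u v B
    unfold cnt
    have hsub : Finset.univ.filter (fun i => E.symm (u, v) i ∈ B)
        ⊆ U ∪ (Finset.univ.filter (fun i : {i // i ∉ U} => v i ∈ B)).image Subtype.val := by
      intro i hi
      rw [Finset.mem_union]
      by_cases h : i ∈ U
      · exact Or.inl h
      · right
        rw [Finset.mem_image]
        refine ⟨⟨i, h⟩, ?_, rfl⟩
        rw [Finset.mem_filter] at hi ⊢
        refine ⟨Finset.mem_univ _, ?_⟩
        rw [← hVval u v i h]
        exact hi.2
    refine (Finset.card_le_card hsub).trans ((Finset.card_union_le _ _).trans ?_)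
    exact Nat.add_le_add_left Finset.card_image_le _
  have hcard : Fintype.card {i : Fin n // i ∈ U} + Fintype.card {i : Fin n // i ∉ U} = n := by
    have := Fintype.card_subtype_compl (fun i : Fin n => i ∈ U)
    have h2 := Fintype.card_subtype_le (fun i : Fin n => i ∈ U)
    rw [Fintype.card_fin] at this h2
    omega
  have hcardle : Fintype.card {i : Fin n // i ∉ U} ≤ n := by omega
  have step : ∀ u, ∑ v : {i : Fin n // i ∉ U} → X,
      Real.exp (Fex lam (E.symm (u, v)) (A (enc T τ (E.symm (u, v)))))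
        ≤ Real.exp (lam * (T.card * r)) * (Fintype.card X : ℝ) ^ Fintype.card {i : Fin n // i ∉ U} := by
    intro u
    set B := A (cu u) with hB
    have h1 : ∀ v, Real.exp (Fex lam (E.symm (u, v)) (A (enc T τ (E.symm (u, v)))))
        ≤ (Real.exp (lam * (T.card * r))
          * Real.exp (-(n * (Real.exp lam - 1) * (B.card / (Fintype.card X : ℝ)))))
            * Real.exp (lam * cnt v B) := by
      intro v
      rw [henc, ← hB, ← Real.exp_add, ← Real.exp_add]
      apply Real.exp_le_exp.2
      unfold Fex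
      have h2 : (cnt (E.symm (u, v)) B : ℝ) ≤ T.card * r + cnt v B := by
        have := hcnt u v B
        have h3 : cnt (E.symm (u, v)) B ≤ T.card * r + cnt v B := by omega
        exact_mod_cast h3
      have := mul_le_mul_of_nonneg_left h2 hlam
      linarith
    refine (Finset.sum_le_sum fun v _ => h1 v).trans ?_
    rw [← Finset.mul_sum, sum_exp_cnt]
    have h4 := sum_ite_exp_le hX lam B
    have h5 : (∑ x : X, if x ∈ B then Real.exp lam else 1) ^ Fintype.card {i : Fin n // i ∉ U}
        ≤ (Fintype.card X : ℝ) ^ Fintype.card {i : Fin n // i ∉ U}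
          * Real.exp (n * (Real.exp lam - 1) * (B.card / (Fintype.card X : ℝ))) := by
      refine (pow_le_pow_left₀ (Finset.sum_nonneg fun x _ => by split_ifs <;> positivity) h4 _).trans ?_
      rw [mul_pow, ← Real.exp_nat_mul]
      refine mul_le_mul_of_nonneg_left (Real.exp_le_exp.2 ?_) (by positivity)
      have h6 : 0 ≤ (Real.exp lam - 1) * (B.card / (Fintype.card X : ℝ)) := by positivity
      have h7 : (Fintype.card {i : Fin n // i ∉ U} : ℝ) ≤ n := by exact_mod_cast hcardle
      calc _ ≤ (n : ℝ) * ((Real.exp lam - 1) * (B.card / (Fintype.card X : ℝ))) :=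
            mul_le_mul_of_nonneg_right h7 h6
        _ = _ := by ring
    refine (mul_le_mul_of_nonneg_left h5 (by positivity)).trans (le_of_eq ?_)
    rw [Real.exp_neg]
    have h8 := Real.exp_pos (n * (Real.exp lam - 1) * (B.card / (Fintype.card X : ℝ)))
    field_simp
  have hsum : ∑ s : Fin n → X, Real.exp (Fex lam s (A (enc T τ s)))
      = ∑ u, ∑ v, Real.exp (Fex lam (E.symm (u, v)) (A (enc T τ (E.symm (u, v))))) := by
    rw [← Fintype.sum_prod_type' (f := fun u v =>
      Real.exp (Fex lam (E.symm (u, v)) (A (enc T τ (E.symm (u, v))))))]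
    exact (Equiv.sum_comp E.symm (fun s => Real.exp (Fex lam s (A (enc T τ s))))).symm
  rw [hsum]
  refine (Finset.sum_le_sum fun u _ => step u).trans (le_of_eq ?_)
  rw [Finset.sum_const, nsmul_eq_mul, Finset.card_univ, Fintype.card_fun]
  push_cast
  rw [mul_left_comm, ← pow_add, hcard]

/-- The exponential moment under the law of the sample. -/
lemma exp_moment_le (hX : 0 < Fintype.card X) {lam : ℝ} (hlam : 0 ≤ lam) (T : Finset (Fin m))
    (A : (Fin m → Option (Fin r → X)) → Finset X) :
    ∑ ω, D.P.w ω * Real.exp (Fex lam ω.1.1 (A (D.R T ω)))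
      ≤ (Fintype.card X : ℝ) ^ n / D.S.card * ((n : ℝ) ^ (r * T.card)
        * Real.exp (lam * (T.card * r))) := by
  have hS : (0 : ℝ) < D.S.card := by exact_mod_cast D.ne.card_pos
  have hf : (0 : ℝ) < m.factorial := by exact_mod_cast Nat.factorial_pos m
  have h1 : ∀ ω : D.Om, Real.exp (Fex lam ω.1.1 (A (D.R T ω)))
      ≤ ∑ τ : {i // i ∈ T} → Fin r → Fin n, Real.exp (Fex lam ω.1.1 (A (enc T τ ω.1.1))) := by
    intro ω
    rw [R_eq_enc]
    exact Finset.single_le_sum
      (f := fun τ : {i // i ∈ T} → Fin r → Fin n => Real.exp (Fex lam ω.1.1 (A (enc T τ ω.1.1))))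
      (fun τ _ => (Real.exp_pos _).le) (Finset.mem_univ _)
  simp only [P_w]
  rw [← Finset.mul_sum, card_Om]
  have h2 : ∑ ω : D.Om, Real.exp (Fex lam ω.1.1 (A (D.R T ω)))
      ≤ m.factorial * ((n : ℝ) ^ (r * T.card)
        * (Real.exp (lam * (T.card * r)) * (Fintype.card X : ℝ) ^ n)) := by
    refine (Finset.sum_le_sum fun ω _ => h1 ω).trans ?_
    rw [Fintype.sum_prod_type]
    simp only [Finset.sum_const, nsmul_eq_mul]
    rw [← Finset.mul_sum, Finset.card_univ, Fintype.card_perm, Fintype.card_fin]
    refine mul_le_mul_of_nonneg_left ?_ hf.le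
    rw [Finset.sum_comm]
    have h3 : ∀ τ : {i // i ∈ T} → Fin r → Fin n,
        ∑ s : {s // s ∈ D.S}, Real.exp (Fex lam s.1 (A (enc T τ s.1)))
          ≤ Real.exp (lam * (T.card * r)) * (Fintype.card X : ℝ) ^ n := by
      intro τ
      refine le_trans ?_ (planted_le hX hlam T τ A)
      rw [Finset.sum_coe_sort D.S (fun s => Real.exp (Fex lam s (A (enc T τ s))))]
      exact Finset.sum_le_sum_of_subset_of_nonneg (Finset.subset_univ _)
        (fun s _ _ => (Real.exp_pos _).le)
    refine (Finset.sum_le_sum fun τ _ => h3 τ).trans (le_of_eq ?_)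
    rw [Finset.sum_const, nsmul_eq_mul, Finset.card_univ]
    congr 1
    rw [Fintype.card_fun, Fintype.card_fun]
    simp [← pow_mul]
  refine (mul_le_mul_of_nonneg_left h2 (by positivity)).trans (le_of_eq ?_)
  field_simp

/-- Expected number of sample points in a history dependent set. -/
lemma cnt_le (hX : 0 < Fintype.card X) (hn : 0 < n) {lam : ℝ} (hlam : 0 ≤ lam)
    (T : Finset (Fin m)) (A : (Fin m → Option (Fin r → X)) → Finset X) :
    ∑ ω, D.P.w ω * Fex lam ω.1.1 (A (D.R T ω))
      ≤ Real.log ((Fintype.card X : ℝ) ^ n / D.S.card) + r * T.card * Real.log n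
        + lam * (T.card * r) := by
  have hS : (0 : ℝ) < D.S.card := by exact_mod_cast D.ne.card_pos
  have hX' : (0 : ℝ) < Fintype.card X := by exact_mod_cast hX
  have hn' : (0 : ℝ) < n := by exact_mod_cast hn
  set M := (Fintype.card X : ℝ) ^ n / D.S.card * ((n : ℝ) ^ (r * T.card)
        * Real.exp (lam * (T.card * r))) with hM
  have hM0 : 0 < M := by positivity
  have hlog : Real.log M = Real.log ((Fintype.card X : ℝ) ^ n / D.S.card)
      + r * T.card * Real.log n + lam * (T.card * r) := by
    rw [hM, Real.log_mul (by positivity) (by positivity),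
      Real.log_mul (by positivity) (by positivity), Real.log_exp, Real.log_pow]
    push_cast
    ring
  rw [← hlog]
  have h1 := D.exp_moment_le hX hlam T A
  rw [← hM] at h1
  have h2 : ∀ ω : D.Om, D.P.w ω * (M * (1 + (Fex lam ω.1.1 (A (D.R T ω)) - Real.log M)))
      ≤ D.P.w ω * Real.exp (Fex lam ω.1.1 (A (D.R T ω))) := by
    intro ω
    refine mul_le_mul_of_nonneg_left ?_ (D.P.nonneg ω)
    have h3 := Real.add_one_le_exp (Fex lam ω.1.1 (A (D.R T ω)) - Real.log M)
    have h4 : Real.exp (Fex lam ω.1.1 (A (D.R T ω)))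
        = M * Real.exp (Fex lam ω.1.1 (A (D.R T ω)) - Real.log M) := by
      rw [Real.exp_sub, Real.exp_log hM0]
      field_simp
    rw [h4]
    refine mul_le_mul_of_nonneg_left ?_ hM0.le
    linarith
  have h5 := (Finset.sum_le_sum fun ω _ => h2 ω).trans h1
  have h6 : ∑ ω : D.Om, D.P.w ω * (M * (1 + (Fex lam ω.1.1 (A (D.R T ω)) - Real.log M)))
      = M * (1 + (∑ ω, D.P.w ω * Fex lam ω.1.1 (A (D.R T ω)) - Real.log M)) := by
    have : ∀ ω : D.Om, D.P.w ω * (M * (1 + (Fex lam ω.1.1 (A (D.R T ω)) - Real.log M)))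
        = M * (D.P.w ω * Fex lam ω.1.1 (A (D.R T ω))) + M * (1 - Real.log M) * D.P.w ω := by
      intro ω; ring
    rw [Finset.sum_congr rfl fun ω _ => this ω, Finset.sum_add_distrib, ← Finset.mul_sum,
      ← Finset.mul_sum, D.P.sum_one]
    ring
  rw [h6] at h5
  have h7 : 1 + (∑ ω, D.P.w ω * Fex lam ω.1.1 (A (D.R T ω)) - Real.log M) ≤ 1 := by
    by_contra hcon
    push Not at hcon
    have := mul_lt_mul_of_pos_left hcon hM0
    linarith
  linarith

end Samp

end Vale.Agent.P060.HW
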