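import Vale.Agent.P060.HW.Blocks

/-!
# OUT-A: the core statement

Among many pairwise line-disjoint types with dense sets of parameters there are two different types
with many adjacent pairs.
-/

open scoped Classical

noncomputable section

set_option linter.unusedSectionVars false

namespace Vale.Agent.P060.HW

/-- Core of OUT-A. -/
def NOACore : Prop := ∀ δ : ℝ, 0 < δ → ∃ M : ℕ, ∀ (N d : ℕ) (E P Om : Type) [Fintype E] [Fintype P]
  [Fintype Om] [NeZero N] (fr : Frame N d E Om) (p : Lin N → Co E P Om → F) (h : Ext fr p)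
  (κ : ℕ), 12 ≤ κ → (∀ w, 12 + (rowLines fr w).card ≤ κ) → Ev1 p κ →
  ∀ (S : Finset (Ty N d)), M ≤ S.card → (∀ a ∈ S, ∀ b ∈ S, a ≠ b → Disjoint (lins a) (lins b)) →
  ∀ (A : Ty N d → Finset (Matrix (Co E P Om) (Co E P Om) F)) (ι : Ty N d → Bool),
    (∀ a ∈ S, δ * Fintype.card (Matrix (Co E P Om) (Co E P Om) F) ≤ ((A a).card : ℝ)) →
    ∃ a ∈ S, ∃ b ∈ S, a ≠ b ∧
      δ ^ 2 * (Fintype.card (Matrix (Co E P Om) (Co E P Om) F) : ℝ) ^ 2 ≤
        20168 * (2521 : ℝ) ^ Fintype.card (Co E P Om) *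
          (((A a ×ˢ A b).filter fun x =>
            (dsg fr p h).Adj (a, ι a, x.1) (b, ι b, x.2)).card : ℝ)

end Vale.Agent.P060.HW
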