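import Vale.Agent.P060.HW.Pinsker
import Vale.Agent.P060.HW.Conv

/-!
# P060/HW: from entropies to mixtures of convolutions

`near_conv2`: if, given `Z`, the variables `X₁, X₂ : Ω → V` have entropy deficit at most `K` on a
coset of `N` and conditional mutual information at most `e`, then the law of `X₁ + X₂` is close in
`ℓ¹` to a mixture of convolutions of laws of density at most `L / |N|`: the input of
`conv2_field`.  `near_conv3`: the same for three variables.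
-/

open scoped Classical
open Finset Module

noncomputable section

namespace Vale.Agent.P060.HW

section Trunc

variable {V : Type*}

/-- Truncation of a weight at height `B`. -/
def trunc (B : ℝ) (ρ : V → ℝ) (x : V) : ℝ := if ρ x ≤ B then ρ x else 0

lemma trunc_nonneg {B : ℝ} {ρ : V → ℝ} (h : ∀ x, 0 ≤ ρ x) (x : V) : 0 ≤ trunc B ρ x := by
  unfold trunc; split_ifs; exacts [h x, le_rfl]

lemma trunc_le_self {B : ℝ} {ρ : V → ℝ} (h : ∀ x, 0 ≤ ρ x) (x : V) : trunc B ρ x ≤ ρ x := by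
  unfold trunc; split_ifs; exacts [le_rfl, h x]

lemma trunc_le {B : ℝ} (hB : 0 ≤ B) (ρ : V → ℝ) (x : V) : trunc B ρ x ≤ B := by
  unfold trunc; split_ifs with h; exacts [h, hB]

lemma trunc_ne_zero {B : ℝ} {ρ : V → ℝ} {x : V} (h : trunc B ρ x ≠ 0) : ρ x ≠ 0 := by
  unfold trunc at h
  split_ifs at h with h'
  · exact h
  · exact absurd rfl h

end Trunc

namespace FinProb

variable {Ω : Type*} [Fintype Ω] (P : FinProb Ω) {V ζ : Type*}

/-- Conditional law of `X` given `Z = z`. -/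
def ncond (X : Ω → V) (Z : Ω → ζ) (z : ζ) (x : V) : ℝ :=
  P.p (fun ω => (X ω, Z ω)) (x, z) / P.p Z z

lemma ncond_nonneg (X : Ω → V) (Z : Ω → ζ) (z : ζ) (x : V) : 0 ≤ P.ncond X Z z x :=
  div_nonneg (P.p_nonneg _ _) (P.p_nonneg _ _)

lemma sum_ncond_le [Fintype V] (X : Ω → V) (Z : Ω → ζ) (z : ζ) : ∑ x, P.ncond X Z z x ≤ 1 := by
  unfold ncond
  rw [← Finset.sum_div, P.sum_p_marg X Z z]
  exact div_self_le_one _

lemma p_pair_le (X : Ω → V) (Z : Ω → ζ) (z : ζ) (x : V) :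
    P.p (fun ω => (X ω, Z ω)) (x, z) ≤ P.p Z z := by
  unfold p
  refine Finset.sum_le_sum fun ω _ => ?_
  split_ifs with h1 h2 h2
  · exact le_rfl
  · exact absurd (Prod.ext_iff.1 h1).2 h2
  · exact P.nonneg ω
  · exact le_rfl

lemma mul_cond (X : Ω → V) (Z : Ω → ζ) (z : ζ) (x : V) :
    P.p Z z * P.ncond X Z z x = P.p (fun ω => (X ω, Z ω)) (x, z) := by
  unfold ncond
  rcases (P.p_nonneg Z z).eq_or_lt with h | h
  · have := P.p_pair_le X Z z x
    rw [← h] at this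
    rw [← h, zero_mul]
    exact (le_antisymm this (P.p_nonneg _ _)).symm
  · field_simp

lemma ncond_ne_zero {X : Ω → V} {Z : Ω → ζ} {z : ζ} {x : V} (h : P.ncond X Z z x ≠ 0) :
    ∃ ω, 0 < P.w ω ∧ X ω = x ∧ Z ω = z := by
  have h1 : P.p (fun ω => (X ω, Z ω)) (x, z) ≠ 0 := by
    intro h0
    exact h (by unfold ncond; rw [h0, zero_div])
  obtain ⟨ω, h2, h3⟩ := P.p_pos_iff_exists.1 (lt_of_le_of_ne (P.p_nonneg _ _) h1.symm)
  exact ⟨ω, h2, (Prod.ext_iff.1 h3).1, (Prod.ext_iff.1 h3).2⟩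

end FinProb

section Laws

variable {F V : Type*} [Field F] [AddCommGroup V] [Module F V] [Fintype V]
variable {Ω : Type*} [Fintype Ω] (P : FinProb Ω) {ζ : Type*} [Fintype ζ]

omit [Fintype ζ] in
lemma isLaw_trunc_cond {N : Submodule F V} {X : Ω → V} {Z : Ω → ζ} {a : ζ → V}
    (h : ∀ ω, 0 < P.w ω → X ω - a (Z ω) ∈ N) (B : ℝ) (z : ζ) :
    IsLaw N (trunc B (P.ncond X Z z)) (a z) := by
  refine ⟨trunc_nonneg (P.ncond_nonneg X Z z), ?_, ?_⟩
  · exact (Finset.sum_le_sum fun x _ => trunc_le_self (P.ncond_nonneg X Z z) x).trans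
      (P.sum_ncond_le X Z z)
  · intro x hx
    obtain ⟨ω, h1, h2, h3⟩ := P.ncond_ne_zero (trunc_ne_zero hx)
    have := h ω h1
    rwa [h2, h3] at this

omit [Fintype ζ] in
lemma sum_coset_ind (N : Submodule F V) (a : V) (c : ℝ) :
    ∑ x : V, (if x - a ∈ N then c / (carr N).card else 0) = c := by
  have hN := carr_card_pos N
  have h1 : ∑ x : V, (if x - a ∈ N then c / (carr N).card else 0)
      = ∑ x : V, (if x ∈ carr N then c / ((carr N).card : ℝ) else 0) := by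
    refine Fintype.sum_equiv (Equiv.subRight a) _ _ fun x => ?_
    simp [mem_carr]
  rw [h1, Finset.sum_ite_mem, Finset.univ_inter, Finset.sum_const, nsmul_eq_mul]
  field_simp

/-- Entropy deficit of `X` given `Z`, relative to the cosets of `N`. -/
def defi (N : Submodule F V) (X : Ω → V) (Z : Ω → ζ) : ℝ :=
  Real.log (carr N).card - (P.H (fun ω => (X ω, Z ω)) - P.H Z)

/-- Truncation loss. -/
theorem loss_le {N : Submodule F V} {X : Ω → V} {Z : Ω → ζ} {a : ζ → V}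
    (h : ∀ ω, 0 < P.w ω → X ω - a (Z ω) ∈ N) {K L : ℝ} (hK : defi P N X Z ≤ K) (hL : 1 < L) :
    ∑ z, ∑ x, P.p Z z * (P.ncond X Z z x - trunc (L / (carr N).card) (P.ncond X Z z) x)
      ≤ (K + 1) / Real.log L := by
  have hN := carr_card_pos N
  set q : V × ζ → ℝ := fun y => if y.1 - a y.2 ∈ N then P.p Z y.2 / (carr N).card else 0 with hq
  have hq0 : ∀ y, 0 ≤ q y := by
    intro y
    rw [hq]; simp only
    split_ifs
    · exact div_nonneg (P.p_nonneg _ _) hN.le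
    · exact le_rfl
  have hpq : ∀ y : V × ζ, 0 < P.p (fun ω => (X ω, Z ω)) y →
      y.1 - a y.2 ∈ N ∧ 0 < P.p Z y.2 := by
    intro y hy
    obtain ⟨ω, h0, rfl⟩ := P.p_pos_iff_exists.1 hy
    exact ⟨h ω h0, P.p_pos h0 Z⟩
  have hq1 : ∑ y, q y ≤ 1 := by
    rw [Fintype.sum_prod_type_right]
    have : ∀ z, ∑ x, q (x, z) = P.p Z z := fun z => by
      rw [hq]; exact sum_coset_ind N (a z) (P.p Z z)
    rw [Finset.sum_congr rfl fun z _ => this z, P.sum_p_univ]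
  have hmain := trunc_mass univ (P.p (fun ω => (X ω, Z ω))) q (fun y _ => P.p_nonneg _ y)
    (fun y _ => hq0 y) (fun y _ hy => by
      obtain ⟨h1, h2⟩ := hpq y hy
      rw [hq]; simp only
      rw [if_pos h1]
      positivity) hq1 hL
  have hKL : ∑ y, P.p (fun ω => (X ω, Z ω)) y
      * (Real.log (P.p (fun ω => (X ω, Z ω)) y) - Real.log (q y)) = defi P N X Z := by
    rw [← P.sum_p_mul_univ (fun ω => (X ω, Z ω)) (fun y =>
      Real.log (P.p (fun ω => (X ω, Z ω)) y) - Real.log (q y))]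
    unfold defi FinProb.H
    have : Real.log (carr N).card = ∑ ω, P.w ω * Real.log (carr N).card := by
      rw [← Finset.sum_mul, P.sum_one, one_mul]
    rw [this, ← Finset.sum_sub_distrib, ← Finset.sum_sub_distrib]
    refine Finset.sum_congr rfl fun ω _ => ?_
    rcases P.w_zero_or_pos ω with h0 | h0
    · simp [h0]
    · rw [hq]; simp only
      rw [if_pos (h ω h0), Real.log_div (P.p_pos h0 Z).ne' hN.ne']
      ring
  rw [hKL] at hmain
  have hlog : 0 < Real.log L := Real.log_pos hL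
  refine le_trans ?_ (hmain.trans (by gcongr))
  rw [Finset.sum_filter, Fintype.sum_prod_type_right]
  refine Finset.sum_le_sum fun z _ => Finset.sum_le_sum fun x _ => ?_
  unfold trunc
  by_cases hc : P.ncond X Z z x ≤ L / (carr N).card
  · rw [if_pos hc, sub_self, mul_zero]
    split_ifs
    exacts [P.p_nonneg _ _, le_rfl]
  · rw [if_neg hc, sub_zero, P.mul_cond X Z z x]
    push Not at hc
    have hcz : 0 < P.ncond X Z z x := lt_of_le_of_lt (by positivity) hc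
    have hz : 0 < P.p Z z := by
      rcases (P.p_nonneg Z z).eq_or_lt with h0 | h0
      · unfold FinProb.ncond at hcz
        rw [← h0, div_zero] at hcz
        exact absurd hcz (lt_irrefl _)
      · exact h0
    have hlt : L * q (x, z) < P.p (fun ω => (X ω, Z ω)) (x, z) := by
      have h1 : q (x, z) ≤ P.p Z z / (carr N).card := by
        rw [hq]; simp only
        split_ifs
        exacts [le_rfl, by positivity]
      calc L * q (x, z) ≤ L * (P.p Z z / (carr N).card) :=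
            mul_le_mul_of_nonneg_left h1 (by linarith)
        _ = P.p Z z * (L / (carr N).card) := by ring
        _ < P.p Z z * P.ncond X Z z x := mul_lt_mul_of_pos_left hc hz
        _ = _ := P.mul_cond X Z z x
    rw [if_pos hlt]

omit [Fintype ζ] in
lemma sum_cnv_le (f : V → V → ℝ) :
    ∑ x, |∑ u, f u (x - u)| ≤ ∑ u, ∑ v, |f u v| := by
  calc ∑ x, |∑ u, f u (x - u)| ≤ ∑ x, ∑ u, |f u (x - u)| :=
        Finset.sum_le_sum fun x _ => Finset.abs_sum_le_sum_abs _ _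
    _ = ∑ u, ∑ x, |f u (x - u)| := Finset.sum_comm
    _ = ∑ u, ∑ v, |f u v| := by
        refine Finset.sum_congr rfl fun u _ => ?_
        exact Fintype.sum_equiv (Equiv.subRight u) _ _ fun x => rfl

/-- Law of a sum. -/
lemma p_add_eq (X₁ X₂ : Ω → V) (Z : Ω → ζ) (x : V) :
    P.p (fun ω => X₁ ω + X₂ ω) x
      = ∑ z, ∑ u, P.p (fun ω => (X₁ ω, X₂ ω, Z ω)) (u, x - u, z) := by
  have h0 := P.p_comp_eq_sum (fun ω => (X₁ ω, X₂ ω, Z ω)) (fun y : V × V × ζ => y.1 + y.2.1) x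
  simp only at h0
  rw [h0, Fintype.sum_prod_type]
  simp_rw [Fintype.sum_prod_type_right]
  rw [Finset.sum_comm]
  refine Finset.sum_congr rfl fun z _ => Finset.sum_congr rfl fun u _ => ?_
  rw [Finset.sum_eq_single (x - u)]
  · simp
  · intro b _ hb
    rw [if_neg]
    intro h
    exact hb (by rw [← h]; abel)
  · intro hb
    exact absurd (Finset.mem_univ _) hb

/-- **From entropies to mixtures of convolutions, two groups.** -/
theorem near_conv2 {N : Submodule F V} {X₁ X₂ : Ω → V} {Z : Ω → ζ} {a₁ a₂ : ζ → V}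
    (h₁ : ∀ ω, 0 < P.w ω → X₁ ω - a₁ (Z ω) ∈ N) (h₂ : ∀ ω, 0 < P.w ω → X₂ ω - a₂ (Z ω) ∈ N)
    {K e L : ℝ} (hK₁ : defi P N X₁ Z ≤ K) (hK₂ : defi P N X₂ Z ≤ K)
    (hI : P.info X₁ X₂ Z ≤ e) (hL : 1 < L) :
    ∃ (w : ζ → ℝ) (ρ₁ ρ₂ : ζ → V → ℝ), (∀ z, 0 ≤ w z) ∧ ∑ z, w z ≤ 1 ∧
      (∀ z, IsLaw N (ρ₁ z) (a₁ z)) ∧ (∀ z, IsLaw N (ρ₂ z) (a₂ z)) ∧
      (∀ z x, ρ₁ z x ≤ L / (carr N).card) ∧ (∀ z x, ρ₂ z x ≤ L / (carr N).card) ∧
      ∑ x, |P.p (fun ω => X₁ ω + X₂ ω) x - ∑ z, w z * cnv (ρ₁ z) (ρ₂ z) x|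
        ≤ 2 * Real.sqrt e + 2 * ((K + 1) / Real.log L) := by
  have hN := carr_card_pos N
  have hB : 0 ≤ L / ((carr N).card : ℝ) := by positivity
  set c₁ := P.ncond X₁ Z with hc₁
  set c₂ := P.ncond X₂ Z with hc₂
  set ρ₁ : ζ → V → ℝ := fun z => trunc (L / (carr N).card) (c₁ z) with hρ₁
  set ρ₂ : ζ → V → ℝ := fun z => trunc (L / (carr N).card) (c₂ z) with hρ₂
  refine ⟨P.p Z, ρ₁, ρ₂, fun z => P.p_nonneg Z z, (P.sum_p_univ Z).le,
    fun z => isLaw_trunc_cond P h₁ _ z, fun z => isLaw_trunc_cond P h₂ _ z,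
    fun z x => trunc_le hB _ x, fun z x => trunc_le hB _ x, ?_⟩
  set C := P.p (fun ω => (X₁ ω, X₂ ω, Z ω)) with hC
  have hc0₁ : ∀ z x, 0 ≤ c₁ z x := fun z x => P.ncond_nonneg X₁ Z z x
  have hc0₂ : ∀ z x, 0 ≤ c₂ z x := fun z x => P.ncond_nonneg X₂ Z z x
  have hr0₁ : ∀ z x, 0 ≤ ρ₁ z x := fun z x => trunc_nonneg (hc0₁ z) x
  have hr0₂ : ∀ z x, 0 ≤ ρ₂ z x := fun z x => trunc_nonneg (hc0₂ z) x
  have hrc₁ : ∀ z x, ρ₁ z x ≤ c₁ z x := fun z x => trunc_le_self (hc0₁ z) x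
  have hrc₂ : ∀ z x, ρ₂ z x ≤ c₂ z x := fun z x => trunc_le_self (hc0₂ z) x
  have hq0 : ∀ z, 0 ≤ P.p Z z := fun z => P.p_nonneg Z z
  -- rewrite as a sum over triples
  have e1 : ∀ x, P.p (fun ω => X₁ ω + X₂ ω) x - ∑ z, P.p Z z * cnv (ρ₁ z) (ρ₂ z) x
      = ∑ z, ∑ u, (C (u, x - u, z) - P.p Z z * (ρ₁ z u * ρ₂ z (x - u))) := by
    intro x
    rw [p_add_eq P X₁ X₂ Z x, ← Finset.sum_sub_distrib]
    refine Finset.sum_congr rfl fun z _ => ?_
    rw [Finset.sum_sub_distrib, ← Finset.mul_sum]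
    rfl
  have e2 : ∑ x, |P.p (fun ω => X₁ ω + X₂ ω) x - ∑ z, P.p Z z * cnv (ρ₁ z) (ρ₂ z) x|
      ≤ ∑ z, ∑ u, ∑ v, |C (u, v, z) - P.p Z z * (ρ₁ z u * ρ₂ z v)| := by
    calc ∑ x, |P.p (fun ω => X₁ ω + X₂ ω) x - ∑ z, P.p Z z * cnv (ρ₁ z) (ρ₂ z) x|
        ≤ ∑ x, ∑ z, |∑ u, (C (u, x - u, z) - P.p Z z * (ρ₁ z u * ρ₂ z (x - u)))| := by
          refine Finset.sum_le_sum fun x _ => ?_
          rw [e1 x]
          exact Finset.abs_sum_le_sum_abs _ _
      _ = ∑ z, ∑ x, |∑ u, (C (u, x - u, z) - P.p Z z * (ρ₁ z u * ρ₂ z (x - u)))| :=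
          Finset.sum_comm
      _ ≤ _ := Finset.sum_le_sum fun z _ =>
          sum_cnv_le fun u v => C (u, v, z) - P.p Z z * (ρ₁ z u * ρ₂ z v)
  refine e2.trans ?_
  -- pointwise bound
  have e3 : ∀ z u v, |C (u, v, z) - P.p Z z * (ρ₁ z u * ρ₂ z v)|
      ≤ |C (u, v, z) - P.p (fun ω => (X₁ ω, Z ω)) (u, z) * P.p (fun ω => (X₂ ω, Z ω)) (v, z)
          / P.p Z z|
        + (P.p Z z * (c₁ z u - ρ₁ z u) * c₂ z v + c₁ z u * (P.p Z z * (c₂ z v - ρ₂ z v))) := by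
    intro z u v
    have h1 : P.p (fun ω => (X₁ ω, Z ω)) (u, z) * P.p (fun ω => (X₂ ω, Z ω)) (v, z) / P.p Z z
        = P.p Z z * (c₁ z u * c₂ z v) := by
      rw [← P.mul_cond X₁ Z z u, ← P.mul_cond X₂ Z z v]
      rcases (hq0 z).eq_or_lt with h0 | h0
      · rw [← h0]; simp
      · rw [hc₁, hc₂]
        field_simp
    rw [h1]
    have h2 : C (u, v, z) - P.p Z z * (ρ₁ z u * ρ₂ z v)
        = (C (u, v, z) - P.p Z z * (c₁ z u * c₂ z v))
          + P.p Z z * (c₁ z u * c₂ z v - ρ₁ z u * ρ₂ z v) := by ring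
    rw [h2]
    refine (abs_add_le _ _).trans (add_le_add le_rfl ?_)
    have h3 : ρ₁ z u * ρ₂ z v ≤ c₁ z u * c₂ z v :=
      mul_le_mul (hrc₁ z u) (hrc₂ z v) (hr0₂ z v) (hc0₁ z u)
    rw [abs_of_nonneg (mul_nonneg (hq0 z) (by linarith))]
    have h4 : P.p Z z * (c₁ z u - ρ₁ z u) * c₂ z v + c₁ z u * (P.p Z z * (c₂ z v - ρ₂ z v))
        - P.p Z z * (c₁ z u * c₂ z v - ρ₁ z u * ρ₂ z v)
        = P.p Z z * ((c₁ z u - ρ₁ z u) * (c₂ z v - ρ₂ z v)) := by ring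
    have h5 : 0 ≤ P.p Z z * ((c₁ z u - ρ₁ z u) * (c₂ z v - ρ₂ z v)) :=
      mul_nonneg (hq0 z) (mul_nonneg (by linarith [hrc₁ z u]) (by linarith [hrc₂ z v]))
    linarith
  have e4 : ∑ z, ∑ u, ∑ v, |C (u, v, z) - P.p (fun ω => (X₁ ω, Z ω)) (u, z)
      * P.p (fun ω => (X₂ ω, Z ω)) (v, z) / P.p Z z| ≤ 2 * Real.sqrt e := by
    have h1 := P.info_l1 X₁ X₂ Z
    set S := ∑ x : V × V × ζ, |P.p (fun ω => (X₁ ω, X₂ ω, Z ω)) x
      - P.p (fun ω => (X₁ ω, Z ω)) (x.1, x.2.2) * P.p (fun ω => (X₂ ω, Z ω)) (x.2.1, x.2.2)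
        / P.p Z x.2.2| with hS
    have h2 : ∑ z, ∑ u, ∑ v, |C (u, v, z) - P.p (fun ω => (X₁ ω, Z ω)) (u, z)
        * P.p (fun ω => (X₂ ω, Z ω)) (v, z) / P.p Z z| = S := by
      rw [hS, Fintype.sum_prod_type]
      simp_rw [Fintype.sum_prod_type_right]
      rw [Finset.sum_comm]
    rw [h2]
    have he0 : 0 ≤ e := by nlinarith [sq_nonneg S]
    have h3 : S ^ 2 ≤ (2 * Real.sqrt e) ^ 2 := by
      rw [mul_pow, Real.sq_sqrt he0]
      linarith
    exact abs_le_of_sq_le_sq' h3 (by positivity) |>.2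
  have e5 := loss_le P h₁ hK₁ hL
  have e6 := loss_le P h₂ hK₂ hL
  calc ∑ z, ∑ u, ∑ v, |C (u, v, z) - P.p Z z * (ρ₁ z u * ρ₂ z v)|
      ≤ ∑ z, ∑ u, ∑ v, (|C (u, v, z) - P.p (fun ω => (X₁ ω, Z ω)) (u, z)
          * P.p (fun ω => (X₂ ω, Z ω)) (v, z) / P.p Z z|
        + (P.p Z z * (c₁ z u - ρ₁ z u) * c₂ z v + c₁ z u * (P.p Z z * (c₂ z v - ρ₂ z v)))) :=
        Finset.sum_le_sum fun z _ => Finset.sum_le_sum fun u _ => Finset.sum_le_sum fun v _ =>
          e3 z u v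
    _ = (∑ z, ∑ u, ∑ v, |C (u, v, z) - P.p (fun ω => (X₁ ω, Z ω)) (u, z)
          * P.p (fun ω => (X₂ ω, Z ω)) (v, z) / P.p Z z|)
        + ∑ z, ((∑ u, P.p Z z * (c₁ z u - ρ₁ z u)) * ∑ v, c₂ z v
          + (∑ u, c₁ z u) * ∑ v, P.p Z z * (c₂ z v - ρ₂ z v)) := by
        rw [← Finset.sum_add_distrib]
        refine Finset.sum_congr rfl fun z _ => ?_
        rw [Finset.sum_mul_sum, Finset.sum_mul_sum, ← Finset.sum_add_distrib,
          ← Finset.sum_add_distrib]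
        refine Finset.sum_congr rfl fun u _ => ?_
        rw [← Finset.sum_add_distrib, ← Finset.sum_add_distrib]
    _ ≤ 2 * Real.sqrt e + ∑ z, ((∑ u, P.p Z z * (c₁ z u - ρ₁ z u)) * 1
          + 1 * ∑ v, P.p Z z * (c₂ z v - ρ₂ z v)) := by
        refine add_le_add e4 (Finset.sum_le_sum fun z _ => add_le_add ?_ ?_)
        · exact mul_le_mul_of_nonneg_left (P.sum_ncond_le X₂ Z z)
            (Finset.sum_nonneg fun u _ => mul_nonneg (hq0 z) (by linarith [hrc₁ z u]))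
        · exact mul_le_mul_of_nonneg_right (P.sum_ncond_le X₁ Z z)
            (Finset.sum_nonneg fun u _ => mul_nonneg (hq0 z) (by linarith [hrc₂ z u]))
    _ ≤ _ := by
        simp only [mul_one, one_mul]
        rw [Finset.sum_add_distrib]
        linarith

end Laws

end Vale.Agent.P060.HW
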