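import Mathlib

/-!
# Numerics for the final assembly
-/

noncomputable section

namespace Vale.Agent.P060.HW

open Filter

lemma ev_pow (A : ℝ) (m : ℕ) : ∀ᶠ k : ℕ in atTop, A * (k : ℝ) ^ m < (2521 : ℝ) ^ k := by
  have h := isLittleO_pow_const_const_pow_of_one_lt (R := ℝ) m (by norm_num : (1 : ℝ) < 2521)
  have h2 := h.def (show (0 : ℝ) < 1 / (|A| + 1) by positivity)
  filter_upwards [h2] with k hk
  rw [Real.norm_of_nonneg (by positivity), Real.norm_of_nonneg (by positivity)] at hk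
  have hA : 0 < |A| + 1 := by positivity
  have h3 : (|A| + 1) * (k : ℝ) ^ m ≤ 2521 ^ k := by
    calc (|A| + 1) * (k : ℝ) ^ m ≤ (|A| + 1) * (1 / (|A| + 1) * 2521 ^ k) :=
          mul_le_mul_of_nonneg_left hk hA.le
      _ = 2521 ^ k := by field_simp
  by_cases hk0 : (k : ℝ) ^ m = 0
  · rw [hk0, mul_zero]; positivity
  · have h4 : 0 < (k : ℝ) ^ m := lt_of_le_of_ne (by positivity) (Ne.symm hk0)
    have h5 : A * (k : ℝ) ^ m < (|A| + 1) * (k : ℝ) ^ m := by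
      apply mul_lt_mul_of_pos_right _ h4
      linarith [le_abs_self A]
    linarith

/-- The bound of the conflict mass. -/
lemma num_I (C : ℝ) {k K : ℕ} (hK2 : K ≤ 2 * k) :
    C * (Real.log ((2521 : ℝ) ^ (5 * K))) ^ 2 / (2521 : ℝ) ^ (5 * K)
      ≤ |C| * (100 * (Real.log 2521) ^ 2) * (k : ℝ) ^ 2 / (2521 : ℝ) ^ (5 * K) := by
  refine div_le_div_of_nonneg_right ?_ (by positivity)
  rw [Real.log_pow]
  have hL : 0 ≤ Real.log 2521 := Real.log_nonneg (by norm_num)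
  have h1 : ((5 * K : ℕ) : ℝ) * Real.log 2521 ≤ 10 * k * Real.log 2521 := by
    apply mul_le_mul_of_nonneg_right _ hL
    have : (K : ℝ) ≤ 2 * k := by exact_mod_cast hK2
    push_cast
    linarith
  have h2 : (((5 * K : ℕ) : ℝ) * Real.log 2521) ^ 2 ≤ (10 * k * Real.log 2521) ^ 2 :=
    pow_le_pow_left₀ (by positivity) h1 2
  calc C * (((5 * K : ℕ) : ℝ) * Real.log 2521) ^ 2
      ≤ |C| * (((5 * K : ℕ) : ℝ) * Real.log 2521) ^ 2 :=
        mul_le_mul_of_nonneg_right (le_abs_self C) (by positivity)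
    _ ≤ |C| * (10 * k * Real.log 2521) ^ 2 := mul_le_mul_of_nonneg_left h2 (abs_nonneg C)
    _ = |C| * (100 * (Real.log 2521) ^ 2) * (k : ℝ) ^ 2 := by ring

/-- **The numerical conditions for the failure of (c) and (a).** -/
theorem num_outC (C ε : ℝ) (hε : 0 < ε) (c D₀ d : ℕ) : ∃ k₀ : ℕ, ∀ k ≥ k₀, ∀ K N : ℕ, k ≤ K →
    K ≤ 2 * k → 0 < N → 0 < d → N ≤ 2 * D₀ * k →
    ((N : ℝ) * d) * Real.sqrt (C * (Real.log ((2521 : ℝ) ^ (5 * K))) ^ 2 / (2521 : ℝ) ^ (5 * K))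
      ≤ ε ∧
    C * (Real.log ((2521 : ℝ) ^ (5 * K))) ^ 2 / (2521 : ℝ) ^ (5 * K)
      < ((2521 : ℝ) ^ (4 * K + c))⁻¹ / 400 * (1 / (400 * (2 * ((N : ℝ) * d)) ^ 2)) ^ 2 ∧
    C / (2521 : ℝ) ^ (5 * K) ≤ ((2521 : ℝ) ^ (2 * K))⁻¹ := by
  set L : ℝ := Real.log 2521 with hL
  have hL0 : 0 ≤ L := Real.log_nonneg (by norm_num)
  set A : ℝ := (2 * D₀ * d) ^ 2 * (|C| * (100 * L ^ 2)) / ε ^ 2 with hA
  set A' : ℝ := |C| * (100 * L ^ 2) * (400 * (400 * (4 * D₀ * d) ^ 2) ^ 2) * 2521 ^ c with hA'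
  obtain ⟨k₀, hk₀⟩ := eventually_atTop.1 ((ev_pow A 4).and ((ev_pow A' 6).and (ev_pow |C| 0)))
  refine ⟨k₀, ?_⟩
  intro k hk K N hK1 hK2 hN hd hND
  obtain ⟨e1, e2, e3⟩ := hk₀ k hk
  have hI := num_I C hK2
  rw [← hL] at hI
  set I : ℝ := C * (Real.log ((2521 : ℝ) ^ (5 * K))) ^ 2 / (2521 : ℝ) ^ (5 * K) with hIdef
  have hN' : (0 : ℝ) < N := by exact_mod_cast hN
  have hd' : (0 : ℝ) < d := by exact_mod_cast hd
  have hND' : (N : ℝ) ≤ 2 * D₀ * k := by exact_mod_cast hND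
  have hNd : (N : ℝ) * d ≤ 2 * D₀ * d * k := by
    calc (N : ℝ) * d ≤ (2 * D₀ * k) * d := mul_le_mul_of_nonneg_right hND' hd'.le
      _ = 2 * D₀ * d * k := by ring
  have hrK : (2521 : ℝ) ^ k ≤ 2521 ^ K := pow_le_pow_right₀ (by norm_num) hK1
  refine ⟨?_, ?_, ?_⟩
  · -- (1)
    have h1 : ((N : ℝ) * d) * Real.sqrt I ≤ Real.sqrt (ε ^ 2) := by
      rw [← Real.sqrt_sq (by positivity : 0 ≤ (N : ℝ) * d), ← Real.sqrt_mul (by positivity)]
      apply Real.sqrt_le_sqrt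
      have h2 : ((N : ℝ) * d) ^ 2 * I ≤ (2 * D₀ * d * k) ^ 2 *
          (|C| * (100 * L ^ 2) * (k : ℝ) ^ 2 / (2521 : ℝ) ^ (5 * K)) := by
        calc ((N : ℝ) * d) ^ 2 * I
            ≤ ((N : ℝ) * d) ^ 2 * (|C| * (100 * L ^ 2) * (k : ℝ) ^ 2 / (2521 : ℝ) ^ (5 * K)) :=
              mul_le_mul_of_nonneg_left hI (by positivity)
          _ ≤ _ := mul_le_mul_of_nonneg_right (pow_le_pow_left₀ (by positivity) hNd 2)
              (by positivity)
      refine h2.trans ?_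
      have h3 : (2521 : ℝ) ^ k ≤ 2521 ^ (5 * K) :=
        pow_le_pow_right₀ (by norm_num) (by omega)
      have h4 : (2 * (D₀ : ℝ) * d * k) ^ 2 * (|C| * (100 * L ^ 2) * (k : ℝ) ^ 2)
          = ε ^ 2 * (A * (k : ℝ) ^ 4) := by
        rw [hA]; field_simp
      rw [mul_div_assoc', h4, div_le_iff₀ (by positivity)]
      apply mul_le_mul_of_nonneg_left _ (by positivity)
      linarith
    rwa [Real.sqrt_sq hε.le] at h1
  · -- (2)
    refine lt_of_le_of_lt hI ?_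
    have hT : (0 : ℝ) < 2 * ((N : ℝ) * d) := by positivity
    have h1 : ((2521 : ℝ) ^ (4 * K + c))⁻¹ / 400 * (1 / (400 * (2 * ((N : ℝ) * d)) ^ 2)) ^ 2
        = 1 / (2521 ^ (4 * K + c) * (400 * (400 * (2 * ((N : ℝ) * d)) ^ 2) ^ 2)) := by
      field_simp
    rw [h1, div_lt_div_iff₀ (by positivity) (by positivity), one_mul]
    have h2 : (400 * (400 * (2 * ((N : ℝ) * d)) ^ 2) ^ 2)
        ≤ (400 * (400 * (4 * D₀ * d * k) ^ 2) ^ 2) := by
      have : 2 * ((N : ℝ) * d) ≤ 4 * D₀ * d * k := by linarith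
      gcongr
    have h3 : (2521 : ℝ) ^ (4 * K + c) = 2521 ^ (4 * K) * 2521 ^ c := pow_add _ _ _
    have h4 : (2521 : ℝ) ^ (5 * K) = 2521 ^ (4 * K) * 2521 ^ K := by
      rw [← pow_add]; congr 1; ring
    rw [h3, h4]
    have h5 : |C| * (100 * L ^ 2) * (k : ℝ) ^ 2 *
        (2521 ^ (4 * K) * 2521 ^ c * (400 * (400 * (2 * ((N : ℝ) * d)) ^ 2) ^ 2))
        ≤ |C| * (100 * L ^ 2) * (k : ℝ) ^ 2 *
        (2521 ^ (4 * K) * 2521 ^ c * (400 * (400 * (4 * D₀ * d * k) ^ 2) ^ 2)) := by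
      apply mul_le_mul_of_nonneg_left _ (by positivity)
      exact mul_le_mul_of_nonneg_left h2 (by positivity)
    refine lt_of_le_of_lt h5 ?_
    have h6 : |C| * (100 * L ^ 2) * (k : ℝ) ^ 2 *
        (2521 ^ (4 * K) * 2521 ^ c * (400 * (400 * (4 * D₀ * d * k) ^ 2) ^ 2))
        = 2521 ^ (4 * K) * (A' * (k : ℝ) ^ 6) := by
      rw [hA']; ring
    rw [h6]
    apply mul_lt_mul_of_pos_left _ (by positivity)
    linarith
  · -- (3)
    have h1 : (2521 : ℝ) ^ (5 * K) = 2521 ^ (2 * K) * 2521 ^ (3 * K) := by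
      rw [← pow_add]; congr 1; ring
    rw [h1, div_le_iff₀ (by positivity), ← mul_assoc, inv_mul_cancel₀ (by positivity), one_mul]
    rw [pow_zero, mul_one] at e3
    have h2 : (2521 : ℝ) ^ k ≤ 2521 ^ (3 * K) := pow_le_pow_right₀ (by norm_num) (by omega)
    linarith [le_abs_self C]

/-- The bounds for the densities. -/
theorem num_dens (C : ℝ) (D₀ d : ℕ) : ∃ k₀ : ℕ, ∀ k ≥ k₀, ∀ K N : ℕ, K ≤ 2 * k →
    N ≤ 2 * D₀ * k →
    400 * ((2521 : ℝ) ^ (5 * K)) ^ C ≤ (2521 : ℝ) ^ ((10 * |C| + 2) * k) ∧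
    3200 * ((N : ℝ) * d) ≤ (k : ℝ) ^ (10 * |C| + 2) := by
  refine ⟨6400 * D₀ * d + 1, ?_⟩
  intro k hk K N hK2 hND
  have hk1 : (1 : ℝ) ≤ k := by exact_mod_cast (by omega : 1 ≤ k)
  constructor
  · have h1 : ((2521 : ℝ) ^ (5 * K)) ^ C = (2521 : ℝ) ^ (((5 * K : ℕ) : ℝ) * C) := by
      rw [← Real.rpow_natCast, ← Real.rpow_mul (by norm_num)]
    have h2 : ((5 * K : ℕ) : ℝ) * C ≤ 10 * |C| * k := by
      have h3 : ((5 * K : ℕ) : ℝ) ≤ 10 * k := by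
        have : (K : ℝ) ≤ 2 * k := by exact_mod_cast hK2
        push_cast
        linarith
      calc ((5 * K : ℕ) : ℝ) * C ≤ ((5 * K : ℕ) : ℝ) * |C| :=
            mul_le_mul_of_nonneg_left (le_abs_self C) (by positivity)
        _ ≤ 10 * k * |C| := mul_le_mul_of_nonneg_right h3 (abs_nonneg C)
        _ = 10 * |C| * k := by ring
    have h4 : (400 : ℝ) ≤ 2521 ^ ((2 : ℝ) * k) := by
      calc (400 : ℝ) ≤ 2521 ^ (1 : ℝ) := by norm_num
        _ ≤ 2521 ^ ((2 : ℝ) * k) := Real.rpow_le_rpow_of_exponent_le (by norm_num) (by linarith)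
    rw [h1, show (10 * |C| + 2) * (k : ℝ) = 2 * k + 10 * |C| * k by ring,
      Real.rpow_add (by norm_num)]
    exact mul_le_mul h4 (Real.rpow_le_rpow_of_exponent_le (by norm_num) h2) (by positivity)
      (by positivity)
  · have h1 : 3200 * ((N : ℝ) * d) ≤ 6400 * D₀ * d * k := by
      have hND' : (N : ℝ) ≤ 2 * D₀ * k := by exact_mod_cast hND
      calc 3200 * ((N : ℝ) * d) ≤ 3200 * ((2 * D₀ * k) * d) := by gcongr
        _ = 6400 * D₀ * d * k := by ring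
    have h2 : (6400 * D₀ * d : ℝ) ≤ k := by
      exact_mod_cast (by omega : 6400 * D₀ * d ≤ k)
    have h3 : (k : ℝ) ^ (2 : ℝ) ≤ (k : ℝ) ^ (10 * |C| + 2) :=
      Real.rpow_le_rpow_of_exponent_le hk1 (by linarith [abs_nonneg C])
    refine h1.trans (le_trans ?_ h3)
    rw [Real.rpow_two, sq]
    exact mul_le_mul_of_nonneg_right h2 (by positivity)

end Vale.Agent.P060.HW
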