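import Vale.Agent.P060.HW.Pasts

/-!
# The overlap lemma

Two laws on the space of four slots which are nearly invariant under two submodules have
differences in a given small set with the expected probability.
-/

namespace Vale.Agent.P060.HW

open Finset Module

section Abstract

variable {F V : Type*} [Field F] [AddCommGroup V] [Module F V] [Fintype V]

theorem mul_ge_of_close {x x0 y y0 : ℝ} (hx : 0 ≤ x) (hx0 : 0 ≤ x0) (hy : 0 ≤ y) (hy0 : 0 ≤ y0) :
    x0 * y0 / 4 - |x - x0| * y0 / 2 - |y - y0| * x0 / 2 ≤ x * y := by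
  have hxy := mul_nonneg hx hy
  have h1 := mul_nonneg (abs_nonneg (x - x0)) hy0
  have h2 := mul_nonneg (abs_nonneg (y - y0)) hx0
  by_cases hA : x < x0 / 2
  · have h3 : x0 / 2 ≤ |x - x0| := by
      rw [abs_sub_comm]; exact le_trans (by linarith) (le_abs_self _)
    have h4 := mul_le_mul_of_nonneg_right h3 hy0
    nlinarith
  by_cases hB : y < y0 / 2
  · have h3 : y0 / 2 ≤ |y - y0| := by
      rw [abs_sub_comm]; exact le_trans (by linarith) (le_abs_self _)
    have h4 := mul_le_mul_of_nonneg_right h3 hx0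
    nlinarith
  push Not at hA hB
  have h5 : x0 / 2 * (y0 / 2) ≤ x * y := mul_le_mul hA hB (by linarith) hx
  nlinarith

theorem avg_nonneg (U : Submodule F V) {f : V → ℝ} (hf : ∀ x, 0 ≤ f x) (x : V) :
    0 ≤ avg U f x :=
  div_nonneg (Finset.sum_nonneg fun _ _ => hf _) (carr_card_pos U).le

theorem avg_le_total (U : Submodule F V) {f : V → ℝ} (hf : ∀ x, 0 ≤ f x) (x : V) :
    avg U f x ≤ (∑ v, f v) / (carr U).card := by
  refine div_le_div_of_nonneg_right ?_ (carr_card_pos U).le
  calc ∑ u ∈ carr U, f (x + u) = ∑ w ∈ (carr U).map (addLeftEmbedding x), f w := by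
        rw [Finset.sum_map]; rfl
    _ ≤ ∑ v, f v := Finset.sum_le_univ_sum_of_nonneg hf

/-- Averaging is self adjoint. -/
theorem sum_avg_mul (U : Submodule F V) (f g : V → ℝ) :
    ∑ v, avg U f v * g v = ∑ v, f v * avg U g v := by
  have h1 : ∀ f g : V → ℝ, ∑ v, avg U f v * g v =
      (∑ u ∈ carr U, ∑ v, f (v + u) * g v) / (carr U).card := by
    intro f g
    rw [Finset.sum_comm, Finset.sum_div]
    refine Finset.sum_congr rfl fun v _ => ?_
    rw [avg, div_mul_eq_mul_div, Finset.sum_mul]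
  rw [h1 f g, Finset.sum_congr rfl fun v _ => mul_comm (f v) (avg U g v), h1 g f]
  congr 1
  refine Finset.sum_bij (fun u _ => -u) (fun u hu => ?_) (fun u _ v _ h => neg_injective h)
    (fun u hu => ⟨-u, mem_carr.mpr (U.neg_mem (mem_carr.mp hu)), neg_neg u⟩) (fun u _ => ?_)
  · exact mem_carr.mpr (U.neg_mem (mem_carr.mp hu))
  · refine Fintype.sum_equiv (Equiv.addRight u) _ _ fun v => ?_
    change f (v + u) * g v = g (v + u + -u) * f (v + u)
    rw [add_neg_cancel_right, mul_comm]

open Classical in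
theorem avg_eq_sum (U : Submodule F V) (f : V → ℝ) (x : V) :
    avg U f x = (∑ n, if x - n ∈ U then f n else 0) / (carr U).card := by
  rw [avg]
  congr 1
  rw [← Finset.sum_filter]
  refine Finset.sum_bij (fun u _ => x + u) (fun u hu => ?_) (fun u _ v _ h => add_left_cancel h)
    (fun n hn => ⟨n - x, ?_, by abel⟩) (fun u _ => rfl)
  · rw [Finset.mem_filter]
    refine ⟨Finset.mem_univ _, ?_⟩
    have := U.neg_mem (mem_carr.mp hu)
    have e : x - (x + u) = -u := by abel
    rw [e]; exact this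
  · rw [Finset.mem_filter] at hn
    have := U.neg_mem hn.2
    have e : n - x = -(x - n) := by abel
    rw [e]; exact mem_carr.mpr this

open Classical in
/-- The main term. -/
theorem sum_avg_shift (U W : Submodule F V) (P Q : V → ℝ) (d : V) :
    ∑ v, avg U P (v + d) * avg W Q v =
      (∑ m, ∑ n, if m - n - d ∈ U ⊔ W then P m * Q n else 0) / (carr (U ⊔ W)).card := by
  have h1 : ∀ v, avg U P (v + d) = avg U (fun w => P (w + d)) v := by
    intro v
    rw [avg, avg]
    congr 1
    refine Finset.sum_congr rfl fun u _ => ?_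
    rw [add_right_comm]
  rw [Finset.sum_congr rfl fun v _ => by rw [h1 v], sum_avg_mul, avg_avg]
  rw [Finset.sum_div]
  refine Fintype.sum_equiv (Equiv.addRight d) _ _ fun v => ?_
  change P (v + d) * avg (U ⊔ W) Q v = (∑ n, if v + d - n - d ∈ U ⊔ W then P (v + d) * Q n else 0)
    / (carr (U ⊔ W)).card
  rw [avg_eq_sum, mul_div_assoc', Finset.mul_sum]
  congr 1
  refine Finset.sum_congr rfl fun n _ => ?_
  have e : v + d - n - d = v - n := by abel
  rw [e]
  split_ifs <;> simp

/-- One shift. -/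
theorem shift_ge (U W : Submodule F V) {P Q : V → ℝ} (hP : ∀ v, 0 ≤ P v) (hQ : ∀ v, 0 ≤ Q v)
    {eP eQ p q : ℝ} (hp : ∑ v, P v ≤ p) (hq : ∑ v, Q v ≤ q)
    (heP : ∑ v, |P v - avg U P v| ≤ eP) (heQ : ∑ v, |Q v - avg W Q v| ≤ eQ) (d : V) :
    (∑ v, avg U P (v + d) * avg W Q v) / 4 - eP * (q / (carr W).card) / 2
      - eQ * (p / (carr U).card) / 2 ≤ ∑ v, P (v + d) * Q v := by
  have hU := carr_card_pos U
  have hW := carr_card_pos W
  have h1 : ∀ v, avg W Q v ≤ q / (carr W).card := fun v =>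
    (avg_le_total W hQ v).trans (div_le_div_of_nonneg_right hq hW.le)
  have h2 : ∀ v, avg U P v ≤ p / (carr U).card := fun v =>
    (avg_le_total U hP v).trans (div_le_div_of_nonneg_right hp hU.le)
  have h3 : ∑ v, (avg U P (v + d) * avg W Q v / 4 - |P (v + d) - avg U P (v + d)| * avg W Q v / 2
      - |Q v - avg W Q v| * avg U P (v + d) / 2) ≤ ∑ v, P (v + d) * Q v :=
    Finset.sum_le_sum fun v _ => mul_ge_of_close (hP _) (avg_nonneg U hP _) (hQ _)
      (avg_nonneg W hQ _)
  rw [Finset.sum_sub_distrib, Finset.sum_sub_distrib, ← Finset.sum_div, ← Finset.sum_div,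
    ← Finset.sum_div] at h3
  have h4 : ∑ v, |P (v + d) - avg U P (v + d)| * avg W Q v ≤ eP * (q / (carr W).card) := by
    have e1 : ∑ v, |P (v + d) - avg U P (v + d)| = ∑ v, |P v - avg U P v| :=
      Fintype.sum_equiv (Equiv.addRight d) _ _ fun v => rfl
    calc ∑ v, |P (v + d) - avg U P (v + d)| * avg W Q v
        ≤ ∑ v, |P (v + d) - avg U P (v + d)| * (q / (carr W).card) :=
          Finset.sum_le_sum fun v _ => mul_le_mul_of_nonneg_left (h1 v) (abs_nonneg _)
      _ = (∑ v, |P v - avg U P v|) * (q / (carr W).card) := by rw [← Finset.sum_mul, e1]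
      _ ≤ eP * (q / (carr W).card) := mul_le_mul_of_nonneg_right heP
          (div_nonneg ((Finset.sum_nonneg fun v _ => hQ v).trans hq) hW.le)
  have h5 : ∑ v, |Q v - avg W Q v| * avg U P (v + d) ≤ eQ * (p / (carr U).card) := by
    calc ∑ v, |Q v - avg W Q v| * avg U P (v + d)
        ≤ ∑ v, |Q v - avg W Q v| * (p / (carr U).card) :=
          Finset.sum_le_sum fun v _ => mul_le_mul_of_nonneg_left (h2 _) (abs_nonneg _)
      _ = (∑ v, |Q v - avg W Q v|) * (p / (carr U).card) := by rw [← Finset.sum_mul]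
      _ ≤ eQ * (p / (carr U).card) := mul_le_mul_of_nonneg_right heQ
          (div_nonneg ((Finset.sum_nonneg fun v _ => hP v).trans hp) hU.le)
  linarith

open Classical in
/-- **Abstract overlap lemma.** -/
theorem overlap_abs (U W A : Submodule F V) (hUA : U ≤ A) (hWA : W ≤ A) {P Q : V → ℝ}
    (hP : ∀ v, 0 ≤ P v) (hQ : ∀ v, 0 ≤ Q v)
    {eP eQ p q R : ℝ} (hp : ∑ v, P v ≤ p) (hq : ∑ v, Q v ≤ q)
    (heP : ∑ v, |P v - avg U P v| ≤ eP) (heQ : ∑ v, |Q v - avg W Q v| ≤ eQ)
    (hRU : ((carr A).card : ℝ) ≤ R * (carr U).card) (hRW : ((carr A).card : ℝ) ≤ R * (carr W).card)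
    (D : Finset V) :
    ((∑ m, ∑ n, if ∃ d ∈ D, m - n - d ∈ U ⊔ W then P m * Q n else 0) / 4
      - D.card * R * (eP * q + eQ * p) / 2) / (carr A).card ≤
      ∑ m, ∑ n, if m - n ∈ D then P m * Q n else 0 := by
  have hU := carr_card_pos U
  have hW := carr_card_pos W
  have hA := carr_card_pos A
  have hS := carr_card_pos (U ⊔ W)
  have heP0 : 0 ≤ eP := (Finset.sum_nonneg fun v _ => abs_nonneg _).trans heP
  have heQ0 : 0 ≤ eQ := (Finset.sum_nonneg fun v _ => abs_nonneg _).trans heQ
  have hp0 : 0 ≤ p := (Finset.sum_nonneg fun v _ => hP v).trans hp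
  have hq0 : 0 ≤ q := (Finset.sum_nonneg fun v _ => hQ v).trans hq
  have hPQ : ∀ m n, 0 ≤ P m * Q n := fun m n => mul_nonneg (hP _) (hQ _)
  have e1 : ∑ m, ∑ n, (if m - n ∈ D then P m * Q n else 0) = ∑ d ∈ D, ∑ v, P (v + d) * Q v := by
    have e2 : ∀ m n, (if m - n ∈ D then P m * Q n else 0) =
        ∑ d ∈ D, if m = n + d then P m * Q n else 0 := by
      intro m n
      have e3 : ∀ d, (m = n + d) ↔ (d = m - n) := fun d => by
        constructor
        · rintro rfl; abel
        · rintro rfl; abel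
      simp only [e3]
      rw [Finset.sum_ite_eq']
    rw [Finset.sum_congr rfl fun m _ => Finset.sum_congr rfl fun n _ => e2 m n]
    rw [Finset.sum_congr rfl fun m _ => Finset.sum_comm, Finset.sum_comm]
    refine Finset.sum_congr rfl fun d _ => ?_
    rw [Finset.sum_comm]
    refine Finset.sum_congr rfl fun n _ => ?_
    rw [Finset.sum_ite_eq' Finset.univ (n + d) (fun m => P m * Q n), if_pos (Finset.mem_univ _)]
  rw [e1]
  set X : ℝ := ∑ m, ∑ n, if ∃ d ∈ D, m - n - d ∈ U ⊔ W then P m * Q n else 0 with hX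
  have h1 : X / (carr A).card ≤ ∑ d ∈ D, ∑ v, avg U P (v + d) * avg W Q v := by
    have h2 : X ≤ ∑ d ∈ D, ∑ m, ∑ n, if m - n - d ∈ U ⊔ W then P m * Q n else 0 := by
      rw [hX, Finset.sum_comm (s := D)]
      refine Finset.sum_le_sum fun m _ => ?_
      rw [Finset.sum_comm (s := D)]
      refine Finset.sum_le_sum fun n _ => ?_
      by_cases h : ∃ d ∈ D, m - n - d ∈ U ⊔ W
      · rw [if_pos h]
        obtain ⟨d, hd, hd'⟩ := h
        have := Finset.single_le_sum (f := fun d => if m - n - d ∈ U ⊔ W then P m * Q n else 0)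
          (fun d _ => by split_ifs; exacts [hPQ m n, le_rfl]) hd
        rwa [if_pos hd'] at this
      · rw [if_neg h]
        exact Finset.sum_nonneg fun d _ => by split_ifs; exacts [hPQ m n, le_rfl]
    have h3 : ∑ d ∈ D, ∑ v, avg U P (v + d) * avg W Q v =
        (∑ d ∈ D, ∑ m, ∑ n, if m - n - d ∈ U ⊔ W then P m * Q n else 0)
          / (carr (U ⊔ W)).card := by
      rw [Finset.sum_div]
      exact Finset.sum_congr rfl fun d _ => sum_avg_shift U W P Q d
    rw [h3]
    have h4 : ((carr (U ⊔ W)).card : ℝ) ≤ (carr A).card := by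
      exact_mod_cast Finset.card_le_card fun x hx =>
        mem_carr.mpr ((sup_le hUA hWA) (mem_carr.mp hx))
    have hX0 : 0 ≤ X := Finset.sum_nonneg fun m _ => Finset.sum_nonneg fun n _ => by
      split_ifs; exacts [hPQ m n, le_rfl]
    calc X / (carr A).card ≤ X / (carr (U ⊔ W)).card := div_le_div_of_nonneg_left hX0 hS h4
      _ ≤ _ := div_le_div_of_nonneg_right h2 hS.le
  have h5 : ∑ d ∈ D, ((∑ v, avg U P (v + d) * avg W Q v) / 4 - eP * (q / (carr W).card) / 2
      - eQ * (p / (carr U).card) / 2) ≤ ∑ d ∈ D, ∑ v, P (v + d) * Q v :=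
    Finset.sum_le_sum fun d _ => shift_ge U W hP hQ hp hq heP heQ d
  rw [Finset.sum_sub_distrib, Finset.sum_sub_distrib, ← Finset.sum_div, Finset.sum_const,
    Finset.sum_const, nsmul_eq_mul, nsmul_eq_mul] at h5
  have h6 : eP * (q / (carr W).card) ≤ R * (eP * q) / (carr A).card := by
    rw [mul_div_assoc', div_le_div_iff₀ hW hA]
    have := mul_le_mul_of_nonneg_left hRW (mul_nonneg heP0 hq0)
    nlinarith
  have h7 : eQ * (p / (carr U).card) ≤ R * (eQ * p) / (carr A).card := by
    rw [mul_div_assoc', div_le_div_iff₀ hU hA]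
    have := mul_le_mul_of_nonneg_left hRU (mul_nonneg heQ0 hp0)
    nlinarith
  have hD0 : (0 : ℝ) ≤ D.card := Nat.cast_nonneg _
  have h8 := mul_le_mul_of_nonneg_left h6 hD0
  have h9 := mul_le_mul_of_nonneg_left h7 hD0
  have e5 : (X / 4 - D.card * R * (eP * q + eQ * p) / 2) / (carr A).card =
      X / (carr A).card / 4 - D.card * (R * (eP * q) / (carr A).card) / 2
        - D.card * (R * (eQ * p) / (carr A).card) / 2 := by
    field_simp
    ring
  rw [e5]
  linarith

/-- Counting fibres. -/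
theorem card_le_inf_ker {X : Type*} [AddCommGroup X] [Module F X] [Fintype X]
    (A : Submodule F V) (φ : V →ₗ[F] X) :
    (carr A).card ≤ Fintype.card X * (carr (A ⊓ LinearMap.ker φ)).card := by
  classical
  rw [mul_comm, ← Finset.card_univ (α := X)]
  refine Finset.card_le_mul_card_image_of_maps_to (f := φ) (fun _ _ => Finset.mem_univ _) _ ?_
  intro x _
  by_cases h : ((carr A).filter fun v => φ v = x).Nonempty
  · obtain ⟨v0, hv0⟩ := h
    rw [Finset.mem_filter] at hv0
    refine Finset.card_le_card_of_injOn (fun v => v - v0) (fun v hv => ?_)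
      (fun v _ w _ h => sub_left_injective h)
    rw [Finset.mem_coe, Finset.mem_filter] at hv
    rw [Finset.mem_coe, mem_carr]
    refine ⟨A.sub_mem (mem_carr.mp hv.1) (mem_carr.mp hv0.1), ?_⟩
    change φ (v - v0) = 0
    rw [map_sub, hv.2, hv0.2, sub_self]
  · rw [Finset.not_nonempty_iff_eq_empty.mp h, Finset.card_empty]
    exact Nat.zero_le _

end Abstract

end Vale.Agent.P060.HW
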