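import Vale.Agent.P060.HW.Ov4
import Vale.Agent.P060.HW.Bridge2

/-!
# The block OVERLAP
-/

open scoped Classical

noncomputable section

set_option linter.unusedSectionVars false

namespace Vale.Agent.P060.HW

open Finset Module

/-- Prescribed products with independent vectors. -/
lemma exists_dot {ι P : Type*} [Fintype ι] [Fintype P] {v : ι → P → F}
    (hv : LinearIndependent F v) (t : ι → F) : ∃ z : P → F, ∀ i, v i ⬝ᵥ z = t i := by
  let Φ : (P → F) →ₗ[F] (ι → F) :=
    { toFun := fun z i => v i ⬝ᵥ z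
      map_add' := fun a b => by ext i; simp [dotProduct_add]
      map_smul' := fun c a => by ext i; simp [dotProduct_smul] }
  have htop : LinearMap.range Φ = ⊤ := by
    by_contra hne
    obtain ⟨f, hf, hle⟩ := Submodule.exists_le_ker_of_lt_top _ (lt_top_iff_ne_top.2 hne)
    apply hf
    have h1 : ∀ x : ι → F, f x = ∑ i, x i * f (Pi.single i 1) := by
      intro x
      conv_lhs => rw [← Finset.univ_sum_single x]
      rw [map_sum]
      refine Finset.sum_congr rfl fun i _ => ?_
      have : (Pi.single i (x i) : ι → F) = x i • Pi.single i (1 : F) := by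
        ext j
        simp [Pi.single_apply]
      rw [this, map_smul, smul_eq_mul]
    have h2 : ∑ i, f (Pi.single i 1) • v i = 0 := by
      funext j
      have h3 : f (Φ (Pi.single j 1)) = 0 := hle ⟨_, rfl⟩
      rw [h1] at h3
      rw [Finset.sum_apply, Pi.zero_apply, ← h3]
      refine Finset.sum_congr rfl fun i _ => ?_
      change f (Pi.single i 1) * v i j = v i ⬝ᵥ Pi.single j 1 * _
      rw [dotProduct_single, mul_one, mul_comm]
    have h4 := Fintype.linearIndependent_iff.1 hv _ h2
    ext i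
    simpa using h4 i
  obtain ⟨z, hz⟩ : t ∈ LinearMap.range Φ := htop ▸ Submodule.mem_top
  exact ⟨z, fun i => congrFun hz i⟩

variable {N d : ℕ} {E P Om : Type} [Fintype E] [Fintype P] [Fintype Om] [NeZero N]

lemma lin_inj (c : Ty N d) : Function.Injective (lin c) := fun s s' h => congrArg Prod.fst h

/-- The independence of the four type vectors in a frame. -/
lemma ind4_dsg (fr : Frame N d E Om) (p : Lin N → Co E P Om → F) (h : Ext fr p) (κ : ℕ)
    (hE : Ev1 p κ) (h12 : 12 ≤ κ) {a a' b b' : Ty N d} (hbb : b ≠ b')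
    (hd : Disjoint (lins2 (a, a')) (lins2 (b, b'))) :
    (dsg fr p h).Ind4 a a' b b' := by
  intro s s'
  obtain ⟨s0, -, -, hs0, -⟩ := br_two_lines fr hbb
  obtain ⟨s1, -, -, hs1, -⟩ := br_two_lines fr hbb.symm
  set S : Finset (Lin N) := lins2 (a, a') ∪ lins2 (b, b') with hS
  have hcard : S.card ≤ κ := by
    have e1 := br_card_lins a
    have e2 := br_card_lins a'
    have e3 := br_card_lins b
    have e4 := br_card_lins b'
    have e5 := Finset.card_union_le (lins a) (lins a')
    have e6 := Finset.card_union_le (lins b) (lins b')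
    have e7 : S.card ≤ (lins a ∪ lins a').card + (lins b ∪ lins b').card :=
      Finset.card_union_le (lins2 (a, a')) (lins2 (b, b'))
    omega
  obtain ⟨z, hz⟩ := exists_dot (hE S hcard) fun u : S =>
    (if (u : Lin N) = lin b s0 then s else 0) + (if (u : Lin N) = lin b' s1 then s' else 0)
  have mlin : ∀ (c : Ty N d) (i : Fin 3), lin c i ∈ lins c := fun c i => an_mem_lins.2 ⟨i, rfl⟩
  set zz : Co E P Om → F := fun j => match j with
    | Sum.inl (Sum.inl _) => 0
    | Sum.inl (Sum.inr i) => z i
    | Sum.inr _ => 0 with hzz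
  have hdot : ∀ v : Co E P Om → F, v ⬝ᵥ zz = (fun j : P => v (Sum.inl (Sum.inr j))) ⬝ᵥ z := by
    intro v
    unfold dotProduct
    rw [Fintype.sum_sum_type, Fintype.sum_sum_type]
    simp [hzz]
  have hline : ∀ u ∈ S, p u ⬝ᵥ zz = (if u = lin b s0 then s else 0) +
      (if u = lin b' s1 then s' else 0) := by
    intro u hu
    rw [hdot]
    exact hz ⟨u, hu⟩
  have hg : ∀ c : Ty N d, lins c ⊆ S → gv p c ⬝ᵥ zz =
      ∑ i, ((if lin c i = lin b s0 then s else 0) + (if lin c i = lin b' s1 then s' else 0)) := by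
    intro c hc
    unfold gv
    rw [sum_dotProduct]
    exact Finset.sum_congr rfl fun i _ => hline _ (hc (mlin c i))
  have ha : lins a ⊆ S := fun u hu => Finset.mem_union_left _ (Finset.mem_union_left _ hu)
  have ha' : lins a' ⊆ S := fun u hu => Finset.mem_union_left _ (Finset.mem_union_right _ hu)
  have hb : lins b ⊆ S := fun u hu => Finset.mem_union_right _ (Finset.mem_union_left _ hu)
  have hb' : lins b' ⊆ S := fun u hu => Finset.mem_union_right _ (Finset.mem_union_right _ hu)
  have hzero : ∀ c : Ty N d, lins c ⊆ lins2 (a, a') → lins c ⊆ S → gv p c ⬝ᵥ zz = 0 := by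
    intro c hc hcS
    rw [hg c hcS]
    refine Finset.sum_eq_zero fun i _ => ?_
    rw [if_neg, if_neg, add_zero]
    · intro e
      exact Finset.disjoint_left.1 hd (hc (mlin c i))
        (e ▸ Finset.mem_union_right _ (mlin b' s1))
    · intro e
      exact Finset.disjoint_left.1 hd (hc (mlin c i))
        (e ▸ Finset.mem_union_left _ (mlin b s0))
  refine ⟨zz, ?_, hzero a Finset.subset_union_left ha, hzero a' Finset.subset_union_right ha',
    ?_, ?_⟩
  · intro c w hw
    obtain ⟨u, -, rfl⟩ := Finset.mem_image.1 hw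
    rfl
  · change gv p b ⬝ᵥ zz = s
    rw [hg b hb, Finset.sum_add_distrib]
    have e1 : ∑ i, (if lin b i = lin b s0 then s else 0) = s := by
      rw [Finset.sum_eq_single s0]
      · rw [if_pos rfl]
      · intro i _ hi
        rw [if_neg fun e => hi (lin_inj b e)]
      · intro h'
        exact absurd (Finset.mem_univ _) h'
    have e2 : ∑ i, (if lin b i = lin b' s1 then s' else 0) = 0 := by
      refine Finset.sum_eq_zero fun i _ => ?_
      rw [if_neg]
      intro e
      exact hs1 (e ▸ mlin b i)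
    rw [e1, e2, add_zero]
  · change gv p b' ⬝ᵥ zz = s'
    rw [hg b' hb', Finset.sum_add_distrib]
    have e1 : ∑ i, (if lin b' i = lin b s0 then s else 0) = 0 := by
      refine Finset.sum_eq_zero fun i _ => ?_
      rw [if_neg]
      intro e
      exact hs0 (e ▸ mlin b' i)
    have e2 : ∑ i, (if lin b' i = lin b' s1 then s' else 0) = s' := by
      rw [Finset.sum_eq_single s1]
      · rw [if_pos rfl]
      · intro i _ hi
        rw [if_neg fun e => hi (lin_inj b' e)]
      · intro h'
        exact absurd (Finset.mem_univ _) h'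
    rw [e1, e2, zero_add]

/-- The explicit subspace is contained in `Zab`. -/
lemma Z4_le_Zab (fr : Frame N d E Om) (p : Lin N → Co E P Om → F) (h : Ext fr p) (κ : ℕ)
    (hE : Ev1 p κ) (h12 : 12 ≤ κ) (hκ : ∀ w, 12 + (rowLines fr w).card ≤ κ)
    {a a' b b' : Ty N d} (hbb : b ≠ b') (hd : Disjoint (lins2 (a, a')) (lins2 (b, b'))) :
    (dsg fr p h).Z4 a a' b b' ≤ (dsg fr p h).Zab a a' b b' := by
  intro m hm
  rw [Design.mem_Z4, Design.mem_W4] at hm
  obtain ⟨⟨h0, h1, h2, h3⟩, k1, k2, k3, k4⟩ := hm
  intro z hz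
  have hkey := trivPsi_kills fr p h κ hE (by omega) (fun w => by have := hκ w; omega)
    ![a, a'] ![b, b'] hbb (fun i => ?_) z hz ![![m 0, m 1], ![m 2, m 3]] ?_
  · rw [Fin.sum_univ_four]
    exact hkey
  · rw [disjoint_comm] at hd
    refine Finset.disjoint_of_subset_right ?_ hd
    fin_cases i
    · exact Finset.subset_union_left
    · exact Finset.subset_union_right
  · refine ⟨fun i j w hw => ?_, fun i i' j => ?_, fun i => ?_⟩
    · fin_cases i <;> fin_cases j
      · exact h0 w hw
      · exact h1 w hw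
      · exact h2 w hw
      · exact h3 w hw
    · fin_cases i' <;> fin_cases i <;> fin_cases j
      · exact k1 0
      · exact k1 1
      · exact k1 2
      · exact k1 3
      · exact k2 0
      · exact k2 1
      · exact k2 2
      · exact k2 3
    · fin_cases i
      · exact k3.symm
      · exact k4.symm

lemma JO_dsg (fr : Frame N d E Om) (p : Lin N → Co E P Om → F) (h : Ext fr p) {a b : Ty N d}
    (hab : JointOnto fr a b) : (dsg fr p h).JO a b := by
  intro u hu v hv
  obtain ⟨t, h1, h2⟩ := hab u hu v hv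
  refine ⟨Sum.inl (Sum.inl t), Finset.mem_image_of_mem _ (Finset.mem_univ _), ?_, ?_⟩
  · change gv p a _ = u
    rw [gv_E h, h1]
  · change gv p b _ = v
    rw [gv_E h, h2]

lemma JointOnto.symm {fr : Frame N d E Om} {a b : Ty N d} (h : JointOnto fr a b) :
    JointOnto fr b a := by
  intro u hu v hv
  obtain ⟨t, h1, h2⟩ := h v hv u hu
  exact ⟨t, h2, h1⟩

/-- Sums do not depend on the finiteness instance. -/
private lemma ovb_sum_inst {α : Type*} (i₁ i₂ : Fintype α) (f : α → ℝ) :
    @Finset.sum α ℝ _ (@Finset.univ α i₁) f = @Finset.sum α ℝ _ (@Finset.univ α i₂) f := by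
  rw [Subsingleton.elim i₁ i₂]

/-- **The block OVERLAP.** -/
theorem overlap : Overlap := by
  refine ⟨2, 1 / (1280000 * 2521 ^ 14), by positivity, ?_⟩
  intro N d E P Om _ _ _ _ fr p h κ h12 hκ hE a a' b b' haa hbb hd j1 j2 j3 j4 ι₁ ι₁' ι₂ ι₂' Λ M
    w w' hw hw' ht ht' hu hu'
  have key := (dsg fr p h).overlap4 (s := 1 / 400) (s' := 1 / 400)
    (ind4_dsg fr p h κ hE h12 hbb hd)
    (JO_dsg fr p h j4) (JO_dsg fr p h j3) (JO_dsg fr p h j2) (JO_dsg fr p h j1)
    (Z4_le_Zab fr p h κ hE h12 hκ hbb hd) (Z4_le_Zab fr p h κ hE h12 hκ haa hd.symm)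
    hw hw' ht ht' (by norm_num) (hu.trans (le_of_eq (ovb_sum_inst _ _ _)))
    (hu'.trans (le_of_eq (ovb_sum_inst _ _ _)))
  refine le_trans ?_ (key.trans_eq ((ovb_sum_inst _ _ _).trans
    (Finset.sum_congr rfl fun m _ => ovb_sum_inst _ _ _)))
  have e1 : (1 / 400 : ℝ) * (1 / 400) / 4 - 2521 ^ 14 * (1 / (1280000 * 2521 ^ 14)) =
      1 / 1280000 := by norm_num
  rw [e1, pow_add, mul_inv, div_eq_mul_inv, mul_comm]
  refine mul_le_mul_of_nonneg_right ?_ (by positivity)
  norm_num

end Vale.Agent.P060.HW
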