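import Vale.Agent.P060.HW.Pasts

/-! The three pasts lemma. -/

namespace Vale.Agent.P060.HW

open Finset Module

section Sampling

variable {F V : Type*} [Field F] [AddCommGroup V] [Module F V] [FiniteDimensional F V]

/-- Intersection of the members of a finite family with `N`. -/
def meet {Y : Type*} (N : Submodule F V) (B : Y → Submodule F V) (S : Finset Y) :
    Submodule F V := N ⊓ S.inf B

omit [FiniteDimensional F V] in
theorem meet_insert {Y : Type*} [DecidableEq Y] (N : Submodule F V) (B : Y → Submodule F V)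
    (S : Finset Y) (y : Y) : meet N B (insert y S) = meet N B S ⊓ B y := by
  rw [meet, meet, Finset.inf_insert, inf_assoc, inf_comm (B y)]

theorem finrank_meet {Y : Type*} [DecidableEq Y] (N : Submodule F V) (B : Y → Submodule F V)
    (R : ℕ) (hB : ∀ y, finrank F N ≤ finrank F (B y) + R) (hBN : ∀ y, B y ≤ N)
    (S : Finset Y) : finrank F N ≤ finrank F (meet N B S) + S.card * R := by
  induction S using Finset.induction_on with
  | empty =>
    rw [meet, Finset.inf_empty, inf_top_eq]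
    exact Nat.le_add_right _ _
  | insert y S hy ih =>
    rw [meet_insert, Finset.card_insert_of_notMem hy]
    have h1 := Submodule.finrank_sup_add_finrank_inf_eq (meet N B S) (B y)
    have h2 : finrank F ↥(meet N B S ⊔ B y) ≤ finrank F N :=
      Submodule.finrank_mono (sup_le inf_le_left (hBN y))
    have h3 := hB y
    rw [add_mul, one_mul]
    omega

/-- The greedy sampling lemma. -/
theorem sampling {X Y : Type*} [Fintype X] [Fintype Y]
    (N : Submodule F V) (A : X → Submodule F V) (B : Y → Submodule F V) (R : ℕ)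
    (hA : ∀ x, finrank F N ≤ finrank F (A x) + R) (hAN : ∀ x, A x ≤ N)
    (hB : ∀ y, finrank F N ≤ finrank F (B y) + R) (hBN : ∀ y, B y ≤ N)
    {δ : ℝ} (hδ : 0 < δ) :
    ∃ I : Submodule F V, I ≤ N ∧ (finrank F N : ℝ) ≤ finrank F I + R * (R / δ) ∧
      ∀ y, (Nat.card {x // ¬ I ≤ A x ⊔ B y} : ℝ) ≤ δ * Fintype.card X := by
  classical
  rcases isEmpty_or_nonempty X with hX | hX
  · refine ⟨N, le_rfl, ?_, ?_⟩
    · have : (0 : ℝ) ≤ R * (R / δ) := by positivity
      linarith
    · intro y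
      rw [Nat.card_eq_zero.mpr (Or.inl ⟨fun x => hX.elim x.1⟩), Fintype.card_eq_zero]
      simp
  have hXpos : (0 : ℝ) < Fintype.card X := Nat.cast_pos.mpr Fintype.card_pos
  let Φ : Finset Y → ℝ := fun S => ∑ x, (finrank F ↥(A x ⊔ meet N B S) : ℝ)
  obtain ⟨S, -, hS⟩ := Finset.exists_min_image (univ : Finset (Finset Y))
    (fun S => Φ S + δ * Fintype.card X * S.card) ⟨∅, mem_univ _⟩
  refine ⟨meet N B S, inf_le_left, ?_, ?_⟩
  · have h1 := finrank_meet N B R hB hBN S
    have h2 := hS ∅ (mem_univ _)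
    rw [Finset.card_empty, Nat.cast_zero, mul_zero, add_zero] at h2
    have h3 : Φ ∅ ≤ Φ S + R * Fintype.card X := by
      have : (R : ℝ) * Fintype.card X = ∑ _x : X, (R : ℝ) := by
        rw [Finset.sum_const, Finset.card_univ, nsmul_eq_mul, mul_comm]
      rw [this, ← Finset.sum_add_distrib]
      refine Finset.sum_le_sum fun x _ => ?_
      have h4 : finrank F ↥(A x ⊔ meet N B ∅) ≤ finrank F N :=
        Submodule.finrank_mono (sup_le (hAN x) inf_le_left)
      have h5 : finrank F (A x) ≤ finrank F ↥(A x ⊔ meet N B S) :=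
        Submodule.finrank_mono le_sup_left
      have h6 := hA x
      exact_mod_cast (by omega : finrank F ↥(A x ⊔ meet N B ∅) ≤
        finrank F ↥(A x ⊔ meet N B S) + R)
    have h7 : δ * Fintype.card X * S.card ≤ R * Fintype.card X := by linarith
    have h8 : (S.card : ℝ) ≤ R / δ := by
      rw [le_div_iff₀ hδ]
      have : (S.card : ℝ) * δ * Fintype.card X ≤ R * Fintype.card X := by linarith
      exact le_of_mul_le_mul_right this hXpos
    calc (finrank F N : ℝ) ≤ finrank F (meet N B S) + S.card * R := by exact_mod_cast h1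
      _ ≤ finrank F (meet N B S) + R * (R / δ) := by
        have : (S.card : ℝ) * R ≤ R / δ * R := mul_le_mul_of_nonneg_right h8 (Nat.cast_nonneg _)
        linarith
  · intro y
    by_cases hy : y ∈ S
    · have h0 : ∀ x, meet N B S ≤ A x ⊔ B y := fun x =>
        (inf_le_right.trans (Finset.inf_le hy)).trans le_sup_right
      have : Nat.card {x // ¬ meet N B S ≤ A x ⊔ B y} = 0 :=
        Nat.card_eq_zero.mpr (Or.inl ⟨fun x => x.2 (h0 x.1)⟩)
      rw [this, Nat.cast_zero]
      positivity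
    · have h2 := hS (insert y S) (mem_univ _)
      rw [Finset.card_insert_of_notMem hy] at h2
      push_cast at h2
      have h3 : (Nat.card {x // ¬ meet N B S ≤ A x ⊔ B y} : ℝ) ≤ Φ S - Φ (insert y S) := by
        have h4 : (Nat.card {x // ¬ meet N B S ≤ A x ⊔ B y} : ℝ) =
            ∑ x : X, if ¬ meet N B S ≤ A x ⊔ B y then (1 : ℝ) else 0 := by
          rw [Finset.sum_boole, Nat.card_eq_fintype_card, Fintype.card_subtype]
        rw [h4, ← Finset.sum_sub_distrib]
        refine Finset.sum_le_sum fun x _ => ?_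
        have h5 : A x ⊔ meet N B (insert y S) ≤ A x ⊔ meet N B S := by
          rw [meet_insert]
          exact sup_le_sup_left inf_le_left _
        have h6 := Submodule.finrank_mono h5
        split_ifs with h7
        · have h8 : (0 : ℝ) ≤ (finrank F ↥(A x ⊔ meet N B S) : ℝ) -
              finrank F ↥(A x ⊔ meet N B (insert y S)) := by
            rw [sub_nonneg]
            exact_mod_cast h6
          exact h8
        · have h8 : finrank F ↥(A x ⊔ meet N B (insert y S)) <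
              finrank F ↥(A x ⊔ meet N B S) := by
            refine lt_of_le_of_ne h6 fun heq => h7 ?_
            have h9 := Submodule.eq_of_le_of_finrank_eq h5 heq
            calc meet N B S ≤ A x ⊔ meet N B S := le_sup_right
              _ = A x ⊔ meet N B (insert y S) := h9.symm
              _ ≤ A x ⊔ B y := by
                rw [meet_insert]
                exact sup_le_sup_left inf_le_right _
          have h10 : (finrank F ↥(A x ⊔ meet N B (insert y S)) : ℝ) + 1 ≤
              finrank F ↥(A x ⊔ meet N B S) := by exact_mod_cast h8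
          linarith
      linarith

end Sampling

section Main

variable {F V : Type*} [Field F] [AddCommGroup V] [Module F V] [Fintype V]

open Classical in
/-- Diagonal count: if `h x y` is invariant in `x` under `N₁` and in `y` under `N₂`, and
`N₁ + N₂` is everything, the diagonal mean is at most the maximal section mean. -/
theorem diag_le {N₁ N₂ : Submodule F V} (hN : N₂ ⊔ N₁ = ⊤) (h : V → V → ℝ)
    (h₁ : ∀ y x, ∀ n ∈ N₁, h (x + n) y = h x y) (h₂ : ∀ x y, ∀ n ∈ N₂, h x (y + n) = h x y)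
    {c : ℝ} (hc : ∀ y, ∑ x, h x y ≤ c * Fintype.card V) :
    ∑ x, h x x ≤ c * Fintype.card V := by
  have hV : (0 : ℝ) < Fintype.card V := Nat.cast_pos.mpr Fintype.card_pos
  have e1 : ∀ y, avg N₂ (fun x => h x y) y ≤ c := by
    intro y
    have e2 : avg N₁ (fun x => h x y) = fun x => h x y := avg_of_inv fun x u hu => h₁ y x u hu
    rw [← e2, avg_avg, hN, avg]
    have e3 : carr (⊤ : Submodule F V) = univ := by
      ext x
      simp [mem_carr]
    rw [e3, Finset.card_univ, div_le_iff₀ hV]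
    refine le_trans (le_of_eq ?_) (hc y)
    exact Fintype.sum_equiv (Equiv.addLeft y) _ _ fun x => rfl
  have e4 : ∀ y, avg N₂ (fun x => h x y) y = avg N₂ (fun z => h z z) y := by
    intro y
    rw [avg, avg]
    congr 1
    refine Finset.sum_congr rfl fun u hu => ?_
    exact (h₂ _ _ _ (mem_carr.mp hu)).symm
  have e5 := sum_favg (isField_const (le_refl N₂)) fun z => h z z
  rw [← e5]
  calc ∑ x, favg (fun _ => N₂) (fun z => h z z) x ≤ ∑ _x : V, c := by
        refine Finset.sum_le_sum fun x _ => ?_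
        change avg N₂ (fun z => h z z) x ≤ c
        rw [← e4]
        exact e1 x
    _ = c * Fintype.card V := by
        rw [Finset.sum_const, Finset.card_univ, nsmul_eq_mul, mul_comm]

/-- Two pasts: nearly measurable on the slices of both, hence nearly measurable with respect
to few functionals besides the two pasts. -/
theorem two_pasts {N₁ N₂ : Submodule F V} (hN : N₂ ⊔ N₁ = ⊤) {U₁ U₂ : V → Submodule F V}
    (hU₁ : IsField N₁ U₁) (hU₂ : IsField N₂ U₂) (R : ℕ)
    (hr₁ : ∀ x, finrank F N₁ ≤ finrank F (U₁ x) + R)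
    (hr₂ : ∀ x, finrank F N₂ ≤ finrank F (U₂ x) + R)
    (f : V → ℝ) {e B δ : ℝ} (hδ : 0 < δ) (hB : ∀ x, |f x| ≤ B)
    (he₁ : ∑ x, |f x - favg U₁ f x| ≤ e) (he₂ : ∑ x, |f x - favg U₂ f x| ≤ e) :
    ∃ I : Submodule F V, I ≤ N₁ ⊓ N₂ ∧
      (finrank F ↥(N₁ ⊓ N₂) : ℝ) ≤ finrank F I + R * (R / δ) ∧
      ∑ x, |f x - avg I f x| ≤ 8 * e + 2 * B * (δ * Fintype.card V) := by
  classical
  have hfin : FiniteDimensional F V := by
    exact Module.Finite.of_finite
  have hB0 : 0 ≤ B := (abs_nonneg _).trans (hB 0)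
  -- the restricted fields
  have codim : ∀ {N M U : Submodule F V}, U ≤ N → finrank F N ≤ finrank F U + R →
      finrank F ↥(N ⊓ M) ≤ finrank F ↥(U ⊓ M) + R := by
    intro N M U hUN h
    have h1 := Submodule.finrank_sup_add_finrank_inf_eq U (N ⊓ M)
    have h2 : U ⊓ (N ⊓ M) = U ⊓ M := by
      rw [← inf_assoc, inf_eq_left.mpr hUN]
    have h3 : finrank F ↥(U ⊔ N ⊓ M) ≤ finrank F N :=
      Submodule.finrank_mono (sup_le hUN inf_le_left)
    rw [h2] at h1
    omega
  have hf₁ := hU₁.inf_both N₂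
  have hf₂ : IsField (N₁ ⊓ N₂) fun x => U₂ x ⊓ N₁ := by
    have := hU₂.inf_both N₁
    rwa [inf_comm N₂ N₁] at this
  have hc₁ : ∀ x, finrank F ↥(N₁ ⊓ N₂) ≤ finrank F ↥(U₁ x ⊓ N₂) + R := fun x =>
    codim (hU₁.le x) (hr₁ x)
  have hc₂ : ∀ x, finrank F ↥(N₁ ⊓ N₂) ≤ finrank F ↥(U₂ x ⊓ N₁) + R := fun x => by
    rw [inf_comm N₁ N₂]
    exact codim (hU₂.le x) (hr₂ x)
  obtain ⟨I, hI, hIr, hIc⟩ := sampling (N₁ ⊓ N₂) (fun x => U₁ x ⊓ N₂) (fun y => U₂ y ⊓ N₁) R
    hc₁ hf₁.le hc₂ hf₂.le hδ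
  refine ⟨I, hI, hIr, ?_⟩
  -- distance to the joint average
  have g₁ : ∑ x, |f x - favg (fun x => U₁ x ⊓ N₂) f x| ≤ 2 * e :=
    l1_refine hU₁ (hU₁.inf_left N₂) (fun x => inf_le_left) f he₁
  have g₂ : ∑ x, |f x - favg (fun x => U₂ x ⊓ N₁) f x| ≤ 2 * e :=
    l1_refine hU₂ (hU₂.inf_left N₁) (fun x => inf_le_left) f he₂
  set W : V → Submodule F V := fun x => U₁ x ⊓ N₂ ⊔ U₂ x ⊓ N₁ with hW
  have hWf : IsField (N₁ ⊓ N₂) W := hf₁.sup hf₂
  have g₃ : ∑ x, |f x - favg W f x| ≤ 4 * e := by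
    refine (l1_sup hf₁ hf₂ f g₁ g₂).trans (le_of_eq ?_)
    ring
  -- the bad points
  have hIf : IsField (N₁ ⊓ N₂) fun _ : V => I := isField_const hI
  have bad : ∑ x, (if ¬ I ≤ W x then (1 : ℝ) else 0) ≤ δ * Fintype.card V := by
    refine diag_le hN (fun x y => if ¬ I ≤ U₁ x ⊓ N₂ ⊔ U₂ y ⊓ N₁ then (1 : ℝ) else 0) ?_ ?_ ?_
    · intro y x n hn
      simp only [hU₁.inv x n hn]
    · intro x y n hn
      simp only [hU₂.inv y n hn]
    · intro y
      refine le_trans (le_of_eq ?_) (hIc y)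
      rw [Finset.sum_boole, Nat.card_eq_fintype_card, Fintype.card_subtype]
  have habs : ∀ (U : Submodule F V) x, |avg U f x| ≤ B := fun U x =>
    (abs_avg_le U f x).trans (avg_le_of_le U hB x)
  have g₄ : ∑ x, |favg W f x - favg (fun _ => I) (favg W f) x| ≤
      2 * B * (δ * Fintype.card V) := by
    rw [favg_favg hIf hWf]
    calc ∑ x, |favg W f x - favg (fun x => I ⊔ W x) f x|
        ≤ ∑ x, 2 * B * (if ¬ I ≤ W x then (1 : ℝ) else 0) := by
          refine Finset.sum_le_sum fun x _ => ?_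
          split_ifs with h
          · rw [favg, favg, sup_eq_right.mpr h, sub_self, abs_zero, mul_zero]
          · rw [mul_one]
            calc |favg W f x - favg (fun x => I ⊔ W x) f x|
                ≤ |favg W f x| + |favg (fun x => I ⊔ W x) f x| := abs_sub _ _
              _ ≤ B + B := add_le_add (habs _ _) (habs _ _)
              _ = 2 * B := by ring
      _ = 2 * B * ∑ x, (if ¬ I ≤ W x then (1 : ℝ) else 0) := by rw [Finset.mul_sum]
      _ ≤ 2 * B * (δ * Fintype.card V) := mul_le_mul_of_nonneg_left bad (by linarith)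
  have g₅ : ∑ x, |favg (fun _ => I) (favg W f) x - favg (fun _ => I) f x| ≤ 4 * e := by
    refine (l1_favg_sub_le hIf _ _).trans ?_
    rw [Finset.sum_congr rfl fun x _ => abs_sub_comm _ _]
    exact g₃
  have t1 := l1_triangle f (favg W f) (favg (fun _ => I) (favg W f))
  have t2 := l1_triangle f (favg (fun _ => I) (favg W f)) (favg (fun _ => I) f)
  change ∑ x, |f x - favg (fun _ => I) f x| ≤ _
  linarith

/-- The three pasts lemma. -/
theorem three_pasts {N₁ N₂ N₃ : Submodule F V}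
    (hN : N₁ ⊓ N₂ ⊔ (N₁ ⊓ N₃ ⊔ N₂ ⊓ N₃) = ⊤) {U₁ U₂ U₃ : V → Submodule F V}
    (hU₁ : IsField N₁ U₁) (hU₂ : IsField N₂ U₂) (hU₃ : IsField N₃ U₃) (R : ℕ)
    (hr₁ : ∀ x, finrank F N₁ ≤ finrank F (U₁ x) + R)
    (hr₂ : ∀ x, finrank F N₂ ≤ finrank F (U₂ x) + R)
    (hr₃ : ∀ x, finrank F N₃ ≤ finrank F (U₃ x) + R)
    (f : V → ℝ) {e B δ : ℝ} (hδ : 0 < δ) (hB : ∀ x, |f x| ≤ B)
    (he₁ : ∑ x, |f x - favg U₁ f x| ≤ e) (he₂ : ∑ x, |f x - favg U₂ f x| ≤ e)
    (he₃ : ∑ x, |f x - favg U₃ f x| ≤ e) :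
    ∃ U : Submodule F V, (finrank F V : ℝ) ≤ finrank F U + 3 * (R * (R / δ)) ∧
      ∑ x, |f x - avg U f x| ≤ 24 * e + 6 * B * (δ * Fintype.card V) := by
  have hfin : FiniteDimensional F V := Module.Finite.of_finite
  have n12 : N₂ ⊔ N₁ = ⊤ := by
    rw [eq_top_iff, ← hN]
    exact sup_le (inf_le_left.trans le_sup_right)
      (sup_le (inf_le_left.trans le_sup_right) (inf_le_left.trans le_sup_left))
  have n13 : N₃ ⊔ N₁ = ⊤ := by
    rw [eq_top_iff, ← hN]
    exact sup_le (inf_le_left.trans le_sup_right)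
      (sup_le (inf_le_left.trans le_sup_right) (inf_le_right.trans le_sup_left))
  have n23 : N₃ ⊔ N₂ = ⊤ := by
    rw [eq_top_iff, ← hN]
    exact sup_le (inf_le_right.trans le_sup_right)
      (sup_le (inf_le_right.trans le_sup_left) (inf_le_right.trans le_sup_left))
  obtain ⟨I, hI, hIr, hIe⟩ := two_pasts n12 hU₁ hU₂ R hr₁ hr₂ f hδ hB he₁ he₂
  obtain ⟨J, hJ, hJr, hJe⟩ := two_pasts n13 hU₁ hU₃ R hr₁ hr₃ f hδ hB he₁ he₃
  obtain ⟨K, hK, hKr, hKe⟩ := two_pasts n23 hU₂ hU₃ R hr₂ hr₃ f hδ hB he₂ he₃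
  have codim2 : ∀ {A A' C C' : Submodule F V}, A' ≤ A → C' ≤ C →
      finrank F ↥(A ⊔ C) + finrank F A' + finrank F C' ≤
        finrank F ↥(A' ⊔ C') + finrank F A + finrank F C := by
    intro A A' C C' hA hC
    have h1 := Submodule.finrank_sup_add_finrank_inf_eq A C
    have h2 := Submodule.finrank_sup_add_finrank_inf_eq A' C'
    have h3 : finrank F ↥(A' ⊓ C') ≤ finrank F ↥(A ⊓ C) :=
      Submodule.finrank_mono (inf_le_inf hA hC)
    omega
  refine ⟨I ⊔ (J ⊔ K), ?_, ?_⟩
  · have h1 := codim2 hJ hK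
    have h2 := codim2 hI (sup_le_sup hJ hK)
    rw [hN, finrank_top] at h2
    have h1' : (finrank F ↥(N₁ ⊓ N₃ ⊔ N₂ ⊓ N₃) : ℝ) + finrank F J + finrank F K ≤
        finrank F ↥(J ⊔ K) + finrank F ↥(N₁ ⊓ N₃) + finrank F ↥(N₂ ⊓ N₃) := by
      exact_mod_cast h1
    have h2' : (finrank F V : ℝ) + finrank F I + finrank F ↥(J ⊔ K) ≤
        finrank F ↥(I ⊔ (J ⊔ K)) + finrank F ↥(N₁ ⊓ N₂) +
          finrank F ↥(N₁ ⊓ N₃ ⊔ N₂ ⊓ N₃) := by
      exact_mod_cast h2
    linarith
  · have k₁ : ∑ x, |f x - favg (fun _ => I) f x| ≤ 8 * e + 2 * B * (δ * Fintype.card V) := hIe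
    have k₂ : ∑ x, |f x - favg (fun _ => J) f x| ≤ 8 * e + 2 * B * (δ * Fintype.card V) := hJe
    have k₃ : ∑ x, |f x - favg (fun _ => K) f x| ≤ 8 * e + 2 * B * (δ * Fintype.card V) := hKe
    have top : ∀ U : Submodule F V, IsField ⊤ fun _ : V => U := fun U => isField_const le_top
    have k₄ := l1_sup (top J) (top K) f k₂ k₃
    have k₅ := l1_sup (top I) (top (J ⊔ K)) f k₁ k₄
    change ∑ x, |f x - favg (fun _ => I ⊔ (J ⊔ K)) f x| ≤ _
    linarith

end Main

end Vale.Agent.P060.HW
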