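import Vale.Agent.P060.HW.Pasts3

/-! The three pasts lemma when the three pasts know finitely many common functionals. -/

namespace Vale.Agent.P060.HW

open Finset Module

section Common

variable {F V : Type*} [Field F] [AddCommGroup V] [Module F V] [Fintype V]

/-- Intersection of the members of a field over the translates by `T`. -/
noncomputable def tfield (T N : Submodule F V) (U : V → Submodule F V) (x : V) :
    Submodule F V := meet N (fun t => U (x + t)) (carr T)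

theorem tfield_le (T N : Submodule F V) (U : V → Submodule F V) (x : V) :
    tfield T N U x ≤ N := inf_le_left

theorem tfield_le_apply (T N : Submodule F V) (U : V → Submodule F V) (x : V) :
    tfield T N U x ≤ U x := by
  refine inf_le_right.trans ((Finset.inf_le (mem_carr.mpr T.zero_mem)).trans ?_)
  rw [add_zero]

theorem tfield_inv {T N : Submodule F V} {U : V → Submodule F V} (hU : IsField N U) (x n : V)
    (hn : n ∈ N ⊔ T) : tfield T N U (x + n) = tfield T N U x := by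
  obtain ⟨m, hm, s, hs, rfl⟩ := Submodule.mem_sup.mp hn
  have key : ∀ t, U (x + (m + s) + t) = U (x + (s + t)) := by
    intro t
    rw [show x + (m + s) + t = x + (s + t) + m by abel]
    exact hU.inv _ m hm
  unfold tfield meet
  congr 1
  refine le_antisymm ?_ ?_
  · refine Finset.le_inf fun t ht => ?_
    refine (Finset.inf_le (b := t - s)
      (mem_carr.mpr (T.sub_mem (mem_carr.mp ht) hs))).trans ?_
    rw [key, add_sub_cancel]
  · refine Finset.le_inf fun t ht => ?_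
    refine (Finset.inf_le (b := s + t)
      (mem_carr.mpr (T.add_mem hs (mem_carr.mp ht)))).trans ?_
    rw [key]

theorem isField_tfield {T N : Submodule F V} {U : V → Submodule F V} (hU : IsField N U) :
    IsField N (tfield T N U) :=
  ⟨tfield_le T N U, fun x n hn => tfield_inv hU x n (Submodule.mem_sup_left hn)⟩

theorem isField_tfield_sup {T N : Submodule F V} {U : V → Submodule F V} (hU : IsField N U) :
    IsField (N ⊔ T) (tfield T N U) :=
  ⟨fun x => (tfield_le T N U x).trans le_sup_left, fun x n hn => tfield_inv hU x n hn⟩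

theorem finrank_tfield {T N : Submodule F V} {U : V → Submodule F V} (hU : IsField N U) {R : ℕ}
    (hr : ∀ x, finrank F N ≤ finrank F (U x) + R) (x : V) :
    finrank F ↥(N ⊔ T) ≤ finrank F (tfield T N U x) + (finrank F T + (carr T).card * R) := by
  classical
  have hfin : FiniteDimensional F V := Module.Finite.of_finite
  have h1 := finrank_meet N (fun t => U (x + t)) R (fun t => hr _) (fun t => hU.le _) (carr T)
  have h2 := Submodule.finrank_sup_add_finrank_inf_eq N T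
  unfold tfield
  omega

theorem favg_tfield {T N : Submodule F V} {U : V → Submodule F V} (hU : IsField N U)
    (f : V → ℝ) {e : ℝ} (h : ∑ x, |f x - favg U f x| ≤ e) :
    ∑ x, |f x - favg (tfield T N U) f x| ≤ 2 * e :=
  l1_refine hU (isField_tfield hU) (tfield_le_apply T N U) f h

/-- The three pasts lemma; the hypothesis on the `N i` holds only up to a small subspace `T`. -/
theorem three_pasts_common {N₁ N₂ N₃ T : Submodule F V}
    (hN : N₁ ⊓ N₂ ⊔ (N₁ ⊓ N₃ ⊔ N₂ ⊓ N₃) ⊔ T = ⊤) {U₁ U₂ U₃ : V → Submodule F V}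
    (hU₁ : IsField N₁ U₁) (hU₂ : IsField N₂ U₂) (hU₃ : IsField N₃ U₃) (R R' : ℕ)
    (hR' : finrank F T + (carr T).card * R ≤ R')
    (hr₁ : ∀ x, finrank F N₁ ≤ finrank F (U₁ x) + R)
    (hr₂ : ∀ x, finrank F N₂ ≤ finrank F (U₂ x) + R)
    (hr₃ : ∀ x, finrank F N₃ ≤ finrank F (U₃ x) + R)
    (f : V → ℝ) {e B δ : ℝ} (hδ : 0 < δ) (hB : ∀ x, |f x| ≤ B)
    (he₁ : ∑ x, |f x - favg U₁ f x| ≤ e) (he₂ : ∑ x, |f x - favg U₂ f x| ≤ e)
    (he₃ : ∑ x, |f x - favg U₃ f x| ≤ e) :
    ∃ U : Submodule F V, (finrank F V : ℝ) ≤ finrank F U + 3 * (R' * (R' / δ)) ∧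
      ∑ x, |f x - avg U f x| ≤ 48 * e + 6 * B * (δ * Fintype.card V) := by
  have hN' : (N₁ ⊔ T) ⊓ (N₂ ⊔ T) ⊔ ((N₁ ⊔ T) ⊓ (N₃ ⊔ T) ⊔ (N₂ ⊔ T) ⊓ (N₃ ⊔ T)) = ⊤ := by
    rw [eq_top_iff, ← hN]
    refine sup_le (sup_le ?_ (sup_le ?_ ?_)) ?_
    · exact (inf_le_inf le_sup_left le_sup_left).trans le_sup_left
    · exact (inf_le_inf le_sup_left le_sup_left).trans (le_sup_left.trans le_sup_right)
    · exact (inf_le_inf le_sup_left le_sup_left).trans (le_sup_right.trans le_sup_right)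
    · exact (le_inf le_sup_right le_sup_right).trans le_sup_left
  obtain ⟨U, hU, hUe⟩ := three_pasts hN' (isField_tfield_sup hU₁) (isField_tfield_sup hU₂)
    (isField_tfield_sup hU₃) R' (fun x => (finrank_tfield hU₁ hr₁ x).trans (by omega))
    (fun x => (finrank_tfield hU₂ hr₂ x).trans (by omega))
    (fun x => (finrank_tfield hU₃ hr₃ x).trans (by omega)) f hδ hB (favg_tfield hU₁ f he₁)
    (favg_tfield hU₂ f he₂) (favg_tfield hU₃ f he₃)
  exact ⟨U, hU, by linarith⟩

variable [Fintype F]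

/-- `three_pasts_close` with finitely many common functionals (kernel of codimension `≤ s`). -/
theorem three_pasts_close_common {ψ : AddChar F ℂ} (hψ : ψ ≠ 0) {N₁ N₂ N₃ : Submodule F V}
    (s : ℕ) (hN : finrank F V ≤ finrank F ↥(N₁ ⊓ N₂ ⊔ (N₁ ⊓ N₃ ⊔ N₂ ⊓ N₃)) + s)
    {U₁ U₂ U₃ : V → Submodule F V}
    (hU₁ : IsField N₁ U₁) (hU₂ : IsField N₂ U₂) (hU₃ : IsField N₃ U₃) (R R' : ℕ)
    (hR' : s + Fintype.card F ^ s * R ≤ R')
    (hr₁ : ∀ x, finrank F N₁ ≤ finrank F (U₁ x) + R)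
    (hr₂ : ∀ x, finrank F N₂ ≤ finrank F (U₂ x) + R)
    (hr₃ : ∀ x, finrank F N₃ ≤ finrank F (U₃ x) + R)
    (f : V → ℝ) {e B δ η : ℝ} (hδ : 0 < δ) (hB : ∀ x, |f x| ≤ B)
    (he₁ : ∑ x, |f x - favg U₁ f x| ≤ e) (he₂ : ∑ x, |f x - favg U₂ f x| ≤ e)
    (he₃ : ∑ x, |f x - favg U₃ f x| ≤ e) (Z : Submodule F V) (hη0 : 0 ≤ η)
    (hη : ∀ ξ : Dual F V, (¬ ∀ z ∈ Z, ξ z = 0) → ‖fc ψ f ξ‖ ≤ η) (c : ℕ)
    (hc : 3 * (R' * (R' / δ)) ≤ c) :
    ∑ x, |f x - avg Z f x| ≤
      2 * (48 * e + 6 * B * (δ * Fintype.card V) + (Fintype.card F : ℝ) ^ c * η) := by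
  have hfin : FiniteDimensional F V := Module.Finite.of_finite
  obtain ⟨T, hT⟩ := Submodule.exists_isCompl (N₁ ⊓ N₂ ⊔ (N₁ ⊓ N₃ ⊔ N₂ ⊓ N₃))
  have hT1 := hT.codisjoint.eq_top
  have hT2 : finrank F T ≤ s := by
    have := Submodule.finrank_add_eq_of_isCompl hT
    omega
  have hT3 : finrank F T + (carr T).card * R ≤ R' := by
    refine le_trans ?_ hR'
    rw [card_carr]
    exact Nat.add_le_add hT2 (Nat.mul_le_mul_right _
      (Nat.pow_le_pow_right Fintype.card_pos hT2))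
  obtain ⟨U, hU, hUe⟩ := three_pasts_common hT1 hU₁ hU₂ hU₃ R R' hT3 hr₁ hr₂ hr₃ f hδ hB
    he₁ he₂ he₃
  have h1 : finrank F V ≤ finrank F U + c := by
    have : (finrank F V : ℝ) ≤ ((finrank F U + c : ℕ) : ℝ) := by
      push_cast
      linarith
    exact_mod_cast this
  have h2 := avg_close hψ U Z f hη0 (fun ξ _ h => hη ξ h) c h1
  have h3 := l1_triangle f (avg U f) (avg (U ⊔ Z) f)
  have h4 : ∑ x, |f x - favg (fun _ => U ⊔ Z) f x| ≤
      48 * e + 6 * B * (δ * Fintype.card V) + (Fintype.card F : ℝ) ^ c * η := by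
    change ∑ x, |f x - avg (U ⊔ Z) f x| ≤ _
    linarith
  exact l1_refine (N := ⊤) (isField_const le_top) (isField_const le_top)
    (fun _ => le_sup_right) f h4

end Common

end Vale.Agent.P060.HW
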