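import Vale.Agent.P060.HW.Info

/-!
# P060/HW: Pinsker's inequality and truncation

* `pinsker`: `(∑ |p - q|)^2 ≤ 4 ∑ p log (p / q)`.
* `trunc_mass`: the mass on which the density exceeds `L` is at most `(KL + 1) / log L`.
* `FinProb.info_l1`: conditional mutual information controls the distance of the joint law of
  `(X, Y, Z)` from the conditionally independent coupling.
* `FinProb.info3_l1`: the same for three variables.
-/

open scoped Classical
open Finset

noncomputable section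

namespace Vale.Agent.P060.HW

lemma klog_ge {p q : ℝ} (hp : 0 ≤ p) (hq : 0 ≤ q) (h : 0 < p → 0 < q) :
    p - q + (Real.sqrt p - Real.sqrt q) ^ 2 ≤ p * (Real.log p - Real.log q) := by
  have e1 : (Real.sqrt p - Real.sqrt q) ^ 2 = p + q - 2 * (Real.sqrt p * Real.sqrt q) := by
    rw [sub_sq, Real.sq_sqrt hp, Real.sq_sqrt hq]; ring
  rcases hp.eq_or_lt with h0 | h0
  · subst h0
    rw [e1, Real.sqrt_zero]
    simp
  · have hq0 := h h0
    have sp : 0 < Real.sqrt p := Real.sqrt_pos.2 h0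
    have sq : 0 < Real.sqrt q := Real.sqrt_pos.2 hq0
    have h1 : Real.log (Real.sqrt q / Real.sqrt p) ≤ Real.sqrt q / Real.sqrt p - 1 :=
      Real.log_le_sub_one_of_pos (by positivity)
    rw [Real.log_div sq.ne' sp.ne', Real.log_sqrt hq, Real.log_sqrt hp] at h1
    have h2 : p * (Real.sqrt q / Real.sqrt p) = Real.sqrt p * Real.sqrt q := by
      have : p = Real.sqrt p * Real.sqrt p := (Real.mul_self_sqrt hp).symm
      calc p * (Real.sqrt q / Real.sqrt p)
          = (Real.sqrt p * Real.sqrt p) * (Real.sqrt q / Real.sqrt p) := by rw [← this]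
        _ = Real.sqrt p * Real.sqrt q := by field_simp
    have h3 := mul_le_mul_of_nonneg_left h1 h0.le
    rw [mul_sub p (Real.sqrt q / Real.sqrt p), h2] at h3
    rw [e1]
    nlinarith

/-- Pinsker's inequality (with constant `4`). -/
theorem pinsker {α : Type*} (s : Finset α) (p q : α → ℝ) (hp : ∀ x ∈ s, 0 ≤ p x)
    (hq : ∀ x ∈ s, 0 ≤ q x) (h : ∀ x ∈ s, 0 < p x → 0 < q x) (hp1 : ∑ x ∈ s, p x = 1)
    (hq1 : ∑ x ∈ s, q x ≤ 1) :
    (∑ x ∈ s, |p x - q x|) ^ 2 ≤ 4 * ∑ x ∈ s, p x * (Real.log (p x) - Real.log (q x)) := by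
  have h1 : ∑ x ∈ s, (Real.sqrt (p x) - Real.sqrt (q x)) ^ 2
      ≤ ∑ x ∈ s, p x * (Real.log (p x) - Real.log (q x)) := by
    have := Finset.sum_le_sum fun x hx => klog_ge (hp x hx) (hq x hx) (h x hx)
    rw [Finset.sum_add_distrib, Finset.sum_sub_distrib, hp1] at this
    linarith
  have h2 : ∑ x ∈ s, (Real.sqrt (p x) + Real.sqrt (q x)) ^ 2 ≤ 4 := by
    calc ∑ x ∈ s, (Real.sqrt (p x) + Real.sqrt (q x)) ^ 2 ≤ ∑ x ∈ s, (2 * p x + 2 * q x) := by
          refine Finset.sum_le_sum fun x hx => ?_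
          nlinarith [sq_nonneg (Real.sqrt (p x) - Real.sqrt (q x)), Real.sq_sqrt (hp x hx),
            Real.sq_sqrt (hq x hx)]
      _ = 2 * ∑ x ∈ s, p x + 2 * ∑ x ∈ s, q x := by
          rw [Finset.sum_add_distrib, Finset.mul_sum, Finset.mul_sum]
      _ ≤ 4 := by rw [hp1]; linarith
  have h3 : ∑ x ∈ s, |p x - q x|
      = ∑ x ∈ s, |Real.sqrt (p x) - Real.sqrt (q x)| * (Real.sqrt (p x) + Real.sqrt (q x)) := by
    refine Finset.sum_congr rfl fun x hx => ?_
    have e : p x - q x = (Real.sqrt (p x) - Real.sqrt (q x)) * (Real.sqrt (p x) + Real.sqrt (q x)) := by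
      linear_combination (-1 : ℝ) * Real.sq_sqrt (hp x hx) + Real.sq_sqrt (hq x hx)
    rw [e, abs_mul, abs_of_nonneg (a := Real.sqrt (p x) + Real.sqrt (q x)) (by positivity)]
  have h4 := Finset.sum_mul_sq_le_sq_mul_sq s
    (fun x => |Real.sqrt (p x) - Real.sqrt (q x)|) (fun x => Real.sqrt (p x) + Real.sqrt (q x))
  rw [h3]
  refine h4.trans ?_
  simp only [sq_abs]
  have h5 : 0 ≤ ∑ x ∈ s, (Real.sqrt (p x) - Real.sqrt (q x)) ^ 2 :=
    Finset.sum_nonneg fun _ _ => sq_nonneg _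
  calc (∑ x ∈ s, (Real.sqrt (p x) - Real.sqrt (q x)) ^ 2)
        * ∑ x ∈ s, (Real.sqrt (p x) + Real.sqrt (q x)) ^ 2
      ≤ (∑ x ∈ s, (Real.sqrt (p x) - Real.sqrt (q x)) ^ 2) * 4 :=
        mul_le_mul_of_nonneg_left h2 h5
    _ ≤ 4 * ∑ x ∈ s, p x * (Real.log (p x) - Real.log (q x)) := by linarith

/-- The mass on which the density exceeds `L`. -/
theorem trunc_mass {α : Type*} (s : Finset α) (p q : α → ℝ) (hp : ∀ x ∈ s, 0 ≤ p x)
    (hq : ∀ x ∈ s, 0 ≤ q x) (h : ∀ x ∈ s, 0 < p x → 0 < q x) (hq1 : ∑ x ∈ s, q x ≤ 1)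
    {L : ℝ} (hL : 1 < L) :
    ∑ x ∈ s with L * q x < p x, p x
      ≤ (∑ x ∈ s, p x * (Real.log (p x) - Real.log (q x)) + 1) / Real.log L := by
  have hlog : 0 < Real.log L := Real.log_pos hL
  rw [le_div_iff₀ hlog]
  have key : ∀ x ∈ s, (if L * q x < p x then p x * Real.log L else 0)
      ≤ p x * (Real.log (p x) - Real.log (q x)) + q x := by
    intro x hx
    rcases (hp x hx).eq_or_lt with h0 | h0
    · rw [← h0]
      have hq0 := hq x hx
      simp [hq0]
    · have hq0 := h x hx h0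
      split_ifs with hc
      · have h1 : Real.log L ≤ Real.log (p x) - Real.log (q x) := by
          rw [← Real.log_div h0.ne' hq0.ne']
          refine Real.log_le_log (by linarith) ?_
          rw [le_div_iff₀ hq0]
          exact hc.le
        have := mul_le_mul_of_nonneg_left h1 h0.le
        linarith
      · have h1 : Real.log (q x / p x) ≤ q x / p x - 1 :=
          Real.log_le_sub_one_of_pos (by positivity)
        rw [Real.log_div hq0.ne' h0.ne'] at h1
        have h2 := mul_le_mul_of_nonneg_left h1 h0.le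
        have h3 : p x * (q x / p x - 1) = q x - p x := by
          field_simp
        rw [h3] at h2
        nlinarith
  have := Finset.sum_le_sum key
  rw [Finset.sum_add_distrib] at this
  rw [Finset.sum_filter, Finset.sum_mul]
  calc ∑ x ∈ s, (if L * q x < p x then p x else 0) * Real.log L
      = ∑ x ∈ s, (if L * q x < p x then p x * Real.log L else 0) :=
        Finset.sum_congr rfl fun x _ => by split_ifs <;> simp
    _ ≤ _ := by linarith

namespace FinProb

variable {Ω : Type*} [Fintype Ω] (P : FinProb Ω) {α β γ δ : Type*}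

lemma sum_p_univ [Fintype α] (f : Ω → α) : ∑ a, P.p f a = 1 := by
  unfold p
  rw [Finset.sum_comm, ← P.sum_one]
  refine Finset.sum_congr rfl fun ω _ => ?_
  rw [Finset.sum_ite_eq]
  simp

lemma sum_p_mul_univ [Fintype α] (f : Ω → α) (φ : α → ℝ) :
    ∑ ω, P.w ω * φ (f ω) = ∑ a, P.p f a * φ a := by
  rw [P.sum_fiber f φ]
  refine Finset.sum_subset (Finset.subset_univ _) fun a _ ha => ?_
  rw [P.p_eq_zero_of_notMem, zero_mul]
  intro ω hω
  exact ha (hω ▸ Finset.mem_image_of_mem f (Finset.mem_univ ω))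

/-- Marginals. -/
lemma sum_p_marg [Fintype α] (f : Ω → α) (h : Ω → γ) (c : γ) :
    ∑ a, P.p (fun ω => (f ω, h ω)) (a, c) = P.p h c := by
  unfold p
  rw [Finset.sum_comm]
  refine Finset.sum_congr rfl fun ω _ => ?_
  by_cases hc : h ω = c
  · rw [Finset.sum_eq_single (f ω)]
    · simp [hc]
    · intro b _ hb
      simp [Ne.symm hb]
    · intro hb
      exact absurd (Finset.mem_univ _) hb
  · have : ∀ a, ¬ ((f ω, h ω) = (a, c)) := by
      intro a h'; exact hc (by simpa using (Prod.ext_iff.1 h').2)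
    simp [this, hc]

/-- Law of a function of `f`. -/
lemma p_comp_eq_sum [Fintype α] (f : Ω → α) (φ : α → β) (b : β) :
    P.p (fun ω => φ (f ω)) b = ∑ a, if φ a = b then P.p f a else 0 := by
  unfold p
  have : ∀ a, (if φ a = b then ∑ ω, (if f ω = a then P.w ω else 0) else 0)
      = ∑ ω, (if φ a = b then (if f ω = a then P.w ω else 0) else 0) := by
    intro a; split_ifs <;> simp
  rw [Finset.sum_congr rfl fun a _ => this a, Finset.sum_comm]
  refine Finset.sum_congr rfl fun ω _ => ?_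
  rw [Finset.sum_eq_single (f ω)]
  · simp
  · intro a _ ha
    simp [Ne.symm ha]
  · intro hb
    exact absurd (Finset.mem_univ _) hb

lemma H_eq_neg_sum [Fintype α] (f : Ω → α) : P.H f = -∑ a, P.p f a * Real.log (P.p f a) := by
  unfold H
  rw [P.sum_p_mul_univ f (fun a => -Real.log (P.p f a)), ← Finset.sum_neg_distrib]
  exact Finset.sum_congr rfl fun a _ => by ring

lemma p_pos_iff_exists {f : Ω → α} {a : α} : 0 < P.p f a ↔ ∃ ω, 0 < P.w ω ∧ f ω = a := by
  constructor
  · intro h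
    by_contra hc
    push Not at hc
    have : P.p f a = 0 := by
      unfold p
      refine Finset.sum_eq_zero fun ω _ => ?_
      split_ifs with h'
      · rcases P.w_zero_or_pos ω with h0 | h0
        · exact h0
        · exact absurd h' (hc ω h0)
      · rfl
    linarith
  · rintro ⟨ω, h0, rfl⟩
    exact P.p_pos h0 f

/-- Conditional mutual information of three variables: total correlation. -/
def info3 (f : Ω → α) (g : Ω → β) (k : Ω → δ) (h : Ω → γ) : ℝ :=
  P.H (fun ω => (f ω, h ω)) + P.H (fun ω => (g ω, h ω)) + P.H (fun ω => (k ω, h ω))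
    - P.H (fun ω => (f ω, g ω, k ω, h ω)) - 2 * P.H h

/-- Conditional mutual information. -/
def info (f : Ω → α) (g : Ω → β) (h : Ω → γ) : ℝ :=
  P.H (fun ω => (f ω, h ω)) + P.H (fun ω => (g ω, h ω))
    - P.H (fun ω => (f ω, g ω, h ω)) - P.H h

/-- Pinsker for the conditional mutual information. -/
theorem info_l1 [Fintype α] [Fintype β] [Fintype γ] (f : Ω → α) (g : Ω → β) (h : Ω → γ) :
    (∑ x : α × β × γ, |P.p (fun ω => (f ω, g ω, h ω)) x
      - P.p (fun ω => (f ω, h ω)) (x.1, x.2.2) * P.p (fun ω => (g ω, h ω)) (x.2.1, x.2.2)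
        / P.p h x.2.2|) ^ 2 ≤ 4 * P.info f g h := by
  have hsupp : ∀ x : α × β × γ, 0 < P.p (fun ω => (f ω, g ω, h ω)) x →
      0 < P.p (fun ω => (f ω, h ω)) (x.1, x.2.2) ∧ 0 < P.p (fun ω => (g ω, h ω)) (x.2.1, x.2.2) ∧
        0 < P.p h x.2.2 := by
    intro x hx
    obtain ⟨ω, h0, rfl⟩ := P.p_pos_iff_exists.1 hx
    exact ⟨P.p_pos h0 (fun ω => (f ω, h ω)), P.p_pos h0 (fun ω => (g ω, h ω)), P.p_pos h0 h⟩
  have hmain := pinsker univ (P.p (fun ω => (f ω, g ω, h ω)))
    (fun x : α × β × γ => P.p (fun ω => (f ω, h ω)) (x.1, x.2.2)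
      * P.p (fun ω => (g ω, h ω)) (x.2.1, x.2.2) / P.p h x.2.2)
    (fun x _ => P.p_nonneg _ x)
    (fun x _ => div_nonneg (mul_nonneg (P.p_nonneg _ _) (P.p_nonneg _ _)) (P.p_nonneg _ _))
    (fun x _ hx => by
      obtain ⟨h1, h2, h3⟩ := hsupp x hx
      positivity) (P.sum_p_univ _) ?_
  · refine hmain.trans (le_of_eq ?_)
    congr 1
    rw [← P.sum_p_mul_univ (fun ω => (f ω, g ω, h ω)) (fun x : α × β × γ =>
      Real.log (P.p (fun ω => (f ω, g ω, h ω)) x) - Real.log (P.p (fun ω => (f ω, h ω)) (x.1, x.2.2)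
      * P.p (fun ω => (g ω, h ω)) (x.2.1, x.2.2) / P.p h x.2.2))]
    unfold info H
    rw [← Finset.sum_add_distrib, ← Finset.sum_sub_distrib, ← Finset.sum_sub_distrib]
    refine Finset.sum_congr rfl fun ω _ => ?_
    rcases P.w_zero_or_pos ω with h0 | h0
    · simp [h0]
    · have h1 := P.p_pos h0 (fun ω => (f ω, h ω))
      have h2 := P.p_pos h0 (fun ω => (g ω, h ω))
      have h3 := P.p_pos h0 h
      rw [Real.log_div (by positivity) h3.ne', Real.log_mul h1.ne' h2.ne']
      ring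
  · -- total mass
    have : ∑ x : α × β × γ, P.p (fun ω => (f ω, h ω)) (x.1, x.2.2)
        * P.p (fun ω => (g ω, h ω)) (x.2.1, x.2.2) / P.p h x.2.2
        = ∑ c : γ, P.p h c := by
      rw [Fintype.sum_prod_type]
      simp_rw [Fintype.sum_prod_type]
      have e1 : ∀ a : α, ∑ b : β, ∑ c : γ, P.p (fun ω => (f ω, h ω)) (a, c)
          * P.p (fun ω => (g ω, h ω)) (b, c) / P.p h c
          = ∑ c : γ, P.p (fun ω => (f ω, h ω)) (a, c) * P.p h c / P.p h c := by
        intro a
        rw [Finset.sum_comm]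
        refine Finset.sum_congr rfl fun c _ => ?_
        rw [← Finset.sum_div, ← Finset.mul_sum, P.sum_p_marg g h c]
      rw [Finset.sum_congr rfl fun a _ => e1 a, Finset.sum_comm]
      refine Finset.sum_congr rfl fun c _ => ?_
      rw [← Finset.sum_div, ← Finset.sum_mul, P.sum_p_marg f h c]
      rcases (P.p_nonneg h c).eq_or_lt with hx | hx
      · rw [← hx]; simp
      · rw [mul_div_assoc, div_self hx.ne', mul_one]
    rw [this, P.sum_p_univ h]

/-- Pinsker for the conditional total correlation of three variables. -/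
theorem info3_l1 [Fintype α] [Fintype β] [Fintype γ] [Fintype δ] (f : Ω → α) (g : Ω → β)
    (k : Ω → δ) (h : Ω → γ) :
    (∑ x : α × β × δ × γ, |P.p (fun ω => (f ω, g ω, k ω, h ω)) x
      - P.p (fun ω => (f ω, h ω)) (x.1, x.2.2.2) * P.p (fun ω => (g ω, h ω)) (x.2.1, x.2.2.2)
        * P.p (fun ω => (k ω, h ω)) (x.2.2.1, x.2.2.2)
        / (P.p h x.2.2.2 * P.p h x.2.2.2)|) ^ 2 ≤ 4 * P.info3 f g k h := by
  have hsupp : ∀ x : α × β × δ × γ, 0 < P.p (fun ω => (f ω, g ω, k ω, h ω)) x →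
      0 < P.p (fun ω => (f ω, h ω)) (x.1, x.2.2.2) ∧
      0 < P.p (fun ω => (g ω, h ω)) (x.2.1, x.2.2.2) ∧
      0 < P.p (fun ω => (k ω, h ω)) (x.2.2.1, x.2.2.2) ∧ 0 < P.p h x.2.2.2 := by
    intro x hx
    obtain ⟨ω, h0, rfl⟩ := P.p_pos_iff_exists.1 hx
    exact ⟨P.p_pos h0 (fun ω => (f ω, h ω)), P.p_pos h0 (fun ω => (g ω, h ω)),
      P.p_pos h0 (fun ω => (k ω, h ω)), P.p_pos h0 h⟩
  have hmain := pinsker univ (P.p (fun ω => (f ω, g ω, k ω, h ω)))
    (fun x : α × β × δ × γ => P.p (fun ω => (f ω, h ω)) (x.1, x.2.2.2)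
      * P.p (fun ω => (g ω, h ω)) (x.2.1, x.2.2.2) * P.p (fun ω => (k ω, h ω)) (x.2.2.1, x.2.2.2)
      / (P.p h x.2.2.2 * P.p h x.2.2.2))
    (fun x _ => P.p_nonneg _ x)
    (fun x _ => div_nonneg (mul_nonneg (mul_nonneg (P.p_nonneg _ _) (P.p_nonneg _ _))
      (P.p_nonneg _ _)) (mul_nonneg (P.p_nonneg _ _) (P.p_nonneg _ _)))
    (fun x _ hx => by
      obtain ⟨h1, h2, h3, h4⟩ := hsupp x hx
      positivity) (P.sum_p_univ _) ?_
  · refine hmain.trans (le_of_eq ?_)
    congr 1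
    rw [← P.sum_p_mul_univ (fun ω => (f ω, g ω, k ω, h ω)) (fun x : α × β × δ × γ =>
      Real.log (P.p (fun ω => (f ω, g ω, k ω, h ω)) x)
      - Real.log (P.p (fun ω => (f ω, h ω)) (x.1, x.2.2.2)
      * P.p (fun ω => (g ω, h ω)) (x.2.1, x.2.2.2) * P.p (fun ω => (k ω, h ω)) (x.2.2.1, x.2.2.2)
      / (P.p h x.2.2.2 * P.p h x.2.2.2)))]
    unfold info3 H
    rw [Finset.mul_sum, ← Finset.sum_add_distrib, ← Finset.sum_add_distrib,
      ← Finset.sum_sub_distrib, ← Finset.sum_sub_distrib]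
    refine Finset.sum_congr rfl fun ω _ => ?_
    rcases P.w_zero_or_pos ω with h0 | h0
    · simp [h0]
    · have h1 := P.p_pos h0 (fun ω => (f ω, h ω))
      have h2 := P.p_pos h0 (fun ω => (g ω, h ω))
      have h3 := P.p_pos h0 (fun ω => (k ω, h ω))
      have h4 := P.p_pos h0 h
      rw [Real.log_div (by positivity) (by positivity), Real.log_mul (by positivity) h3.ne',
        Real.log_mul h1.ne' h2.ne', Real.log_mul h4.ne' h4.ne']
      ring
  · -- total mass
    have : ∑ x : α × β × δ × γ, P.p (fun ω => (f ω, h ω)) (x.1, x.2.2.2)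
        * P.p (fun ω => (g ω, h ω)) (x.2.1, x.2.2.2) * P.p (fun ω => (k ω, h ω)) (x.2.2.1, x.2.2.2)
        / (P.p h x.2.2.2 * P.p h x.2.2.2)
        = ∑ c : γ, P.p h c := by
      rw [Fintype.sum_prod_type]
      simp_rw [Fintype.sum_prod_type]
      have e1 : ∀ a : α, ∀ b : β, ∑ d : δ, ∑ c : γ, P.p (fun ω => (f ω, h ω)) (a, c)
          * P.p (fun ω => (g ω, h ω)) (b, c) * P.p (fun ω => (k ω, h ω)) (d, c)
          / (P.p h c * P.p h c)
          = ∑ c : γ, P.p (fun ω => (f ω, h ω)) (a, c) * P.p (fun ω => (g ω, h ω)) (b, c) * P.p h c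
            / (P.p h c * P.p h c) := by
        intro a b
        rw [Finset.sum_comm]
        refine Finset.sum_congr rfl fun c _ => ?_
        rw [← Finset.sum_div, ← Finset.mul_sum, P.sum_p_marg k h c]
      have e2 : ∀ a : α, ∑ b : β, ∑ c : γ, P.p (fun ω => (f ω, h ω)) (a, c)
          * P.p (fun ω => (g ω, h ω)) (b, c) * P.p h c / (P.p h c * P.p h c)
          = ∑ c : γ, P.p (fun ω => (f ω, h ω)) (a, c) * P.p h c * P.p h c
            / (P.p h c * P.p h c) := by
        intro a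
        rw [Finset.sum_comm]
        refine Finset.sum_congr rfl fun c _ => ?_
        rw [← Finset.sum_div, ← Finset.sum_mul, ← Finset.mul_sum, P.sum_p_marg g h c]
      rw [Finset.sum_congr rfl fun a _ =>
        (Finset.sum_congr rfl fun b _ => e1 a b).trans (e2 a), Finset.sum_comm]
      refine Finset.sum_congr rfl fun c _ => ?_
      rw [← Finset.sum_div, ← Finset.sum_mul, ← Finset.sum_mul, P.sum_p_marg f h c]
      rcases (P.p_nonneg h c).eq_or_lt with hx | hx
      · rw [← hx]; simp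
      · rw [mul_div_mul_right _ _ hx.ne', mul_div_assoc, div_self hx.ne', mul_one]
    rw [this, P.sum_p_univ h]

end FinProb

end Vale.Agent.P060.HW
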