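import Vale.Agent.P060.HW.Frame

/-!
# RANKLEM: independent biased functionals cost entropy
-/

open scoped Classical

noncomputable section

namespace Vale.Agent.P060.HW.RankL

open Module

/-- Convexity of the exponential. -/
lemma exp_le_cosh_add (l g : ℝ) (h1 : -1 ≤ g) (h2 : g ≤ 1) :
    Real.exp (l * g) ≤ Real.cosh l + g * Real.sinh l := by
  have h := convexOn_exp.2 (Set.mem_univ l) (Set.mem_univ (-l))
    (show (0 : ℝ) ≤ (1 + g) / 2 by linarith) (show (0 : ℝ) ≤ (1 - g) / 2 by linarith) (by ring)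
  simp only [smul_eq_mul] at h
  rw [show (1 + g) / 2 * l + (1 - g) / 2 * -l = l * g by ring] at h
  refine h.trans (le_of_eq ?_)
  rw [Real.cosh_eq, Real.sinh_eq]
  ring

/-- A biased symbol has an entropy deficit. -/
theorem symbol_deficit {Ω : Type*} [Fintype Ω] (Pr : FinProb Ω) (Y : Ω → F) (ψ : AddChar F ℂ)
    (hψ : ψ ≠ 0) (η : ℝ) (hη : 0 ≤ η) (h : η ≤ ‖∑ ω, (Pr.w ω : ℂ) * ψ (Y ω)‖) :
    η ^ 2 / 2 ≤ Real.log (Nat.card F) - Pr.H Y := by
  have hcard : (Nat.card F : ℝ) = (Fintype.card F : ℝ) := by rw [Nat.card_eq_fintype_card]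
  set c : ℂ := ∑ ω, (Pr.w ω : ℂ) * ψ (Y ω) with hc
  rcases hη.eq_or_lt with h0 | hpos
  · rw [← h0]
    have := Pr.H_le_log_card Y Finset.univ fun ω => Finset.mem_univ _
    rw [Finset.card_univ, ← hcard] at this
    nlinarith
  have hcpos : 0 < ‖c‖ := hpos.trans_le h
  have hc0 : (‖c‖ : ℂ) ≠ 0 := by exact_mod_cast hcpos.ne'
  set u : ℂ := (starRingEnd ℂ) c / ‖c‖ with hu
  have hunorm : ‖u‖ = 1 := by
    rw [hu, norm_div, RCLike.norm_conj, Complex.norm_real, Real.norm_eq_abs, abs_norm,
      div_self hcpos.ne']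
  set g : F → ℝ := fun y => (u * ψ y).re with hg
  have hnorm : ∀ y, ‖u * ψ y‖ = 1 := by
    intro y
    rw [norm_mul, hunorm, AddChar.norm_apply, one_mul]
  have hg1 : ∀ y, -1 ≤ g y := by
    intro y
    have := Complex.abs_re_le_norm (u * ψ y)
    rw [hnorm] at this
    exact (abs_le.1 this).1
  have hg2 : ∀ y, g y ≤ 1 := by
    intro y
    have := Complex.abs_re_le_norm (u * ψ y)
    rw [hnorm] at this
    exact (abs_le.1 this).2
  have hgsum : ∑ y, g y = 0 := by
    have h1 : ∑ y, g y = (u * ∑ y, ψ y).re := by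
      rw [Finset.mul_sum, Complex.re_sum]
    rw [h1, AddChar.sum_eq_zero_iff_ne_zero.2 hψ, mul_zero, Complex.zero_re]
  have hgE : ∑ ω, Pr.w ω * g (Y ω) = ‖c‖ := by
    have h1 : ∑ ω, Pr.w ω * g (Y ω) = (u * c).re := by
      rw [hc, Finset.mul_sum, Complex.re_sum]
      refine Finset.sum_congr rfl fun ω _ => ?_
      rw [show u * ((Pr.w ω : ℂ) * ψ (Y ω)) = (Pr.w ω : ℂ) * (u * ψ (Y ω)) by ring,
        Complex.re_ofReal_mul]
    rw [h1, hu, div_mul_eq_mul_div, Complex.conj_mul', ← Complex.ofReal_pow, ← Complex.ofReal_div,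
      Complex.ofReal_re]
    field_simp
  set Z : ℝ := ∑ y, Real.exp (η * g y) with hZ
  have hZpos : 0 < Z := Finset.sum_pos (fun y _ => Real.exp_pos _) Finset.univ_nonempty
  have hZle : Z ≤ Fintype.card F * Real.exp (η ^ 2 / 2) := by
    calc Z ≤ ∑ y : F, (Real.cosh η + g y * Real.sinh η) :=
          Finset.sum_le_sum fun y _ => exp_le_cosh_add η (g y) (hg1 y) (hg2 y)
      _ = Fintype.card F * Real.cosh η := by
          rw [Finset.sum_add_distrib, ← Finset.sum_mul, hgsum, zero_mul, add_zero,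
            Finset.sum_const, Finset.card_univ, nsmul_eq_mul]
      _ ≤ Fintype.card F * Real.exp (η ^ 2 / 2) :=
          mul_le_mul_of_nonneg_left (Real.cosh_le_exp_half_sq η) (Nat.cast_nonneg _)
  have hcardpos : (0 : ℝ) < Fintype.card F := Nat.cast_pos.2 Fintype.card_pos
  have hlogZ : Real.log Z ≤ Real.log (Fintype.card F) + η ^ 2 / 2 := by
    have := Real.log_le_log hZpos hZle
    rwa [Real.log_mul hcardpos.ne' (Real.exp_pos _).ne', Real.log_exp] at this
  have hH := Pr.H_le_gibbs Y (fun y => Real.exp (η * g y) / Z)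
    (fun ω _ => div_pos (Real.exp_pos _) hZpos)
    (by
      calc ∑ a ∈ Finset.univ.image Y, Real.exp (η * g a) / Z ≤
          ∑ a : F, Real.exp (η * g a) / Z :=
            Finset.sum_le_sum_of_subset_of_nonneg (Finset.subset_univ _)
              fun a _ _ => div_nonneg (Real.exp_pos _).le hZpos.le
        _ = 1 := by rw [← Finset.sum_div, ← hZ, div_self hZpos.ne'])
    (fun a => div_nonneg (Real.exp_pos _).le hZpos.le)
  have h2 : ∑ ω, Pr.w ω * (-Real.log (Real.exp (η * g (Y ω)) / Z)) =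
      Real.log Z - η * ‖c‖ := by
    have h3 : ∀ ω, Pr.w ω * (-Real.log (Real.exp (η * g (Y ω)) / Z)) =
        Pr.w ω * Real.log Z - η * (Pr.w ω * g (Y ω)) := by
      intro ω
      rw [Real.log_div (Real.exp_pos _).ne' hZpos.ne', Real.log_exp]
      ring
    rw [Finset.sum_congr rfl fun ω _ => h3 ω, Finset.sum_sub_distrib, ← Finset.sum_mul,
      Pr.sum_one, one_mul, ← Finset.mul_sum, hgE]
  rw [h2] at hH
  rw [hcard]
  nlinarith

/-- The deficit of a line. -/
theorem D_span_singleton {Ω : Type} [Fintype Ω] {W : Type} [AddCommGroup W] [Module F W]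
    [FiniteDimensional F W] (Pr : FinProb Ω) (X : Ω → Dual F W) {Q : W} (hQ : Q ≠ 0) :
    Lat.D Pr X (Submodule.span F {Q}) = Real.log (Nat.card F) - Pr.H (fun ω => X ω Q) := by
  have h1 : Lat.ent Pr X (Submodule.span F {Q}) = Pr.H (fun ω => X ω Q) := by
    unfold Lat.ent
    refine Pr.H_congr_det fun ω ω' => ?_
    rw [Lat.ev_eq_iff]
    constructor
    · intro h g hg
      obtain ⟨r, rfl⟩ := Submodule.mem_span_singleton.1 hg
      rw [map_smul, map_smul, h]
    · intro h
      exact h Q (Submodule.mem_span_singleton_self Q)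
  rw [Lat.D, h1, finrank_span_singleton hQ, Nat.cast_one, one_mul]

end RankL

open Module in
theorem rankLem : RankLem := by
  intro Ω _ W _ _ _ Pr X ψ hψ η hη Nn R
  induction R with
  | zero =>
    intro Q _ _
    rw [Nat.cast_zero, zero_mul]
    have : Nn ≤ Nn ⊔ Submodule.span F (Set.range Q) := le_sup_left
    linarith [Lat.D_mono Pr X this]
  | succ R ih =>
    intro Q hQ hb
    rw [linearIndependent_finSucc'] at hQ
    obtain ⟨h1, h2⟩ := hQ
    have h3 := ih (Q ∘ Fin.castSucc) h1 fun i => hb _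
    set G := Nn ⊔ Submodule.span F (Set.range (Q ∘ Fin.castSucc)) with hG
    have h4 : G ⊓ Submodule.span F {Q (Fin.last R)} = ⊥ := by
      rw [eq_bot_iff]
      rintro x ⟨hx1, hx2⟩
      obtain ⟨r, rfl⟩ := Submodule.mem_span_singleton.1 hx2
      by_cases hr : r = 0
      · rw [hr, zero_smul]; exact Submodule.zero_mem _
      · exfalso
        have hx3 : Q (Fin.last R) ∈ G := by
          have := G.smul_mem r⁻¹ hx1
          rwa [smul_smul, inv_mul_cancel₀ hr, one_smul] at this
        apply h2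
        obtain ⟨a, ha, b, hb', hab⟩ := Submodule.mem_sup.1 hx3
        have h5 : Nn.mkQ (Q (Fin.last R)) = Nn.mkQ b := by
          have h5' : Nn.mkQ a = 0 := by
            rw [Submodule.mkQ_apply, Submodule.Quotient.mk_eq_zero]
            exact ha
          rw [← hab, map_add, h5', zero_add]
        rw [h5]
        have h6 := Submodule.mem_map_of_mem (f := Nn.mkQ) hb'
        rw [Submodule.map_span, ← Set.range_comp] at h6
        exact h6
    have hQl : Q (Fin.last R) ≠ 0 := by
      intro h0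
      apply h2
      rw [h0, map_zero]
      exact Submodule.zero_mem _
    have h5 := Lat.D_supermodular Pr X G (Submodule.span F {Q (Fin.last R)})
    rw [h4, Lat.D_bot, add_zero, RankL.D_span_singleton Pr X hQl] at h5
    have h6 := RankL.symbol_deficit Pr (fun ω => X ω (Q (Fin.last R))) ψ hψ η hη (hb _)
    have h7 : G ⊔ Submodule.span F {Q (Fin.last R)} = Nn ⊔ Submodule.span F (Set.range Q) := by
      rw [hG, sup_assoc, ← Submodule.span_union]
      congr 2
      ext x
      constructor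
      · rintro (⟨i, rfl⟩ | hx)
        · exact ⟨_, rfl⟩
        · exact ⟨Fin.last R, hx.symm⟩
      · rintro ⟨i, rfl⟩
        refine Fin.lastCases ?_ (fun i => ?_) i
        · exact Or.inr rfl
        · exact Or.inl ⟨i, rfl⟩
    rw [h7] at h5
    push_cast
    linarith

end Vale.Agent.P060.HW
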