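import Mathlib

/-!
# P060, HW: finite laws, entropy in expectation form, exchangeable sequences
-/

namespace Vale.Agent.P060.HW

open Finset Real

section lawsec

variable {Ω Z W Y : Type*} [Fintype Ω]

open scoped Classical in
/-- The law of `f` under the weights `p`. -/
noncomputable def law (p : Ω → ℝ) (f : Ω → Z) (z : Z) : ℝ :=
  ∑ ω, if f ω = z then p ω else 0

theorem law_nonneg {p : Ω → ℝ} (hp : ∀ ω, 0 ≤ p ω) (f : Ω → Z) (z : Z) : 0 ≤ law p f z := by
  unfold law
  refine Finset.sum_nonneg fun ω _ => ?_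
  split_ifs
  · exact hp ω
  · exact le_rfl

theorem le_law {p : Ω → ℝ} (hp : ∀ ω, 0 ≤ p ω) (f : Ω → Z) (ω : Ω) : p ω ≤ law p f (f ω) := by
  classical
  unfold law
  have h := Finset.single_le_sum (f := fun ω' => if f ω' = f ω then p ω' else 0)
    (fun ω' _ => by
      show 0 ≤ if f ω' = f ω then p ω' else 0
      split_ifs
      · exact hp ω'
      · exact le_rfl) (Finset.mem_univ ω)
  simpa using h

theorem law_pos {p : Ω → ℝ} (hp : ∀ ω, 0 ≤ p ω) (f : Ω → Z) {ω : Ω} (h : p ω ≠ 0) :
    0 < law p f (f ω) :=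
  lt_of_lt_of_le (lt_of_le_of_ne (hp ω) (Ne.symm h)) (le_law hp f ω)

/-- Expectations of functions of `f`. -/
theorem sum_law_mul [Fintype Z] (p : Ω → ℝ) (f : Ω → Z) (g : Z → ℝ) :
    ∑ z, law p f z * g z = ∑ ω, p ω * g (f ω) := by
  classical
  unfold law
  calc ∑ z, (∑ ω, if f ω = z then p ω else 0) * g z
      = ∑ z, ∑ ω, (if f ω = z then p ω * g z else 0) := by
        refine Finset.sum_congr rfl fun z _ => ?_
        rw [Finset.sum_mul]
        refine Finset.sum_congr rfl fun ω _ => ?_
        split_ifs <;> simp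
    _ = ∑ ω, ∑ z, (if f ω = z then p ω * g z else 0) := Finset.sum_comm
    _ = ∑ ω, p ω * g (f ω) := by
        refine Finset.sum_congr rfl fun ω _ => ?_
        simp

theorem sum_law [Fintype Z] (p : Ω → ℝ) (f : Ω → Z) : ∑ z, law p f z = ∑ ω, p ω := by
  have h := sum_law_mul p f (fun _ => (1 : ℝ))
  simpa using h

theorem sum_law_pair_right [Fintype W] (p : Ω → ℝ) (f : Ω → Z) (g : Ω → W) (z : Z) :
    ∑ w, law p (fun ω => (f ω, g ω)) (z, w) = law p f z := by
  classical
  unfold law
  rw [Finset.sum_comm]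
  refine Finset.sum_congr rfl fun ω _ => ?_
  by_cases h : f ω = z
  · simp [h]
  · simp [h]

theorem law_pair_le {p : Ω → ℝ} (hp : ∀ ω, 0 ≤ p ω) (f : Ω → Z) (g : Ω → W) (z : Z) (w : W) :
    law p (fun ω => (f ω, g ω)) (z, w) ≤ law p f z := by
  classical
  unfold law
  refine Finset.sum_le_sum fun ω _ => ?_
  by_cases h : f ω = z
  · by_cases h2 : g ω = w
    · simp [h, h2]
    · simp [h, h2, hp ω]
  · simp [h]

theorem law_comp_equiv {p : Ω → ℝ} (T : Ω ≃ Ω) (hT : ∀ ω, p (T ω) = p ω) (f : Ω → Z) (z : Z) :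
    law p (fun ω => f (T ω)) z = law p f z := by
  classical
  unfold law
  rw [← Equiv.sum_comp T (fun ω => if f ω = z then p ω else 0)]
  refine Finset.sum_congr rfl fun ω _ => ?_
  rw [hT ω]

theorem law_congr {p : Ω → ℝ} {f : Ω → Z} {g : Ω → W}
    (h : ∀ ω ω', f ω = f ω' ↔ g ω = g ω') (ω : Ω) : law p f (f ω) = law p g (g ω) := by
  classical
  unfold law
  refine Finset.sum_congr rfl fun ω' _ => ?_
  by_cases h1 : f ω' = f ω
  · simp [h1, (h ω' ω).1 h1]
  · have h2 : ¬ g ω' = g ω := fun hh => h1 ((h ω' ω).2 hh)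
    simp [h1, h2]

/-- Minus the entropy of `f`. -/
noncomputable def EL (p : Ω → ℝ) (f : Ω → Z) : ℝ := ∑ ω, p ω * Real.log (law p f (f ω))

theorem EL_congr {p : Ω → ℝ} {f : Ω → Z} {g : Ω → W}
    (h : ∀ ω ω', f ω = f ω' ↔ g ω = g ω') : EL p f = EL p g := by
  unfold EL
  refine Finset.sum_congr rfl fun ω _ => ?_
  rw [law_congr h ω]

theorem EL_comp_equiv {p : Ω → ℝ} (T : Ω ≃ Ω) (hT : ∀ ω, p (T ω) = p ω) (f : Ω → Z) :
    EL p (fun ω => f (T ω)) = EL p f := by
  unfold EL
  rw [← Equiv.sum_comp T (fun ω => p ω * Real.log (law p f (f ω)))]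
  refine Finset.sum_congr rfl fun ω _ => ?_
  rw [hT ω, law_comp_equiv T hT]

end lawsec

section minfo

variable {Ω Z Y : Type*} [Fintype Ω] [Fintype Z] [Fintype Y]

open scoped Classical in
/-- The conflict mass of the product of the two conditional laws, averaged over the history. -/
noncomputable def confMass (p : Ω → ℝ) (A : Ω → Z) (B C : Ω → Y) (Conf : Y → Y → Prop) (a : Z) :
    ℝ :=
  ∑ y, ∑ y', (if Conf y y' then
      (law p (fun ω => (A ω, B ω)) (a, y) * law p (fun ω => (A ω, C ω)) (a, y') / law p A a)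
    else 0)

omit [Fintype Z] in
theorem confMass_nonneg {p : Ω → ℝ} (hp : ∀ ω, 0 ≤ p ω) (A : Ω → Z) (B C : Ω → Y)
    (Conf : Y → Y → Prop) (a : Z) : 0 ≤ confMass p A B C Conf a := by
  unfold confMass
  refine Finset.sum_nonneg fun y _ => Finset.sum_nonneg fun y' _ => ?_
  split_ifs
  · exact div_nonneg (mul_nonneg (law_nonneg hp _ _) (law_nonneg hp _ _)) (law_nonneg hp _ _)
  · exact le_rfl

/-- Mutual information controls the product mass of a set of pairs that never occur. -/
theorem sum_confMass_le {p : Ω → ℝ} (hp : ∀ ω, 0 ≤ p ω) (h1 : ∑ ω, p ω = 1)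
    (A : Ω → Z) (B C : Ω → Y) (Conf : Y → Y → Prop)
    (hC : ∀ ω, p ω ≠ 0 → ¬ Conf (B ω) (C ω)) :
    ∑ a, confMass p A B C Conf a ≤
      EL p (fun ω => (A ω, B ω, C ω)) + EL p A - EL p (fun ω => (A ω, B ω))
        - EL p (fun ω => (A ω, C ω)) := by
  classical
  set F : Z × Y × Y → ℝ := fun t =>
    law p (fun ω => (A ω, B ω)) (t.1, t.2.1) * law p (fun ω => (A ω, C ω)) (t.1, t.2.2) /
      law p A t.1 with hF
  have hF0 : ∀ t, 0 ≤ F t := fun t =>
    div_nonneg (mul_nonneg (law_nonneg hp _ _) (law_nonneg hp _ _)) (law_nonneg hp _ _)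
  -- total mass of F is at most 1
  have hFtot : ∑ t, F t ≤ 1 := by
    have : ∑ t, F t = ∑ a, (law p A a * law p A a / law p A a) := by
      rw [Fintype.sum_prod_type]
      refine Finset.sum_congr rfl fun a _ => ?_
      rw [Fintype.sum_prod_type]
      simp only [hF]
      have e1 : ∀ y, ∑ y', law p (fun ω => (A ω, B ω)) (a, y) *
          law p (fun ω => (A ω, C ω)) (a, y') / law p A a =
          law p (fun ω => (A ω, B ω)) (a, y) * law p A a / law p A a := by
        intro y
        rw [← Finset.sum_div, ← Finset.mul_sum, sum_law_pair_right]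
      rw [Finset.sum_congr rfl fun y _ => e1 y, ← Finset.sum_div, ← Finset.sum_mul,
        sum_law_pair_right]
    rw [this]
    calc ∑ a, (law p A a * law p A a / law p A a) ≤ ∑ a, law p A a := by
          refine Finset.sum_le_sum fun a _ => ?_
          by_cases h0 : law p A a = 0
          · simp [h0]
          · rw [mul_div_assoc, div_self h0, mul_one]
      _ = 1 := by rw [sum_law, h1]
  -- split the mass
  set S : Z × Y × Y → ℝ := fun t => if law p (fun ω => (A ω, B ω, C ω)) t = 0 then 0 else F t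
    with hS
  have hsplit : ∑ a, confMass p A B C Conf a + ∑ t, S t ≤ ∑ t, F t := by
    have e : ∑ a, confMass p A B C Conf a = ∑ t : Z × Y × Y, if Conf t.2.1 t.2.2 then F t else 0 := by
      rw [Fintype.sum_prod_type]
      refine Finset.sum_congr rfl fun a _ => ?_
      rw [Fintype.sum_prod_type]
      rfl
    rw [e, ← Finset.sum_add_distrib]
    refine Finset.sum_le_sum fun t _ => ?_
    by_cases hc : Conf t.2.1 t.2.2
    · have hz : law p (fun ω => (A ω, B ω, C ω)) t = 0 := by
        unfold law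
        refine Finset.sum_eq_zero fun ω _ => ?_
        by_cases ht : (A ω, B ω, C ω) = t
        · by_cases hpω : p ω = 0
          · simp [hpω]
          · exfalso
            have := hC ω hpω
            apply this
            rw [← ht] at hc
            exact hc
        · simp [ht]
      simp [hS, hz, hc]
    · simp only [hc, if_false, zero_add, hS]
      split_ifs
      · exact hF0 t
      · exact le_rfl
  -- the entropy side
  have hent : EL p (fun ω => (A ω, B ω, C ω)) + EL p A - EL p (fun ω => (A ω, B ω))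
        - EL p (fun ω => (A ω, C ω)) =
      ∑ ω, p ω * (Real.log (law p (fun ω => (A ω, B ω, C ω)) (A ω, B ω, C ω)) +
        Real.log (law p A (A ω)) - Real.log (law p (fun ω => (A ω, B ω)) (A ω, B ω)) -
        Real.log (law p (fun ω => (A ω, C ω)) (A ω, C ω))) := by
    unfold EL
    rw [← Finset.sum_add_distrib, ← Finset.sum_sub_distrib, ← Finset.sum_sub_distrib]
    refine Finset.sum_congr rfl fun ω _ => ?_
    ring
  have hS2 : ∑ t, S t = ∑ ω, p ω * (F (A ω, B ω, C ω) /
      law p (fun ω => (A ω, B ω, C ω)) (A ω, B ω, C ω)) := by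
    rw [← sum_law_mul p (fun ω => (A ω, B ω, C ω))
      (fun t => F t / law p (fun ω => (A ω, B ω, C ω)) t)]
    refine Finset.sum_congr rfl fun t _ => ?_
    simp only [hS]
    by_cases h0 : law p (fun ω => (A ω, B ω, C ω)) t = 0
    · simp [h0]
    · rw [if_neg h0, mul_div_assoc', mul_comm, mul_div_assoc, div_self h0, mul_one]
  have hkey : 1 - ∑ t, S t ≤ EL p (fun ω => (A ω, B ω, C ω)) + EL p A -
      EL p (fun ω => (A ω, B ω)) - EL p (fun ω => (A ω, C ω)) := by
    rw [hent, hS2, ← h1, ← Finset.sum_sub_distrib]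
    refine Finset.sum_le_sum fun ω _ => ?_
    by_cases hpω : p ω = 0
    · simp [hpω]
    · have q1 := law_pos hp (fun ω => (A ω, B ω, C ω)) hpω
      have q2 := law_pos hp A hpω
      have q3 := law_pos hp (fun ω => (A ω, B ω)) hpω
      have q4 := law_pos hp (fun ω => (A ω, C ω)) hpω
      simp only [hF]
      set x1 := law p (fun ω => (A ω, B ω, C ω)) (A ω, B ω, C ω)
      set x2 := law p A (A ω)
      set x3 := law p (fun ω => (A ω, B ω)) (A ω, B ω)
      set x4 := law p (fun ω => (A ω, C ω)) (A ω, C ω)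
      have ht : 0 < x3 * x4 / x2 / x1 := by positivity
      have hl := Real.log_le_sub_one_of_pos ht
      have hlog : Real.log (x3 * x4 / x2 / x1) =
          Real.log x3 + Real.log x4 - Real.log x2 - Real.log x1 := by
        rw [Real.log_div (by positivity) (by positivity), Real.log_div (by positivity)
          (by positivity), Real.log_mul (by positivity) (by positivity)]
      have : p ω - p ω * (x3 * x4 / x2 / x1) = p ω * (1 - x3 * x4 / x2 / x1) := by ring
      rw [this]
      refine mul_le_mul_of_nonneg_left ?_ (hp ω)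
      rw [hlog] at hl
      linarith
  linarith

end minfo

section klsec

variable {Y : Type*} [Fintype Y]

/-- Relative entropy with respect to the uniform law. -/
noncomputable def KLu (ν : Y → ℝ) : ℝ := ∑ y, ν y * Real.log (ν y * Fintype.card Y)

/-- Gibbs' inequality in a convenient form. -/
theorem gibbs {ν r : Y → ℝ} (hν : ∀ y, 0 ≤ ν y) (hr : ∀ y, 0 ≤ r y)
    (hs : ∑ y, r y ≤ ∑ y, ν y) (hsupp : ∀ y, ν y ≠ 0 → r y ≠ 0) :
    ∑ y, ν y * Real.log (r y) ≤ ∑ y, ν y * Real.log (ν y) := by
  have key : ∀ y, ν y * Real.log (r y) - ν y * Real.log (ν y) ≤ r y - ν y := by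
    intro y
    by_cases h0 : ν y = 0
    · simp [h0, hr y]
    · have hpos : 0 < ν y := lt_of_le_of_ne (hν y) (Ne.symm h0)
      have hrpos : 0 < r y := lt_of_le_of_ne (hr y) (Ne.symm (hsupp y h0))
      have hl := Real.log_le_sub_one_of_pos (div_pos hrpos hpos)
      rw [Real.log_div hrpos.ne' hpos.ne'] at hl
      have := mul_le_mul_of_nonneg_left hl hpos.le
      have e : ν y * (r y / ν y - 1) = r y - ν y := by
        field_simp
      linarith
  have := Finset.sum_le_sum fun y (_ : y ∈ Finset.univ) => key y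
  rw [Finset.sum_sub_distrib, Finset.sum_sub_distrib] at this
  linarith

theorem KLu_nonneg [Nonempty Y] {ν : Y → ℝ} (hν : ∀ y, 0 ≤ ν y) (h1 : ∑ y, ν y = 1) :
    0 ≤ KLu ν := by
  have hc : (0 : ℝ) < Fintype.card Y := by exact_mod_cast Fintype.card_pos
  have h := gibbs (r := fun _ => (1 : ℝ) / Fintype.card Y) hν (fun _ => by positivity)
    (by rw [h1]; simp [Finset.card_univ, hc.ne']) (fun y _ => by positivity)
  unfold KLu
  have e : ∀ y, ν y * Real.log (ν y * Fintype.card Y) =
      ν y * Real.log (ν y) - ν y * Real.log ((1 : ℝ) / Fintype.card Y) := by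
    intro y
    by_cases h0 : ν y = 0
    · simp [h0]
    · rw [Real.log_mul h0 hc.ne', one_div, Real.log_inv]
      ring
  rw [Finset.sum_congr rfl fun y _ => e y, Finset.sum_sub_distrib]
  linarith

end klsec

end Vale.Agent.P060.HW
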