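import Vale.Agent.P060.HW.RedA

/-!
# P060, HW: exchangeable sequences contain a nearly independent pair
-/

namespace Vale.Agent.P060.HW

open Finset Real

/-- Convex sequences: an index with small second difference and controlled increment. -/
theorem convex_pick (G : ℕ → ℝ) (m J : ℕ) (Λ : ℝ) (hJ : 0 < J) (hJm : J + 1 ≤ m)
    (h0 : G 0 = 0) (h1 : 0 ≤ G 1) (hconv : ∀ j, j + 2 ≤ m → 0 ≤ G (j + 2) - 2 * G (j + 1) + G j)
    (hm : G m ≤ Λ) :
    ∃ j, j < J ∧ G (j + 2) - 2 * G (j + 1) + G j ≤ Λ / (J * (m - J : ℕ)) ∧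
      G (j + 1) - G j ≤ Λ / (m - J : ℕ) := by
  set d : ℕ → ℝ := fun j => G (j + 1) - G j with hd
  have hmono : ∀ i, ∀ k, i + k + 1 ≤ m → d i ≤ d (i + k) := by
    intro i k
    induction k with
    | zero => intro _; simp
    | succ k ih =>
      intro hk
      have a := ih (by omega)
      have b := hconv (i + k) (by omega)
      have : d (i + (k + 1)) = G (i + k + 2) - G (i + k + 1) := by
        simp only [hd]
        congr 2
      rw [this]
      simp only [hd] at a ⊢
      linarith
  have hd0 : 0 ≤ d 0 := by simp only [hd]; simp only [zero_add]; rw [h0]; linarith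
  have hdn : ∀ i, i + 1 ≤ m → 0 ≤ d i := by
    intro i hi
    have := hmono 0 i (by omega)
    rw [zero_add] at this
    linarith
  have hG : ∀ i, i ≤ m → 0 ≤ G i := by
    intro i
    induction i with
    | zero => intro _; rw [h0]
    | succ i ih =>
      intro hi
      have a := ih (by omega)
      have b := hdn i hi
      simp only [hd] at b
      linarith
  have hmJ : (0 : ℝ) < ((m - J : ℕ) : ℝ) := by
    have : 0 < m - J := by omega
    exact_mod_cast this
  -- (m - J) d_J ≤ Λ
  have htail : ∀ k, J + k ≤ m → (k : ℝ) * d J ≤ G (J + k) - G J := by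
    intro k
    induction k with
    | zero => intro _; simp
    | succ k ih =>
      intro hk
      have a := ih (by omega)
      have b := hmono J k (by omega)
      have c : d (J + k) = G (J + (k + 1)) - G (J + k) := by
        simp only [hd]
        congr 2
      push_cast
      rw [c] at b
      nlinarith
  have hdJ : d J ≤ Λ / (m - J : ℕ) := by
    rw [le_div_iff₀ hmJ]
    have a := htail (m - J) (by omega)
    rw [show J + (m - J) = m by omega] at a
    have b := hG J (by omega)
    linarith
  -- the sum of the second differences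
  have hsum : ∑ j ∈ Finset.range J, (G (j + 2) - 2 * G (j + 1) + G j) = d J - d 0 := by
    have : ∀ j, G (j + 2) - 2 * G (j + 1) + G j = d (j + 1) - d j := by
      intro j
      simp only [hd]
      ring_nf
    rw [Finset.sum_congr rfl fun j _ => this j, Finset.sum_range_sub]
  have hJr : (0 : ℝ) < J := by exact_mod_cast hJ
  obtain ⟨j, hj, hjle⟩ : ∃ j ∈ Finset.range J,
      G (j + 2) - 2 * G (j + 1) + G j ≤ Λ / (J * (m - J : ℕ)) := by
    by_contra hcon
    push Not at hcon
    have : ∑ j ∈ Finset.range J, Λ / (J * (m - J : ℕ)) <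
        ∑ j ∈ Finset.range J, (G (j + 2) - 2 * G (j + 1) + G j) :=
      Finset.sum_lt_sum_of_nonempty ⟨0, Finset.mem_range.2 hJ⟩ fun j hj => hcon j hj
    rw [hsum, Finset.sum_const, Finset.card_range, nsmul_eq_mul] at this
    have e : (J : ℝ) * (Λ / (J * (m - J : ℕ))) = Λ / (m - J : ℕ) := by
      field_simp
    rw [e] at this
    linarith
  refine ⟨j, Finset.mem_range.1 hj, hjle, ?_⟩
  have hjJ := Finset.mem_range.1 hj
  have := hmono j (J - j) (by omega)
  rw [show j + (J - j) = J by omega] at this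
  have e : d j = G (j + 1) - G j := rfl
  rw [← e]
  linarith

section exch

variable {Ω Y : Type*} [Fintype Ω] [Fintype Y] {m : ℕ}

/-- The first `j` entries of the sequence. -/
def Hist (w : Fin m → Ω → Y) (j : ℕ) (ω : Ω) (i : Fin m) : Option Y :=
  if i.val < j then some (w i ω) else none

omit [Fintype Ω] [Fintype Y] in
theorem hist_eq_iff (w : Fin m → Ω → Y) (j : ℕ) (ω ω' : Ω) :
    Hist w j ω = Hist w j ω' ↔ ∀ i : Fin m, i.val < j → w i ω = w i ω' := by
  constructor
  · intro h i hi
    have := congrFun h i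
    simpa [Hist, hi] using this
  · intro h
    funext i
    by_cases hi : i.val < j
    · simp [Hist, hi, h i hi]
    · simp [Hist, hi]

/-- **Exchangeable sequences.** -/
theorem exch (p : Ω → ℝ) (hp : ∀ ω, 0 ≤ p ω) (h1 : ∑ ω, p ω = 1)
    [Nonempty Y] (w : Fin m → Ω → Y)
    (hswap : ∀ j (hj : j + 1 < m), ∃ T : Ω ≃ Ω, (∀ ω, p (T ω) = p ω) ∧
      ∀ i ω, w i (T ω) = w (Equiv.swap (⟨j, by omega⟩ : Fin m) ⟨j + 1, hj⟩ i) ω)
    (Conf : Y → Y → Prop)
    (hC : ∀ ω, p ω ≠ 0 → ∀ i i', i ≠ i' → ¬ Conf (w i ω) (w i' ω))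
    (Λ : ℝ)
    (hfull : ∀ ω, p ω ≠ 0 →
      law p (fun ω i => w i ω) (fun i => w i ω) * (Fintype.card Y : ℝ) ^ m ≤ Real.exp Λ)
    (J : ℕ) (hJ : 0 < J) (hJm : J + 1 ≤ m) :
    ∃ j, ∃ hj : j + 1 < m, j < J ∧
      ∑ a, confMass p (Hist w j) (w ⟨j, by omega⟩) (w ⟨j + 1, hj⟩) Conf a
        ≤ Λ / (J * (m - J : ℕ)) ∧
      EL p (fun ω => (Hist w j ω, w ⟨j, by omega⟩ ω)) - EL p (Hist w j)
        + Real.log (Fintype.card Y) ≤ Λ / (m - J : ℕ) := by
  have hN : (0 : ℝ) < Fintype.card Y := by exact_mod_cast Fintype.card_pos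
  -- identification of consecutive histories
  have e1 : ∀ j (hj : j < m), EL p (Hist w (j + 1)) =
      EL p (fun ω => (Hist w j ω, w ⟨j, hj⟩ ω)) := by
    intro j hj
    apply EL_congr
    intro ω ω'
    rw [hist_eq_iff, Prod.mk.injEq, hist_eq_iff]
    constructor
    · intro h
      exact ⟨fun i hi => h i (by omega), h ⟨j, hj⟩ (by simp)⟩
    · rintro ⟨h, h'⟩ i hi
      by_cases hij : i.val < j
      · exact h i hij
      · have : i = ⟨j, hj⟩ := Fin.ext (by simp; omega)
        rw [this]
        exact h'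
  have e2 : ∀ j (hj : j + 1 < m), EL p (Hist w (j + 2)) =
      EL p (fun ω => (Hist w j ω, w ⟨j, by omega⟩ ω, w ⟨j + 1, hj⟩ ω)) := by
    intro j hj
    apply EL_congr
    intro ω ω'
    rw [hist_eq_iff, Prod.mk.injEq, Prod.mk.injEq, hist_eq_iff]
    constructor
    · intro h
      exact ⟨fun i hi => h i (by omega), h ⟨j, by omega⟩ (by simp), h ⟨j + 1, hj⟩ (by simp)⟩
    · rintro ⟨h, h', h''⟩ i hi
      by_cases hij : i.val < j
      · exact h i hij
      · by_cases hij2 : i.val = j
        · have : i = ⟨j, by omega⟩ := Fin.ext hij2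
          rw [this]
          exact h'
        · have : i = ⟨j + 1, hj⟩ := Fin.ext (by simp; omega)
          rw [this]
          exact h''
  have e3 : ∀ j (hj : j + 1 < m), EL p (fun ω => (Hist w j ω, w ⟨j + 1, hj⟩ ω)) =
      EL p (fun ω => (Hist w j ω, w ⟨j, by omega⟩ ω)) := by
    intro j hj
    obtain ⟨T, hT, hw⟩ := hswap j hj
    rw [← EL_comp_equiv T hT (fun ω => (Hist w j ω, w ⟨j + 1, hj⟩ ω))]
    have : (fun ω => (Hist w j (T ω), w ⟨j + 1, hj⟩ (T ω))) =
        fun ω => (Hist w j ω, w ⟨j, by omega⟩ ω) := by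
      funext ω
      rw [Prod.mk.injEq]
      constructor
      · funext i
        unfold Hist
        by_cases hi : i.val < j
        · rw [if_pos hi, if_pos hi, hw i ω, Equiv.swap_apply_of_ne_of_ne]
          · intro h
            rw [h] at hi
            simp at hi
          · intro h
            rw [h] at hi
            simp at hi
        · rw [if_neg hi, if_neg hi]
      · rw [hw, Equiv.swap_apply_right]
    rw [this]
  have hmi : ∀ j (hj : j + 1 < m),
      ∑ a, confMass p (Hist w j) (w ⟨j, by omega⟩) (w ⟨j + 1, hj⟩) Conf a ≤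
        EL p (Hist w (j + 2)) - 2 * EL p (Hist w (j + 1)) + EL p (Hist w j) := by
    intro j hj
    have := sum_confMass_le hp h1 (Hist w j) (w ⟨j, by omega⟩) (w ⟨j + 1, hj⟩) Conf
      (fun ω hω => hC ω hω _ _ (by
        intro h
        have := congrArg Fin.val h
        simp at this))
    rw [e3 j hj, ← e2 j hj, ← e1 j (by omega)] at this
    linarith
  set G : ℕ → ℝ := fun j => EL p (Hist w j) + j * Real.log (Fintype.card Y) with hGdef
  have hG0 : G 0 = 0 := by
    simp only [hGdef, Nat.cast_zero, zero_mul, add_zero]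
    unfold EL
    refine Finset.sum_eq_zero fun ω _ => ?_
    have : law p (Hist w 0) (Hist w 0 ω) = 1 := by
      rw [← h1]
      unfold law
      refine Finset.sum_congr rfl fun ω' _ => ?_
      have : Hist w 0 ω' = Hist w 0 ω := by
        rw [hist_eq_iff]
        intro i hi
        omega
      rw [if_pos this]
    rw [this, Real.log_one, mul_zero]
  have hG1 : 0 ≤ G 1 := by
    have hm0 : 0 < m := by omega
    have hE : EL p (Hist w 1) = EL p (w ⟨0, hm0⟩) := by
      apply EL_congr
      intro ω ω'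
      rw [hist_eq_iff]
      constructor
      · intro h
        exact h ⟨0, hm0⟩ (by simp)
      · intro h i hi
        have : i = ⟨0, hm0⟩ := Fin.ext (by simp; omega)
        rw [this]
        exact h
    simp only [hGdef, Nat.cast_one, one_mul]
    rw [hE]
    have hEL : EL p (w ⟨0, hm0⟩) = ∑ y, law p (w ⟨0, hm0⟩) y * Real.log (law p (w ⟨0, hm0⟩) y) := by
      rw [sum_law_mul]
      rfl
    rw [hEL]
    have hlaw0 : ∀ y, 0 ≤ law p (w ⟨0, hm0⟩) y := fun y => law_nonneg hp _ y
    have hlaw1 : ∑ y, law p (w ⟨0, hm0⟩) y = 1 := by rw [sum_law, h1]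
    have h := gibbs (r := fun _ => (1 : ℝ) / Fintype.card Y) hlaw0 (fun _ => by positivity)
      (by rw [hlaw1]; simp [Finset.card_univ, hN.ne']) (fun y _ => by positivity)
    rw [← Finset.sum_mul, hlaw1, one_mul, one_div, Real.log_inv] at h
    linarith
  have hGm : G m ≤ Λ := by
    have hE : EL p (Hist w m) = EL p (fun ω i => w i ω) := by
      apply EL_congr
      intro ω ω'
      rw [hist_eq_iff]
      constructor
      · intro h
        funext i
        exact h i i.isLt
      · intro h i _
        exact congrFun h i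
    simp only [hGdef]
    rw [hE]
    unfold EL
    have : ∑ ω, p ω * Real.log (law p (fun ω i => w i ω) (fun i => w i ω)) ≤
        ∑ ω, p ω * (Λ - m * Real.log (Fintype.card Y)) := by
      refine Finset.sum_le_sum fun ω _ => ?_
      by_cases hpω : p ω = 0
      · simp [hpω]
      · refine mul_le_mul_of_nonneg_left ?_ (hp ω)
        have hpos := law_pos hp (fun ω i => w i ω) hpω
        have h := hfull ω hpω
        have h2 := Real.log_le_log (by positivity) h
        rw [Real.log_exp, Real.log_mul hpos.ne' (by positivity), Real.log_pow] at h2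
        linarith
    rw [← Finset.sum_mul, h1, one_mul] at this
    linarith
  have hdiff : ∀ j, G (j + 2) - 2 * G (j + 1) + G j =
      EL p (Hist w (j + 2)) - 2 * EL p (Hist w (j + 1)) + EL p (Hist w j) := by
    intro j
    simp only [hGdef]
    push_cast
    ring
  obtain ⟨j, hjJ, ha, hb⟩ := convex_pick G m J Λ hJ hJm hG0 hG1 (fun j hj => by
    rw [hdiff j]
    refine le_trans ?_ (hmi j (by omega))
    exact Finset.sum_nonneg fun a _ => confMass_nonneg hp _ _ _ _ _) hGm
  refine ⟨j, by omega, hjJ, ?_, ?_⟩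
  · refine le_trans (hmi j (by omega)) ?_
    rw [← hdiff j]
    exact ha
  · rw [← e1 j (by omega)]
    simp only [hGdef] at hb
    push_cast at hb
    linarith

end exch

section condlaw

variable {Ω Z Y : Type*} [Fintype Ω] [Fintype Z] [Fintype Y]

/-- The conditional law of `B` given `A = a`. -/
noncomputable def cl (p : Ω → ℝ) (A : Ω → Z) (B : Ω → Y) (a : Z) (y : Y) : ℝ :=
  law p (fun ω => (A ω, B ω)) (a, y) / law p A a

omit [Fintype Z] [Fintype Y] in
theorem cl_nonneg {p : Ω → ℝ} (hp : ∀ ω, 0 ≤ p ω) (A : Ω → Z) (B : Ω → Y) (a : Z) (y : Y) :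
    0 ≤ cl p A B a y :=
  div_nonneg (law_nonneg hp _ _) (law_nonneg hp _ _)

omit [Fintype Z] in
theorem sum_cl {p : Ω → ℝ} (A : Ω → Z) (B : Ω → Y) {a : Z} (ha : law p A a ≠ 0) :
    ∑ y, cl p A B a y = 1 := by
  unfold cl
  rw [← Finset.sum_div, sum_law_pair_right, div_self ha]

theorem sum_law_KLu {p : Ω → ℝ} (hp : ∀ ω, 0 ≤ p ω) (h1 : ∑ ω, p ω = 1) [Nonempty Y]
    (A : Ω → Z) (B : Ω → Y) :
    ∑ a, law p A a * KLu (cl p A B a) =
      EL p (fun ω => (A ω, B ω)) - EL p A + Real.log (Fintype.card Y) := by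
  have hN : (0 : ℝ) < Fintype.card Y := by exact_mod_cast Fintype.card_pos
  have e1 : ∀ a, law p A a * KLu (cl p A B a) =
      ∑ y, law p (fun ω => (A ω, B ω)) (a, y) *
        (Real.log (law p (fun ω => (A ω, B ω)) (a, y)) - Real.log (law p A a) +
          Real.log (Fintype.card Y)) := by
    intro a
    unfold KLu
    rw [Finset.mul_sum]
    refine Finset.sum_congr rfl fun y _ => ?_
    by_cases h0 : law p (fun ω => (A ω, B ω)) (a, y) = 0
    · simp [cl, h0]
    · have hpos : 0 < law p (fun ω => (A ω, B ω)) (a, y) :=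
        lt_of_le_of_ne (law_nonneg hp _ _) (Ne.symm h0)
      have hA : 0 < law p A a := lt_of_lt_of_le hpos (law_pair_le hp A B a y)
      unfold cl
      rw [Real.log_mul (by positivity) hN.ne', Real.log_div hpos.ne' hA.ne']
      field_simp
  rw [Finset.sum_congr rfl fun a _ => e1 a]
  have e2 : ∑ a, ∑ y, law p (fun ω => (A ω, B ω)) (a, y) *
        (Real.log (law p (fun ω => (A ω, B ω)) (a, y)) - Real.log (law p A a) +
          Real.log (Fintype.card Y)) =
      ∑ t : Z × Y, law p (fun ω => (A ω, B ω)) t *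
        (Real.log (law p (fun ω => (A ω, B ω)) t) - Real.log (law p A t.1) +
          Real.log (Fintype.card Y)) := by
    rw [Fintype.sum_prod_type]
  rw [e2, sum_law_mul p (fun ω => (A ω, B ω))
    (fun t => Real.log (law p (fun ω => (A ω, B ω)) t) - Real.log (law p A t.1) +
      Real.log (Fintype.card Y))]
  unfold EL
  have e3 : ∀ ω, p ω * (Real.log (law p (fun ω => (A ω, B ω)) (A ω, B ω)) -
      Real.log (law p A (A ω)) + Real.log (Fintype.card Y)) =
      p ω * Real.log (law p (fun ω => (A ω, B ω)) (A ω, B ω)) -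
      p ω * Real.log (law p A (A ω)) + p ω * Real.log (Fintype.card Y) := fun ω => by ring
  rw [Finset.sum_congr rfl fun ω _ => e3 ω, Finset.sum_add_distrib, Finset.sum_sub_distrib,
    ← Finset.sum_mul, h1, one_mul]

end condlaw

end Vale.Agent.P060.HW
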