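import Vale.Agent.P060.HW.Reduc

/-!
# The entropic reduction, final form
-/

open scoped Classical

noncomputable section

namespace Vale.Agent.P060.HW

/-- Numerics of the time horizon. -/
lemma numerics {n m p J : ℕ} {δ ε₁ : ℝ} (hδ : 0 < δ) (hε₁ : 0 < ε₁) (hε₁' : ε₁ ≤ 1 / 4)
    (hδε : δ ≤ ε₁ / 100) (hlog : 1 ≤ Real.log n) (h3 : 10 ≤ δ ^ 2 * n)
    (hp : (p : ℝ) ≤ δ * n + 1) (hm : n ≤ 2 * m + 4 * p + 1)
    (hJ1 : (J : ℝ) ≤ δ ^ 2 * n / Real.log n) :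
    (n : ℝ) / 4 ≤ m ∧ J < m ∧ n * (1 - 8 * δ) ≤ 2 * ((m - J : ℕ) : ℝ) ∧
      (m : ℝ) ≤ (1 + ε₁) * ((m - J : ℕ) : ℝ) ∧ 100 ≤ (n : ℝ) := by
  have hδ1 : δ ≤ 1 / 400 := by linarith
  have hn0 : (0 : ℝ) < n := by
    by_contra h
    have : δ ^ 2 * (n : ℝ) ≤ 0 := mul_nonpos_of_nonneg_of_nonpos (sq_nonneg δ) (not_lt.1 h)
    linarith
  have hdn : 4000 ≤ δ * n := by
    have h1 : δ ^ 2 * n = δ * (δ * n) := by ring
    rw [h1] at h3
    have h2 : δ * (δ * n) ≤ 1 / 400 * (δ * n) := mul_le_mul_of_nonneg_right hδ1 (by positivity)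
    linarith
  have hn100 : 100 ≤ (n : ℝ) := by
    have : δ * n ≤ 1 / 400 * n := mul_le_mul_of_nonneg_right hδ1 hn0.le
    linarith
  have hm' : (n : ℝ) ≤ 2 * m + 4 * p + 1 := by exact_mod_cast hm
  have hmlow : n * (1 / 2 - 3 * δ) ≤ (m : ℝ) := by linarith
  have hJδ : (J : ℝ) ≤ δ ^ 2 * n := by
    refine hJ1.trans ?_
    rw [div_le_iff₀ (by linarith)]
    have : 0 ≤ δ ^ 2 * n := by positivity
    nlinarith
  have hJδ2 : (J : ℝ) ≤ δ * n / 400 := by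
    have h1 : δ ^ 2 * n = δ * (δ * n) := by ring
    have h2 : δ * (δ * n) ≤ 1 / 400 * (δ * n) := mul_le_mul_of_nonneg_right hδ1 (by positivity)
    linarith
  have hm4 : (n : ℝ) / 4 ≤ m := by
    have : n * (1 / 4 : ℝ) ≤ n * (1 / 2 - 3 * δ) := mul_le_mul_of_nonneg_left (by linarith) hn0.le
    linarith
  have hJm : (J : ℝ) < m := by
    have : δ * n ≤ 1 / 400 * n := mul_le_mul_of_nonneg_right hδ1 hn0.le
    linarith
  have hJm' : J < m := by exact_mod_cast hJm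
  have hsub : ((m - J : ℕ) : ℝ) = m - J := by rw [Nat.cast_sub hJm'.le]
  refine ⟨hm4, hJm', ?_, ?_, hn100⟩
  · rw [hsub]
    linarith
  · rw [hsub]
    have h5 : (J : ℝ) ≤ ε₁ * n / 100 / 400 := by
      have : δ * n ≤ ε₁ / 100 * n := mul_le_mul_of_nonneg_right hδε hn0.le
      linarith
    have h6 : ε₁ * (n / 4) ≤ ε₁ * m := mul_le_mul_of_nonneg_left hm4 hε₁.le
    have hJ0 : (0 : ℝ) ≤ J := Nat.cast_nonneg _
    have h7 : ε₁ * J ≤ 1 / 4 * J := mul_le_mul_of_nonneg_right hε₁' hJ0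
    nlinarith

lemma tvb_le {n m J : ℕ} {δ : ℝ} (hδ : 0 < δ) (hδ1 : δ ≤ 1 / 400) (hlog : 1 ≤ Real.log n)
    (h3 : 10 ≤ δ ^ 2 * n) (hJ1 : (J : ℝ) ≤ δ ^ 2 * n / Real.log n)
    (hq : n * (1 - 8 * δ) ≤ 2 * ((m - J : ℕ) : ℝ)) :
    Samp.tvb n m 2 J δ (Real.log 2) ≤ 15 * δ := by
  have hn0 : (0 : ℝ) < n := by
    by_contra h
    have : δ ^ 2 * (n : ℝ) ≤ 0 := mul_nonpos_of_nonneg_of_nonpos (sq_nonneg δ) (not_lt.1 h)
    linarith
  have hq0 : (0 : ℝ) < 2 * ((m - J : ℕ) : ℝ) := by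
    refine lt_of_lt_of_le ?_ hq
    have : (0 : ℝ) < 1 - 8 * δ := by linarith
    positivity
  have hJlog : (J : ℝ) * Real.log n ≤ δ ^ 2 * n := by
    rw [le_div_iff₀ (by linarith)] at hJ1
    exact hJ1
  have hJ0 : (0 : ℝ) ≤ J := Nat.cast_nonneg _
  have hJδ : (J : ℝ) ≤ δ ^ 2 * n := by nlinarith
  have hexp : Real.exp δ - 1 ≤ δ + δ ^ 2 := by
    have := (abs_le.1 (Real.abs_exp_sub_one_sub_id_le (x := δ) (by
      rw [abs_of_pos hδ]; linarith))).2
    linarith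
  have hlog2 : Real.log 2 ≤ 1 := by
    have := Real.log_two_lt_d9; linarith
  unfold Samp.tvb
  push_cast
  set q : ℝ := 2 * ((m - J : ℕ) : ℝ) with hqdef
  have hdq : 0 < δ * q := by positivity
  rw [sub_add_eq_add_sub, ← add_div, sub_le_iff_le_add, div_le_iff₀ hdq]
  have h4 : n * (Real.exp δ - 1) ≤ n * (δ + δ ^ 2) := mul_le_mul_of_nonneg_left hexp hn0.le
  have h5 : δ * (J * 2) ≤ δ * (δ ^ 2 * n * 2) := by
    apply mul_le_mul_of_nonneg_left _ hδ.le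
    linarith
  have h6 : (15 * δ + 1) * (δ * (n * (1 - 8 * δ))) ≤ (15 * δ + 1) * (δ * q) := by
    apply mul_le_mul_of_nonneg_left _ (by linarith)
    exact mul_le_mul_of_nonneg_left hq hδ.le
  refine le_trans ?_ h6
  have h7 : 0 ≤ δ ^ 2 * n := by positivity
  have h8 : δ * (δ ^ 2 * n) ≤ 1 / 400 * (δ ^ 2 * n) := mul_le_mul_of_nonneg_right hδ1 h7
  have h9 : (15 * δ + 1) * (δ * (n * (1 - 8 * δ)))
      = n * δ + 7 * (δ ^ 2 * n) - 120 * (δ * (δ ^ 2 * n)) := by ring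
  rw [h9]
  nlinarith [h4, h5, h8, hJlog, hlog2, h3, h7]

/-- The pair case, all numbers inserted. -/
lemma outB_final {X : Type*} [Fintype X] [Nonempty X] {Adj : X → X → Prop}
    (hsym : ∀ x y, Adj x y → Adj y x) {n m J : ℕ} (D : Samp X n m 2)
    (hS : Fintype.card X ^ n ≤ 2 * D.S.card)
    (hD1 : ∀ s ∈ D.S, ∀ i, ¬ Adj (s (D.e s i 0)) (s (D.e s i 1)))
    (hD2 : ∀ s ∈ D.S, ∀ i j, i ≠ j → ¬ ∀ k l, Adj (s (D.e s i k)) (s (D.e s j l)))
    (hnpos' : 0 < n) (hJ0 : 0 < J) (hJm : J < m) {δ ε₁ ε C : ℝ} (hδ0 : 0 < δ)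
    (hδ1 : δ ≤ 1 / 400) (hε₁0 : 0 < ε₁) (hε₁1 : ε₁ ≤ 1 / 4) (hε₁2 : 4 * ε₁ ≤ ε)
    (hlog : 1 ≤ Real.log n) (h3 : 10 ≤ δ ^ 2 * n) (hm4 : (n : ℝ) / 4 ≤ m)
    (hq : n * (1 - 8 * δ) ≤ 2 * ((m - J : ℕ) : ℝ))
    (hmJ : (m : ℝ) ≤ (1 + ε₁) * ((m - J : ℕ) : ℝ)) (hn100 : 100 ≤ (n : ℝ))
    (hJ1 : (J : ℝ) ≤ δ ^ 2 * n / Real.log n) (hJ2 : δ ^ 2 * n / (2 * Real.log n) ≤ J)
    (hδM : 30 * (2 * (1 + ε₁) / ε₁) * δ ≤ ε) (hC3 : 5 ≤ C)
    (hC4 : 10 * (2 * (1 + ε₁) / ε₁) / δ ^ 2 ≤ C) :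
    OutB Adj ((1 + ε) * Real.log n + C) ε (C * (Real.log n) ^ 2 / n) := by
  have hlogpos : 0 < Real.log n := by linarith
  have hnpos : (0 : ℝ) < n := by linarith
  have hm0 : (0 : ℝ) < m := by linarith
  have hm0' : 0 < m := by exact_mod_cast hm0
  have hmJ0 : (0 : ℝ) < ((m - J : ℕ) : ℝ) := by
    have : 0 < m - J := by omega
    exact_mod_cast this
  have hlog2 : Real.log 2 ≤ 7 / 10 := by
    have := Real.log_two_lt_d9; linarith
  have hL : D.L ≤ m * (Real.log n + 3) := by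
    have h4 := D.L_le Fintype.card_pos hS hm0' hnpos'
    have h5 : Real.log n - 2 * Real.log 2 ≤ Real.log m := by
      have h6 : Real.log ((n : ℝ) / 4) ≤ Real.log m := Real.log_le_log (by positivity) hm4
      rw [Real.log_div hnpos.ne' (by norm_num)] at h6
      have h7 : Real.log 4 = 2 * Real.log 2 := by
        rw [show (4 : ℝ) = 2 ^ 2 by norm_num, Real.log_pow]; push_cast; ring
      rw [h7] at h6
      exact h6
    push_cast at h4
    have h8 : (m : ℝ) * (2 * Real.log n - Real.log m + 1) ≤ m * (Real.log n + 12 / 5) := by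
      apply mul_le_mul_of_nonneg_left _ hm0.le
      linarith
    have h9 : (m : ℝ) * (Real.log n + 3) = m * (Real.log n + 12 / 5) + 3 / 5 * m := by ring
    linarith
  set a : ℝ := (1 + ε₁) * (Real.log n + 3) with ha
  have ha0 : 0 < a := by positivity
  have hLa : D.L / ((m - J : ℕ) : ℝ) ≤ a := by
    rw [div_le_iff₀ hmJ0]
    calc D.L ≤ m * (Real.log n + 3) := hL
      _ ≤ ((1 + ε₁) * ((m - J : ℕ) : ℝ)) * (Real.log n + 3) :=
          mul_le_mul_of_nonneg_right hmJ (by linarith)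
      _ = a * ((m - J : ℕ) : ℝ) := by rw [ha]; ring
  have hout := outB_of_samp Adj hsym D hS hD1 hD2 hnpos' hJ0 hJm ha0
    (show (0 : ℝ) < 15 * δ by positivity) hδ0 hε₁0 hLa (tvb_le hδ0 hδ1 hlog h3 hJ1 hq)
  set M : ℝ := 2 * (1 + ε₁) / ε₁ with hM
  have hM0 : 0 < M := by positivity
  refine outB_mono ?_ ?_ ?_ hout
  · rw [ha]
    have h5 : (1 + ε₁) * (1 + ε₁) ≤ 1 + ε := by nlinarith
    have h6 : (1 + ε₁) * (1 + ε₁) ≤ 25 / 16 := by nlinarith
    have h7 : (1 + ε₁) * (1 + ε₁) * Real.log n ≤ (1 + ε) * Real.log n :=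
      mul_le_mul_of_nonneg_right h5 hlogpos.le
    have h8 : (1 + ε₁) * ((1 + ε₁) * (Real.log n + 3))
        = (1 + ε₁) * (1 + ε₁) * Real.log n + 3 * ((1 + ε₁) * (1 + ε₁)) := by ring
    rw [h8]
    linarith
  · linarith
  · have hJr : (0 : ℝ) < J := by exact_mod_cast hJ0
    have h5 : a ≤ 5 * Real.log n := by
      have e1 : a ≤ 5 / 4 * (Real.log n + 3) := by
        rw [ha]
        exact mul_le_mul_of_nonneg_right (by linarith) (by linarith)
      linarith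
    have h6 : a / J ≤ 10 * (Real.log n) ^ 2 / (δ ^ 2 * n) := by
      rw [div_le_div_iff₀ hJr (by positivity)]
      rw [div_le_iff₀ (by positivity)] at hJ2
      have h7 : a * (δ ^ 2 * n) ≤ 5 * Real.log n * (δ ^ 2 * n) :=
        mul_le_mul_of_nonneg_right h5 (by positivity)
      have h8 : 5 * Real.log n * (δ ^ 2 * n) ≤ 5 * Real.log n * (J * (2 * Real.log n)) :=
        mul_le_mul_of_nonneg_left hJ2 (by positivity)
      have h9 : 5 * Real.log n * (J * (2 * Real.log n)) = 10 * (Real.log n) ^ 2 * J := by ring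
      linarith
    calc M * (a / J) ≤ M * (10 * (Real.log n) ^ 2 / (δ ^ 2 * n)) :=
          mul_le_mul_of_nonneg_left h6 hM0.le
      _ = 10 * M / δ ^ 2 * ((Real.log n) ^ 2 / n) := by field_simp
      _ ≤ C * ((Real.log n) ^ 2 / n) :=
          mul_le_mul_of_nonneg_right hC4 (by positivity)
      _ = C * (Real.log n) ^ 2 / n := by ring

/-- **Entropic reduction.** If Hadwiger's conjecture holds for all graphs on `n` vertices with
independence number at most two, then every triangle-free relation on a finite set carries a cheap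
law with few adjacencies or a cheap symmetric coupling with few conflicts. -/
theorem reduction (ε : ℝ) (hε : 0 < ε) : ∃ C : ℝ, ∃ n0 : ℕ, ∀ n : ℕ, n0 ≤ n →
    (∀ G : SimpleGraph (Fin n), G.indepNum ≤ 2 →
      G.chromaticNumber ≤ (hadwigerNumber G : ℕ∞)) →
    ∀ (X : Type*) [Fintype X] [Nonempty X] (Adj : X → X → Prop),
      (∀ x y, Adj x y → Adj y x) → (∀ x y z, Adj x y → Adj y z → Adj x z → False) →
      OutA Adj C (C / n) ∨
      OutB Adj ((1 + ε) * Real.log n + C) ε (C * (Real.log n) ^ 2 / n) := by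
  set ε₁ : ℝ := min ε 1 / 4 with hε₁
  have hε₁0 : 0 < ε₁ := by
    have : 0 < min ε 1 := lt_min hε one_pos
    positivity
  have hε₁1 : ε₁ ≤ 1 / 4 := by
    have : min ε 1 ≤ 1 := min_le_right _ _
    rw [hε₁]; linarith
  have hε₁2 : 4 * ε₁ ≤ ε := by
    have : min ε 1 ≤ ε := min_le_left _ _
    rw [hε₁]; linarith
  set M : ℝ := 2 * (1 + ε₁) / ε₁ with hM
  have hM0 : 0 < M := by positivity
  set δ : ℝ := min (ε₁ / 100) (ε / (30 * M)) with hδdef
  have hδ0 : 0 < δ := lt_min (by positivity) (by positivity)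
  have hδε : δ ≤ ε₁ / 100 := min_le_left _ _
  have hδ1 : δ ≤ 1 / 400 := by linarith
  have hδM : 30 * M * δ ≤ ε := by
    have : δ ≤ ε / (30 * M) := min_le_right _ _
    rw [le_div_iff₀ (by positivity)] at this
    linarith
  set l : ℝ := 2 + Real.log (1 / δ) with hl
  have hl0 : 0 < l := by
    have : 0 ≤ Real.log (1 / δ) := Real.log_nonneg (by rw [le_div_iff₀ hδ0]; linarith)
    linarith
  set C : ℝ := max (max (4 * l) (24 * l / δ)) (max 5 (10 * M / δ ^ 2)) with hC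
  have hC1 : 4 * l ≤ C := (le_max_left _ _).trans (le_max_left _ _)
  have hC2 : 24 * l / δ ≤ C := (le_max_right _ _).trans (le_max_left _ _)
  have hC3 : 5 ≤ C := (le_max_left _ _).trans (le_max_right _ _)
  have hC4 : 10 * M / δ ^ 2 ≤ C := (le_max_right _ _).trans (le_max_right _ _)
  have ev1 : ∀ᶠ n : ℕ in Filter.atTop, 1 ≤ Real.log n :=
    (Real.tendsto_log_atTop.comp tendsto_natCast_atTop_atTop).eventually_ge_atTop 1
  have ev2 : ∀ᶠ n : ℕ in Filter.atTop, Real.log n ≤ δ ^ 2 / 2 * n := by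
    have h := Real.isLittleO_log_id_atTop.bound (show (0 : ℝ) < δ ^ 2 / 2 by positivity)
    have h2 := tendsto_natCast_atTop_atTop (R := ℝ) |>.eventually h
    filter_upwards [h2] with n hn
    simp only [Real.norm_eq_abs, id] at hn
    rw [abs_of_nonneg (Nat.cast_nonneg n : (0 : ℝ) ≤ n)] at hn
    exact (le_abs_self _).trans hn
  have ev3 : ∀ᶠ n : ℕ in Filter.atTop, 10 / δ ^ 2 ≤ (n : ℝ) :=
    tendsto_natCast_atTop_atTop.eventually_ge_atTop _
  obtain ⟨n0, hn0⟩ := Filter.eventually_atTop.1 (ev1.and (ev2.and ev3))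
  refine ⟨C, n0, fun n hn hHad X _ _ Adj hsym htri => ?_⟩
  obtain ⟨hlog, hlogn, hn3⟩ := hn0 n hn
  have h3 : 10 ≤ δ ^ 2 * n := by
    rw [div_le_iff₀ (by positivity)] at hn3
    linarith
  have hnpos : (0 : ℝ) < n := by
    by_contra h
    have : δ ^ 2 * (n : ℝ) ≤ 0 := mul_nonpos_of_nonneg_of_nonpos (sq_nonneg δ) (not_lt.1 h)
    linarith
  have hnpos' : 0 < n := by exact_mod_cast hnpos
  set p : ℕ := ⌈δ * n⌉₊ with hp
  set J : ℕ := ⌊δ ^ 2 * n / Real.log n⌋₊ with hJ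
  have hp1 : δ * n ≤ p := Nat.le_ceil _
  have hp2 : (p : ℝ) ≤ δ * n + 1 := (Nat.ceil_lt_add_one (by positivity)).le
  have hlogpos : 0 < Real.log n := by linarith
  have hJ1 : (J : ℝ) ≤ δ ^ 2 * n / Real.log n := Nat.floor_le (by positivity)
  have h2le : 2 ≤ δ ^ 2 * n / Real.log n := by
    rw [le_div_iff₀ hlogpos]; linarith
  have hJ2 : δ ^ 2 * n / (2 * Real.log n) ≤ J := by
    have h4 : δ ^ 2 * n / Real.log n < J + 1 := Nat.lt_floor_add_one _
    have h5 : δ ^ 2 * n / (2 * Real.log n) = δ ^ 2 * n / Real.log n / 2 := by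
      field_simp
    rw [h5]; linarith
  have hJ0 : 0 < J := by
    have : (0 : ℝ) < J := lt_of_lt_of_le (by positivity) hJ2
    exact_mod_cast this
  have hp4 : 2 * p ≤ n / 2 := by
    have h4 : (4 * p : ℝ) ≤ n - 1 := by
      have : δ * n ≤ 1 / 400 * n := mul_le_mul_of_nonneg_right hδ1 hnpos.le
      have h6 : 4000 ≤ δ * n := by
        have h1 : δ ^ 2 * n = δ * (δ * n) := by ring
        rw [h1] at h3
        have h2 : δ * (δ * n) ≤ 1 / 400 * (δ * n) :=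
          mul_le_mul_of_nonneg_right hδ1 (by positivity)
        linarith
      linarith
    have h5 : (4 * p + 1 : ℝ) ≤ n := by linarith
    have h6 : 4 * p + 1 ≤ n := by exact_mod_cast h5
    omega
  have hmp : 2 * (n / 2 - 2 * p) + 4 * p ≤ n := by omega
  have hmn : n ≤ 2 * (n / 2 - 2 * p) + 4 * p + 1 := by omega
  set m : ℕ := n / 2 - 2 * p with hm
  obtain ⟨hm4, hJm, hq, hmJ, hn100⟩ := numerics hδ0 hε₁0 hε₁1 hδε hlog h3 hp2 hmn hJ1
  have hp3 : 3 ≤ p := by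
    have h6 : (3 : ℝ) ≤ p := by
      refine le_trans ?_ hp1
      have h1 : δ ^ 2 * n = δ * (δ * n) := by ring
      rw [h1] at h3
      have h2 : δ * (δ * n) ≤ 1 / 400 * (δ * n) :=
        mul_le_mul_of_nonneg_right hδ1 (by positivity)
      linarith
    exact_mod_cast h6
  rcases exists_samp Adj hsym htri hmp hHad with ⟨D, hS, hD⟩ | ⟨D, hS, hD1, hD2⟩
  · left
    have := outA_of_samp Adj D hS hD hnpos' hp3 hδ0 (by linarith) hp1
    refine outA_mono hC1 ?_ this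
    rw [← hl]
    calc 24 * l / (δ * n) = 24 * l / δ / n := by rw [div_div]
      _ ≤ C / n := div_le_div_of_nonneg_right hC2 hnpos.le
  · right
    exact outB_final hsym D hS hD1 hD2 hnpos' hJ0 hJm hδ0 hδ1 hε₁0 hε₁1 hε₁2 hlog h3 hm4 hq
      hmJ hn100 hJ1 hJ2 hδM hC3 hC4

end Vale.Agent.P060.HW
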