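import Vale.Agent.P060.HW.Graph

/-!
# The entropic reduction: Hadwiger's conjecture for `α ≤ 2` forces a cheap conflict-free coupling
-/

open scoped Classical

noncomputable section

namespace Vale.Agent.P060.HW

namespace Samp

variable {X : Type*} [Fintype X] {n m r : ℕ} (D : Samp X n m r)

lemma logS_le (hX : 0 < Fintype.card X) (hS : Fintype.card X ^ n ≤ 2 * D.S.card) :
    Real.log ((Fintype.card X : ℝ) ^ n / D.S.card) ≤ Real.log 2 := by
  have hS0 : (0 : ℝ) < D.S.card := by exact_mod_cast D.ne.card_pos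
  have hX' : (0 : ℝ) < Fintype.card X := by exact_mod_cast hX
  apply Real.log_le_log (by positivity)
  rw [div_le_iff₀ hS0]
  exact_mod_cast hS

lemma L_le (hX : 0 < Fintype.card X) (hS : Fintype.card X ^ n ≤ 2 * D.S.card) (hm : 0 < m)
    (hn : 0 < n) :
    D.L ≤ Real.log 2 + m * (r * Real.log n - Real.log m + 1) := by
  have hS0 : (0 : ℝ) < D.S.card := by exact_mod_cast D.ne.card_pos
  have hX' : (0 : ℝ) < Fintype.card X := by exact_mod_cast hX
  have hn' : (0 : ℝ) < n := by exact_mod_cast hn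
  have hm' : (0 : ℝ) < m := by exact_mod_cast hm
  have hf : (0 : ℝ) < m.factorial := by exact_mod_cast Nat.factorial_pos m
  have h1 : D.L = m * r * Real.log n + Real.log ((Fintype.card X : ℝ) ^ n / D.S.card)
      - Real.log m.factorial := by
    unfold L
    have : (n : ℝ) ^ (m * r) * (Fintype.card X : ℝ) ^ n / (D.S.card * (m.factorial : ℝ))
        = (n : ℝ) ^ (m * r) * ((Fintype.card X : ℝ) ^ n / D.S.card) / m.factorial := by
      field_simp
    rw [this, Real.log_div (by positivity) (by positivity), Real.log_mul (by positivity)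
      (by positivity), Real.log_pow]
    push_cast
    ring
  have h2 := D.logS_le hX hS
  have h3 : (m : ℝ) * Real.log m - m ≤ Real.log m.factorial := by
    have h4 := Real.pow_div_factorial_le_exp (m : ℝ) hm'.le m
    rw [div_le_iff₀ hf] at h4
    have h5 := Real.log_le_log (by positivity) h4
    rw [Real.log_pow, Real.log_mul (by positivity) (by positivity), Real.log_exp] at h5
    linarith
  rw [h1]
  nlinarith [h2, h3]

end Samp

section two

variable {X : Type*} [Fintype X]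

lemma sum_fin_two (F : (Fin 2 → X) → ℝ) : ∑ y, F y = ∑ x, ∑ x', F ![x, x'] := by
  rw [← Equiv.sum_comp (finTwoArrowEquiv X).symm, Fintype.sum_prod_type]
  rfl

/-- Symmetrisation. -/
def symz (ν : (Fin 2 → X) → ℝ) (x x' : X) : ℝ := (ν ![x, x'] + ν ![x', x]) / 2

omit [Fintype X] in
lemma symz_comm (ν : (Fin 2 → X) → ℝ) (x x' : X) : symz ν x x' = symz ν x' x := by
  unfold symz; ring

lemma sum_symz (ν : (Fin 2 → X) → ℝ) : ∑ x, ∑ x', symz ν x x' = ∑ y, ν y := by
  have h1 : ∑ x, ∑ x', ν ![x', x] = ∑ x, ∑ x', ν ![x, x'] := Finset.sum_comm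
  unfold symz
  simp_rw [← Finset.sum_div, Finset.sum_add_distrib]
  rw [h1, sum_fin_two]
  ring

lemma xlogx_convex {N a b : ℝ} (hN : 0 < N) (ha : 0 ≤ a) (hb : 0 ≤ b) :
    (a + b) / 2 * Real.log ((a + b) / 2 * N)
      ≤ (a * Real.log (a * N) + b * Real.log (b * N)) / 2 := by
  have h := Real.convexOn_mul_log.2 (Set.mem_Ici.2 (mul_nonneg ha hN.le))
    (Set.mem_Ici.2 (mul_nonneg hb hN.le)) (by norm_num : (0 : ℝ) ≤ 1 / 2)
    (by norm_num : (0 : ℝ) ≤ 1 / 2) (by norm_num)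
  simp only [smul_eq_mul] at h
  have e1 : (1 / 2 : ℝ) * (a * N) + 1 / 2 * (b * N) = (a + b) / 2 * N := by ring
  rw [e1] at h
  have h2 : (a + b) / 2 * N * Real.log ((a + b) / 2 * N)
      = N * ((a + b) / 2 * Real.log ((a + b) / 2 * N)) := by ring
  have h3 : 1 / 2 * (a * N * Real.log (a * N)) + 1 / 2 * (b * N * Real.log (b * N))
      = N * ((a * Real.log (a * N) + b * Real.log (b * N)) / 2) := by ring
  rw [h2, h3] at h
  exact le_of_mul_le_mul_left h hN

lemma kl_symz {N : ℝ} (hN : 0 < N) (ν : (Fin 2 → X) → ℝ) (h0 : ∀ y, 0 ≤ ν y) :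
    ∑ x, ∑ x', symz ν x x' * Real.log (symz ν x x' * N) ≤ ∑ y, ν y * Real.log (ν y * N) := by
  have h1 : ∑ x, ∑ x', symz ν x x' * Real.log (symz ν x x' * N)
      ≤ ∑ x, ∑ x', (ν ![x, x'] * Real.log (ν ![x, x'] * N)
        + ν ![x', x] * Real.log (ν ![x', x] * N)) / 2 :=
    Finset.sum_le_sum fun x _ => Finset.sum_le_sum fun x' _ => xlogx_convex hN (h0 _) (h0 _)
  refine h1.trans (le_of_eq ?_)
  have h2 : ∑ x, ∑ x', ν ![x', x] * Real.log (ν ![x', x] * N)
      = ∑ x, ∑ x', ν ![x, x'] * Real.log (ν ![x, x'] * N) := Finset.sum_comm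
  simp_rw [← Finset.sum_div, Finset.sum_add_distrib]
  rw [h2, sum_fin_two (fun y => ν y * Real.log (ν y * N))]
  ring

lemma marg_symz (ν : (Fin 2 → X) → ℝ) (x : X) :
    ∑ x', symz ν x x' = Samp.marg ν x := by
  unfold Samp.marg symz
  rw [Fin.sum_univ_two, sum_fin_two, sum_fin_two]
  have e1 : ∑ a, ∑ b, (if (![a, b] : Fin 2 → X) 0 = x then ν ![a, b] else 0)
      = ∑ b, ν ![x, b] := by
    rw [Finset.sum_comm]
    refine Finset.sum_congr rfl fun b _ => ?_
    rw [Finset.sum_eq_single x]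
    · simp
    · intro a _ ha
      simp [ha]
    · intro h
      exact absurd (Finset.mem_univ x) h
  have e2 : ∑ a, ∑ b, (if (![a, b] : Fin 2 → X) 1 = x then ν ![a, b] else 0)
      = ∑ b, ν ![b, x] := by
    refine Finset.sum_congr rfl fun b _ => ?_
    rw [Finset.sum_eq_single x]
    · simp
    · intro a _ ha
      simp [ha]
    · intro h
      exact absurd (Finset.mem_univ x) h
  rw [e1, e2, ← Finset.sum_div, Finset.sum_add_distrib]
  push_cast
  ring

lemma conf_symz (Q : X → X → X → X → Prop) (h1 : ∀ a b c d, Q a b c d ↔ Q b a c d)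
    (h2 : ∀ a b c d, Q a b c d ↔ Q a b d c) (ν : (Fin 2 → X) → ℝ) :
    ∑ a, ∑ b, ∑ c, ∑ d, (if Q a b c d then symz ν a b * symz ν c d else 0)
      = ∑ y, ∑ y', (if Q (y 0) (y 1) (y' 0) (y' 1) then ν y * ν y' else 0) := by
  have e0 : ∀ a b, ∑ c, ∑ d, (if Q a b c d then ν ![d, c] else 0)
      = ∑ c, ∑ d, (if Q a b c d then ν ![c, d] else 0) := by
    intro a b
    rw [Finset.sum_comm]
    refine Finset.sum_congr rfl fun d _ => Finset.sum_congr rfl fun c _ => ?_
    exact if_congr (h2 a b c d) rfl rfl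
  set K : X → X → ℝ := fun a b => ∑ c, ∑ d, (if Q a b c d then ν ![c, d] else 0) with hK
  have hKs : ∀ a b, K a b = K b a := by
    intro a b
    simp only [hK]
    exact Finset.sum_congr rfl fun c _ => Finset.sum_congr rfl fun d _ =>
      if_congr (h1 a b c d) rfl rfl
  have e1 : ∀ a b, ∑ c, ∑ d, (if Q a b c d then symz ν a b * symz ν c d else 0)
      = symz ν a b * K a b := by
    intro a b
    have : ∀ c d, (if Q a b c d then symz ν a b * symz ν c d else 0)
        = symz ν a b * (((if Q a b c d then ν ![c, d] else 0)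
          + (if Q a b c d then ν ![d, c] else 0)) / 2) := by
      intro c d
      unfold symz
      split_ifs <;> ring
    simp_rw [this, ← Finset.mul_sum, ← Finset.sum_div, Finset.sum_add_distrib]
    rw [e0]
    simp only [hK]
    ring
  have e2 : ∑ a, ∑ b, ν ![b, a] * K a b = ∑ a, ∑ b, ν ![a, b] * K a b := by
    rw [Finset.sum_comm]
    exact Finset.sum_congr rfl fun a _ => Finset.sum_congr rfl fun b _ => by rw [hKs]
  have e3 : ∑ a, ∑ b, symz ν a b * K a b = ∑ a, ∑ b, ν ![a, b] * K a b := by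
    have : ∀ a b, symz ν a b * K a b = (ν ![a, b] * K a b + ν ![b, a] * K a b) / 2 := by
      intro a b; unfold symz; ring
    simp_rw [this, ← Finset.sum_div, Finset.sum_add_distrib]
    rw [e2]
    ring
  simp_rw [e1]
  rw [e3, sum_fin_two (fun y => ∑ y', (if Q (y 0) (y 1) (y' 0) (y' 1) then ν y * ν y' else 0))]
  refine Finset.sum_congr rfl fun a _ => Finset.sum_congr rfl fun b _ => ?_
  rw [sum_fin_two, hK]
  simp only [Finset.mul_sum]
  refine Finset.sum_congr rfl fun c _ => Finset.sum_congr rfl fun d _ => ?_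
  simp

/-- Total variation from the one-sided bound. -/
lemma abs_le_of_max [Nonempty X] (f : X → ℝ) (hf : ∑ x, f x = 1) {c : ℝ}
    (h : ∑ x, max 0 (f x - 1 / (Fintype.card X : ℝ)) ≤ c) :
    ∑ x, |f x - 1 / (Fintype.card X : ℝ)| ≤ 2 * c := by
  have hX : (0 : ℝ) < Fintype.card X := by exact_mod_cast Fintype.card_pos
  have h1 : ∀ x, |f x - 1 / (Fintype.card X : ℝ)|
      = 2 * max 0 (f x - 1 / (Fintype.card X : ℝ)) - (f x - 1 / (Fintype.card X : ℝ)) := by
    intro x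
    rcases le_total 0 (f x - 1 / (Fintype.card X : ℝ)) with h | h
    · rw [abs_of_nonneg h, max_eq_right h]; ring
    · rw [abs_of_nonpos h, max_eq_left h]; ring
  rw [Finset.sum_congr rfl fun x _ => h1 x, Finset.sum_sub_distrib, ← Finset.mul_sum,
    Finset.sum_sub_distrib, hf, Finset.sum_const, nsmul_eq_mul, Finset.card_univ, mul_one_div,
    div_self hX.ne']
  linarith

end two

/-- Output (a): a cheap law with few adjacencies. -/
def OutA {X : Type*} [Fintype X] (Adj : X → X → Prop) (K I : ℝ) : Prop :=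
  ∃ q : X → ℝ, (∀ x, 0 ≤ q x) ∧ ∑ x, q x = 1 ∧
    ∑ x, q x * Real.log (q x * Fintype.card X) ≤ K ∧
    ∑ x, ∑ y, (if Adj x y then q x * q y else 0) ≤ I

/-- Output (b): a cheap symmetric coupling with near uniform marginal and few conflicts. -/
def OutB {X : Type*} [Fintype X] (Adj : X → X → Prop) (K ε I : ℝ) : Prop :=
  ∃ ν : X → X → ℝ, (∀ x y, 0 ≤ ν x y) ∧ ∑ x, ∑ y, ν x y = 1 ∧ (∀ x y, ν x y = ν y x) ∧
    (∀ x y, ν x y ≠ 0 → ¬ Adj x y) ∧
    ∑ x, ∑ y, ν x y * Real.log (ν x y * (Fintype.card X : ℝ) ^ 2) ≤ K ∧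
    ∑ x, |∑ y, ν x y - 1 / (Fintype.card X : ℝ)| ≤ ε ∧
    ∑ x, ∑ x', ∑ y, ∑ y',
      (if Adj x y ∧ Adj x y' ∧ Adj x' y ∧ Adj x' y' then ν x x' * ν y y' else 0) ≤ I

lemma outA_mono {X : Type*} [Fintype X] {Adj : X → X → Prop} {K I K' I' : ℝ} (hK : K ≤ K')
    (hI : I ≤ I') (h : OutA Adj K I) : OutA Adj K' I' := by
  obtain ⟨q, h1, h2, h3, h4⟩ := h
  exact ⟨q, h1, h2, h3.trans hK, h4.trans hI⟩

lemma outB_mono {X : Type*} [Fintype X] {Adj : X → X → Prop} {K ε I K' ε' I' : ℝ} (hK : K ≤ K')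
    (hε : ε ≤ ε') (hI : I ≤ I') (h : OutB Adj K ε I) : OutB Adj K' ε' I' := by
  obtain ⟨q, h1, h2, h3, h4, h5, h6, h7⟩ := h
  exact ⟨q, h1, h2, h3, h4, h5.trans hK, h6.trans hε, h7.trans hI⟩

/-- From one-tuples to output (a). -/
lemma outA_of_samp {X : Type*} [Fintype X] [Nonempty X] {n p : ℕ} (Adj : X → X → Prop)
    (D : Samp X n p 1) (hS : Fintype.card X ^ n ≤ 2 * D.S.card)
    (hD : ∀ s ∈ D.S, ∀ i j, i ≠ j → ¬ Adj (s (D.e s i 0)) (s (D.e s j 0)))
    (hn : 0 < n) (hp : 3 ≤ p) {δ : ℝ} (hδ : 0 < δ) (hδ1 : δ ≤ 1) (hδp : δ * n ≤ p) :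
    OutA Adj (4 * (2 + Real.log (1 / δ))) (24 * (2 + Real.log (1 / δ)) / (δ * n)) := by
  have hX : 0 < Fintype.card X := Fintype.card_pos
  have hn' : (0 : ℝ) < n := by exact_mod_cast hn
  have hp' : (3 : ℝ) ≤ p := by exact_mod_cast hp
  have hp0 : (0 : ℝ) < p := by linarith
  set J := p / 2 with hJ
  have hJ0 : 0 < J := by omega
  have hJp : J < p := by omega
  have hJ3 : (p : ℝ) / 3 ≤ J := by
    have : p ≤ 3 * J := by omega
    have h2 : (p : ℝ) ≤ 3 * J := by exact_mod_cast this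
    linarith
  have hpJ : (p : ℝ) / 2 ≤ ((p - J : ℕ) : ℝ) := by
    have : p ≤ 2 * (p - J) := by omega
    have h2 : (p : ℝ) ≤ 2 * ((p - J : ℕ) : ℝ) := by exact_mod_cast this
    linarith
  have hlogδ : 0 ≤ Real.log (1 / δ) := Real.log_nonneg (by rw [le_div_iff₀ hδ]; linarith)
  have hL := D.L_le hX hS (by omega) hn
  have hl1 : Real.log n - Real.log p ≤ Real.log (1 / δ) := by
    rw [← Real.log_div hn'.ne' hp0.ne']
    apply Real.log_le_log (by positivity)
    rw [div_le_div_iff₀ hp0 hδ]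
    linarith
  have hlog2 : Real.log 2 ≤ 1 := by
    have := Real.log_two_lt_d9; linarith
  have hL2 : D.L ≤ p * (2 + Real.log (1 / δ)) := by
    have h3 : (p : ℝ) * (1 * Real.log n - Real.log p + 1) ≤ p * (Real.log (1 / δ) + 1) := by
      apply mul_le_mul_of_nonneg_left _ hp0.le
      linarith
    push_cast at hL
    have : Real.log 2 ≤ p := by linarith
    nlinarith [hL, h3]
  set a := 2 * (2 + Real.log (1 / δ)) with ha
  have ha0 : 0 < a := by positivity
  have hpJ0 : (0 : ℝ) < ((p - J : ℕ) : ℝ) := by linarith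
  have hJr : (0 : ℝ) < J := by exact_mod_cast hJ0
  have hLa : D.L / ((p - J : ℕ) : ℝ) ≤ a := by
    rw [div_le_iff₀ hpJ0, ha]
    nlinarith [hL2, hpJ, hlogδ]
  have hLb : D.L / (J * ((p - J : ℕ) : ℝ)) ≤ a / J := by
    rw [mul_comm, ← div_div]
    exact div_le_div_of_nonneg_right hLa hJr.le
  obtain ⟨ν, h0, h1, h2, h3, h4, -⟩ := D.select le_rfl hX hn (lam := 1) one_pos hJ0 hJp
    (D.logS_le hX hS) (fun y y' => Adj (y 0) (y' 0)) (fun s hs i j hij => hD s hs i j hij)
    (fun _ => True) (fun _ _ _ => trivial) ha0 (div_pos ha0 hJr)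
    (c := max 1 (Samp.tvb n p 1 J 1 (Real.log 2))) (η := 1)
    (lt_of_lt_of_le one_pos (le_max_left _ _)) one_pos hLa hLb (le_max_right _ _)
  have hsum : ∀ F : (Fin 1 → X) → ℝ, ∑ y, F y = ∑ x, F (fun _ => x) := by
    intro F
    rw [← Equiv.sum_comp (Equiv.funUnique (Fin 1) X).symm]
    rfl
  refine ⟨fun x => ν (fun _ => x), fun x => h0 _, ?_, ?_, ?_⟩
  · rw [← hsum]; exact h1
  · rw [hsum] at h3
    simp only [pow_one] at h3
    refine h3.trans (le_of_eq ?_)
    rw [ha]; ring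
  · rw [hsum] at h4
    have h5 : ∑ x, ∑ y : Fin 1 → X,
        (if Adj ((fun _ => x : Fin 1 → X) 0) (y 0) then ν (fun _ => x) * ν y else 0)
        = ∑ x, ∑ y, (if Adj x y then ν (fun _ => x) * ν (fun _ => y) else 0) :=
      Finset.sum_congr rfl fun x _ => by rw [hsum]
    rw [h5] at h4
    refine h4.trans ?_
    have h6 : a / J ≤ 3 * a / (δ * n) := by
      rw [div_le_div_iff₀ hJr (by positivity)]
      have : δ * n ≤ 3 * J := by linarith
      nlinarith [mul_le_mul_of_nonneg_left this ha0.le]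
    calc 2 * (1 + 1) / 1 * (a / J) = 4 * (a / J) := by ring
      _ ≤ 4 * (3 * a / (δ * n)) := by linarith
      _ = 24 * (2 + Real.log (1 / δ)) / (δ * n) := by rw [ha]; ring

/-- From pairs to output (b). -/
lemma outB_of_samp {X : Type*} [Fintype X] [Nonempty X] {n m : ℕ} (Adj : X → X → Prop)
    (hsym : ∀ x y, Adj x y → Adj y x)
    (D : Samp X n m 2) (hS : Fintype.card X ^ n ≤ 2 * D.S.card)
    (hD1 : ∀ s ∈ D.S, ∀ i, ¬ Adj (s (D.e s i 0)) (s (D.e s i 1)))
    (hD2 : ∀ s ∈ D.S, ∀ i j, i ≠ j → ¬ ∀ k l, Adj (s (D.e s i k)) (s (D.e s j l)))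
    (hn : 0 < n) {J : ℕ} (hJ0 : 0 < J) (hJ : J < m) {a c lam η : ℝ} (ha : 0 < a) (hc : 0 < c)
    (hlam : 0 < lam) (hη : 0 < η) (hLa : D.L / ((m - J : ℕ) : ℝ) ≤ a)
    (htv : Samp.tvb n m 2 J lam (Real.log 2) ≤ c) :
    OutB Adj ((1 + η) * a) (2 * (2 * (1 + η) / η * c)) (2 * (1 + η) / η * (a / J)) := by
  have hX : 0 < Fintype.card X := Fintype.card_pos
  have hJr : (0 : ℝ) < J := by exact_mod_cast hJ0
  have hLb : D.L / (J * ((m - J : ℕ) : ℝ)) ≤ a / J := by
    rw [mul_comm, ← div_div]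
    exact div_le_div_of_nonneg_right hLa hJr.le
  obtain ⟨ν, h0, h1, h2, h3, h4, h5⟩ := D.select (by norm_num) hX hn hlam hJ0 hJ
    (D.logS_le hX hS) (fun y y' => ∀ k l, Adj (y k) (y' l)) (fun s hs i j hij => hD2 s hs i j hij)
    (fun y => ¬ Adj (y 0) (y 1)) (fun s hs i => hD1 s hs i) ha (div_pos ha hJr) hc hη hLa hLb htv
  have hX' : (0 : ℝ) < Fintype.card X := by exact_mod_cast hX
  refine ⟨symz ν, ?_, ?_, symz_comm ν, ?_, ?_, ?_, ?_⟩
  · intro x y
    unfold symz
    have := h0 ![x, y]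
    have := h0 ![y, x]
    linarith
  · rw [sum_symz, h1]
  · intro x y hxy hadj
    apply hxy
    have e1 : ν ![x, y] = 0 := by
      by_contra h
      exact h2 _ h (by simpa using hadj)
    have e2 : ν ![y, x] = 0 := by
      by_contra h
      exact h2 _ h (by simpa using hsym _ _ hadj)
    unfold symz
    rw [e1, e2]
    norm_num
  · exact (kl_symz (by positivity) ν h0).trans h3
  · refine abs_le_of_max (fun x => ∑ y, symz ν x y) ?_ ?_
    · rw [sum_symz, h1]
    · simp only [marg_symz]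
      exact h5
  · obtain ⟨Q, hQ⟩ : ∃ Q : X → X → X → X → Prop, ∀ a b c d, Q a b c d ↔
        (Adj a c ∧ Adj a d ∧ Adj b c ∧ Adj b d) := ⟨_, fun _ _ _ _ => Iff.rfl⟩
    have hcs := conf_symz Q (fun a b c d => by rw [hQ, hQ]; tauto)
      (fun a b c d => by rw [hQ, hQ]; tauto) ν
    have e1 : ∑ x, ∑ x', ∑ y, ∑ y', (if Adj x y ∧ Adj x y' ∧ Adj x' y ∧ Adj x' y'
        then symz ν x x' * symz ν y y' else 0)
        = ∑ x, ∑ x', ∑ y, ∑ y', (if Q x x' y y' then symz ν x x' * symz ν y y' else 0) :=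
      Finset.sum_congr rfl fun a _ => Finset.sum_congr rfl fun b _ => Finset.sum_congr rfl
        fun c _ => Finset.sum_congr rfl fun d _ => if_congr (hQ a b c d).symm rfl rfl
    rw [e1, hcs]
    refine le_trans (le_of_eq ?_) h4
    refine Finset.sum_congr rfl fun y _ => Finset.sum_congr rfl fun y' _ => ?_
    have hiff : Q (y 0) (y 1) (y' 0) (y' 1) ↔ ∀ k l, Adj (y k) (y' l) := by
      rw [hQ]
      simp only [Fin.forall_fin_two]
      tauto
    by_cases hc : Q (y 0) (y 1) (y' 0) (y' 1)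
    · rw [if_pos hc, if_pos (hiff.1 hc)]
    · rw [if_neg hc, if_neg (fun h => hc (hiff.2 h))]

end Vale.Agent.P060.HW
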