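import Vale.Agent.P060.HW.AtomCut

/-!
# Zero rows: only the cut directions survive

If a combination `B h1 + B' h3` of the two forms of a pair of vertices of types `a ≠ a'` has a large
atom, then `h3` is a combination of `g_a`, `g_a'` and of unit vectors in the zero rows of `a'`
(where `B'` vanishes).
-/

open scoped Classical

noncomputable section

set_option linter.unusedSectionVars false

namespace Vale.Agent.P060.HW

open Module

variable {N d : ℕ} {E P Om : Type} [Fintype E] [Fintype P] [Fintype Om] [NeZero N]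

/-- The visible part `E ⊕ P` of a vector. -/
def vis (v : Co E P Om → F) : E ⊕ P → F := fun j => v (Sum.inl j)

/-- The `Om` part of a vector. -/
def hid (v : Co E P Om → F) : Om → F := fun w => v (Sum.inr w)

/-- The symmetric matrix `(u xᵀ + x uᵀ) - (u·g) x xᵀ`, which sends `g` to `u` when `x·g = 1`. -/
def symS {κ : Type*} [Fintype κ] (u x g : κ → F) : Matrix κ κ F :=
  Matrix.vecMulVec u x + Matrix.vecMulVec x u - (u ⬝ᵥ g) • Matrix.vecMulVec x x

theorem symS_symm {κ : Type*} [Fintype κ] (u x g : κ → F) : (symS u x g).IsSymm := by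
  ext i j
  simp only [symS, Matrix.transpose_apply, Matrix.sub_apply, Matrix.add_apply, Matrix.smul_apply,
    Matrix.vecMulVec_apply, smul_eq_mul]
  ring

theorem symS_mulVec {κ : Type*} [Fintype κ] (u x g v : κ → F) :
    (symS u x g).mulVec v = (x ⬝ᵥ v) • u + (u ⬝ᵥ v) • x - ((u ⬝ᵥ g) * (x ⬝ᵥ v)) • x := by
  unfold symS
  rw [Matrix.sub_mulVec, Matrix.add_mulVec, Matrix.smul_mulVec, Matrix.vecMulVec_mulVec,
    Matrix.vecMulVec_mulVec, Matrix.vecMulVec_mulVec]
  funext i
  simp only [Pi.sub_apply, Pi.add_apply, Pi.smul_apply, smul_eq_mul, MulOpposite.smul_eq_mul_unop,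
    MulOpposite.unop_op]
  ring

theorem symS_self {κ : Type*} [Fintype κ] {u x g : κ → F} (h : x ⬝ᵥ g = 1) :
    (symS u x g).mulVec g = u := by
  rw [symS_mulVec, h, one_smul, mul_one, add_sub_cancel_right]

theorem symS_row {κ : Type*} [Fintype κ] {u x g : κ → F} {i : κ} (hu : u i = 0) (hx : x i = 0)
    (j : κ) : symS u x g i j = 0 := by
  simp [symS, Matrix.vecMulVec_apply, hu, hx]

/-- A form of type `a'` with prescribed `Om` rows. -/
theorem exists_form (fr : Frame N d E Om) (p : Lin N → Co E P Om → F) (h : Ext fr p) (a' : Ty N d)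
    (Q : Matrix Om Om F) (hQ : Q.IsSymm) (V : Om → E ⊕ P → F)
    (h0 : ∀ w ∈ fr.U a', V w = 0 ∧ ∀ w', Q w w' = 0)
    (h1 : ∀ w c, w ∈ fr.U c → Q.mulVec (hid (gv p c)) w + V w ⬝ᵥ vis (gv p c) = 0)
    (h2 : ∀ w, Q.mulVec (hid (gv p a')) w + V w ⬝ᵥ vis (gv p a') = 0) :
    ∃ B ∈ (dsg fr p h).Dir a', ∀ (u : Co E P Om → F) (w : Om),
      (B.mulVec u) (Sum.inr w) = Q.mulVec (hid u) w + V w ⬝ᵥ vis u := by
  -- a vector with `x · g_{a'} = 1`
  set ga : E ⊕ P → F := vis (gv p a') with hga
  have hne : ga (Sum.inl fr.e0) ≠ 0 := by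
    have := ne_zero_of_mem_Y ((dsg fr p h).hg a' _ (dsg fr p h).he0)
    exact this
  set x : E ⊕ P → F := Pi.single (Sum.inl fr.e0) (ga (Sum.inl fr.e0))⁻¹ with hx
  have hxg : x ⬝ᵥ ga = 1 := by
    rw [hx, single_dotProduct, inv_mul_cancel₀ hne]
  -- the correction on the visible block
  set VM : Matrix Om (E ⊕ P) F := V with hVM
  set uu : E ⊕ P → F := - (VM.transpose.mulVec (hid (gv p a'))) with huu
  refine ⟨Matrix.fromBlocks (symS uu x ga) VM.transpose VM Q, ⟨⟨?_, ?_⟩, ?_, ?_⟩, ?_⟩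
  · exact Matrix.IsSymm.fromBlocks (symS_symm _ _ _) (by simp) hQ
  · intro c w0 hw0
    obtain ⟨w, hw, rfl⟩ := Finset.mem_image.1 hw0
    rw [Matrix.fromBlocks_mulVec]
    simp only [Sum.elim_inr, Pi.add_apply]
    have := h1 w c hw
    rw [add_comm] at this
    exact this
  · intro w0 hw0 v
    obtain ⟨w, hw, rfl⟩ := Finset.mem_image.1 hw0
    obtain ⟨hV, hQ0⟩ := h0 w hw
    cases v with
    | inl j =>
      rw [Matrix.fromBlocks_apply₂₁]
      exact congrFun hV j
    | inr j =>
      rw [Matrix.fromBlocks_apply₂₂]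
      exact hQ0 j
  · rw [Matrix.fromBlocks_mulVec]
    funext i
    cases i with
    | inl j =>
      simp only [Sum.elim_inl, Pi.add_apply, Pi.zero_apply]
      have e1 : (symS uu x ga).mulVec ((dsg fr p h).g a' ∘ Sum.inl) = uu := symS_self hxg
      rw [e1, huu]
      simp only [Pi.neg_apply]
      exact neg_add_cancel _
    | inr w =>
      simp only [Sum.elim_inr, Pi.add_apply, Pi.zero_apply]
      have := h2 w
      rw [add_comm] at this
      exact this
  · intro u w
    rw [Matrix.fromBlocks_mulVec]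
    simp only [Sum.elim_inr, Pi.add_apply]
    rw [add_comm]
    rfl

/-! ### Solving for vectors with prescribed products -/

/-- Linearly independent vectors admit a vector with prescribed products. -/
theorem exists_dot_eq {κ σ : Type*} [Fintype κ] {v : σ → κ → F}
    (hv : LinearIndependent F v) (c : σ → F) : ∃ x : κ → F, ∀ s, x ⬝ᵥ v s = c s := by
  obtain ⟨φ, hφ⟩ := LinearMap.exists_extend ((Module.Basis.span hv).constr F c)
  refine ⟨fun i => φ (fun j => if i = j then 1 else 0), fun s => ?_⟩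
  have h1 : (((Module.Basis.span hv) s : Submodule.span F (Set.range v)) : κ → F) = v s :=
    congrArg Subtype.val (Module.Basis.span_apply hv s)
  have h2 := LinearMap.congr_fun hφ ((Module.Basis.span hv) s)
  rw [Module.Basis.constr_basis] at h2
  have h3 : φ (v s) = c s := by
    rw [← h1]
    exact h2
  rw [← h3, LinearMap.pi_apply_eq_sum_univ φ (v s)]
  simp only [dotProduct, smul_eq_mul]
  exact Finset.sum_congr rfl fun i _ => mul_comm _ _

/-- CASE 1: the visible part of `u` is not in the span of the vectors met by the row `w0`. -/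
theorem exists_dir_vis (fr : Frame N d E Om) (p : Lin N → Co E P Om → F) (h : Ext fr p)
    (a' : Ty N d) {w0 : Om} (hw0 : w0 ∉ fr.U a') {u : Co E P Om → F}
    (hu : vis u ∉ Submodule.span F
      ((fun c : Ty N d => vis (gv p c)) '' {c | w0 ∈ fr.U c ∨ c = a'})) :
    ∃ B ∈ (dsg fr p h).Dir a', ∀ w : Om,
      (B.mulVec u) (Sum.inr w) = if w = w0 then 1 else 0 := by
  obtain ⟨v, hv, hv1⟩ := exists_sep hu
  have hv' : ∀ c, (w0 ∈ fr.U c ∨ c = a') → v ⬝ᵥ vis (gv p c) = 0 := fun c hc => by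
    rw [dotProduct_comm]
    exact hv _ (Submodule.subset_span ⟨c, hc, rfl⟩)
  have k0 : ∀ w ∈ fr.U a', (fun w => if w = w0 then v else 0 : Om → E ⊕ P → F) w = 0 ∧
      ∀ w', (0 : Matrix Om Om F) w w' = 0 := by
    intro w hw
    have hne : w ≠ w0 := fun h' => hw0 (h' ▸ hw)
    exact ⟨if_neg hne, fun w' => rfl⟩
  have k1 : ∀ w c, w ∈ fr.U c → (0 : Matrix Om Om F).mulVec (hid (gv p c)) w +
      (fun w => if w = w0 then v else 0 : Om → E ⊕ P → F) w ⬝ᵥ vis (gv p c) = 0 := by
    intro w c hwc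
    rw [Matrix.zero_mulVec, Pi.zero_apply, zero_add]
    by_cases hw : w = w0
    · simp only [if_pos hw]
      exact hv' c (Or.inl (hw ▸ hwc))
    · simp only [if_neg hw, zero_dotProduct]
  have k2 : ∀ w, (0 : Matrix Om Om F).mulVec (hid (gv p a')) w +
      (fun w => if w = w0 then v else 0 : Om → E ⊕ P → F) w ⬝ᵥ vis (gv p a') = 0 := by
    intro w
    rw [Matrix.zero_mulVec, Pi.zero_apply, zero_add]
    by_cases hw : w = w0
    · simp only [if_pos hw]
      exact hv' a' (Or.inr rfl)
    · simp only [if_neg hw, zero_dotProduct]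
  obtain ⟨B, hB, hBu⟩ := exists_form fr p h a' 0 Matrix.isSymm_zero
    (fun w => if w = w0 then v else 0) k0 k1 k2
  refine ⟨B, hB, fun w => ?_⟩
  rw [hBu, Matrix.zero_mulVec, Pi.zero_apply, zero_add]
  by_cases hw : w = w0
  · rw [if_pos hw, if_pos hw, dotProduct_comm, hv1]
  · rw [if_neg hw, if_neg hw, zero_dotProduct]

/-- CASE 2: the visible part of `u` vanishes and `u` has a nonzero coordinate `w1 ∉ U a'`. -/
theorem exists_dir_hid (fr : Frame N d E Om) (p : Lin N → Co E P Om → F) (h : Ext fr p)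
    (a' : Ty N d)
    (hGP : ∀ w ∉ fr.U a', LinearIndependent F
      (fun c : {c : Ty N d // w ∈ fr.U c ∨ c = a'} => vis (gv p c.1)))
    {w0 : Om} (hw0 : w0 ∉ fr.U a') {u : Co E P Om → F} (hu : vis u = 0)
    {w1 : Om} (hw1 : w1 ∉ fr.U a') (hu1 : u (Sum.inr w1) ≠ 0) :
    ∃ B ∈ (dsg fr p h).Dir a', ∀ w : Om,
      (B.mulVec u) (Sum.inr w) = if w = w0 then 1 else 0 := by
  set Q : Matrix Om Om F := symS (Pi.single w0 1) (Pi.single w1 (u (Sum.inr w1))⁻¹) (hid u)
    with hQ
  have hx : (Pi.single w1 (u (Sum.inr w1))⁻¹ : Om → F) ⬝ᵥ hid u = 1 := by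
    rw [single_dotProduct]
    exact inv_mul_cancel₀ hu1
  have hsol : ∀ w, ∃ x : E ⊕ P → F, (w ∈ fr.U a' → x = 0) ∧ (w ∉ fr.U a' →
      ∀ c, (w ∈ fr.U c ∨ c = a') → Q.mulVec (hid (gv p c)) w + x ⬝ᵥ vis (gv p c) = 0) := by
    intro w
    by_cases hw : w ∈ fr.U a'
    · exact ⟨0, fun _ => rfl, fun h' => absurd hw h'⟩
    · obtain ⟨x, hx⟩ := exists_dot_eq (hGP w hw) (fun c => - Q.mulVec (hid (gv p c.1)) w)
      refine ⟨x, fun h' => absurd h' hw, fun _ c hc => ?_⟩
      have := hx ⟨c, hc⟩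
      rw [this]
      exact add_neg_cancel _
  choose V hV using hsol
  have hrow : ∀ w ∈ fr.U a', ∀ w', Q w w' = 0 := fun w hw w' => by
    refine symS_row ?_ ?_ w'
    · exact Pi.single_eq_of_ne (fun h' : w = w0 => hw0 (h' ▸ hw)) _
    · exact Pi.single_eq_of_ne (fun h' : w = w1 => hw1 (h' ▸ hw)) _
  have hrow' : ∀ w ∈ fr.U a', ∀ v, Q.mulVec v w = 0 := fun w hw v => by
    unfold Matrix.mulVec dotProduct
    refine Finset.sum_eq_zero fun j _ => ?_
    show Q w j * v j = 0
    rw [hrow w hw j, zero_mul]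
  have k1 : ∀ w c, w ∈ fr.U c → Q.mulVec (hid (gv p c)) w + V w ⬝ᵥ vis (gv p c) = 0 := by
    intro w c hwc
    by_cases hw : w ∈ fr.U a'
    · rw [(hV w).1 hw, zero_dotProduct, add_zero, hrow' w hw]
    · exact (hV w).2 hw c (Or.inl hwc)
  have k2 : ∀ w, Q.mulVec (hid (gv p a')) w + V w ⬝ᵥ vis (gv p a') = 0 := by
    intro w
    by_cases hw : w ∈ fr.U a'
    · rw [(hV w).1 hw, zero_dotProduct, add_zero, hrow' w hw]
    · exact (hV w).2 hw a' (Or.inr rfl)
  obtain ⟨B, hB, hBu⟩ := exists_form fr p h a' Q (symS_symm _ _ _) V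
    (fun w hw => ⟨(hV w).1 hw, hrow w hw⟩) k1 k2
  refine ⟨B, hB, fun w => ?_⟩
  rw [hBu, hu, dotProduct_zero, add_zero, hQ, symS_self hx, Pi.single_apply]

/-- The surviving vectors for a form of type `a'` paired with type `a`. -/
def Surv (fr : Frame N d E Om) (p : Lin N → Co E P Om → F) (a a' : Ty N d)
    (u : Co E P Om → F) : Prop :=
  ∃ c c' : F, ∃ η : Co E P Om → F, vis η = 0 ∧ (∀ w ∉ fr.U a', η (Sum.inr w) = 0) ∧
    u = c • gv p a + c' • gv p a' + η

/-- The vectors of the types met by two rows and of `a'` are independent. -/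
theorem indepOn_of_lines (fr : Frame N d E Om) (p : Lin N → Co E P Om → F) (a' : Ty N d)
    {w w' : Om} (hw : w ∉ fr.U a') (hw' : w' ∉ fr.U a')
    (hP : LinearIndependent F
      (fun u : (lins a' ∪ rowLines fr w ∪ rowLines fr w' : Finset (Lin N)) =>
        fun j : P => p u (Sum.inl (Sum.inr j)))) :
    LinearIndepOn F (fun c : Ty N d => vis (gv p c))
      {c | (w ∈ fr.U c ∨ w' ∈ fr.U c) ∨ c = a'} := by
  rw [linearIndepOn_iff]
  intro l hl h0
  have hl' : ∀ c, l c ≠ 0 → (w ∈ fr.U c ∨ w' ∈ fr.U c) ∨ c = a' := fun c hc =>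
    (Finsupp.mem_supported _ _).1 hl (Finsupp.mem_support_iff.2 hc)
  have h0' : ∀ j : E ⊕ P, ∑ c, l c * gv p c (Sum.inl j) = 0 := by
    intro j
    have h1 := congrFun h0 j
    rw [Finsupp.linearCombination_apply, Finsupp.sum] at h1
    rw [Finset.sum_subset (Finset.subset_univ l.support) (fun c _ hc => by
      rw [Finsupp.notMem_support_iff.1 hc, zero_smul]), Finset.sum_apply] at h1
    exact h1
  have key := two_rows (fr := fr) (p := p) a' hw hw' hP (fun c => if c = a' then 0 else l c)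
    (fun c hc => by
      by_cases h1 : c = a'
      · simp [h1] at hc
      · rw [if_neg h1] at hc
        exact (hl' c hc).resolve_right h1) (l a') (fun j => by
      have h2 := h0' (Sum.inr j)
      rw [← Finset.add_sum_erase (a := a') (s := Finset.univ)
        (f := fun c => l c * gv p c (Sum.inl (Sum.inr j))) (Finset.mem_univ a')] at h2
      rw [← Finset.add_sum_erase (a := a') (s := Finset.univ)
        (f := fun c => (if c = a' then 0 else l c) * gv p c (Sum.inl (Sum.inr j)))
        (Finset.mem_univ a')]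
      rw [if_pos rfl, zero_mul, zero_add, add_comm, ← h2]
      congr 1
      refine Finset.sum_congr rfl fun c hc => ?_
      rw [if_neg (Finset.ne_of_mem_erase hc)])
  ext c
  by_cases h1 : c = a'
  · rw [h1, key.1]
    rfl
  · have := key.2 c
    rw [if_neg h1] at this
    rw [this]
    rfl

/-- If for many rows `w` of `a` the visible part of `u` is in the span of the vectors met by the
row, it is in the span of the vectors of `a` and `a'`. -/
theorem vis_mem_of_many (fr : Frame N d E Om) (p : Lin N → Co E P Om → F) {a a' : Ty N d}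
    (haa : a ≠ a') {u : Co E P Om → F} {G : Finset Om} (hG : G ⊆ fr.U a)
    (hcard : fr.q < 4 * G.card)
    (hGP : ∀ w ∈ G, ∀ w' ∈ G, LinearIndepOn F (fun c : Ty N d => vis (gv p c))
      {c | (w ∈ fr.U c ∨ w' ∈ fr.U c) ∨ c = a'})
    (hu : ∀ w ∈ G, vis u ∈ Submodule.span F
      ((fun c : Ty N d => vis (gv p c)) '' {c | w ∈ fr.U c ∨ c = a'})) :
    ∃ c c' : F, vis u = c • vis (gv p a) + c' • vis (gv p a') := by
  set v : Ty N d → E ⊕ P → F := fun c => vis (gv p c) with hv
  have hspan : ∀ w ∈ G, ∃ l ∈ Finsupp.supported F F {c : Ty N d | w ∈ fr.U c ∨ c = a'},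
      Finsupp.linearCombination F v l = vis u := by
    intro w hw
    rw [← Finsupp.mem_span_image_iff_linearCombination]
    exact hu w hw
  have hGne : G.Nonempty := by
    rw [← Finset.card_pos]
    omega
  obtain ⟨w0, hw0⟩ := hGne
  obtain ⟨l, hl, hlu⟩ := hspan w0 hw0
  have hlsupp : ∀ w ∈ G, ∀ c : Ty N d, l c ≠ 0 → w ∈ fr.U c ∨ c = a' := by
    intro w hw c hc
    obtain ⟨l', hl', hlu'⟩ := hspan w hw
    have h0 := linearIndepOn_iff.1 (hGP w0 hw0 w hw) (l - l') (by
      refine Submodule.sub_mem _ (Finsupp.supported_mono ?_ hl) (Finsupp.supported_mono ?_ hl')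
      · rintro c (h' | h')
        · exact Or.inl (Or.inl h')
        · exact Or.inr h'
      · rintro c (h' | h')
        · exact Or.inl (Or.inr h')
        · exact Or.inr h') (by rw [map_sub, hlu, hlu', sub_self])
    have : l = l' := sub_eq_zero.1 h0
    subst this
    exact (Finsupp.mem_supported _ _).1 hl' (Finsupp.mem_support_iff.2 hc)
  have hlsupp2 : ∀ c : Ty N d, l c ≠ 0 → c = a ∨ c = a' := by
    intro c hc
    by_contra hcon
    rw [not_or] at hcon
    have h1 : G ⊆ fr.U a ∩ fr.U c := fun w hw =>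
      Finset.mem_inter.2 ⟨hG hw, (hlsupp w hw c hc).resolve_right hcon.2⟩
    have h2 := Finset.card_le_card h1
    have h3 := fr.card_inter a c (fun h' => hcon.1 h'.symm)
    omega
  refine ⟨l a, l a', ?_⟩
  rw [← hlu, Finsupp.linearCombination_apply, Finsupp.sum]
  rw [Finset.sum_subset (Finset.subset_univ l.support) (fun c _ hc => by
    rw [Finsupp.notMem_support_iff.1 hc, zero_smul])]
  rw [← Finset.sum_subset (Finset.subset_univ ({a, a'} : Finset (Ty N d))),
    Finset.sum_pair haa]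
  intro c _ hc
  by_cases hlc : l c = 0
  · rw [hlc, zero_smul]
  · exfalso
    apply hc
    rw [Finset.mem_insert, Finset.mem_singleton]
    exact hlsupp2 c hlc

/-- Independence on `P` of the lines of `a'` and of the lines of any two rows outside `U a'`. -/
def RowInd (fr : Frame N d E Om) (p : Lin N → Co E P Om → F) (a' : Ty N d) : Prop :=
  ∀ w ∉ fr.U a', ∀ w' ∉ fr.U a', LinearIndependent F
      (fun u : (lins a' ∪ rowLines fr w ∪ rowLines fr w' : Finset (Lin N)) =>
        fun j : P => p u (Sum.inl (Sum.inr j)))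

theorem RowInd.one {fr : Frame N d E Om} {p : Lin N → Co E P Om → F} {a' : Ty N d}
    (hRI : RowInd fr p a') : ∀ w ∉ fr.U a', LinearIndependent F
      (fun c : {c : Ty N d // w ∈ fr.U c ∨ c = a'} => vis (gv p c.1)) := by
  intro w hw
  have h1 := indepOn_of_lines fr p a' hw hw (hRI w hw w hw)
  have h2 : LinearIndepOn F (fun c : Ty N d => vis (gv p c)) {c | w ∈ fr.U c ∨ c = a'} := by
    refine h1.mono ?_
    rintro c (h' | h')
    · exact Or.inl (Or.inl h')
    · exact Or.inr h'
  exact h2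

/-- If `u` does not survive, many rows of `a` see independent symbols of `B u`, `B` of type `a'`. -/
theorem exists_rows (fr : Frame N d E Om) (p : Lin N → Co E P Om → F) (h : Ext fr p)
    {a a' : Ty N d} (haa : a ≠ a') (hRI : RowInd fr p a')
    {u : Co E P Om → F} (hu : ¬ Surv fr p a a' u) :
    ∃ R ⊆ fr.U a \ fr.U a', fr.q ≤ 2 * R.card ∧ ∀ w0 ∈ R, ∃ B ∈ (dsg fr p h).Dir a',
      ∀ w ∈ R, (B.mulVec u) (Sum.inr w) = if w = w0 then 1 else 0 := by
  have hD : fr.q ≤ (fr.U a \ fr.U a').card + (fr.U a ∩ fr.U a').card := by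
    have := Finset.card_sdiff_add_card_inter (fr.U a) (fr.U a')
    rw [fr.card_U] at this
    omega
  have hI := fr.card_inter a a' haa
  set G : Finset Om := (fr.U a \ fr.U a').filter fun w => vis u ∈ Submodule.span F
      ((fun c : Ty N d => vis (gv p c)) '' {c | w ∈ fr.U c ∨ c = a'}) with hG
  by_cases hcard : fr.q < 4 * G.card
  · obtain ⟨c, c', hc⟩ := vis_mem_of_many fr p haa (G := G)
      (fun w hw => (Finset.mem_sdiff.1 (Finset.mem_filter.1 hw).1).1) hcard
      (fun w hw w' hw' => indepOn_of_lines fr p a'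
        (Finset.mem_sdiff.1 (Finset.mem_filter.1 hw).1).2
        (Finset.mem_sdiff.1 (Finset.mem_filter.1 hw').1).2
        (hRI w (Finset.mem_sdiff.1 (Finset.mem_filter.1 hw).1).2
          w' (Finset.mem_sdiff.1 (Finset.mem_filter.1 hw').1).2))
      (fun w hw => (Finset.mem_filter.1 hw).2)
    set η : Co E P Om → F := u - (c • gv p a + c' • gv p a') with hη
    have hvis : vis η = 0 := by
      funext j
      have := congrFun hc j
      simp only [vis, Pi.add_apply, Pi.smul_apply] at this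
      simp only [vis, hη, Pi.sub_apply, Pi.add_apply, Pi.smul_apply, this, sub_self, Pi.zero_apply]
    obtain ⟨w1, hw1, hu1⟩ : ∃ w1, w1 ∉ fr.U a' ∧ η (Sum.inr w1) ≠ 0 := by
      by_contra hcon
      push Not at hcon
      exact hu ⟨c, c', η, hvis, hcon, by rw [hη]; abel⟩
    refine ⟨fr.U a \ fr.U a', subset_rfl, by omega, fun w0 hw0 => ?_⟩
    obtain ⟨B, hB, hBu⟩ := exists_dir_hid fr p h a' hRI.one (Finset.mem_sdiff.1 hw0).2 hvis hw1 hu1
    refine ⟨B, hB, fun w hw => ?_⟩
    rw [← hBu w]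
    have h1 : (B.mulVec (gv p a)) (Sum.inr w) = 0 :=
      hB.1.2 a (Sum.inr w) (Finset.mem_image_of_mem _ (Finset.mem_sdiff.1 hw).1)
    have h2 : B.mulVec (gv p a') = 0 := hB.2.2
    rw [hη, Matrix.mulVec_sub, Matrix.mulVec_add, Matrix.mulVec_smul, Matrix.mulVec_smul, h2]
    simp [h1]
  · refine ⟨(fr.U a \ fr.U a') \ G, Finset.sdiff_subset, ?_, fun w0 hw0 => ?_⟩
    · have h1 : G ⊆ fr.U a \ fr.U a' := Finset.filter_subset _ _
      have h2 := Finset.card_sdiff_add_card_eq_card h1
      omega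
    · have h1 := Finset.mem_sdiff.1 hw0
      have h2 : vis u ∉ Submodule.span F
          ((fun c : Ty N d => vis (gv p c)) '' {c | w0 ∈ fr.U c ∨ c = a'}) := fun h' =>
        h1.2 (Finset.mem_filter.2 ⟨h1.1, h'⟩)
      obtain ⟨B, hB, hBu⟩ := exists_dir_vis fr p h a' (Finset.mem_sdiff.1 h1.1).2 h2
      exact ⟨B, hB, fun w _ => hBu w⟩

/-! ### Counting -/

/-- Fibres of a surjective homomorphism of finite groups. -/
theorem card_fibre_mul {U W : Type*} [AddCommGroup U] [Finite U] [AddCommGroup W] [Finite W]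
    (f : U →+ W) (hf : Function.Surjective f) (w : W) :
    Nat.card {u : U // f u = w} * Nat.card W = Nat.card U := by
  obtain ⟨u0, hu0⟩ := hf w
  have h1 : Nat.card {u : U // f u = w} = Nat.card f.ker := by
    refine Nat.card_congr ⟨fun u => ⟨u.1 - u0, ?_⟩, fun u => ⟨u.1 + u0, ?_⟩, ?_, ?_⟩
    · rw [AddMonoidHom.mem_ker, map_sub, u.2, hu0, sub_self]
    · rw [map_add, AddMonoidHom.mem_ker.1 u.2, zero_add, hu0]
    · intro u
      exact Subtype.ext (sub_add_cancel _ _)
    · intro u
      exact Subtype.ext (add_sub_cancel_right _ _)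
  have h2 : Nat.card (U ⧸ f.ker) = Nat.card W :=
    Nat.card_congr (QuotientAddGroup.quotientKerEquivOfSurjective f hf).toEquiv
  rw [h1, AddSubgroup.card_eq_card_quotient_mul_card_addSubgroup f.ker, h2, mul_comm]

/-- The evaluation of the rows in `R` of `B u`, `B` of type `a'`. -/
def evRows (fr : Frame N d E Om) (p : Lin N → Co E P Om → F) (h : Ext fr p) (a' : Ty N d)
    (R : Finset Om) (u : Co E P Om → F) : (dsg fr p h).Dir a' →ₗ[F] (R → F) where
  toFun B := fun w => (B.1.mulVec u) (Sum.inr w.1)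
  map_add' A B := by
    funext w
    simp [Matrix.add_mulVec]
  map_smul' c A := by
    funext w
    simp [Matrix.smul_mulVec]

theorem evRows_surjective (fr : Frame N d E Om) (p : Lin N → Co E P Om → F) (h : Ext fr p)
    (a' : Ty N d) {R : Finset Om} {u : Co E P Om → F}
    (hR : ∀ w0 ∈ R, ∃ B ∈ (dsg fr p h).Dir a',
      ∀ w ∈ R, (B.mulVec u) (Sum.inr w) = if w = w0 then 1 else 0) :
    Function.Surjective (evRows fr p h a' R u) := by
  choose B hB hBu using fun w0 : R => hR w0.1 w0.2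
  intro t
  refine ⟨∑ w0 : R, t w0 • (⟨B w0, hB w0⟩ : (dsg fr p h).Dir a'), ?_⟩
  funext w
  rw [map_sum, Finset.sum_apply, Finset.sum_eq_single w]
  · rw [map_smul, Pi.smul_apply, smul_eq_mul]
    have : evRows fr p h a' R u ⟨B w, hB w⟩ w = 1 := by
      show ((B w).mulVec u) (Sum.inr w.1) = 1
      rw [hBu w w.1 w.2, if_pos rfl]
    rw [this, mul_one]
  · intro w0 _ hne
    rw [map_smul, Pi.smul_apply, smul_eq_mul]
    have : evRows fr p h a' R u ⟨B w0, hB w0⟩ w = 0 := by
      show ((B w0).mulVec u) (Sum.inr w.1) = 0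
      rw [hBu w0 w.1 w.2, if_neg fun h' => hne (Subtype.ext h'.symm)]
    rw [this, mul_zero]
  · intro h'
    exact absurd (Finset.mem_univ _) h'

/-- The number of forms of type `a'` with prescribed symbols in independent rows. -/
theorem card_rows (fr : Frame N d E Om) (p : Lin N → Co E P Om → F) (h : Ext fr p)
    (a' : Ty N d) {R : Finset Om} {u : Co E P Om → F}
    (hR : ∀ w0 ∈ R, ∃ B ∈ (dsg fr p h).Dir a',
      ∀ w ∈ R, (B.mulVec u) (Sum.inr w) = if w = w0 then 1 else 0) (y : Om → F) :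
    Nat.card {B : (dsg fr p h).Dir a' // ∀ w ∈ R, (B.1.mulVec u) (Sum.inr w) = y w} *
      2521 ^ R.card = Nat.card ((dsg fr p h).Dir a') := by
  have key := card_fibre_mul (evRows fr p h a' R u).toAddMonoidHom
    (evRows_surjective fr p h a' hR) (fun w => y w.1)
  have h1 : Nat.card (R → F) = 2521 ^ R.card := by
    rw [Nat.card_fun, Nat.card_eq_fintype_card (α := R), Fintype.card_coe, Nat.card_zmod]
  rw [h1] at key
  rw [← key]
  congr 1
  refine Nat.card_congr (Equiv.subtypeEquivRight fun B => ?_)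
  constructor
  · intro hB
    funext w
    exact hB w.1 w.2
  · intro hB w hw
    exact congrFun hB ⟨w, hw⟩

/-- ATOM ⇒ CUT.  If `B h1 + B' h3` has a large atom, then `h3` is a surviving vector. -/
theorem surv_of_atom (fr : Frame N d E Om) (p : Lin N → Co E P Om → F) (h : Ext fr p)
    {a a' : Ty N d} (haa : a ≠ a') (hRI : RowInd fr p a')
    {Ω : Type*} [Fintype Ω] (Pr : FinProb Ω)
    (Bm Bm' : Ω → Matrix (Co E P Om) (Co E P Om) F) (C0 : Matrix (Co E P Om) (Co E P Om) F)
    (hB : ∀ ω, Pr.w ω ≠ 0 → ∀ w ∈ fr.U a, ∀ v, Bm ω (Sum.inr w) v = 0)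
    (hB' : ∀ ω, Pr.w ω ≠ 0 → Bm' ω - C0 ∈ (dsg fr p h).Dir a')
    {M κ : ℝ} (hM : ∀ B, Pr.p Bm' B * Nat.card ((dsg fr p h).Dir a') ≤ M)
    (h1 h3 y : Co E P Om → F)
    (hκ : κ ≤ Pr.p (fun ω => (Bm ω).mulVec h1 + (Bm' ω).mulVec h3) y)
    (hlarge : M < κ * 2521 ^ (fr.q / 2)) : Surv fr p a a' h3 := by
  by_contra hcon
  obtain ⟨R, hRsub, hRq, hR⟩ := exists_rows fr p h haa hRI hcon
  set D := (dsg fr p h).Dir a' with hD
  set S : Finset (Matrix (Co E P Om) (Co E P Om) F) :=
    Finset.univ.filter fun B => B - C0 ∈ D ∧ ∀ w ∈ R, (B.mulVec h3) (Sum.inr w) = y (Sum.inr w)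
    with hS
  -- the number of elements of `S`
  have hScard : S.card * 2521 ^ R.card = Nat.card D := by
    rw [← card_rows fr p h a' hR (fun w => y (Sum.inr w) - (C0.mulVec h3) (Sum.inr w))]
    congr 1
    rw [← Fintype.card_coe S, ← Nat.card_eq_fintype_card]
    refine Nat.card_congr ⟨fun B => ⟨⟨B.1 - C0, (Finset.mem_filter.1 B.2).2.1⟩, ?_⟩,
      fun B => ⟨B.1.1 + C0, ?_⟩, ?_, ?_⟩
    · intro w hw
      have := (Finset.mem_filter.1 B.2).2.2 w hw
      rw [Matrix.sub_mulVec, Pi.sub_apply, this]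
    · refine Finset.mem_filter.2 ⟨Finset.mem_univ _, ?_, fun w hw => ?_⟩
      · rw [add_sub_cancel_right]
        exact B.1.2
      · have := B.2 w hw
        rw [Matrix.add_mulVec, Pi.add_apply, this]
        exact sub_add_cancel _ _
    · intro B
      exact Subtype.ext (sub_add_cancel _ _)
    · intro B
      exact Subtype.ext (Subtype.ext (add_sub_cancel_right _ _))
  -- the probability of the atom is at most the probability of `S`
  have hstep : κ ≤ ∑ B ∈ S, Pr.p Bm' B := by
    refine hκ.trans ?_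
    have e1 : ∑ B ∈ S, Pr.p Bm' B = ∑ ω, if Bm' ω ∈ S then Pr.w ω else 0 := by
      simp only [FinProb.p]
      rw [Finset.sum_comm]
      refine Finset.sum_congr rfl fun ω _ => ?_
      by_cases hω : Bm' ω ∈ S
      · rw [if_pos hω, Finset.sum_eq_single (Bm' ω)]
        · rw [if_pos rfl]
        · intro B _ hne
          rw [if_neg fun h' => hne h'.symm]
        · intro h'
          exact absurd hω h'
      · rw [if_neg hω]
        refine Finset.sum_eq_zero fun B hBS => ?_
        have hne : Bm' ω ≠ B := fun h' => hω (by rw [h']; exact hBS)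
        rw [if_neg hne]
    rw [e1]
    simp only [FinProb.p]
    refine Finset.sum_le_sum fun ω _ => ?_
    by_cases hω : Pr.w ω = 0
    · split_ifs <;> simp [hω]
    · by_cases hy : (Bm ω).mulVec h1 + (Bm' ω).mulVec h3 = y
      · rw [if_pos hy, if_pos]
        refine Finset.mem_filter.2 ⟨Finset.mem_univ _, hB' ω hω, fun w hw => ?_⟩
        have hrow : ((Bm ω).mulVec h1) (Sum.inr w) = 0 := by
          unfold Matrix.mulVec dotProduct
          refine Finset.sum_eq_zero fun j _ => ?_
          show Bm ω (Sum.inr w) j * h1 j = 0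
          rw [hB ω hω w (Finset.mem_sdiff.1 (hRsub hw)).1, zero_mul]
        rw [← hy, Pi.add_apply, hrow, zero_add]
      · rw [if_neg hy]
        split_ifs
        · exact Pr.nonneg ω
        · exact le_rfl
  -- conclusion
  have hDpos : (0 : ℝ) < Nat.card D := by
    exact_mod_cast Nat.card_pos
  have h5 : (∑ B ∈ S, Pr.p Bm' B) * Nat.card D ≤ S.card * M := by
    rw [Finset.sum_mul, ← nsmul_eq_mul, ← Finset.sum_const]
    exact Finset.sum_le_sum fun B _ => hM B
  have hM0 : 0 ≤ M := by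
    have := hM 0
    exact le_trans (mul_nonneg (Pr.p_nonneg _ _) (Nat.cast_nonneg _)) this
  have hκM : κ * 2521 ^ R.card ≤ M := by
    by_cases hκ0 : κ ≤ 0
    · exact le_trans (mul_nonpos_of_nonpos_of_nonneg hκ0 (by positivity)) hM0
    · push Not at hκ0
      have h6 : κ * Nat.card D ≤ S.card * M :=
        (mul_le_mul_of_nonneg_right hstep hDpos.le).trans h5
      have h7 : (S.card : ℝ) * 2521 ^ R.card = Nat.card D := by exact_mod_cast hScard
      have hS0 : (0 : ℝ) < S.card := by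
        by_contra h8
        have h9 : (S.card : ℝ) = 0 := le_antisymm (not_lt.1 h8) (Nat.cast_nonneg _)
        rw [h9, zero_mul] at h7
        linarith
      rw [← h7] at h6
      have h10 : (S.card : ℝ) * (κ * 2521 ^ R.card) ≤ S.card * M := by nlinarith
      exact le_of_mul_le_mul_left h10 hS0
  have hκ0 : 0 ≤ κ := by
    by_contra hneg
    push Not at hneg
    have : κ * 2521 ^ (fr.q / 2) ≤ 0 := mul_nonpos_of_nonpos_of_nonneg hneg.le (by positivity)
    linarith
  have hpow : (2521 : ℝ) ^ (fr.q / 2) ≤ 2521 ^ R.card :=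
    pow_le_pow_right₀ (by norm_num) (by omega)
  have := mul_le_mul_of_nonneg_left hpow hκ0
  linarith

end Vale.Agent.P060.HW
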