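import Vale.Agent.P060.HW.Marg

/-!
# Selection of a good history
-/

open scoped Classical

noncomputable section

set_option linter.unusedSectionVars false

namespace Vale.Agent.P060.HW

namespace FinProb

variable {Ω : Type*} [Fintype Ω] (P : FinProb Ω) {α β γ δ : Type*}

/-- Conditional law. -/
def cond (f : Ω → α) (h : Ω → γ) (c : γ) (y : α) : ℝ :=
  P.p (fun ω => (f ω, h ω)) (y, c) / P.p h c

lemma cond_nonneg (f : Ω → α) (h : Ω → γ) (c : γ) (y : α) : 0 ≤ P.cond f h c y :=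
  div_nonneg (P.p_nonneg _ _) (P.p_nonneg _ _)

lemma exists_of_p_ne_zero {f : Ω → α} {a : α} (h : P.p f a ≠ 0) :
    ∃ ω, f ω = a ∧ 0 < P.w ω := by
  by_contra hcon
  apply h
  unfold p
  refine Finset.sum_eq_zero fun ω _ => ?_
  split_ifs with hω
  · rcases P.w_zero_or_pos ω with h0 | h0
    · exact h0
    · exact absurd ⟨ω, hω, h0⟩ hcon
  · rfl

lemma exists_of_cond_ne_zero {f : Ω → α} {h : Ω → γ} {c : γ} {y : α}
    (hy : P.cond f h c y ≠ 0) : ∃ ω, f ω = y ∧ h ω = c ∧ 0 < P.w ω := by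
  have : P.p (fun ω => (f ω, h ω)) (y, c) ≠ 0 := by
    intro h0; apply hy; unfold cond; rw [h0, zero_div]
  obtain ⟨ω, h1, h2⟩ := P.exists_of_p_ne_zero this
  exact ⟨ω, (Prod.ext_iff.1 h1).1, (Prod.ext_iff.1 h1).2, h2⟩

lemma sum_p_pair [Fintype α] (f : Ω → α) (h : Ω → γ) (c : γ) :
    ∑ y, P.p (fun ω => (f ω, h ω)) (y, c) = P.p h c := by
  rw [← P.sum_p_pair_left f h c]
  symm
  refine Finset.sum_subset (Finset.subset_univ _) ?_
  intro y _ hy
  apply P.p_eq_zero_of_notMem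
  intro ω hω
  exact hy (Finset.mem_image.2 ⟨ω, Finset.mem_univ _, (Prod.ext_iff.1 hω).1⟩)

lemma sum_cond [Fintype α] (f : Ω → α) (h : Ω → γ) {c : γ} (hc : P.p h c ≠ 0) :
    ∑ y, P.cond f h c y = 1 := by
  unfold cond
  rw [← Finset.sum_div, P.sum_p_pair f h c, div_self hc]

/-- Tower property. -/
lemma tower [Fintype α] (f : Ω → α) (h : Ω → γ) (ψ : α → γ → ℝ) :
    ∑ ω, P.w ω * ∑ y, P.cond f h (h ω) y * ψ y (h ω) = ∑ ω, P.w ω * ψ (f ω) (h ω) := by
  have h1 := P.sum_fiber h (fun c => ∑ y, P.cond f h c y * ψ y c)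
  have h2 := P.sum_fiber (fun ω => (f ω, h ω)) (fun x : α × γ => ψ x.1 x.2)
  simp only at h1 h2
  rw [h1, h2]
  have h3 : ∑ x ∈ Finset.univ.image (fun ω => (f ω, h ω)),
      P.p (fun ω => (f ω, h ω)) x * ψ x.1 x.2
      = ∑ x ∈ (Finset.univ : Finset α) ×ˢ Finset.univ.image h,
        P.p (fun ω => (f ω, h ω)) x * ψ x.1 x.2 := by
    refine Finset.sum_subset ?_ ?_
    · intro x hx
      obtain ⟨ω, -, rfl⟩ := Finset.mem_image.1 hx
      simp
    · intro x _ hx
      rw [P.p_eq_zero_of_notMem, zero_mul]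
      intro ω hω
      exact hx (hω ▸ Finset.mem_image_of_mem _ (Finset.mem_univ ω))
  rw [h3, Finset.sum_product_right]
  refine Finset.sum_congr rfl fun c hc => ?_
  rw [Finset.mul_sum]
  refine Finset.sum_congr rfl fun y _ => ?_
  by_cases h0 : P.p h c = 0
  · have h4 : P.p (fun ω => (f ω, h ω)) (y, c) = 0 := by
      refine le_antisymm ?_ (P.p_nonneg _ _)
      rw [← h0, ← P.sum_p_pair f h c]
      exact Finset.single_le_sum (f := fun y => P.p (fun ω => (f ω, h ω)) (y, c))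
        (fun y _ => P.p_nonneg _ _) (Finset.mem_univ y)
    rw [h0, h4]; simp
  · unfold cond
    field_simp

/-- Average conditional relative entropy to the uniform law. -/
lemma avg_kl [Fintype α] (f : Ω → α) (h : Ω → γ) {N : ℝ} (hN : 0 < N) :
    ∑ ω, P.w ω * ∑ y, P.cond f h (h ω) y * Real.log (P.cond f h (h ω) y * N)
      = Real.log N - (P.H (fun ω => (f ω, h ω)) - P.H h) := by
  rw [P.tower f h (fun y c => Real.log (P.cond f h c y * N))]
  have h1 : ∀ ω, P.w ω * Real.log (P.cond f h (h ω) (f ω) * N)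
      = P.w ω * Real.log N + (P.w ω * (-Real.log (P.p h (h ω)))
        - P.w ω * (-Real.log (P.p (fun ω => (f ω, h ω)) (f ω, h ω)))) := by
    intro ω
    rcases P.w_zero_or_pos ω with h0 | h0
    · simp [h0]
    · have a0 : 0 < P.p (fun ω => (f ω, h ω)) (f ω, h ω) := P.p_pos h0 (fun ω => (f ω, h ω))
      have b0 : 0 < P.p h (h ω) := P.p_pos h0 h
      unfold cond
      rw [Real.log_mul (by positivity) hN.ne', Real.log_div a0.ne' b0.ne']
      ring
  rw [Finset.sum_congr rfl fun ω _ => h1 ω, Finset.sum_add_distrib, ← Finset.sum_mul,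
    P.sum_one, Finset.sum_sub_distrib]
  unfold H
  ring

/-- Average product mass of a relation which never happens. -/
lemma avg_conf [Fintype α] (f g : Ω → α) (h : Ω → γ) (Conf : α → α → Prop)
    (hno : ∀ ω, ¬ Conf (f ω) (g ω)) :
    ∑ ω, P.w ω * ∑ y, ∑ y', (if Conf y y' then P.cond f h (h ω) y * P.cond g h (h ω) y' else 0)
      ≤ P.H (fun ω => (f ω, h ω)) + P.H (fun ω => (g ω, h ω))
        - P.H (fun ω => (f ω, g ω, h ω)) - P.H h := by
  set s : Finset (α × α × γ) :=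
    ((Finset.univ : Finset (α × α)).filter (fun q => Conf q.1 q.2) ×ˢ
      Finset.univ.image h).map
      (Equiv.prodAssoc α α γ).toEmbedding with hs
  have h0 := P.offsupp_le_info f g h s (by
    intro x hx
    rw [hs, Finset.mem_map] at hx
    obtain ⟨q, hq, rfl⟩ := hx
    rw [Finset.mem_product, Finset.mem_filter] at hq
    apply P.p_eq_zero_of_notMem
    intro ω hω
    have h1 := Prod.ext_iff.1 hω
    have h2 := Prod.ext_iff.1 h1.2
    simp only [Equiv.coe_toEmbedding, Equiv.prodAssoc_apply] at h1 h2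
    apply hno ω
    rw [h1.1, h2.1]
    exact hq.1.2)
  refine le_trans (le_of_eq ?_) h0
  have h1 := P.sum_fiber h (fun c => ∑ y, ∑ y',
    (if Conf y y' then P.cond f h c y * P.cond g h c y' else 0))
  rw [h1, hs, Finset.sum_map, Finset.sum_product_right]
  refine Finset.sum_congr rfl fun c hc => ?_
  rw [Finset.sum_filter, Fintype.sum_prod_type, Finset.mul_sum]
  refine Finset.sum_congr rfl fun y _ => ?_
  rw [Finset.mul_sum]
  refine Finset.sum_congr rfl fun y' _ => ?_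
  simp only [Equiv.coe_toEmbedding, Equiv.prodAssoc_apply]
  split_ifs with hC
  · unfold cond
    by_cases h0 : P.p h c = 0
    · rw [h0]; simp
    · field_simp
  · simp

end FinProb

/-- Relative entropy to the uniform law is nonnegative. -/
lemma kl_nonneg {α : Type*} [Fintype α] (ν : α → ℝ) (h0 : ∀ y, 0 ≤ ν y) (h1 : ∑ y, ν y = 1)
    {N : ℝ} (hN : N = Fintype.card α) : 0 ≤ ∑ y, ν y * Real.log (ν y * N) := by
  have hne : Nonempty α := by
    by_contra h
    rw [not_nonempty_iff] at h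
    simp at h1
  have hN0 : 0 < N := by rw [hN]; exact_mod_cast Fintype.card_pos
  have h2 : ∀ y, ν y - 1 / N ≤ ν y * Real.log (ν y * N) := by
    intro y
    rcases (h0 y).eq_or_lt with h | h
    · rw [← h]; simp only [zero_sub, zero_mul]
      have : 0 < 1 / N := by positivity
      linarith
    · have h3 := Real.one_sub_inv_le_log_of_pos (mul_pos h hN0)
      have h4 := mul_le_mul_of_nonneg_left h3 h.le
      refine le_trans (le_of_eq ?_) h4
      field_simp
  have h3 := Finset.sum_le_sum (s := Finset.univ) fun y _ => h2 y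
  rw [Finset.sum_sub_distrib, h1, Finset.sum_const, nsmul_eq_mul, Finset.card_univ, ← hN,
    mul_one_div, div_self hN0.ne', sub_self] at h3
  exact h3

namespace Samp

variable {X : Type*} [Fintype X] {n m r : ℕ} (D : Samp X n m r)

/-- Averaged one-coordinate marginal. -/
def marg (ν : (Fin r → X) → ℝ) (x : X) : ℝ :=
  (1 / (r : ℝ)) * ∑ k, ∑ y, if y k = x then ν y else 0

lemma sum_marg (ν : (Fin r → X) → ℝ) (A : Finset X) :
    ∑ x ∈ A, marg ν x = (1 / (r : ℝ)) * ∑ y, ν y * ∑ k, (if y k ∈ A then 1 else 0) := by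
  unfold marg
  rw [← Finset.mul_sum]
  congr 1
  rw [Finset.sum_comm]
  have : ∀ y, ν y * ∑ k, (if y k ∈ A then (1 : ℝ) else 0)
      = ∑ k, if y k ∈ A then ν y else 0 := by
    intro y
    rw [Finset.mul_sum]
    exact Finset.sum_congr rfl fun k _ => by split_ifs <;> simp
  rw [Finset.sum_congr rfl fun y _ => this y, Finset.sum_comm (s := (Finset.univ : Finset (Fin r → X)))]
  refine Finset.sum_congr rfl fun k _ => ?_
  rw [Finset.sum_comm]
  refine Finset.sum_congr rfl fun y _ => ?_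
  rw [Finset.sum_ite_eq]

lemma R_relabel_swap (T : Finset (Fin m)) {a b : Fin m} (ha : a ∉ T) (hb : b ∉ T) (ω : D.Om) :
    D.R T (D.relabel (Equiv.swap a b) ω) = D.R T ω := by
  funext i
  unfold R
  split_ifs with hi
  · rw [W_relabel, Equiv.swap_apply_of_ne_of_ne]
    · intro h; exact ha (h ▸ hi)
    · intro h; exact hb (h ▸ hi)
  · rfl

/-- Exchange of the fresh time. -/
lemma sum_exchange (T : Finset (Fin m)) {a b : Fin m} (ha : a ∉ T) (hb : b ∉ T)
    (ψ : (Fin r → X) → (Fin m → Option (Fin r → X)) → ℝ) :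
    ∑ ω, D.P.w ω * ψ (D.W ω b) (D.R T ω) = ∑ ω, D.P.w ω * ψ (D.W ω a) (D.R T ω) := by
  rw [← Equiv.sum_comp (D.relabel (Equiv.swap a b))
    (fun ω => D.P.w ω * ψ (D.W ω b) (D.R T ω))]
  refine Finset.sum_congr rfl fun ω _ => ?_
  rw [R_relabel_swap D T ha hb, W_relabel, Equiv.swap_apply_right]
  rfl

lemma p_exchange (T : Finset (Fin m)) {a b : Fin m} (ha : a ∉ T) (hb : b ∉ T)
    (y : (Fin r → X) × (Fin m → Option (Fin r → X))) :
    D.P.p (fun ω => (D.W ω b, D.R T ω)) y = D.P.p (fun ω => (D.W ω a, D.R T ω)) y := by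
  rw [← D.P.p_comp_equiv (D.relabel (Equiv.swap a b)) (fun ω => rfl)
    (fun ω => (D.W ω b, D.R T ω)) y]
  congr 1
  funext ω
  rw [R_relabel_swap D T ha hb, W_relabel, Equiv.swap_apply_right]

/-- The average over the fresh times is controlled by the whole sample. -/
lemma fresh_le_cnt (T : Finset (Fin m)) {a : Fin m} (ha : a ∉ T)
    (A : (Fin m → Option (Fin r → X)) → Finset X) :
    ((m - T.card : ℕ) : ℝ) * ∑ ω, D.P.w ω * ∑ k, (if D.W ω a k ∈ A (D.R T ω) then (1 : ℝ) else 0)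
      ≤ ∑ ω, D.P.w ω * cnt ω.1.1 (A (D.R T ω)) := by
  have h1 : ((m - T.card : ℕ) : ℝ)
      * ∑ ω, D.P.w ω * ∑ k, (if D.W ω a k ∈ A (D.R T ω) then (1 : ℝ) else 0)
      = ∑ b ∈ Tᶜ, ∑ ω, D.P.w ω * ∑ k, (if D.W ω b k ∈ A (D.R T ω) then (1 : ℝ) else 0) := by
    have h2 : ∀ b ∈ Tᶜ, ∑ ω, D.P.w ω * ∑ k, (if D.W ω b k ∈ A (D.R T ω) then (1 : ℝ) else 0)
        = ∑ ω, D.P.w ω * ∑ k, (if D.W ω a k ∈ A (D.R T ω) then (1 : ℝ) else 0) := by
      intro b hb
      exact D.sum_exchange T ha (Finset.mem_compl.1 hb)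
        (fun y c => ∑ k, (if y k ∈ A c then (1 : ℝ) else 0))
    rw [Finset.sum_congr rfl h2, Finset.sum_const, Finset.card_compl, nsmul_eq_mul,
      Fintype.card_fin]
  rw [h1, Finset.sum_comm]
  refine Finset.sum_le_sum fun ω _ => ?_
  rw [← Finset.mul_sum]
  refine mul_le_mul_of_nonneg_left ?_ (D.P.nonneg ω)
  have h3 : ∑ b ∈ Tᶜ, ∑ k, (if D.W ω b k ∈ A (D.R T ω) then (1 : ℝ) else 0)
      = ((Tᶜ ×ˢ (Finset.univ : Finset (Fin r))).filter
        (fun q => D.W ω q.1 q.2 ∈ A (D.R T ω))).card := by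
    rw [← Finset.sum_product', Finset.card_filter]
    push_cast
    rfl
  rw [h3]
  unfold cnt
  norm_cast
  refine Finset.card_le_card_of_injOn (fun q => D.e ω.1.1 (ω.2 q.1) q.2) ?_ ?_
  · intro q hq
    rw [Finset.mem_coe, Finset.mem_filter] at hq
    rw [Finset.mem_coe, Finset.mem_filter]
    exact ⟨Finset.mem_univ _, hq.2⟩
  · intro q _ q' _ h
    have := D.inj ω.1.1 ω.1.2 _ _ _ _ h
    exact Prod.ext (ω.2.injective this.1) this.2

/-- The fluctuation bound for the marginals. -/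
def tvb (n m r J : ℕ) (lam C0 : ℝ) : ℝ :=
  n * (Real.exp lam - 1) / (lam * (r * (m - J : ℕ))) - 1
    + (C0 + r * J * Real.log n + lam * (J * r)) / (lam * (r * (m - J : ℕ)))

/-- Expected total variation of the averaged marginal, one-sided form. -/
lemma avg_tv (hr : 1 ≤ r) (hX : 0 < Fintype.card X) (hn : 0 < n) {lam : ℝ} (hlam : 0 < lam)
    {j J : ℕ} (hj : j < J) (hJ : J < m) {C0 : ℝ}
    (hC0 : Real.log ((Fintype.card X : ℝ) ^ n / D.S.card) ≤ C0)
    (A : (Fin m → Option (Fin r → X)) → Finset X) :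
    ∑ ω, D.P.w ω * ∑ x ∈ A (D.R (T m j) ω),
      (marg (D.P.cond (fun ω => D.W ω ⟨j, by omega⟩) (D.R (T m j)) (D.R (T m j) ω)) x
        - 1 / (Fintype.card X : ℝ)) ≤ tvb n m r J lam C0 := by
  set a : Fin m := ⟨j, by omega⟩ with ha
  have haT : a ∉ T m j := by simp [T, a]
  have hTc : (T m j).card = j := card_T (by omega)
  have hX' : (0 : ℝ) < Fintype.card X := by exact_mod_cast hX
  have hr' : (0 : ℝ) < r := by exact_mod_cast hr
  have hmJ : (0 : ℝ) < (m - J : ℕ) := by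
    have : 0 < m - J := by omega
    exact_mod_cast this
  have hmj : ((m - J : ℕ) : ℝ) ≤ ((m - j : ℕ) : ℝ) := by
    have : m - J ≤ m - j := by omega
    exact_mod_cast this
  have hlogn : 0 ≤ Real.log n := Real.log_nonneg (by exact_mod_cast hn)
  have hexp : 0 ≤ Real.exp lam - 1 := by have := Real.add_one_le_exp lam; linarith
  have hexp2 : lam ≤ Real.exp lam - 1 := by have := Real.add_one_le_exp lam; linarith
  set u : ℝ := ∑ ω, D.P.w ω * ((A (D.R (T m j) ω)).card / (Fintype.card X : ℝ)) with hu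
  have hu0 : 0 ≤ u := Finset.sum_nonneg fun ω _ => mul_nonneg (D.P.nonneg ω) (by positivity)
  have hu1 : u ≤ 1 := by
    rw [← D.P.sum_one]
    refine Finset.sum_le_sum fun ω _ => ?_
    have h1 : ((A (D.R (T m j) ω)).card / (Fintype.card X : ℝ)) ≤ 1 := by
      rw [div_le_one hX']
      exact_mod_cast Finset.card_le_univ _
    calc _ ≤ D.P.w ω * 1 := mul_le_mul_of_nonneg_left h1 (D.P.nonneg ω)
      _ = _ := mul_one _
  set v : ℝ := ∑ ω, D.P.w ω * ∑ k, (if D.W ω a k ∈ A (D.R (T m j) ω) then (1 : ℝ) else 0) with hv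
  -- the left side
  have hL : ∑ ω, D.P.w ω * ∑ x ∈ A (D.R (T m j) ω),
      (marg (D.P.cond (fun ω => D.W ω a) (D.R (T m j)) (D.R (T m j) ω)) x
        - 1 / (Fintype.card X : ℝ)) = v / r - u := by
    have h1 : ∀ ω : D.Om, D.P.w ω * ∑ x ∈ A (D.R (T m j) ω),
      (marg (D.P.cond (fun ω => D.W ω a) (D.R (T m j)) (D.R (T m j) ω)) x
        - 1 / (Fintype.card X : ℝ))
        = (1 / (r : ℝ)) * (D.P.w ω * ∑ y, D.P.cond (fun ω => D.W ω a) (D.R (T m j))
          (D.R (T m j) ω) y * ∑ k, (if y k ∈ A (D.R (T m j) ω) then (1 : ℝ) else 0))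
          - D.P.w ω * ((A (D.R (T m j) ω)).card / (Fintype.card X : ℝ)) := by
      intro ω
      rw [Finset.sum_sub_distrib, sum_marg, Finset.sum_const, nsmul_eq_mul]
      ring
    rw [Finset.sum_congr rfl fun ω _ => h1 ω, Finset.sum_sub_distrib, ← Finset.mul_sum,
      D.P.tower (fun ω => D.W ω a) (D.R (T m j))
        (fun y c => ∑ k, (if y k ∈ A c then (1 : ℝ) else 0))]
    ring
  rw [hL]
  -- bound for v
  have h2 := D.fresh_le_cnt (T m j) haT A
  rw [hTc, ← hv] at h2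
  have h3 := D.cnt_le hX hn hlam.le (T m j) A
  rw [hTc] at h3
  have h4 : ∑ ω, D.P.w ω * Fex lam ω.1.1 (A (D.R (T m j) ω))
      = lam * (∑ ω, D.P.w ω * cnt ω.1.1 (A (D.R (T m j) ω)))
        - n * (Real.exp lam - 1) * u := by
    rw [hu, Finset.mul_sum, Finset.mul_sum, ← Finset.sum_sub_distrib]
    refine Finset.sum_congr rfl fun ω _ => ?_
    unfold Fex
    ring
  rw [h4] at h3
  have hjJ : (j : ℝ) ≤ J := by exact_mod_cast hj.le
  have h5 : Real.log ((Fintype.card X : ℝ) ^ n / D.S.card) + r * j * Real.log n + lam * (j * r)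
      ≤ C0 + r * J * Real.log n + lam * (J * r) := by
    have e1 : (r : ℝ) * j * Real.log n ≤ r * J * Real.log n := by gcongr
    have e2 : lam * (j * r) ≤ lam * (J * r) := by gcongr
    linarith
  have hv0 : 0 ≤ v := Finset.sum_nonneg fun ω _ => mul_nonneg (D.P.nonneg ω)
    (Finset.sum_nonneg fun k _ => by split_ifs <;> norm_num)
  have h6 : ((m - J : ℕ) : ℝ) * v ≤ ((m - j : ℕ) : ℝ) * v := mul_le_mul_of_nonneg_right hmj hv0
  have h7 : lam * (((m - J : ℕ) : ℝ) * v) ≤ n * (Real.exp lam - 1) * u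
      + (C0 + r * J * Real.log n + lam * (J * r)) := by
    have := mul_le_mul_of_nonneg_left (h6.trans h2) hlam.le
    linarith
  have hnm : (r : ℝ) * ((m - J : ℕ) : ℝ) ≤ n := by
    have h8 := D.mr_le
    have h9 : r * (m - J) ≤ n := by
      calc r * (m - J) ≤ r * m := Nat.mul_le_mul_left _ (Nat.sub_le _ _)
        _ = m * r := mul_comm _ _
        _ ≤ n := h8
    exact_mod_cast h9
  unfold tvb
  set q : ℝ := lam * (r * ((m - J : ℕ) : ℝ)) with hq
  have hq0 : 0 < q := by positivity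
  have h10 : v / r ≤ n * (Real.exp lam - 1) / q * u
      + (C0 + r * J * Real.log n + lam * (J * r)) / q := by
    rw [div_mul_eq_mul_div, ← add_div, div_le_div_iff₀ hr' hq0, hq]
    have := mul_le_mul_of_nonneg_left h7 hr'.le
    linarith
  have h11 : 1 ≤ n * (Real.exp lam - 1) / q := by
    rw [le_div_iff₀ hq0, one_mul, hq]
    calc lam * (r * ((m - J : ℕ) : ℝ)) ≤ (Real.exp lam - 1) * n := by
          apply mul_le_mul hexp2 hnm (by positivity) hexp
      _ = _ := mul_comm _ _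
  nlinarith [h10, mul_nonneg (sub_nonneg.2 h11) (sub_nonneg.2 hu1)]

/-- **Selection theorem.** From a set of samples each of which carries `m` disjoint tuples of
indices with pairwise relation `¬ Conf`, one gets a single law `ν` of a tuple with small relative
entropy, small product mass of `Conf` and averaged marginal close to uniform. -/
theorem select (hr : 1 ≤ r) (hX : 0 < Fintype.card X) (hn : 0 < n) {lam : ℝ} (hlam : 0 < lam)
    {J : ℕ} (hJ0 : 0 < J) (hJ : J < m) {C0 : ℝ}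
    (hC0 : Real.log ((Fintype.card X : ℝ) ^ n / D.S.card) ≤ C0)
    (Conf : (Fin r → X) → (Fin r → X) → Prop)
    (hConf : ∀ s ∈ D.S, ∀ i j, i ≠ j →
      ¬ Conf (fun k => s (D.e s i k)) (fun k => s (D.e s j k)))
    (Good : (Fin r → X) → Prop)
    (hGood : ∀ s ∈ D.S, ∀ i, Good (fun k => s (D.e s i k)))
    {a b c η : ℝ} (ha : 0 < a) (hb : 0 < b) (hc : 0 < c) (hη : 0 < η)
    (hLa : D.L / ((m - J : ℕ) : ℝ) ≤ a) (hLb : D.L / (J * ((m - J : ℕ) : ℝ)) ≤ b)
    (htv : tvb n m r J lam C0 ≤ c) :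
    ∃ ν : (Fin r → X) → ℝ, (∀ y, 0 ≤ ν y) ∧ ∑ y, ν y = 1 ∧ (∀ y, ν y ≠ 0 → Good y) ∧
      ∑ y, ν y * Real.log (ν y * (Fintype.card X : ℝ) ^ r) ≤ (1 + η) * a ∧
      ∑ y, ∑ y', (if Conf y y' then ν y * ν y' else 0) ≤ 2 * (1 + η) / η * b ∧
      ∑ x, max 0 (marg ν x - 1 / (Fintype.card X : ℝ)) ≤ 2 * (1 + η) / η * c := by
  have hX' : (0 : ℝ) < Fintype.card X := by exact_mod_cast hX
  obtain ⟨j, hj, hj1, hj2⟩ := D.exists_time hr hX hJ0 hJ
  set t : Fin m := ⟨j, by omega⟩ with ht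
  set t' : Fin m := ⟨j + 1, by omega⟩ with ht'
  have htT : t ∉ T m j := by simp [T, t]
  have htT' : t' ∉ T m j := by simp [T, t']
  have htt : t ≠ t' := by simp [t, t']
  set N : ℝ := (Fintype.card X : ℝ) ^ r with hN
  have hN0 : 0 < N := by positivity
  have hNc : N = Fintype.card (Fin r → X) := by rw [hN, Fintype.card_fun, Fintype.card_fin]; push_cast; rfl
  set ν : (Fin m → Option (Fin r → X)) → (Fin r → X) → ℝ :=
    D.P.cond (fun ω => D.W ω t) (D.R (T m j)) with hν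
  set φ1 : (Fin m → Option (Fin r → X)) → ℝ := fun h => ∑ y, ν h y * Real.log (ν h y * N) with hφ1
  set φ2 : (Fin m → Option (Fin r → X)) → ℝ := fun h =>
    ∑ y, ∑ y', (if Conf y y' then ν h y * ν h y' else 0) with hφ2
  set A : (Fin m → Option (Fin r → X)) → Finset X := fun h =>
    Finset.univ.filter (fun x => 1 / (Fintype.card X : ℝ) < marg (ν h) x) with hA
  set φ3 : (Fin m → Option (Fin r → X)) → ℝ := fun h =>
    ∑ x ∈ A h, (marg (ν h) x - 1 / (Fintype.card X : ℝ)) with hφ3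
  -- entropies
  have hHpair : D.P.H (fun ω => (D.W ω t, D.R (T m j) ω)) = D.g (j + 1) := by
    rw [D.H_pair, D.H_R, Finset.card_insert_of_notMem htT, card_T (by omega)]
  have hHpair' : D.P.H (fun ω => (D.W ω t', D.R (T m j) ω)) = D.g (j + 1) := by
    rw [D.H_pair, D.H_R, Finset.card_insert_of_notMem htT', card_T (by omega)]
  have hHtr : D.P.H (fun ω => (D.W ω t, D.W ω t', D.R (T m j) ω)) = D.g (j + 2) := by
    rw [D.H_triple, D.H_R, Finset.card_insert_of_notMem (by simp [htt, htT]),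
      Finset.card_insert_of_notMem htT', card_T (by omega)]
  have hH0 : D.P.H (D.R (T m j)) = D.g j := rfl
  have h1 : ∑ ω, D.P.w ω * φ1 (D.R (T m j) ω) ≤ a := by
    have := D.P.avg_kl (fun ω => D.W ω t) (D.R (T m j)) hN0
    rw [hHpair, hH0] at this
    refine le_trans (le_of_eq this) ?_
    refine le_trans (le_of_eq ?_) (hj1.trans hLa)
    rw [hN, Real.log_pow]
    unfold kap
    ring
  have hno : ∀ ω : D.Om, ¬ Conf (D.W ω t) (D.W ω t') := by
    intro ω
    exact hConf ω.1.1 ω.1.2 _ _ (fun h => htt (ω.2.injective h))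
  have hcondeq : ∀ h y, D.P.cond (fun ω => D.W ω t') (D.R (T m j)) h y = ν h y := by
    intro h y
    rw [hν]
    unfold FinProb.cond
    rw [D.p_exchange (T m j) htT htT' (y, h)]
  have h2 : ∑ ω, D.P.w ω * φ2 (D.R (T m j) ω) ≤ b := by
    have := D.P.avg_conf (fun ω => D.W ω t) (fun ω => D.W ω t') (D.R (T m j)) Conf hno
    simp only [hcondeq] at this
    rw [hHpair, hHpair', hHtr, hH0] at this
    refine le_trans this (le_trans (le_of_eq ?_) (hj2.trans hLb))
    ring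
  have h3 : ∑ ω, D.P.w ω * φ3 (D.R (T m j) ω) ≤ c :=
    (D.avg_tv hr hX hn hlam hj hJ hC0 A).trans htv
  have hsum : ∑ ω, D.P.w ω * (φ1 (D.R (T m j) ω) / a + η / 2 * (φ2 (D.R (T m j) ω) / b)
      + η / 2 * (φ3 (D.R (T m j) ω) / c)) ≤ 1 + η := by
    have e : ∑ ω, D.P.w ω * (φ1 (D.R (T m j) ω) / a + η / 2 * (φ2 (D.R (T m j) ω) / b)
      + η / 2 * (φ3 (D.R (T m j) ω) / c)) = (∑ ω, D.P.w ω * φ1 (D.R (T m j) ω)) / a
        + η / 2 * ((∑ ω, D.P.w ω * φ2 (D.R (T m j) ω)) / b)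
        + η / 2 * ((∑ ω, D.P.w ω * φ3 (D.R (T m j) ω)) / c) := by
      rw [Finset.sum_div, Finset.sum_div, Finset.sum_div, Finset.mul_sum, Finset.mul_sum,
        ← Finset.sum_add_distrib, ← Finset.sum_add_distrib]
      exact Finset.sum_congr rfl fun ω _ => by ring
    rw [e]
    have e1 := (div_le_one ha).2 h1
    have e2 := mul_le_mul_of_nonneg_left ((div_le_one hb).2 h2) (by positivity : 0 ≤ η / 2)
    have e3 := mul_le_mul_of_nonneg_left ((div_le_one hc).2 h3) (by positivity : 0 ≤ η / 2)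
    linarith
  obtain ⟨ω, hω0, hω⟩ := D.P.exists_le_avg (D.R (T m j))
    (fun h => φ1 h / a + η / 2 * (φ2 h / b) + η / 2 * (φ3 h / c)) (1 + η) hsum
  set h := D.R (T m j) ω with hh
  have hp : D.P.p (D.R (T m j)) h ≠ 0 := (D.P.p_pos hω0 (D.R (T m j))).ne'
  have hν0 : ∀ y, 0 ≤ ν h y := fun y => D.P.cond_nonneg _ _ _ _
  have hν1 : ∑ y, ν h y = 1 := D.P.sum_cond _ _ hp
  have n1 : 0 ≤ φ1 h := kl_nonneg (ν h) hν0 hν1 hNc
  have n2 : 0 ≤ φ2 h := Finset.sum_nonneg fun y _ => Finset.sum_nonneg fun y' _ => by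
    split_ifs
    · exact mul_nonneg (hν0 y) (hν0 y')
    · exact le_rfl
  have n3 : 0 ≤ φ3 h := Finset.sum_nonneg fun x hx => by
    have := (Finset.mem_filter.1 hx).2
    linarith
  have d1 : 0 ≤ φ1 h / a := div_nonneg n1 ha.le
  have d2 : 0 ≤ η / 2 * (φ2 h / b) := mul_nonneg (by positivity) (div_nonneg n2 hb.le)
  have d3 : 0 ≤ η / 2 * (φ3 h / c) := mul_nonneg (by positivity) (div_nonneg n3 hc.le)
  refine ⟨ν h, hν0, hν1, ?_, ?_, ?_, ?_⟩
  · intro y hy
    obtain ⟨ω', e1, -, -⟩ := D.P.exists_of_cond_ne_zero hy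
    rw [← e1]
    exact hGood ω'.1.1 ω'.1.2 _
  · have : φ1 h / a ≤ 1 + η := by linarith
    rwa [div_le_iff₀ ha] at this
  · have : φ2 h / b ≤ 2 * (1 + η) / η := by
      rw [le_div_iff₀ hη]
      linarith
    rwa [div_le_iff₀ hb] at this
  · have : φ3 h / c ≤ 2 * (1 + η) / η := by
      rw [le_div_iff₀ hη]
      linarith
    rw [div_le_iff₀ hc] at this
    refine le_trans (le_of_eq ?_) this
    rw [hφ3, hA]
    simp only
    rw [Finset.sum_filter]
    refine Finset.sum_congr rfl fun x _ => ?_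
    split_ifs with hx
    · exact max_eq_right (by linarith)
    · exact max_eq_left (by linarith [not_lt.1 hx])

end Samp

end Vale.Agent.P060.HW
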