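import Vale.Agent.P060.HW.Final1
import Vale.Agent.P060.HW.Blocks

/-!
# From the structural statements to the overlap estimate, part 1: the law of the forms of a coupling
-/

open scoped Classical

noncomputable section

set_option linter.unusedSectionVars false

namespace Vale.Agent.P060.HW

namespace FinProb

variable {Ω : Type*} [Fintype Ω] (P : FinProb Ω) {α : Type*}

/-- Sum over the values. -/
lemma sum_p_mul [Fintype α] (f : Ω → α) (φ : α → ℝ) :
    ∑ a, P.p f a * φ a = ∑ ω, P.w ω * φ (f ω) := by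
  unfold p
  simp only [Finset.sum_mul]
  rw [Finset.sum_comm]
  refine Finset.sum_congr rfl fun ω _ => ?_
  rw [Finset.sum_eq_single (f ω)]
  · rw [if_pos rfl]
  · intro a _ ha
    rw [if_neg (Ne.symm ha), zero_mul]
  · intro h
    exact absurd (Finset.mem_univ _) h

end FinProb

namespace Design

variable {K T : Type*} [Fintype K] [Fintype T] (δ : Design K T)

/-- The law of the forms of a coupling, given the labels. -/
def wl (ν : Vtx K T → Vtx K T → ℝ) (h0 : ∀ x y, 0 ≤ ν x y) (α : Lb T × Lb T)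
    (hα : 0 < mass ν α) : Matrix K K F → Matrix K K F → ℝ :=
  fun B B' => (condP ν h0 α hα).p (fun z => (δ.frm z.1, δ.frm z.2)) (B, B')

/-- Sums against the law of the forms. -/
lemma sum_wl (ν : Vtx K T → Vtx K T → ℝ) (h0 : ∀ x y, 0 ≤ ν x y) (α : Lb T × Lb T)
    (hα : 0 < mass ν α) (φ : Matrix K K F → Matrix K K F → ℝ) :
    ∑ B, ∑ B', δ.wl ν h0 α hα B B' * φ B B'
      = ∑ z, (condP ν h0 α hα).w z * φ (δ.frm z.1) (δ.frm z.2) := by
  have h := (condP ν h0 α hα).sum_p_mul (fun z => (δ.frm z.1, δ.frm z.2)) (fun q => φ q.1 q.2)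
  rw [← h, Fintype.sum_prod_type]
  rfl

lemma condP_swap (ν : Vtx K T → Vtx K T → ℝ) (h0 : ∀ x y, 0 ≤ ν x y) (hsy : ∀ x y, ν x y = ν y x)
    (α : Lb T × Lb T) (hα : 0 < mass ν α) (hα' : 0 < mass ν α.swap) (z : Vtx K T × Vtx K T) :
    (condP ν h0 α.swap hα').w z.swap = (condP ν h0 α hα).w z := by
  rw [condP_w, condP_w, mass_swap ν hsy α]
  simp only [Prod.fst_swap, Prod.snd_swap]
  rw [hsy z.2 z.1]
  by_cases h : lb z.1 = α.1 ∧ lb z.2 = α.2
  · rw [if_pos h, if_pos h.symm]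
  · rw [if_neg h, if_neg (fun h' => h h'.symm)]

/-- The law of the forms of a coupling is a pair law. -/
theorem wl_plaw [Nonempty T] (ν : Vtx K T → Vtx K T → ℝ) (h0 : ∀ x y, 0 ≤ ν x y)
    (hsy : ∀ x y, ν x y = ν y x) {Λ Λ' M' : ℝ}
    (hΛ : ∀ x y, ν x y * (Fintype.card (Vtx K T) : ℝ) ^ 2 ≤ Λ)
    (hm : ∀ x, (∑ y, ν x y) * (Fintype.card (Vtx K T) : ℝ) ≤ 4)
    (α : Lb T × Lb T) (hα : 0 < mass ν α)
    (hα' : 1 / (400 * (Fintype.card (Lb T) : ℝ) ^ 2) ≤ mass ν α)
    (h1 : 400 * Λ ≤ Λ') (h2 : 1600 * (Fintype.card (Lb T) : ℝ) ≤ M') :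
    PLaw δ α.1.1 α.2.1 α.1.2 α.2.2 Λ' M' (δ.wl ν h0 α hα) := by
  have hD1 : (0 : ℝ) < Fintype.card (δ.Dir α.1.1) := by exact_mod_cast Fintype.card_pos
  have hD2 : (0 : ℝ) < Fintype.card (δ.Dir α.2.1) := by exact_mod_cast Fintype.card_pos
  have hleft : ∀ B, ∑ B', δ.wl ν h0 α hα B B' = (condP ν h0 α hα).p (fun z => δ.frm z.1) B := by
    intro B
    have := δ.sum_wl ν h0 α hα (fun C _ => if C = B then 1 else 0)
    have e1 : ∑ C, ∑ B', δ.wl ν h0 α hα C B' * (if C = B then (1 : ℝ) else 0)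
        = ∑ B', δ.wl ν h0 α hα B B' := by
      rw [Finset.sum_eq_single B]
      · simp
      · intro C _ hC
        simp [hC]
      · intro h; exact absurd (Finset.mem_univ _) h
    rw [e1] at this
    rw [this]
    unfold FinProb.p
    refine Finset.sum_congr rfl fun z _ => ?_
    split_ifs <;> simp
  have hright : ∀ B', ∑ B, δ.wl ν h0 α hα B B' = (condP ν h0 α hα).p (fun z => δ.frm z.2) B' := by
    intro B'
    have := δ.sum_wl ν h0 α hα (fun _ C => if C = B' then 1 else 0)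
    have e1 : ∑ B, ∑ C, δ.wl ν h0 α hα B C * (if C = B' then (1 : ℝ) else 0)
        = ∑ B, δ.wl ν h0 α hα B B' := by
      refine Finset.sum_congr rfl fun B _ => ?_
      rw [Finset.sum_eq_single B']
      · simp
      · intro C _ hC
        simp [hC]
      · intro h; exact absurd (Finset.mem_univ _) h
    rw [e1] at this
    rw [this]
    unfold FinProb.p
    refine Finset.sum_congr rfl fun z _ => ?_
    split_ifs <;> simp
  refine ⟨fun B B' => FinProb.p_nonneg _ _ _, ?_, ?_, ?_, ?_, ?_⟩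
  · have := δ.sum_wl ν h0 α hα (fun _ _ => 1)
    simp only [mul_one] at this
    rw [this, FinProb.sum_one]
  · intro B B' hw
    obtain ⟨z, hz, hw0⟩ := (condP ν h0 α hα).exists_of_p_ne_zero hw
    rw [condP_w] at hw0
    have hlb : lb z.1 = α.1 ∧ lb z.2 = α.2 := by
      by_contra hcon
      rw [if_neg hcon] at hw0
      exact lt_irrefl _ hw0
    have hform : ∀ x : Vtx K T, δ.frm x ∈ δ.Form (lb x).1 (lb x).2 := by
      intro x
      change δ.frm x - (if x.2.1 then δ.B0 x.1 else 0) ∈ δ.Dir x.1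
      unfold frm
      rw [add_sub_cancel_left]
      exact (δ.proj x.1 x.2.2).2
    rw [Prod.mk.injEq] at hz
    rw [← hz.1, ← hz.2, ← hlb.1, ← hlb.2]
    exact ⟨hform _, hform _⟩
  · intro B B'
    have := δ.law_forms_le ν h0 hΛ α hα hα' B B'
    rw [Nat.card_eq_fintype_card, Nat.card_eq_fintype_card]
    rw [le_div_iff₀ (mul_pos hD1 hD2)] at this
    exact this.trans h1
  · intro B
    rw [hleft, Nat.card_eq_fintype_card]
    have := δ.law_frm_le ν h0 hm α hα hα' B
    rw [le_div_iff₀ hD1] at this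
    exact this.trans h2
  · intro B'
    rw [hright, Nat.card_eq_fintype_card]
    have hms := mass_swap ν hsy α
    have hsα : 0 < mass ν α.swap := by rw [hms]; exact hα
    have hsα' : 1 / (400 * (Fintype.card (Lb T) : ℝ) ^ 2) ≤ mass ν α.swap := by rw [hms]; exact hα'
    have h3 := δ.law_frm_le ν h0 hm α.swap hsα hsα' B'
    have h4 : (condP ν h0 α hα).p (fun z => δ.frm z.2) B'
        = (condP ν h0 α.swap hsα).p (fun z => δ.frm z.1) B' := by
      unfold FinProb.p
      beta_reduce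
      refine Fintype.sum_equiv (Equiv.prodComm (Vtx K T) (Vtx K T)) _ _ fun z => ?_
      rw [Equiv.prodComm_apply, condP_swap ν h0 hsy α hα hsα z]
      rfl
    rw [h4]
    rw [Prod.fst_swap] at h3
    rw [le_div_iff₀ hD2] at h3
    exact h3.trans h2

/-- Sums of the law of the test values. -/
lemma sum_tlaw_wl (ν : Vtx K T → Vtx K T → ℝ) (h0 : ∀ x y, 0 ≤ ν x y) (α : Lb T × Lb T)
    (hα : 0 < mass ν α) (g g' : K → F) (φ : (Fin 4 → K → F) → ℝ) :
    ∑ m, tlaw (δ.wl ν h0 α hα) g g' m * φ m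
      = ∑ z, (condP ν h0 α hα).w z * φ (tv g g' (δ.frm z.1) (δ.frm z.2)) := by
  rw [← δ.sum_wl ν h0 α hα (fun B B' => φ (tv g g' B B'))]
  unfold tlaw
  simp only [Finset.sum_mul]
  rw [Finset.sum_comm]
  refine Finset.sum_congr rfl fun B _ => ?_
  rw [Finset.sum_comm]
  refine Finset.sum_congr rfl fun B' _ => ?_
  rw [Finset.sum_eq_single (tv g g' B B')]
  · rw [if_pos rfl]
  · intro m _ hm
    rw [if_neg (Ne.symm hm), zero_mul]
  · intro h
    exact absurd (Finset.mem_univ _) h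

end Design

end Vale.Agent.P060.HW
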