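import Vale.Agent.P060.HW.Skel1

/-!
# From the structural statements to the overlap estimate, part 2: uncut and conflict masses
-/

open scoped Classical

noncomputable section

set_option linter.unusedSectionVars false

namespace Vale.Agent.P060.HW

namespace Design

variable {K T : Type*} [Fintype K] [Fintype T] (δ : Design K T)

/-- Product masses in terms of the conditional laws. -/
lemma mass4_cond (ν : Vtx K T → Vtx K T → ℝ) (h0 : ∀ x y, 0 ≤ ν x y) (α β : Lb T × Lb T)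
    (hα : 0 < mass ν α) (hβ : 0 < mass ν β)
    (Q : Vtx K T → Vtx K T → Vtx K T → Vtx K T → Prop) :
    mass4 ν (fun x x' y y' => Q x x' y y' ∧ InLb α β x x' y y')
      = mass ν α * mass ν β * ∑ z : Vtx K T × Vtx K T, ∑ z' : Vtx K T × Vtx K T,
        (condP ν h0 α hα).w z * ((condP ν h0 β hβ).w z' *
        (if Q z.1 z.2 z'.1 z'.2 then 1 else 0)) := by
  unfold mass4
  rw [Finset.mul_sum]
  refine Eq.trans ?_ (Fintype.sum_prod_type (fun z : Vtx K T × Vtx K T => mass ν α * mass ν β *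
    ∑ z' : Vtx K T × Vtx K T, (condP ν h0 α hα).w z * ((condP ν h0 β hβ).w z' *
        (if Q z.1 z.2 z'.1 z'.2 then 1 else 0)))).symm
  refine Finset.sum_congr rfl fun x _ => Finset.sum_congr rfl fun x' _ => ?_
  rw [Finset.mul_sum]
  refine Eq.trans ?_ (Fintype.sum_prod_type (fun z' : Vtx K T × Vtx K T => mass ν α * mass ν β *
    ((condP ν h0 α hα).w (x, x') * ((condP ν h0 β hβ).w z' *
        (if Q x x' z'.1 z'.2 then 1 else 0))))).symm
  refine Finset.sum_congr rfl fun y _ => Finset.sum_congr rfl fun y' _ => ?_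
  rw [condP_w, condP_w]
  simp only
  by_cases h1 : lb x = α.1 ∧ lb x' = α.2
  · by_cases h2 : lb y = β.1 ∧ lb y' = β.2
    · by_cases h3 : Q x x' y y'
      · rw [if_pos ⟨h3, h1, h2⟩, if_pos h1, if_pos h2, if_pos h3]
        field_simp
      · rw [if_neg (fun h => h3 h.1), if_neg h3]
        ring
    · rw [if_neg (fun h => h2 h.2.2), if_neg h2]
      ring
  · rw [if_neg (fun h => h1 h.2.1), if_neg h1]
    ring

/-- Two weights sums can be restricted to the labels. -/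
lemma sum_cond_congr (ν : Vtx K T → Vtx K T → ℝ) (h0 : ∀ x y, 0 ≤ ν x y) (α : Lb T × Lb T)
    (hα : 0 < mass ν α) {φ φ' : Vtx K T × Vtx K T → ℝ}
    (h : ∀ z, lb z.1 = α.1 → lb z.2 = α.2 → φ z = φ' z) :
    ∑ z, (condP ν h0 α hα).w z * φ z = ∑ z, (condP ν h0 α hα).w z * φ' z := by
  refine Finset.sum_congr rfl fun z _ => ?_
  rw [condP_w]
  split_ifs with hz
  · rw [h z hz.1 hz.2]
  · rw [zero_mul, zero_mul]

lemma confT_iff {x x' y y' : Vtx K T} :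
    ConfT δ (tv (δ.g y.1) (δ.g y'.1) (δ.frm x) (δ.frm x'))
      (tv (δ.g x.1) (δ.g x'.1) (δ.frm y) (δ.frm y')) ↔ δ.Conf x x' y y' := by
  unfold ConfT Conf Adj dif tv
  simp only [Matrix.cons_val_zero, Matrix.cons_val_one, Matrix.cons_val]

lemma uncutT_iff {x x' : Vtx K T} (g g' : K → F) :
    UncutT (δ.g x.1) (δ.g x'.1) (tv g g' (δ.frm x) (δ.frm x')) ↔
      (dotProduct (δ.dif x x') g ∉ Y ∧ dotProduct (δ.dif x x') g' ∉ Y) := by
  have key : ∀ u : K → F, dotProduct (δ.g x'.1) ((δ.frm x).mulVec u)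
      - dotProduct (δ.g x.1) ((δ.frm x').mulVec u) = dotProduct (δ.dif x x') u := by
    intro u
    unfold dif
    rw [sub_dotProduct, symm_dot (δ.frm_symm x), symm_dot (δ.frm_symm x'), dotProduct_comm u,
      dotProduct_comm u]
  unfold UncutT tv
  simp only [Matrix.cons_val_zero, Matrix.cons_val_one, Matrix.cons_val]
  rw [key, key]

/-- The conditional uncut probability. -/
def unc (ν : Vtx K T → Vtx K T → ℝ) (h0 : ∀ x y, 0 ≤ ν x y) (α : Lb T × Lb T)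
    (hα : 0 < mass ν α) (b b' : T) : ℝ :=
  ∑ m, (if UncutT (δ.g α.1.1) (δ.g α.2.1) m then tlaw (δ.wl ν h0 α hα) (δ.g b) (δ.g b') m else 0)

lemma unc_eq (ν : Vtx K T → Vtx K T → ℝ) (h0 : ∀ x y, 0 ≤ ν x y) (α : Lb T × Lb T)
    (hα : 0 < mass ν α) (b b' : T) : δ.unc ν h0 α hα b b' = ∑ z, (condP ν h0 α hα).w z *
      (if dotProduct (δ.dif z.1 z.2) (δ.g b) ∉ Y ∧ dotProduct (δ.dif z.1 z.2) (δ.g b') ∉ Y
        then 1 else 0) := by
  have h := δ.sum_tlaw_wl ν h0 α hα (δ.g b) (δ.g b')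
    (fun m => if UncutT (δ.g α.1.1) (δ.g α.2.1) m then 1 else 0)
  unfold unc
  have e1 : ∀ m, (if UncutT (δ.g α.1.1) (δ.g α.2.1) m then
      tlaw (δ.wl ν h0 α hα) (δ.g b) (δ.g b') m else 0) = tlaw (δ.wl ν h0 α hα) (δ.g b) (δ.g b') m
        * (if UncutT (δ.g α.1.1) (δ.g α.2.1) m then 1 else 0) := by
    intro m
    split_ifs <;> simp
  rw [Finset.sum_congr rfl fun m _ => e1 m, h]
  refine sum_cond_congr ν h0 α hα ?_
  intro z hz1 hz2
  have h1 : z.1.1 = α.1.1 := congrArg Prod.fst hz1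
  have h2 : z.2.1 = α.2.1 := congrArg Prod.fst hz2
  rw [← h1, ← h2]
  exact if_congr (δ.uncutT_iff (x := z.1) (x' := z.2) _ _) rfl rfl

lemma unc_nonneg (ν : Vtx K T → Vtx K T → ℝ) (h0 : ∀ x y, 0 ≤ ν x y) (α : Lb T × Lb T)
    (hα : 0 < mass ν α) (b b' : T) : 0 ≤ δ.unc ν h0 α hα b b' := by
  rw [unc_eq]
  refine Finset.sum_nonneg fun z _ => mul_nonneg (FinProb.nonneg _ _) ?_
  split_ifs <;> norm_num

lemma unc_le_one (ν : Vtx K T → Vtx K T → ℝ) (h0 : ∀ x y, 0 ≤ ν x y) (α : Lb T × Lb T)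
    (hα : 0 < mass ν α) (b b' : T) : δ.unc ν h0 α hα b b' ≤ 1 := by
  rw [unc_eq]
  refine le_trans (Finset.sum_le_sum (g := fun z => (condP ν h0 α hα).w z) ?_)
    (le_of_eq (condP ν h0 α hα).sum_one)
  intro z _
  have := (condP ν h0 α hα).nonneg z
  split_ifs
  · exact le_of_eq (mul_one _)
  · rw [mul_zero]
    exact this

/-- The uncut mass of a pair of label pairs is a product. -/
lemma mass4_uncut (ν : Vtx K T → Vtx K T → ℝ) (h0 : ∀ x y, 0 ≤ ν x y) (α β : Lb T × Lb T)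
    (hα : 0 < mass ν α) (hβ : 0 < mass ν β) :
    mass4 ν (fun x x' y y' => δ.Uncut x x' y y' ∧ InLb α β x x' y y')
      = mass ν α * mass ν β * (δ.unc ν h0 α hα β.1.1 β.2.1 * δ.unc ν h0 β hβ α.1.1 α.2.1) := by
  rw [mass4_cond ν h0 α β hα hβ, unc_eq, unc_eq, Finset.sum_mul_sum]
  congr 1
  have e1 : ∀ z : Vtx K T × Vtx K T, ∑ z' : Vtx K T × Vtx K T,
      (condP ν h0 α hα).w z * ((condP ν h0 β hβ).w z' *
        (if δ.Uncut z.1 z.2 z'.1 z'.2 then 1 else 0))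
      = (condP ν h0 α hα).w z * ∑ z' : Vtx K T × Vtx K T, (condP ν h0 β hβ).w z' *
        (if δ.Uncut z.1 z.2 z'.1 z'.2 then 1 else 0) := fun z => by rw [Finset.mul_sum]
  have e2 : ∀ z : Vtx K T × Vtx K T, ∑ z' : Vtx K T × Vtx K T,
      ((condP ν h0 α hα).w z *
        (if dotProduct (δ.dif z.1 z.2) (δ.g β.1.1) ∉ Y ∧ dotProduct (δ.dif z.1 z.2) (δ.g β.2.1) ∉ Y
          then 1 else 0)) * ((condP ν h0 β hβ).w z' *
        (if dotProduct (δ.dif z'.1 z'.2) (δ.g α.1.1) ∉ Y ∧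
          dotProduct (δ.dif z'.1 z'.2) (δ.g α.2.1) ∉ Y then 1 else 0))
      = (condP ν h0 α hα).w z * ∑ z' : Vtx K T × Vtx K T, (condP ν h0 β hβ).w z' *
        ((if dotProduct (δ.dif z.1 z.2) (δ.g β.1.1) ∉ Y ∧ dotProduct (δ.dif z.1 z.2) (δ.g β.2.1) ∉ Y
          then 1 else 0) *
        (if dotProduct (δ.dif z'.1 z'.2) (δ.g α.1.1) ∉ Y ∧
          dotProduct (δ.dif z'.1 z'.2) (δ.g α.2.1) ∉ Y then 1 else 0)) := by
    intro z
    rw [Finset.mul_sum]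
    refine Finset.sum_congr rfl fun z' _ => ?_
    ring
  rw [Finset.sum_congr rfl fun z _ => e1 z, Finset.sum_congr rfl fun z _ => e2 z]
  refine sum_cond_congr ν h0 α hα ?_
  intro z hz1 hz2
  refine sum_cond_congr ν h0 β hβ ?_
  intro z' hz1' hz2'
  have h1 : z.1.1 = α.1.1 := congrArg Prod.fst hz1
  have h2 : z.2.1 = α.2.1 := congrArg Prod.fst hz2
  have h3 : z'.1.1 = β.1.1 := congrArg Prod.fst hz1'
  have h4 : z'.2.1 = β.2.1 := congrArg Prod.fst hz2'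
  unfold Uncut
  rw [h1, h2, h3, h4]
  by_cases c1 : dotProduct (δ.dif z.1 z.2) (δ.g β.1.1) ∉ Y <;>
  by_cases c2 : dotProduct (δ.dif z.1 z.2) (δ.g β.2.1) ∉ Y <;>
  by_cases c3 : dotProduct (δ.dif z'.1 z'.2) (δ.g α.1.1) ∉ Y <;>
  by_cases c4 : dotProduct (δ.dif z'.1 z'.2) (δ.g α.2.1) ∉ Y <;>
  simp [c1, c2, c3, c4]

/-- The conflict mass of a pair of label pairs. -/
lemma mass4_conf (ν : Vtx K T → Vtx K T → ℝ) (h0 : ∀ x y, 0 ≤ ν x y) (α β : Lb T × Lb T)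
    (hα : 0 < mass ν α) (hβ : 0 < mass ν β) :
    mass4 ν (fun x x' y y' => δ.Conf x x' y y' ∧ InLb α β x x' y y')
      = mass ν α * mass ν β * ∑ m, ∑ n, (if ConfT δ m n then
        tlaw (δ.wl ν h0 α hα) (δ.g β.1.1) (δ.g β.2.1) m
          * tlaw (δ.wl ν h0 β hβ) (δ.g α.1.1) (δ.g α.2.1) n else 0) := by
  rw [mass4_cond ν h0 α β hα hβ]
  congr 1
  have e1 : ∀ m, ∑ n, (if ConfT δ m n then
        tlaw (δ.wl ν h0 α hα) (δ.g β.1.1) (δ.g β.2.1) m
          * tlaw (δ.wl ν h0 β hβ) (δ.g α.1.1) (δ.g α.2.1) n else 0)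
      = tlaw (δ.wl ν h0 α hα) (δ.g β.1.1) (δ.g β.2.1) m *
        ∑ z', (condP ν h0 β hβ).w z' * (if ConfT δ m
          (tv (δ.g α.1.1) (δ.g α.2.1) (δ.frm z'.1) (δ.frm z'.2)) then 1 else 0) := by
    intro m
    rw [← δ.sum_tlaw_wl ν h0 β hβ (δ.g α.1.1) (δ.g α.2.1)
      (fun n => if ConfT δ m n then 1 else 0), Finset.mul_sum]
    refine Finset.sum_congr rfl fun n _ => ?_
    split_ifs <;> simp
  rw [Finset.sum_congr rfl fun m _ => e1 m, δ.sum_tlaw_wl ν h0 α hα (δ.g β.1.1) (δ.g β.2.1)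
    (fun m => ∑ z', (condP ν h0 β hβ).w z' * (if ConfT δ m
          (tv (δ.g α.1.1) (δ.g α.2.1) (δ.frm z'.1) (δ.frm z'.2)) then 1 else 0))]
  have e2 : ∀ z : Vtx K T × Vtx K T, ∑ z' : Vtx K T × Vtx K T,
      (condP ν h0 α hα).w z * ((condP ν h0 β hβ).w z' *
        (if δ.Conf z.1 z.2 z'.1 z'.2 then 1 else 0))
      = (condP ν h0 α hα).w z * ∑ z' : Vtx K T × Vtx K T, (condP ν h0 β hβ).w z' *
        (if δ.Conf z.1 z.2 z'.1 z'.2 then 1 else 0) := fun z => by rw [Finset.mul_sum]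
  rw [Finset.sum_congr rfl fun z _ => e2 z]
  refine sum_cond_congr ν h0 α hα ?_
  intro z hz1 hz2
  refine sum_cond_congr ν h0 β hβ ?_
  intro z' hz1' hz2'
  have h1 : z.1.1 = α.1.1 := congrArg Prod.fst hz1
  have h2 : z.2.1 = α.2.1 := congrArg Prod.fst hz2
  have h3 : z'.1.1 = β.1.1 := congrArg Prod.fst hz1'
  have h4 : z'.2.1 = β.2.1 := congrArg Prod.fst hz2'
  rw [← h1, ← h2, ← h3, ← h4]
  exact if_congr (δ.confT_iff (x := z.1) (x' := z.2) (y := z'.1) (y' := z'.2)).symm rfl rfl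

/-- **From the overlap lemma for laws of test values to the overlap estimate**, for one pair of
label pairs. -/
theorem est_of_overlap (ν : Vtx K T → Vtx K T → ℝ) (h0 : ∀ x y, 0 ≤ ν x y) (α β : Lb T × Lb T)
    (hα : 0 < mass ν α) (hβ : 0 < mass ν β) {κ : ℝ} (hκ : 0 ≤ κ)
    (hov : 1 / 400 ≤ δ.unc ν h0 α hα β.1.1 β.2.1 → 1 / 400 ≤ δ.unc ν h0 β hβ α.1.1 α.2.1 →
      κ ≤ ∑ m, ∑ n, (if ConfT δ m n then tlaw (δ.wl ν h0 α hα) (δ.g β.1.1) (δ.g β.2.1) m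
          * tlaw (δ.wl ν h0 β hβ) (δ.g α.1.1) (δ.g α.2.1) n else 0)) :
    κ * (mass4 ν (fun x x' y y' => δ.Uncut x x' y y' ∧ InLb α β x x' y y')
        - 1 / 400 * (mass ν α * mass ν β))
        ≤ mass4 ν (fun x x' y y' => δ.Conf x x' y y' ∧ InLb α β x x' y y') := by
  rw [δ.mass4_uncut ν h0 α β hα hβ, δ.mass4_conf ν h0 α β hα hβ]
  set A := δ.unc ν h0 α hα β.1.1 β.2.1 with hA
  set B := δ.unc ν h0 β hβ α.1.1 α.2.1 with hB
  set S := ∑ m, ∑ n, (if ConfT δ m n then tlaw (δ.wl ν h0 α hα) (δ.g β.1.1) (δ.g β.2.1) m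
          * tlaw (δ.wl ν h0 β hβ) (δ.g α.1.1) (δ.g α.2.1) n else 0) with hS
  have hA0 : 0 ≤ A := δ.unc_nonneg ν h0 α hα _ _
  have hB0 : 0 ≤ B := δ.unc_nonneg ν h0 β hβ _ _
  have hA1 : A ≤ 1 := δ.unc_le_one ν h0 α hα _ _
  have hB1 : B ≤ 1 := δ.unc_le_one ν h0 β hβ _ _
  have htl : ∀ (α : Lb T × Lb T) (hα : 0 < mass ν α) (g g' : K → F) m,
      0 ≤ tlaw (δ.wl ν h0 α hα) g g' m := by
    intro α hα g g' m
    unfold tlaw
    refine Finset.sum_nonneg fun B _ => Finset.sum_nonneg fun B' _ => ?_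
    split_ifs
    · exact FinProb.p_nonneg _ _ _
    · exact le_rfl
  have hS0 : 0 ≤ S := by
    refine Finset.sum_nonneg fun m _ => Finset.sum_nonneg fun n _ => ?_
    split_ifs
    · exact mul_nonneg (htl _ _ _ _ _) (htl _ _ _ _ _)
    · exact le_rfl
  have hm : 0 ≤ mass ν α * mass ν β := (mul_pos hα hβ).le
  have e : κ * (mass ν α * mass ν β * (A * B) - 1 / 400 * (mass ν α * mass ν β))
      = mass ν α * mass ν β * (κ * (A * B - 1 / 400)) := by ring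
  rw [e]
  refine mul_le_mul_of_nonneg_left ?_ hm
  by_cases hAB : A * B ≤ 1 / 400
  · have : κ * (A * B - 1 / 400) ≤ 0 := mul_nonpos_of_nonneg_of_nonpos hκ (by linarith)
    linarith
  · push Not at hAB
    have h1 : A * B ≤ A := mul_le_of_le_one_right hA0 hB1
    have h2 : A * B ≤ B := mul_le_of_le_one_left hB0 hA1
    have h3 := hov (by linarith) (by linarith)
    have h4 : κ * (A * B - 1 / 400) ≤ κ * 1 := by
      apply mul_le_mul_of_nonneg_left _ hκ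
      linarith
    linarith

end Design

end Vale.Agent.P060.HW
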