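import Vale.Agent.P060.HW.TVdefs

/-!
# From TV and LS to closeness for most pairs of types

Greedy selection of line-disjoint pairs of types.
-/

open scoped Classical

noncomputable section

set_option linter.unusedSectionVars false

namespace Vale.Agent.P060.HW

open Module Finset

variable {N d : ℕ} [NeZero N]

/-- The lines of the two types of a pair. -/
def linsp (b : Fin 2 → Ty N d) : Finset (Lin N) := lins (b 0) ∪ lins (b 1)

/-- A law on pairs of types with marginal density at most `4`. -/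
structure QOK (Q : (Fin 2 → Ty N d) → ℝ) : Prop where
  nonneg : ∀ b, 0 ≤ Q b
  sum_le : ∑ b, Q b ≤ 1
  marg : ∀ j c, ∑ b, (if b j = c then Q b else 0) ≤ 4 / ((N : ℝ) * d)

/-- A line-disjoint family of pairs of types, line-disjoint from the pair `a`. -/
def LineDisj (a : Fin 2 → Ty N d) (S : Finset (Fin 2 → Ty N d)) : Prop :=
  (∀ b ∈ S, Disjoint (linsp b) (linsp a)) ∧
    ∀ b ∈ S, ∀ b' ∈ S, b ≠ b' → Disjoint (linsp b) (linsp b')

lemma card_lins_le (c : Ty N d) : (lins c).card ≤ 3 := by
  unfold lins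
  refine Finset.card_image_le.trans ?_
  simp

lemma card_linsp_le (b : Fin 2 → Ty N d) : (linsp b).card ≤ 6 := by
  unfold linsp
  refine (Finset.card_union_le _ _).trans ?_
  have h1 := card_lins_le (b 0)
  have h2 := card_lins_le (b 1)
  omega

/-- A line lies in at most `d` types. -/
lemma card_types_line (u : Lin N) :
    ((univ : Finset (Ty N d)).filter fun c => u ∈ lins c).card ≤ d := by
  have hinj : Set.InjOn (fun c : Ty N d => c.2)
      (((univ : Finset (Ty N d)).filter fun c => u ∈ lins c : Finset (Ty N d)) : Set (Ty N d)) := by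
    intro c hc c' hc' h
    have hc1 := (Finset.mem_filter.1 (Finset.mem_coe.1 hc)).2
    have hc2 := (Finset.mem_filter.1 (Finset.mem_coe.1 hc')).2
    unfold lins at hc1 hc2
    obtain ⟨s, -, hs⟩ := Finset.mem_image.1 hc1
    obtain ⟨s', -, hs'⟩ := Finset.mem_image.1 hc2
    unfold lin at hs hs'
    have e1 : s = s' := by
      have := congrArg Prod.fst (hs.trans hs'.symm)
      simpa using this
    subst e1
    have e2 : Combi.ln c s = Combi.ln c' s := by
      have := congrArg Prod.snd (hs.trans hs'.symm)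
      simpa using this
    exact Combi.eq_of_share_of_dir e2 h
  rw [← Finset.card_image_of_injOn hinj]
  refine (Finset.card_le_univ _).trans ?_
  simp

/-- The mass of the pairs which contain a given line. -/
lemma mass_line {Q : (Fin 2 → Ty N d) → ℝ} (hQ : QOK Q) (u : Lin N) :
    ∑ b, (if u ∈ linsp b then Q b else 0) ≤ 8 / (N : ℝ) := by
  have hN : (0 : ℝ) < N := by exact_mod_cast Nat.pos_of_ne_zero (NeZero.ne N)
  rcases Nat.eq_zero_or_pos d with hd | hd
  · have : IsEmpty (Fin 2 → Ty N d) := by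
      subst hd
      exact ⟨fun b => (b 0).2.elim0⟩
    rw [Finset.univ_eq_empty, Finset.sum_empty]
    positivity
  have hd' : (0 : ℝ) < d := by exact_mod_cast hd
  have h1 : ∀ b : Fin 2 → Ty N d, (if u ∈ linsp b then Q b else 0)
      ≤ ∑ j : Fin 2, ∑ c ∈ (univ : Finset (Ty N d)).filter (fun c => u ∈ lins c),
        (if b j = c then Q b else 0) := by
    intro b
    have hnn : ∀ j : Fin 2, 0 ≤ ∑ c ∈ (univ : Finset (Ty N d)).filter (fun c => u ∈ lins c),
        (if b j = c then Q b else 0) := fun j => Finset.sum_nonneg fun c _ => by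
      split_ifs; exacts [hQ.nonneg b, le_rfl]
    split_ifs with hu
    · unfold linsp at hu
      rw [Fin.sum_univ_two]
      rcases Finset.mem_union.1 hu with h | h
      · have : Q b ≤ ∑ c ∈ (univ : Finset (Ty N d)).filter (fun c => u ∈ lins c),
            (if b 0 = c then Q b else 0) := by
          have hm : b 0 ∈ (univ : Finset (Ty N d)).filter (fun c => u ∈ lins c) :=
            Finset.mem_filter.2 ⟨mem_univ _, h⟩
          rw [Finset.sum_ite_eq]
          exact le_of_eq (if_pos hm).symm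
        linarith [hnn 1]
      · have : Q b ≤ ∑ c ∈ (univ : Finset (Ty N d)).filter (fun c => u ∈ lins c),
            (if b 1 = c then Q b else 0) := by
          have hm : b 1 ∈ (univ : Finset (Ty N d)).filter (fun c => u ∈ lins c) :=
            Finset.mem_filter.2 ⟨mem_univ _, h⟩
          rw [Finset.sum_ite_eq]
          exact le_of_eq (if_pos hm).symm
        linarith [hnn 0]
    · exact Finset.sum_nonneg fun j _ => hnn j
  refine (Finset.sum_le_sum fun b _ => h1 b).trans ?_
  rw [Finset.sum_comm]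
  have h2 : ∀ j : Fin 2, ∑ b : Fin 2 → Ty N d,
      ∑ c ∈ (univ : Finset (Ty N d)).filter (fun c => u ∈ lins c), (if b j = c then Q b else 0)
      ≤ 4 / (N : ℝ) := by
    intro j
    rw [Finset.sum_comm]
    refine (Finset.sum_le_sum fun c _ => hQ.marg j c).trans ?_
    rw [Finset.sum_const, nsmul_eq_mul]
    have h3 : (((univ : Finset (Ty N d)).filter fun c => u ∈ lins c).card : ℝ) ≤ d := by
      exact_mod_cast card_types_line u
    calc (((univ : Finset (Ty N d)).filter fun c => u ∈ lins c).card : ℝ) * (4 / ((N : ℝ) * d))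
        ≤ d * (4 / ((N : ℝ) * d)) := mul_le_mul_of_nonneg_right h3 (by positivity)
      _ = 4 / (N : ℝ) := by field_simp
  refine (Finset.sum_le_sum fun j _ => h2 j).trans (le_of_eq ?_)
  rw [Fin.sum_univ_two]
  ring

/-- **Greedy selection.** -/
theorem greedy_pairs {Q : (Fin 2 → Ty N d) → ℝ} (hQ : QOK Q) (a : Fin 2 → Ty N d)
    (B : (Fin 2 → Ty N d) → Prop) :
    ∃ S : Finset (Fin 2 → Ty N d), (∀ b ∈ S, B b) ∧ LineDisj a S ∧
      ∑ b, (if B b then Q b else 0) ≤ 48 / (N : ℝ) * (S.card + 1) := by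
  have hN : (0 : ℝ) < N := by exact_mod_cast Nat.pos_of_ne_zero (NeZero.ne N)
  set Fam : Finset (Finset (Fin 2 → Ty N d)) :=
    univ.filter (fun S => (∀ b ∈ S, B b) ∧ LineDisj a S) with hFam
  have hne : Fam.Nonempty := ⟨∅, by
    rw [hFam, Finset.mem_filter]
    exact ⟨mem_univ _, fun b hb => absurd hb (Finset.notMem_empty _),
      fun b hb => absurd hb (Finset.notMem_empty _), fun b hb => absurd hb (Finset.notMem_empty _)⟩⟩
  obtain ⟨S, hS, hmax⟩ := Finset.exists_max_image Fam Finset.card hne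
  obtain ⟨-, hSB, hSd⟩ := Finset.mem_filter.1 hS
  refine ⟨S, hSB, hSd, ?_⟩
  set Ls : Finset (Lin N) := linsp a ∪ S.biUnion linsp with hLs
  have hLc : (Ls.card : ℝ) ≤ 6 * (S.card + 1) := by
    have h1 : Ls.card ≤ 6 + S.card * 6 := by
      refine (Finset.card_union_le _ _).trans (add_le_add (card_linsp_le a) ?_)
      exact Finset.card_biUnion_le_card_mul _ _ _ fun b _ => card_linsp_le b
    have h2 : (Ls.card : ℝ) ≤ ((6 + S.card * 6 : ℕ) : ℝ) := by exact_mod_cast h1
    push_cast at h2
    linarith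
  have hhit : ∀ b, B b → ∃ u ∈ Ls, u ∈ linsp b := by
    intro b hb
    by_contra hcon
    push Not at hcon
    have hdis : Disjoint (linsp b) Ls := by
      rw [Finset.disjoint_left]
      intro u hu hu'
      exact hcon u hu' hu
    have hbS : b ∉ S := by
      intro hbS
      have hu : lin (b 0) 0 ∈ linsp b :=
        Finset.mem_union_left _ (Finset.mem_image_of_mem _ (mem_univ _))
      exact hcon _ (Finset.mem_union_right _ (Finset.mem_biUnion.2 ⟨b, hbS, hu⟩)) hu
    have hmem : insert b S ∈ Fam := by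
      rw [hFam, Finset.mem_filter]
      refine ⟨mem_univ _, ?_, ?_, ?_⟩
      · intro b' hb'
        rcases Finset.mem_insert.1 hb' with rfl | h
        exacts [hb, hSB b' h]
      · intro b' hb'
        rcases Finset.mem_insert.1 hb' with rfl | h
        · exact hdis.mono_right Finset.subset_union_left
        · exact hSd.1 b' h
      · have hone : ∀ b' ∈ S, Disjoint (linsp b) (linsp b') := by
          intro b' hb'
          refine hdis.mono_right ?_
          exact (Finset.subset_biUnion_of_mem linsp hb').trans Finset.subset_union_right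
        intro b1 h1 b2 h2 h12
        rcases Finset.mem_insert.1 h1 with rfl | h1' <;> rcases Finset.mem_insert.1 h2 with rfl | h2'
        · exact absurd rfl h12
        · exact hone b2 h2'
        · exact (hone b1 h1').symm
        · exact hSd.2 b1 h1' b2 h2' h12
    have := hmax _ hmem
    rw [Finset.card_insert_of_notMem hbS] at this
    omega
  have h1 : ∀ b, (if B b then Q b else 0) ≤ ∑ u ∈ Ls, (if u ∈ linsp b then Q b else 0) := by
    intro b
    have hnn : ∀ u ∈ Ls, 0 ≤ (if u ∈ linsp b then Q b else 0) := fun u _ => by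
      split_ifs; exacts [hQ.nonneg b, le_rfl]
    split_ifs with hb
    · obtain ⟨u, hu, hub⟩ := hhit b hb
      have := Finset.single_le_sum hnn hu
      rwa [if_pos hub] at this
    · exact Finset.sum_nonneg hnn
  calc ∑ b, (if B b then Q b else 0) ≤ ∑ b, ∑ u ∈ Ls, (if u ∈ linsp b then Q b else 0) :=
        Finset.sum_le_sum fun b _ => h1 b
    _ = ∑ u ∈ Ls, ∑ b, (if u ∈ linsp b then Q b else 0) := Finset.sum_comm
    _ ≤ ∑ _u ∈ Ls, 8 / (N : ℝ) := Finset.sum_le_sum fun u _ => mass_line hQ u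
    _ = Ls.card * (8 / (N : ℝ)) := by rw [Finset.sum_const, nsmul_eq_mul]
    _ ≤ 6 * (S.card + 1) * (8 / (N : ℝ)) := mul_le_mul_of_nonneg_right hLc (by positivity)
    _ = 48 / (N : ℝ) * (S.card + 1) := by ring

/-- TV and LS give closeness for most pairs of types. -/
theorem tvls {Good Lrg : (Fin 2 → Ty N d) → Prop} (a : Fin 2 → Ty N d) {ε ε' : ℝ}
    (hTV : ∀ Q : (Fin 2 → Ty N d) → ℝ, QOK Q →
      ∑ b, (if b 0 ≠ b 1 ∧ ¬ Lrg b ∧ ¬ Good b then Q b else 0) ≤ ε)
    (hLS : ∀ S : Finset (Fin 2 → Ty N d), LineDisj a S → (∀ b ∈ S, b 0 ≠ b 1 ∧ Lrg b) →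
      (S.card : ℝ) ≤ ε' * N)
    (Q : (Fin 2 → Ty N d) → ℝ) (hQ : QOK Q) :
    ∑ b, (if b 0 ≠ b 1 ∧ ¬ Good b then Q b else 0) ≤ ε + 48 * (ε' + 1 / N) := by
  have hN : (0 : ℝ) < N := by exact_mod_cast Nat.pos_of_ne_zero (NeZero.ne N)
  obtain ⟨S, hS1, hS2, hS3⟩ := greedy_pairs hQ a (fun b => b 0 ≠ b 1 ∧ Lrg b)
  have h1 := hLS S hS2 hS1
  have h2 : 48 / (N : ℝ) * (S.card + 1) ≤ 48 * (ε' + 1 / N) := by
    have : 48 / (N : ℝ) * (S.card + 1) ≤ 48 / (N : ℝ) * (ε' * N + 1) :=
      mul_le_mul_of_nonneg_left (by linarith) (by positivity)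
    refine this.trans (le_of_eq ?_)
    field_simp
  have h3 : ∀ b, (if b 0 ≠ b 1 ∧ ¬ Good b then Q b else 0)
      ≤ (if b 0 ≠ b 1 ∧ ¬ Lrg b ∧ ¬ Good b then Q b else 0)
        + (if b 0 ≠ b 1 ∧ Lrg b then Q b else 0) := by
    intro b
    have := hQ.nonneg b
    by_cases h1 : b 0 ≠ b 1 <;> by_cases h2 : Lrg b <;> by_cases h3 : Good b <;>
      simp [h1, h2, h3, this]
  have h4 := Finset.sum_le_sum (s := Finset.univ) fun b _ => h3 b
  rw [Finset.sum_add_distrib] at h4
  have h5 := hTV Q hQ
  have h6 : ∑ b, (if b 0 ≠ b 1 ∧ Lrg b then Q b else 0) ≤ 48 / (N : ℝ) * (S.card + 1) := by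
    convert hS3
  linarith

end Vale.Agent.P060.HW
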