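import Vale.Agent.P060.HW.Skel2
import Vale.Agent.P060.HW.TVLS

/-!
# From the structural statements to the overlap estimate, part 3: the mass of the bad label pairs
-/

open scoped Classical

noncomputable section

set_option linter.unusedSectionVars false

namespace Vale.Agent.P060.HW

namespace Design

variable {K T : Type*} [Fintype K] [Fintype T] (δ : Design K T)

/-- Sums against the masses of the label pairs. -/
lemma sum_mass_mul (ν : Vtx K T → Vtx K T → ℝ) (φ : Lb T × Lb T → ℝ) :
    ∑ α, φ α * mass ν α = ∑ x, ∑ x', φ (lb x, lb x') * ν x x' := by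
  unfold mass
  have e1 : ∀ α : Lb T × Lb T, φ α * (∑ x, ∑ x', if lb x = α.1 ∧ lb x' = α.2 then ν x x' else 0)
      = ∑ x, ∑ x', (if lb x = α.1 ∧ lb x' = α.2 then φ α * ν x x' else 0) := by
    intro α
    rw [Finset.mul_sum]
    refine Finset.sum_congr rfl fun x _ => ?_
    rw [Finset.mul_sum]
    refine Finset.sum_congr rfl fun x' _ => ?_
    split_ifs <;> simp
  rw [Finset.sum_congr rfl fun α _ => e1 α, Finset.sum_comm]
  refine Finset.sum_congr rfl fun x _ => ?_
  rw [Finset.sum_comm]
  refine Finset.sum_congr rfl fun x' _ => ?_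
  rw [Finset.sum_eq_single (lb x, lb x')]
  · rw [if_pos ⟨rfl, rfl⟩]
  · intro α _ hα
    rw [if_neg]
    rintro ⟨h1, h2⟩
    exact hα (Prod.ext h1.symm h2.symm)
  · intro h; exact absurd (Finset.mem_univ _) h

/-- The number of vertices of a given type. -/
lemma card_type (c : T) : ((Finset.univ.filter (fun x : Vtx K T => x.1 = c)).card : ℝ)
    * Fintype.card T = Fintype.card (Vtx K T) := by
  have e1 : (Finset.univ.filter (fun x : Vtx K T => x.1 = c)).card
      = Fintype.card (Bool × Matrix K K F) := by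
    rw [← Finset.card_univ]
    refine Finset.card_bij' (fun x _ => x.2) (fun y _ => (c, y)) ?_ ?_ ?_ ?_
    · intro x _; exact Finset.mem_univ _
    · intro y _; exact Finset.mem_filter.2 ⟨Finset.mem_univ _, rfl⟩
    · intro x hx
      rw [← (Finset.mem_filter.1 hx).2]
    · intro y _; rfl
  rw [e1, show Fintype.card (Vtx K T) = Fintype.card T * Fintype.card (Bool × Matrix K K F) from
    Fintype.card_prod _ _]
  push_cast
  ring

/-- The marginal of the first type. -/
lemma marg_fst [Nonempty T] {ν : Vtx K T → Vtx K T → ℝ}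
    (hm : ∀ x, (∑ y, ν x y) * (Fintype.card (Vtx K T) : ℝ) ≤ 4) (c : T) :
    ∑ α : Lb T × Lb T, (if α.1.1 = c then mass ν α else 0) ≤ 4 / (Fintype.card T : ℝ) := by
  have hT : (0 : ℝ) < Fintype.card T := by exact_mod_cast Fintype.card_pos
  have hKne : Nonempty (Vtx K T) := ⟨(Classical.arbitrary T, true, 0)⟩
  have hV : (0 : ℝ) < Fintype.card (Vtx K T) := by exact_mod_cast Fintype.card_pos
  have e1 : ∀ α : Lb T × Lb T, (if α.1.1 = c then mass ν α else 0)
      = (if α.1.1 = c then (1 : ℝ) else 0) * mass ν α := by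
    intro α; split_ifs <;> simp
  rw [Finset.sum_congr rfl fun α _ => e1 α,
    sum_mass_mul ν (fun α => if α.1.1 = c then (1 : ℝ) else 0)]
  have e2 : ∀ x : Vtx K T, ∑ x', (if (lb x, lb x').1.1 = c then (1 : ℝ) else 0) * ν x x'
      ≤ if x.1 = c then 4 / (Fintype.card (Vtx K T) : ℝ) else 0 := by
    intro x
    change ∑ x', (if x.1 = c then (1 : ℝ) else 0) * ν x x' ≤ _
    split_ifs
    · simp only [one_mul]
      rw [le_div_iff₀ hV]
      exact hm x
    · simp
  refine (Finset.sum_le_sum fun x _ => e2 x).trans ?_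
  rw [← Finset.sum_filter, Finset.sum_const, nsmul_eq_mul, ← card_type (K := K) c]
  have h3 : (0 : ℝ) < ((Finset.univ.filter (fun x : Vtx K T => x.1 = c)).card : ℝ) := by
    have := card_type (K := K) c
    by_contra hcon
    have h4 : ((Finset.univ.filter (fun x : Vtx K T => x.1 = c)).card : ℝ) = 0 :=
      le_antisymm (not_lt.1 hcon) (Nat.cast_nonneg _)
    rw [h4, zero_mul] at this
    linarith
  refine le_of_eq ?_
  field_simp

/-- The marginal of the second type. -/
lemma marg_snd [Nonempty T] {ν : Vtx K T → Vtx K T → ℝ}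
    (hsy : ∀ x y, ν x y = ν y x)
    (hm : ∀ x, (∑ y, ν x y) * (Fintype.card (Vtx K T) : ℝ) ≤ 4) (c : T) :
    ∑ α : Lb T × Lb T, (if α.2.1 = c then mass ν α else 0) ≤ 4 / (Fintype.card T : ℝ) := by
  refine le_trans (le_of_eq ?_) (marg_fst hm c)
  refine Fintype.sum_equiv (Equiv.prodComm (Lb T) (Lb T)) _ _ fun α => ?_
  rw [Equiv.prodComm_apply, mass_swap ν hsy]
  rfl

/-- The mass of a sparse relation between the types of two label pairs. -/
lemma mass_rel [Nonempty T] {ν : Vtx K T → Vtx K T → ℝ} (h0 : ∀ x y, 0 ≤ ν x y)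
    (f g : Lb T × Lb T → T)
    (hf : ∀ c, ∑ α : Lb T × Lb T, (if f α = c then mass ν α else 0) ≤ 4 / (Fintype.card T : ℝ))
    (hg : ∀ c, ∑ α : Lb T × Lb T, (if g α = c then mass ν α else 0) ≤ 4 / (Fintype.card T : ℝ))
    (R : T → T → Prop) {ρ : ℝ}
    (hR : ((Finset.univ.filter fun q : T × T => R q.1 q.2).card : ℝ)
      ≤ ρ * (Fintype.card T : ℝ) ^ 2) :
    ∑ α, ∑ β, (if R (f α) (g β) then mass ν α * mass ν β else 0) ≤ 16 * ρ := by
  have hT : (0 : ℝ) < Fintype.card T := by exact_mod_cast Fintype.card_pos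
  have hm := mass_nonneg h0
  have e1 : ∀ α β, (if R (f α) (g β) then mass ν α * mass ν β else 0)
      = ∑ q ∈ Finset.univ.filter (fun q : T × T => R q.1 q.2),
        (if f α = q.1 then mass ν α else 0) * (if g β = q.2 then mass ν β else 0) := by
    intro α β
    have e2 : ∀ q ∈ Finset.univ.filter (fun q : T × T => R q.1 q.2),
        (if f α = q.1 then mass ν α else 0) * (if g β = q.2 then mass ν β else 0)
        = if (f α, g β) = q then mass ν α * mass ν β else 0 := by
      intro q _
      by_cases h1 : f α = q.1 <;> by_cases h2 : g β = q.2 <;> simp [h1, h2, Prod.ext_iff]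
    rw [Finset.sum_congr rfl e2, Finset.sum_ite_eq]
    have hiff : (f α, g β) ∈ Finset.univ.filter (fun q : T × T => R q.1 q.2) ↔ R (f α) (g β) := by
      rw [Finset.mem_filter]
      exact ⟨fun h => h.2, fun h => ⟨Finset.mem_univ _, h⟩⟩
    by_cases h : R (f α) (g β)
    · rw [if_pos h, if_pos (hiff.2 h)]
    · rw [if_neg h, if_neg (fun h' => h (hiff.1 h'))]
  simp only [e1]
  have e3 : ∑ α, ∑ β, ∑ q ∈ Finset.univ.filter (fun q : T × T => R q.1 q.2),
        (if f α = q.1 then mass ν α else 0) * (if g β = q.2 then mass ν β else 0)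
      = ∑ q ∈ Finset.univ.filter (fun q : T × T => R q.1 q.2),
        (∑ α, (if f α = q.1 then mass ν α else 0)) * ∑ β, (if g β = q.2 then mass ν β else 0) := by
    rw [Finset.sum_congr rfl fun α _ => Finset.sum_comm, Finset.sum_comm]
    refine Finset.sum_congr rfl fun q _ => ?_
    rw [Finset.sum_mul_sum]
  rw [e3]
  have hnn : ∀ (f : Lb T × Lb T → T) c, 0 ≤ ∑ α, (if f α = c then mass ν α else 0) :=
    fun f c => Finset.sum_nonneg fun α _ => by split_ifs; exacts [hm α, le_rfl]
  calc ∑ q ∈ Finset.univ.filter (fun q : T × T => R q.1 q.2),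
        (∑ α, (if f α = q.1 then mass ν α else 0)) * ∑ β, (if g β = q.2 then mass ν β else 0)
      ≤ ∑ _q ∈ Finset.univ.filter (fun q : T × T => R q.1 q.2),
        4 / (Fintype.card T : ℝ) * (4 / (Fintype.card T : ℝ)) :=
        Finset.sum_le_sum fun q _ => mul_le_mul (hf _) (hg _) (hnn _ _) (by positivity)
    _ = ((Finset.univ.filter fun q : T × T => R q.1 q.2).card : ℝ)
        * (4 / (Fintype.card T : ℝ) * (4 / (Fintype.card T : ℝ))) := by
        rw [Finset.sum_const, nsmul_eq_mul]
    _ ≤ ρ * (Fintype.card T : ℝ) ^ 2 * (4 / (Fintype.card T : ℝ) * (4 / (Fintype.card T : ℝ))) :=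
        mul_le_mul_of_nonneg_right hR (by positivity)
    _ = 16 * ρ := by field_simp; norm_num

/-- The coupling of types. -/
def rhoT (ν : Vtx K T → Vtx K T → ℝ) (t : T × T) : ℝ :=
  if t.1 ≠ t.2 then ∑ α : Lb T × Lb T, (if (α.1.1, α.2.1) = t then mass ν α else 0) else 0

lemma rhoT_tcoup [Nonempty T] {ν : Vtx K T → Vtx K T → ℝ} (h0 : ∀ x y, 0 ≤ ν x y)
    (hsy : ∀ x y, ν x y = ν y x)
    (hm : ∀ x, (∑ y, ν x y) * (Fintype.card (Vtx K T) : ℝ) ≤ 4) : TCoup 8 (rhoT ν) := by
  have hT : (0 : ℝ) < Fintype.card T := by exact_mod_cast Fintype.card_pos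
  have hmn := mass_nonneg h0
  have hin : ∀ t : T × T, 0 ≤ ∑ α : Lb T × Lb T, (if (α.1.1, α.2.1) = t then mass ν α else 0) :=
    fun t => Finset.sum_nonneg fun α _ => by split_ifs; exacts [hmn α, le_rfl]
  have hle : ∀ t : T × T, rhoT ν t
      ≤ ∑ α : Lb T × Lb T, (if (α.1.1, α.2.1) = t then mass ν α else 0) := by
    intro t
    unfold rhoT
    split_ifs
    · exact le_rfl
    · exact hin t
  refine ⟨?_, ?_, ?_, ?_⟩
  · intro t
    unfold rhoT
    split_ifs
    · exact hin t
    · exact le_rfl
  · intro b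
    unfold rhoT
    rw [if_neg]
    simp
  · intro b
    have h1 : ∑ b', rhoT ν (b, b') ≤ 4 / (Fintype.card T : ℝ) := by
      refine (Finset.sum_le_sum fun b' _ => hle (b, b')).trans ?_
      rw [Finset.sum_comm]
      refine le_trans (le_of_eq ?_) (marg_fst hm b)
      refine Finset.sum_congr rfl fun α _ => ?_
      by_cases h : α.1.1 = b
      · rw [if_pos h, Finset.sum_eq_single α.2.1]
        · rw [if_pos (by rw [h])]
        · intro b' _ hb'
          rw [if_neg]
          intro h'
          exact hb' (Prod.ext_iff.1 h').2.symm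
        · intro h'; exact absurd (Finset.mem_univ _) h'
      · rw [if_neg h]
        refine Finset.sum_eq_zero fun b' _ => ?_
        rw [if_neg]
        intro h'
        exact h (Prod.ext_iff.1 h').1
    have h2 := mul_le_mul_of_nonneg_right h1 hT.le
    rw [div_mul_cancel₀ _ hT.ne'] at h2
    linarith
  · intro b'
    have h1 : ∑ b, rhoT ν (b, b') ≤ 4 / (Fintype.card T : ℝ) := by
      refine (Finset.sum_le_sum fun b _ => hle (b, b')).trans ?_
      rw [Finset.sum_comm]
      refine le_trans (le_of_eq ?_) (marg_snd hsy hm b')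
      refine Finset.sum_congr rfl fun α _ => ?_
      by_cases h : α.2.1 = b'
      · rw [if_pos h, Finset.sum_eq_single α.1.1]
        · rw [if_pos (by rw [h])]
        · intro b _ hb
          rw [if_neg]
          intro h'
          exact hb (Prod.ext_iff.1 h').1.symm
        · intro h'; exact absurd (Finset.mem_univ _) h'
      · rw [if_neg h]
        refine Finset.sum_eq_zero fun b _ => ?_
        rw [if_neg]
        intro h'
        exact h (Prod.ext_iff.1 h').2
    have h2 := mul_le_mul_of_nonneg_right h1 hT.le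
    rw [div_mul_cancel₀ _ hT.ne'] at h2
    linarith

/-- Label sums in terms of the coupling of types. -/
lemma sum_cross_types (ν : Vtx K T → Vtx K T → ℝ) (Φ : T × T → Prop) :
    ∑ β : Lb T × Lb T, (if β.1.1 ≠ β.2.1 ∧ Φ (β.1.1, β.2.1) then mass ν β else 0)
      = ∑ t, (if Φ t then rhoT ν t else 0) := by
  have e1 : ∀ t : T × T, (if Φ t then rhoT ν t else 0)
      = ∑ α : Lb T × Lb T, (if (α.1.1, α.2.1) = t then
        (if α.1.1 ≠ α.2.1 ∧ Φ (α.1.1, α.2.1) then mass ν α else 0) else 0) := by
    intro t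
    unfold rhoT
    by_cases h1 : Φ t
    · by_cases h2 : t.1 ≠ t.2
      · rw [if_pos h1, if_pos h2]
        refine Finset.sum_congr rfl fun α _ => ?_
        by_cases h3 : (α.1.1, α.2.1) = t
        · rw [if_pos h3, if_pos h3, if_pos]
          rw [← h3] at h1 h2
          exact ⟨h2, h1⟩
        · rw [if_neg h3, if_neg h3]
      · rw [if_pos h1, if_neg h2]
        symm
        refine Finset.sum_eq_zero fun α _ => ?_
        by_cases h3 : (α.1.1, α.2.1) = t
        · rw [if_pos h3, if_neg]
          rintro ⟨h4, -⟩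
          rw [← h3] at h2
          exact h2 h4
        · rw [if_neg h3]
    · rw [if_neg h1]
      symm
      refine Finset.sum_eq_zero fun α _ => ?_
      by_cases h3 : (α.1.1, α.2.1) = t
      · rw [if_pos h3, if_neg]
        rintro ⟨-, h4⟩
        rw [h3] at h4
        exact h1 h4
      · rw [if_neg h3]
  rw [Finset.sum_congr rfl fun t _ => e1 t, Finset.sum_comm]
  refine Finset.sum_congr rfl fun α _ => ?_
  rw [Finset.sum_ite_eq, if_pos (Finset.mem_univ _)]

end Design

end Vale.Agent.P060.HW
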