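import Mathlib

/-!
P060-HW (TV part): the strong graph on the lines and the grouping of an adversarial pair of types.

`line : Ty → Fin 3 → L` : the three lines of a type; linear hypergraph (two types which have two
lines in common are equal).  `S` is the relation strongly correlated on the lines.
-/

set_option autoImplicit false

namespace Vale.Agent.P060.HW.Strong

open Finset

section Matching

/-- a partial matching between two 3-sets extends to a bijection. -/
lemma exists_perm_of_matching (R : Fin 3 → Fin 3 → Prop)
    (h1 : ∀ s t t', R s t → R s t' → t = t') (h2 : ∀ s s' t, R s t → R s' t → s = s') :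
    ∃ σ : Equiv.Perm (Fin 3), ∀ s t, R s t → t = σ s := by
  classical
  let dom : Finset (Fin 3) := univ.filter fun s => ∃ t, R s t
  let f : Fin 3 → Fin 3 := fun s => if h : ∃ t, R s t then h.choose else s
  have hf : ∀ s t, R s t → f s = t := by
    intro s t hst
    have hex : ∃ t, R s t := ⟨t, hst⟩
    have : f s = hex.choose := by simp only [f, dif_pos hex]
    rw [this]
    exact h1 s _ _ hex.choose_spec hst
  have hinj : Set.InjOn f (dom : Set (Fin 3)) := by
    intro s hs s' hs' h
    simp only [dom, coe_filter, mem_univ, true_and, Set.mem_ofPred_eq] at hs hs'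
    obtain ⟨t, ht⟩ := hs
    obtain ⟨t', ht'⟩ := hs'
    rw [hf s t ht, hf s' t' ht'] at h
    subst h
    exact h2 s s' t ht ht'
  obtain ⟨g, hg⟩ := Finset.exists_equiv_extend_of_card_eq (f := f) (s := dom)
    (t := (univ : Finset (Fin 3))) (by simp) (subset_univ _) hinj
  refine ⟨Equiv.ofBijective (fun s => (g s : Fin 3)) ?_, ?_⟩
  · rw [Finite.injective_iff_bijective.symm]
    intro s s' h
    exact g.injective (Subtype.ext h)
  · intro s t hst
    have hs : s ∈ dom := by
      simp only [dom, mem_filter, mem_univ, true_and]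
      exact ⟨t, hst⟩
    rw [Equiv.ofBijective_apply, hg s hs, hf s t hst]

end Matching

section Count

variable {L Ty : Type*} [Fintype L] [DecidableEq L] [Fintype Ty] [DecidableEq Ty]
variable (line : Ty → Fin 3 → L) (S : L → L → Prop) [DecidableRel S]

/-- the strong neighbours of a line -/
def nbr (u : L) : Finset L := univ.filter fun v => S u v

/-- number of (ordered) strong pairs -/
def strongPairs : Finset (L × L) := univ.filter fun p => S p.1 p.2

lemma sum_card_nbr : ∑ u, (nbr S u).card = (strongPairs S).card := by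
  unfold nbr strongPairs
  rw [Finset.card_filter, Fintype.sum_prod_type]
  refine Finset.sum_congr rfl fun u _ => ?_
  rw [Finset.card_filter]

/-- types with a line of large strong degree -/
def bad1 (D : ℕ) : Finset Ty := univ.filter fun c => ∃ s, D < (nbr S (line c s)).card

/-- types with two strongly correlated lines -/
def bad2 : Finset Ty := univ.filter fun c => ∃ s s', s ≠ s' ∧ S (line c s) (line c s')

/-- types with two lines strongly correlated to the same line of small degree -/
def bad3 (D : ℕ) : Finset Ty :=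
  univ.filter fun c => ∃ u, (nbr S u).card ≤ D ∧ ∃ s s', s ≠ s' ∧ S u (line c s) ∧ S u (line c s')

variable {line S}

/-- at most one type contains a given ordered pair of lines in different places -/
lemma card_types_le_one
    (hlin : ∀ c c' s s' t t', s ≠ s' → line c s = line c' t → line c s' = line c' t' → c = c')
    (v v' : L) :
    (univ.filter fun c => ∃ s s', s ≠ s' ∧ line c s = v ∧ line c s' = v').card ≤ 1 := by
  rw [Finset.card_le_one]
  intro c hc c' hc'
  simp only [mem_filter, mem_univ, true_and] at hc hc'
  obtain ⟨s, s', hs, h1, h2⟩ := hc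
  obtain ⟨t, t', _, h3, h4⟩ := hc'
  exact hlin c c' s s' t t' hs (h1.trans h3.symm) (h2.trans h4.symm)

lemma card_bad2_le
    (hlin : ∀ c c' s s' t t', s ≠ s' → line c s = line c' t → line c s' = line c' t' → c = c') :
    (bad2 line S).card ≤ (strongPairs S).card := by
  have hsub : bad2 line S ⊆ (strongPairs S).biUnion fun p =>
      univ.filter fun c => ∃ s s', s ≠ s' ∧ line c s = p.1 ∧ line c s' = p.2 := by
    intro c hc
    simp only [bad2, mem_filter, mem_univ, true_and] at hc
    obtain ⟨s, s', hs, h⟩ := hc
    rw [mem_biUnion]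
    refine ⟨(line c s, line c s'), ?_, ?_⟩
    · simp only [strongPairs, mem_filter, mem_univ, true_and]; exact h
    · simp only [mem_filter, mem_univ, true_and]
      exact ⟨s, s', hs, rfl, rfl⟩
  refine (Finset.card_le_card hsub).trans (Finset.card_biUnion_le.trans ?_)
  calc _ ≤ ∑ _p ∈ strongPairs S, 1 :=
        Finset.sum_le_sum fun p _ => card_types_le_one hlin p.1 p.2
    _ = _ := by simp

lemma card_bad3_le
    (hlin : ∀ c c' s s' t t', s ≠ s' → line c s = line c' t → line c s' = line c' t' → c = c')
    (D : ℕ) : (bad3 line S D).card ≤ Fintype.card L * D ^ 2 := by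
  have hsub : bad3 line S D ⊆ ((univ : Finset L).filter fun u => (nbr S u).card ≤ D).biUnion
      fun u => (nbr S u ×ˢ nbr S u).biUnion fun p =>
      univ.filter fun c => ∃ s s', s ≠ s' ∧ line c s = p.1 ∧ line c s' = p.2 := by
    intro c hc
    simp only [bad3, mem_filter, mem_univ, true_and] at hc
    obtain ⟨u, hu, s, s', hs, h, h'⟩ := hc
    rw [mem_biUnion]
    refine ⟨u, by simpa using hu, ?_⟩
    rw [mem_biUnion]
    refine ⟨(line c s, line c s'), ?_, ?_⟩
    · simp only [mem_product, nbr, mem_filter, mem_univ, true_and]; exact ⟨h, h'⟩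
    · simp only [mem_filter, mem_univ, true_and]
      exact ⟨s, s', hs, rfl, rfl⟩
  refine (Finset.card_le_card hsub).trans (Finset.card_biUnion_le.trans ?_)
  calc _ ≤ ∑ _u ∈ (univ : Finset L).filter fun u => (nbr S u).card ≤ D, D ^ 2 := by
        refine Finset.sum_le_sum fun u hu => Finset.card_biUnion_le.trans ?_
        calc _ ≤ ∑ _p ∈ nbr S u ×ˢ nbr S u, 1 :=
              Finset.sum_le_sum fun p _ => card_types_le_one hlin p.1 p.2
          _ = (nbr S u).card ^ 2 := by simp [sq]
          _ ≤ D ^ 2 := Nat.pow_le_pow_left (by simpa using hu) 2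
    _ ≤ ∑ _u : L, D ^ 2 := Finset.sum_le_sum_of_subset (Finset.filter_subset _ _)
    _ = _ := by simp

/-- `|bad1| D ≤ dmax * (number of strong pairs)`. -/
lemma card_bad1_mul_le (dmax D : ℕ)
    (hd : ∀ u, (univ.filter fun c : Ty => ∃ s, line c s = u).card ≤ dmax) :
    (bad1 line S D).card * D ≤ dmax * (strongPairs S).card := by
  set B : Finset L := univ.filter fun u => D < (nbr S u).card with hB
  have h1 : (bad1 line S D).card ≤ B.card * dmax := by
    have hsub : bad1 line S D ⊆ B.biUnion fun u => univ.filter fun c : Ty => ∃ s, line c s = u := by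
      intro c hc
      simp only [bad1, mem_filter, mem_univ, true_and] at hc
      obtain ⟨s, hs⟩ := hc
      rw [mem_biUnion]
      exact ⟨line c s, by simpa [hB] using hs, by simp⟩
    refine (Finset.card_le_card hsub).trans (Finset.card_biUnion_le.trans ?_)
    calc _ ≤ ∑ _u ∈ B, dmax := Finset.sum_le_sum fun u _ => hd u
      _ = _ := by simp
  have h2 : B.card * D ≤ (strongPairs S).card := by
    rw [← sum_card_nbr]
    calc B.card * D = ∑ _u ∈ B, D := by simp
      _ ≤ ∑ u ∈ B, (nbr S u).card := Finset.sum_le_sum fun u hu => by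
          simp only [hB, mem_filter, mem_univ, true_and] at hu
          exact hu.le
      _ ≤ _ := Finset.sum_le_sum_of_subset (Finset.filter_subset _ _)
  calc (bad1 line S D).card * D ≤ B.card * dmax * D := Nat.mul_le_mul_right D h1
    _ = dmax * (B.card * D) := by ring
    _ ≤ _ := Nat.mul_le_mul_left dmax h2

/-- the bad types -/
def bad (line : Ty → Fin 3 → L) (S : L → L → Prop) [DecidableRel S] (D : ℕ) : Finset Ty :=
  bad1 line S D ∪ bad2 line S ∪ bad3 line S D

/-- two different good types : the lines of `b` and `b'` can be matched such that only matched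
lines are equal or strongly correlated; no two lines of `b` (of `b'`) are strongly correlated. -/
theorem exists_grouping (hsymm : ∀ u v, S u v → S v u)
    (hinj : ∀ c, Function.Injective (line c)) (D : ℕ) {b b' : Ty}
    (hb : b ∉ bad line S D) (hb' : b' ∉ bad line S D) :
    (∀ s s', s ≠ s' → ¬ S (line b s) (line b s')) ∧
    (∀ s s', s ≠ s' → ¬ S (line b' s) (line b' s')) ∧
    ∃ σ : Equiv.Perm (Fin 3), ∀ s t,
      (line b s = line b' t ∨ S (line b s) (line b' t)) → t = σ s := by
  have key : ∀ c, c ∉ bad line S D → (∀ s, (nbr S (line c s)).card ≤ D) ∧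
      (∀ s s', s ≠ s' → ¬ S (line c s) (line c s')) ∧
      (∀ u, (nbr S u).card ≤ D → ∀ s s', s ≠ s' → S u (line c s) → ¬ S u (line c s')) := by
    intro c hc
    simp only [bad, mem_union, not_or] at hc
    obtain ⟨⟨hc1, hc2⟩, hc3⟩ := hc
    simp only [bad1, bad2, bad3, mem_filter, mem_univ, true_and] at hc1 hc2 hc3
    push Not at hc1 hc2 hc3
    exact ⟨hc1, hc2, fun u hu s s' hs h => hc3 u hu s s' hs h⟩
  obtain ⟨b1, b2, b3⟩ := key b hb
  obtain ⟨c1, c2, c3⟩ := key b' hb'
  refine ⟨b2, c2, exists_perm_of_matching _ ?_ ?_⟩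
  · intro s t t' h h'
    by_contra hne
    rcases h with h | h <;> rcases h' with h' | h'
    · exact hne (hinj b' (h.symm.trans h'))
    · rw [h] at h'; exact c2 t t' hne h'
    · rw [h'] at h; exact c2 t' t (Ne.symm hne) h
    · exact c3 _ (b1 s) t t' hne h h'
  · intro s s' t h h'
    by_contra hne
    rcases h with h | h <;> rcases h' with h' | h'
    · exact hne (hinj b (h.trans h'.symm))
    · rw [← h] at h'; exact b2 s' s (Ne.symm hne) h'
    · rw [← h'] at h; exact b2 s s' hne h
    · exact b3 _ (c1 t) s s' hne (hsymm _ _ h) (hsymm _ _ h')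

/-- the mass of the pairs with a bad member, for a law with bounded marginals. -/
theorem mass_bad_le (Bd : Finset Ty) (Q : Ty → Ty → ℝ) (m : ℝ) (hQ : ∀ b b', 0 ≤ Q b b')
    (h1 : ∀ b, ∑ b', Q b b' ≤ m) (h2 : ∀ b', ∑ b, Q b b' ≤ m) :
    ∑ b, ∑ b', (if b ∈ Bd ∨ b' ∈ Bd then Q b b' else 0) ≤ 2 * m * Bd.card := by
  have h3 : ∀ b b', (if b ∈ Bd ∨ b' ∈ Bd then Q b b' else 0) ≤
      (if b ∈ Bd then Q b b' else 0) + (if b' ∈ Bd then Q b b' else 0) := by
    intro b b'
    have := hQ b b'
    split_ifs <;> first | linarith | tauto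
  calc _ ≤ ∑ b, ∑ b', ((if b ∈ Bd then Q b b' else 0) + (if b' ∈ Bd then Q b b' else 0)) :=
        Finset.sum_le_sum fun b _ => Finset.sum_le_sum fun b' _ => h3 b b'
    _ = ∑ b, (if b ∈ Bd then ∑ b', Q b b' else 0) + ∑ b', (if b' ∈ Bd then ∑ b, Q b b' else 0) := by
        simp only [Finset.sum_add_distrib]
        congr 1
        · refine Finset.sum_congr rfl fun b _ => ?_
          split_ifs <;> simp
        · rw [Finset.sum_comm]
          refine Finset.sum_congr rfl fun b _ => ?_
          split_ifs <;> simp
    _ ≤ ∑ b, (if b ∈ Bd then m else 0) + ∑ b', (if b' ∈ Bd then m else 0) := by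
        refine add_le_add (Finset.sum_le_sum fun b _ => ?_) (Finset.sum_le_sum fun b _ => ?_)
        · split_ifs
          · exact h1 b
          · exact le_rfl
        · split_ifs
          · exact h2 b
          · exact le_rfl
    _ = _ := by
        simp only [Finset.sum_ite_mem, univ_inter, sum_const, nsmul_eq_mul]
        ring

end Count

end Vale.Agent.P060.HW.Strong
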