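import Vale.Agent.P060.HW.Lat

/-! The random past, information part (abstract): a monotone supermodular function `D` on a modular
lattice, a family `L` of elements (the lines) with the triple property `Tri`, uniform random sets of
lines. -/

namespace Vale.Agent.P060.HW

namespace TV2

open Finset

section Lattice

variable {α : Type*} [Lattice α]

/-- monotone and supermodular -/
structure SupMod (D : α → ℝ) : Prop where
  mono : ∀ {x y : α}, x ≤ y → D x ≤ D y
  sm : ∀ x y : α, D x + D y ≤ D (x ⊔ y) + D (x ⊓ y)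

/-- mutual information of `G` and `H` given `A` and what they share over `A` -/
def mi (D : α → ℝ) (G H A : α) : ℝ :=
  D (G ⊔ H ⊔ A) + D ((G ⊔ A) ⊓ (H ⊔ A)) - D (G ⊔ A) - D (H ⊔ A)

/-- deficit of the shared part -/
def sh (D : α → ℝ) (G H A : α) : ℝ := D ((G ⊔ A) ⊓ (H ⊔ A)) - D A

/-- conditional deficit -/
def dc (D : α → ℝ) (G A : α) : ℝ := D (G ⊔ A) - D A

variable {D : α → ℝ} (hD : SupMod D)

include hD in
theorem mi_nonneg (G H A : α) : 0 ≤ mi D G H A := by
  have h := hD.sm (G ⊔ A) (H ⊔ A)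
  have e : G ⊔ A ⊔ (H ⊔ A) = G ⊔ H ⊔ A := by
    rw [← sup_sup_distrib_right]
  rw [e] at h
  unfold mi
  linarith

include hD in
theorem sh_nonneg (G H A : α) : 0 ≤ sh D G H A := by
  have := hD.mono (show A ≤ (G ⊔ A) ⊓ (H ⊔ A) from le_inf le_sup_right le_sup_right)
  unfold sh
  linarith

include hD in
theorem dc_nonneg (G A : α) : 0 ≤ dc D G A := by
  have := hD.mono (show A ≤ G ⊔ A from le_sup_right)
  unfold dc
  linarith

theorem mi_comm (G H A : α) : mi D G H A = mi D H G A := by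
  unfold mi
  rw [sup_comm G H, inf_comm (G ⊔ A) (H ⊔ A)]
  ring

/-- the mutual information is the second difference plus the shared deficit -/
theorem mi_eq (G H A : α) :
    mi D G H A = (D (G ⊔ H ⊔ A) - D (G ⊔ A) - D (H ⊔ A) + D A) + sh D G H A := by
  unfold mi sh
  ring

include hD in
/-- chain rule -/
theorem mi_chain (G G' H A : α) : mi D (G ⊔ G') H A ≤ mi D G H A + mi D G' H (G ⊔ A) := by
  have h := hD.sm ((G ⊔ G' ⊔ A) ⊓ (H ⊔ A)) (G ⊔ A)
  have e1 : (G ⊔ G' ⊔ A) ⊓ (H ⊔ A) ⊓ (G ⊔ A) = (G ⊔ A) ⊓ (H ⊔ A) := by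
    rw [inf_assoc, inf_comm (H ⊔ A) (G ⊔ A), ← inf_assoc]
    congr 1
    rw [inf_eq_right]
    exact sup_le (le_sup_left.trans le_sup_left) le_sup_right
  have e2 : (G ⊔ G' ⊔ A) ⊓ (H ⊔ A) ⊔ (G ⊔ A) ≤ (G' ⊔ (G ⊔ A)) ⊓ (H ⊔ (G ⊔ A)) := by
    refine sup_le (le_inf ?_ ?_) (le_inf le_sup_right le_sup_right)
    · refine inf_le_left.trans (sup_le (sup_le ?_ ?_) ?_)
      · exact le_sup_left.trans le_sup_right
      · exact le_sup_left
      · exact le_sup_right.trans le_sup_right
    · exact inf_le_right.trans (sup_le le_sup_left (le_sup_right.trans le_sup_right))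
  have h2 := hD.mono e2
  rw [e1] at h
  have e3 : G' ⊔ H ⊔ (G ⊔ A) = G ⊔ G' ⊔ H ⊔ A := by ac_rfl
  have e4 : G' ⊔ (G ⊔ A) = G ⊔ G' ⊔ A := by ac_rfl
  have e5 : G ⊔ H ⊔ A = H ⊔ (G ⊔ A) := by ac_rfl
  unfold mi
  rw [e3, e5]
  rw [e4] at h2 ⊢
  linarith

include hD in
theorem mi_chain_right (G H H' A : α) : mi D G (H ⊔ H') A ≤ mi D G H A + mi D G H' (H ⊔ A) := by
  have := mi_chain hD H H' G A
  rw [mi_comm, mi_comm G H A, mi_comm G H' (H ⊔ A)]
  exact this

include hD in
/-- the four-term inequality -/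
theorem mi_four (G₁ G₂ H₁ H₂ A : α) :
    mi D (G₁ ⊔ G₂) (H₁ ⊔ H₂) A ≤ mi D G₁ H₁ A + mi D G₂ H₁ (G₁ ⊔ A) + mi D G₁ H₂ (H₁ ⊔ A) +
      mi D G₂ H₂ (G₁ ⊔ (H₁ ⊔ A)) := by
  have h1 := mi_chain_right hD (G₁ ⊔ G₂) H₁ H₂ A
  have h2 := mi_chain hD G₁ G₂ H₁ A
  have h3 := mi_chain hD G₁ G₂ H₂ (H₁ ⊔ A)
  linarith

/-- `G ⊔ S` and `H ⊔ S` meet in `S`, if `S = S₁ ⊔ S₂ ⊔ T`, where `T` is the shared part -/
theorem inf_cond [IsModularLattice α] {G H A S₁ S₂ : α} (h₁ : S₁ ≤ G ⊔ A) (h₂ : S₂ ≤ H ⊔ A) :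
    (G ⊔ (S₁ ⊔ S₂ ⊔ (G ⊔ A) ⊓ (H ⊔ A))) ⊓ (H ⊔ (S₁ ⊔ S₂ ⊔ (G ⊔ A) ⊓ (H ⊔ A))) =
      S₁ ⊔ S₂ ⊔ (G ⊔ A) ⊓ (H ⊔ A) := by
  set T := (G ⊔ A) ⊓ (H ⊔ A) with hT
  have hA : A ≤ T := le_inf le_sup_right le_sup_right
  have hTG : T ≤ G ⊔ A := inf_le_left
  have hTH : T ≤ H ⊔ A := inf_le_right
  have e1 : G ⊔ (S₁ ⊔ S₂ ⊔ T) = S₂ ⊔ (G ⊔ A) := by
    apply le_antisymm
    · refine sup_le (le_sup_left.trans le_sup_right) (sup_le (sup_le ?_ le_sup_left) ?_)
      · exact h₁.trans le_sup_right
      · exact hTG.trans le_sup_right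
    · refine sup_le ?_ (sup_le le_sup_left ?_)
      · exact (le_sup_right.trans le_sup_left).trans le_sup_right
      · exact (hA.trans le_sup_right).trans le_sup_right
  have e2 : H ⊔ (S₁ ⊔ S₂ ⊔ T) = S₁ ⊔ (H ⊔ A) := by
    apply le_antisymm
    · refine sup_le (le_sup_left.trans le_sup_right) (sup_le (sup_le le_sup_left ?_) ?_)
      · exact h₂.trans le_sup_right
      · exact hTH.trans le_sup_right
    · refine sup_le ?_ (sup_le le_sup_left ?_)
      · exact (le_sup_left.trans le_sup_left).trans le_sup_right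
      · exact (hA.trans le_sup_right).trans le_sup_right
  rw [e1, e2]
  -- modular law twice
  have e3 : (S₂ ⊔ (G ⊔ A)) ⊓ (S₁ ⊔ (H ⊔ A)) = S₁ ⊔ (S₂ ⊔ (G ⊔ A)) ⊓ (H ⊔ A) := by
    rw [inf_comm, sup_inf_assoc_of_le _ (h₁.trans le_sup_right), inf_comm (H ⊔ A)]
  have e4 : (S₂ ⊔ (G ⊔ A)) ⊓ (H ⊔ A) = S₂ ⊔ T := sup_inf_assoc_of_le _ h₂
  rw [e3, e4]
  ac_rfl

include hD in
/-- conditioning on functions of one of the two sides does not increase the mutual information -/
theorem mi_cond_le [IsModularLattice α] {G H A S₁ S₂ : α} (h₁ : S₁ ≤ G ⊔ A) (h₂ : S₂ ≤ H ⊔ A) :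
    mi D G H (S₁ ⊔ S₂ ⊔ (G ⊔ A) ⊓ (H ⊔ A)) ≤ mi D G H A := by
  have h0 := inf_cond h₁ h₂
  unfold mi
  rw [h0]
  set T := (G ⊔ A) ⊓ (H ⊔ A) with hT
  have hA : A ≤ T := le_inf le_sup_right le_sup_right
  have hTG : T ≤ G ⊔ A := inf_le_left
  have hTH : T ≤ H ⊔ A := inf_le_right
  have a1 := hD.sm (G ⊔ A) (T ⊔ S₂)
  have a2 := hD.sm (H ⊔ A) (S₁ ⊔ (T ⊔ S₂))
  have e1 : G ⊔ A ⊔ (T ⊔ S₂) = G ⊔ (S₁ ⊔ S₂ ⊔ T) := by
    apply le_antisymm
    · refine sup_le (sup_le le_sup_left ?_) (sup_le ?_ ?_)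
      · exact (hA.trans le_sup_right).trans le_sup_right
      · exact le_sup_right.trans le_sup_right
      · exact (le_sup_right.trans le_sup_left).trans le_sup_right
    · refine sup_le (le_sup_left.trans le_sup_left) (sup_le (sup_le ?_ ?_) ?_)
      · exact h₁.trans le_sup_left
      · exact le_sup_right.trans le_sup_right
      · exact le_sup_left.trans le_sup_right
  have e2 : (G ⊔ A) ⊓ (T ⊔ S₂) = T := by
    rw [inf_comm, sup_inf_assoc_of_le _ hTG, sup_eq_left]
    exact le_inf inf_le_right (inf_le_left.trans h₂)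
  have e3 : H ⊔ A ⊔ (S₁ ⊔ (T ⊔ S₂)) = H ⊔ (S₁ ⊔ S₂ ⊔ T) := by
    apply le_antisymm
    · refine sup_le (sup_le le_sup_left ?_) (sup_le ?_ (sup_le ?_ ?_))
      · exact (hA.trans le_sup_right).trans le_sup_right
      · exact (le_sup_left.trans le_sup_left).trans le_sup_right
      · exact le_sup_right.trans le_sup_right
      · exact (le_sup_right.trans le_sup_left).trans le_sup_right
    · refine sup_le (le_sup_left.trans le_sup_left) (sup_le (sup_le ?_ ?_) ?_)
      · exact le_sup_left.trans le_sup_right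
      · exact h₂.trans le_sup_left
      · exact hTH.trans le_sup_left
  have e4 : (H ⊔ A) ⊓ (S₁ ⊔ (T ⊔ S₂)) = T ⊔ S₂ := by
    rw [inf_comm, sup_comm, sup_inf_assoc_of_le _ (sup_le hTH h₂), sup_eq_left]
    exact (le_inf (inf_le_left.trans h₁) inf_le_right).trans le_sup_left
  have e5 : G ⊔ H ⊔ (S₁ ⊔ S₂ ⊔ T) = G ⊔ H ⊔ A := by
    apply le_antisymm
    · refine sup_le le_sup_left (sup_le (sup_le ?_ ?_) ?_)
      · exact h₁.trans (sup_le (le_sup_left.trans le_sup_left) le_sup_right)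
      · exact h₂.trans (sup_le (le_sup_right.trans le_sup_left) le_sup_right)
      · exact hTG.trans (sup_le (le_sup_left.trans le_sup_left) le_sup_right)
    · exact sup_le le_sup_left ((hA.trans le_sup_right).trans le_sup_right)
  have e6 : S₁ ⊔ (T ⊔ S₂) = S₁ ⊔ S₂ ⊔ T := by ac_rfl
  rw [e1, e2] at a1
  rw [e3, e4, e6] at a2
  rw [e5]
  linarith

end Lattice

section Lines

variable {α : Type*} [Lattice α] [OrderBot α] {ι : Type*} [DecidableEq ι]

/-- The triple property: `C`, `B₁`, `B₂` share nothing over `A`. -/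
def Tri (L : ι → α) (κ : ℕ) : Prop :=
  ∀ A C B₁ B₂ : Finset ι, Disjoint C B₁ → Disjoint C B₂ → Disjoint B₁ B₂ →
    (A ∪ C ∪ B₁ ∪ B₂).card ≤ κ →
      (A ∪ C).sup L ⊓ ((A ∪ B₁).sup L ⊓ (A ∪ B₂).sup L) ≤ A.sup L

variable {D : α → ℝ} (hD : SupMod D) {L : ι → α}

theorem sup_union_single (A : Finset ι) (u : ι) : (A ∪ {u}).sup L = L u ⊔ A.sup L := by
  rw [sup_union, sup_singleton, sup_comm]

include hD in
/-- The shared deficits of one line with few other lines. -/
theorem sum_sh_small {κ : ℕ} (hT : Tri L κ) (A : Finset ι) (u : ι) (F : Finset ι)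
    (hF : ∀ v ∈ F, v ≠ u) (hc : (A ∪ {u} ∪ F).card ≤ κ) :
    ∑ v ∈ F, sh D (L u) (L v) (A.sup L) ≤ dc D (L u) (A.sup L) := by
  suffices h : ∀ F' ⊆ F, ∑ v ∈ F', sh D (L u) (L v) (A.sup L) ≤
      D (F'.sup (fun v => (L u ⊔ A.sup L) ⊓ (L v ⊔ A.sup L)) ⊔ A.sup L) - D (A.sup L) by
    refine (h F subset_rfl).trans ?_
    unfold dc
    refine sub_le_sub_right (hD.mono (sup_le (Finset.sup_le fun v _ => inf_le_left) le_sup_right)) _
  intro F'
  induction F' using Finset.induction_on with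
  | empty =>
    intro _
    simp
  | insert v F' hv ih =>
    intro hsub
    have hF' : F' ⊆ F := (subset_insert v F').trans hsub
    have hvF : v ∈ F := hsub (mem_insert_self v F')
    have ih' := ih hF'
    rw [sum_insert hv]
    set S : ι → α := fun v => (L u ⊔ A.sup L) ⊓ (L v ⊔ A.sup L) with hS
    have h1 := hD.sm (S v) (F'.sup S ⊔ A.sup L)
    have e1 : S v ⊔ (F'.sup S ⊔ A.sup L) = (insert v F').sup S ⊔ A.sup L := by
      rw [sup_insert, sup_assoc]
    have h2 : S v ⊓ (F'.sup S ⊔ A.sup L) ≤ A.sup L := by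
      have h3 := hT A {u} {v} F' (by simpa using (hF v hvF).symm)
        (by
          rw [disjoint_singleton_left]
          exact fun h => hF u (hF' h) rfl)
        (by rwa [disjoint_singleton_left])
        (by
          refine (card_le_card ?_).trans hc
          intro x hx
          simp only [mem_union, mem_singleton] at hx ⊢
          rcases hx with ((hx | hx) | hx) | hx
          · exact Or.inl (Or.inl hx)
          · exact Or.inl (Or.inr hx)
          · exact Or.inr (hx ▸ hvF)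
          · exact Or.inr (hF' hx))
      refine le_trans ?_ h3
      rw [sup_union_single, sup_union_single]
      refine le_inf (inf_le_left.trans inf_le_left) (le_inf (inf_le_left.trans inf_le_right) ?_)
      refine inf_le_right.trans (sup_le (Finset.sup_le fun w hw => ?_) ?_)
      · refine inf_le_right.trans (sup_le ?_ ?_)
        · exact le_sup (f := L) (mem_union_right A hw)
        · exact sup_mono subset_union_left
      · exact sup_mono subset_union_left
    have h4 := hD.mono h2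
    rw [e1] at h1
    have h5 : sh D (L u) (L v) (A.sup L) = D (S v) - D (A.sup L) := rfl
    rw [h5]
    linarith

include hD in
/-- The shared deficits of one line with many other lines. -/
theorem sum_sh_le {κ : ℕ} (hT : Tri L κ) (A : Finset ι) (u : ι) {h : ℕ} (h0 : 0 < h)
    (hκ : A.card + 1 + h ≤ κ) : ∀ (n : ℕ) (F : Finset ι), F.card = n → (∀ v ∈ F, v ≠ u) →
    ∑ v ∈ F, sh D (L u) (L v) (A.sup L) ≤ ((F.card : ℝ) / h + 1) * dc D (L u) (A.sup L) := by
  intro n
  induction n using Nat.strong_induction_on with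
  | _ n ih =>
    intro F hFn hF
    have hdc := dc_nonneg hD (L u) (A.sup L)
    have hh : (0 : ℝ) < h := by exact_mod_cast h0
    have hcard : ∀ F : Finset ι, F.card ≤ h → (A ∪ {u} ∪ F).card ≤ κ := by
      intro F hF
      have h1 := card_union_le (A ∪ {u}) F
      have h2 := card_union_le A {u}
      rw [card_singleton] at h2
      omega
    by_cases hle : F.card ≤ h
    · refine (sum_sh_small hD hT A u F hF (hcard F hle)).trans ?_
      have : 0 ≤ (F.card : ℝ) / h := by positivity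
      nlinarith
    · push Not at hle
      obtain ⟨F₁, hF₁, hc₁⟩ := exists_subset_card_eq hle.le
      have h1 := sum_sh_small hD hT A u F₁ (fun v hv => hF v (hF₁ hv)) (hcard F₁ hc₁.le)
      have hc₂ : (F \ F₁).card = F.card - h := by rw [card_sdiff_of_subset hF₁, hc₁]
      have h2 := ih (F \ F₁).card (by omega) (F \ F₁) rfl
        (fun v hv => hF v (mem_sdiff.1 hv).1)
      rw [← sum_sdiff hF₁]
      have h3 : (((F \ F₁).card : ℕ) : ℝ) = F.card - h := by
        rw [hc₂, Nat.cast_sub hle.le]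
      rw [h3] at h2
      have h4 : ((F.card : ℝ) - h) / h + 1 = F.card / h := by
        field_simp
        ring
      rw [h4] at h2
      linarith

end Lines

section Averages

variable {ι : Type*} [Fintype ι] [DecidableEq ι]

/-- the average over the sets of size `s` -/
noncomputable def av (s : ℕ) (f : Finset ι → ℝ) : ℝ :=
  (∑ A ∈ powersetCard s univ, f A) / ((Fintype.card ι).choose s : ℝ)

theorem sum_insert_eq (s : ℕ) (f : Finset ι → ℝ) :
    ∑ A ∈ powersetCard s (univ : Finset ι), ∑ u ∈ Aᶜ, f (insert u A) =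
      (s + 1 : ℝ) * ∑ A ∈ powersetCard (s + 1) (univ : Finset ι), f A := by
  have h1 : (s + 1 : ℝ) * ∑ A ∈ powersetCard (s + 1) (univ : Finset ι), f A =
      ∑ A ∈ powersetCard (s + 1) (univ : Finset ι), ∑ u ∈ A, f A := by
    rw [mul_sum]
    refine sum_congr rfl fun A hA => ?_
    rw [sum_const, nsmul_eq_mul, (mem_powersetCard.1 hA).2]
    push_cast
    rfl
  rw [h1, sum_sigma', sum_sigma']
  refine sum_bij' (fun x _ => ⟨insert x.2 x.1, x.2⟩) (fun x _ => ⟨x.1.erase x.2, x.2⟩) ?_ ?_ ?_ ?_ ?_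
  · rintro ⟨A, u⟩ h
    rw [mem_sigma, mem_powersetCard, mem_compl] at h
    rw [mem_sigma, mem_powersetCard]
    exact ⟨⟨subset_univ _, by rw [card_insert_of_notMem h.2, h.1.2]⟩, mem_insert_self _ _⟩
  · rintro ⟨A, u⟩ h
    rw [mem_sigma, mem_powersetCard] at h
    rw [mem_sigma, mem_powersetCard, mem_compl]
    exact ⟨⟨subset_univ _, by rw [card_erase_of_mem h.2, h.1.2]; rfl⟩, notMem_erase _ _⟩
  · rintro ⟨A, u⟩ h
    rw [mem_sigma, mem_powersetCard, mem_compl] at h
    simp only [Sigma.mk.injEq, heq_eq_eq, and_true]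
    exact erase_insert h.2
  · rintro ⟨A, u⟩ h
    rw [mem_sigma, mem_powersetCard] at h
    simp only [Sigma.mk.injEq, heq_eq_eq, and_true]
    exact insert_erase h.2
  · rintro ⟨A, u⟩ h
    rfl

theorem compl_insert_eq (u : ι) (A : Finset ι) : (insert u A)ᶜ = Aᶜ.erase u := by
  ext v
  simp only [mem_compl, mem_insert, mem_erase, not_or]

/-- the first difference -/
theorem sum_first (s : ℕ) (f : Finset ι → ℝ) :
    ∑ A ∈ powersetCard s (univ : Finset ι), ∑ u ∈ Aᶜ, (f (insert u A) - f A) =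
      ((Fintype.card ι).choose s : ℝ) * ((Fintype.card ι : ℝ) - s) * (av (s + 1) f - av s f) := by
  by_cases hs : s + 1 ≤ Fintype.card ι
  · have hc : ((Fintype.card ι).choose (s + 1) : ℝ) * (s + 1) =
        ((Fintype.card ι).choose s : ℝ) * ((Fintype.card ι : ℝ) - s) := by
      have h := Nat.choose_succ_right_eq (Fintype.card ι) s
      have h2 : (((Fintype.card ι).choose (s + 1) * (s + 1) : ℕ) : ℝ) =
        (((Fintype.card ι).choose s * (Fintype.card ι - s) : ℕ) : ℝ) := by exact_mod_cast h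
      push_cast [Nat.cast_sub (by omega : s ≤ Fintype.card ι)] at h2
      exact h2
    have p1 : (0 : ℝ) < ((Fintype.card ι).choose s : ℝ) := by
      exact_mod_cast Nat.choose_pos (by omega)
    have p2 : (0 : ℝ) < ((Fintype.card ι).choose (s + 1) : ℝ) := by
      exact_mod_cast Nat.choose_pos (by omega)
    have e1 : ∑ A ∈ powersetCard s (univ : Finset ι), ∑ u ∈ Aᶜ, (f (insert u A) - f A) =
        (s + 1 : ℝ) * ∑ A ∈ powersetCard (s + 1) (univ : Finset ι), f A -
          ((Fintype.card ι : ℝ) - s) * ∑ A ∈ powersetCard s (univ : Finset ι), f A := by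
      rw [← sum_insert_eq, mul_sum, ← sum_sub_distrib]
      refine sum_congr rfl fun A hA => ?_
      rw [sum_sub_distrib, sum_const, nsmul_eq_mul, card_compl, (mem_powersetCard.1 hA).2,
        Nat.cast_sub (by omega)]
    rw [e1]
    set S0 := ∑ A ∈ powersetCard s (univ : Finset ι), f A with hS0
    set S1 := ∑ A ∈ powersetCard (s + 1) (univ : Finset ι), f A with hS1
    have r1 : av (s + 1) f * (Fintype.card ι).choose (s + 1) = S1 := by
      unfold av
      field_simp
      rw [hS1]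
    have r0 : av s f * (Fintype.card ι).choose s = S0 := by
      unfold av
      field_simp
      rw [hS0]
    rw [← r1, ← r0]
    linear_combination av (s + 1) f * hc
  · have e1 : powersetCard (s + 1) (univ : Finset ι) = ∅ := by
      rw [powersetCard_eq_empty, card_univ]
      omega
    have e0 : ∀ A ∈ powersetCard s (univ : Finset ι), (Aᶜ : Finset ι) = ∅ := by
      intro A hA
      rw [← card_eq_zero, card_compl, (mem_powersetCard.1 hA).2]
      omega
    rw [sum_eq_zero fun A hA => by rw [e0 A hA, sum_empty]]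
    rcases Nat.lt_or_ge (Fintype.card ι) s with h | h
    · rw [Nat.choose_eq_zero_of_lt h]
      simp
    · have : Fintype.card ι = s := by omega
      rw [this]
      simp

/-- the second difference -/
theorem sum_second (s : ℕ) (hs : s + 2 ≤ Fintype.card ι) (f : Finset ι → ℝ) :
    ∑ A ∈ powersetCard s (univ : Finset ι), ∑ u ∈ Aᶜ, ∑ v ∈ Aᶜ.erase u,
      (f (insert v (insert u A)) - f (insert u A) - f (insert v A) + f A) =
      ((Fintype.card ι).choose s : ℝ) * ((Fintype.card ι : ℝ) - s) *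
        ((Fintype.card ι : ℝ) - s - 1) * (av (s + 2) f - 2 * av (s + 1) f + av s f) := by
  set N := Fintype.card ι with hN
  have hc1 : (N.choose (s + 1) : ℝ) * (s + 1) = (N.choose s : ℝ) * ((N : ℝ) - s) := by
    have h := Nat.choose_succ_right_eq N s
    have h2 : ((N.choose (s + 1) * (s + 1) : ℕ) : ℝ) = ((N.choose s * (N - s) : ℕ) : ℝ) := by
      exact_mod_cast h
    push_cast [Nat.cast_sub (by omega : s ≤ N)] at h2
    exact h2
  have hc2 : (N.choose (s + 2) : ℝ) * (s + 2) = (N.choose (s + 1) : ℝ) * ((N : ℝ) - s - 1) := by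
    have h := Nat.choose_succ_right_eq N (s + 1)
    have h2 : ((N.choose (s + 1 + 1) * (s + 1 + 1) : ℕ) : ℝ) =
      ((N.choose (s + 1) * (N - (s + 1)) : ℕ) : ℝ) := by
      exact_mod_cast h
    push_cast [Nat.cast_sub (by omega : s + 1 ≤ N)] at h2
    rw [show s + 1 + 1 = s + 2 from rfl] at h2
    linarith
  have p0 : (0 : ℝ) < (N.choose s : ℝ) := by exact_mod_cast Nat.choose_pos (by omega)
  have p1 : (0 : ℝ) < (N.choose (s + 1) : ℝ) := by exact_mod_cast Nat.choose_pos (by omega)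
  have p2 : (0 : ℝ) < (N.choose (s + 2) : ℝ) := by exact_mod_cast Nat.choose_pos (by omega)
  set S0 := ∑ A ∈ powersetCard s (univ : Finset ι), f A with hS0
  set S1 := ∑ A ∈ powersetCard (s + 1) (univ : Finset ι), f A with hS1
  set S2 := ∑ A ∈ powersetCard (s + 2) (univ : Finset ι), f A with hS2
  have q2 : ∑ A ∈ powersetCard s (univ : Finset ι), ∑ u ∈ Aᶜ, ∑ v ∈ Aᶜ.erase u,
      f (insert v (insert u A)) = (s + 1) * ((s + 2) * S2) := by
    have h := sum_insert_eq s (fun A : Finset ι => ∑ v ∈ Aᶜ, f (insert v A))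
    have h' := sum_insert_eq (s + 1) f
    rw [h'] at h
    simp only [compl_insert_eq] at h
    rw [h]
    push_cast
    rw [hS2]
    ring
  have hcA : ∀ A ∈ powersetCard s (univ : Finset ι), ((Aᶜ : Finset ι).card : ℝ) = (N : ℝ) - s := by
    intro A hA
    rw [card_compl, (mem_powersetCard.1 hA).2, Nat.cast_sub (by omega)]
  have q1 : ∑ A ∈ powersetCard s (univ : Finset ι), ∑ u ∈ Aᶜ, ∑ v ∈ Aᶜ.erase u,
      f (insert u A) = ((N : ℝ) - s - 1) * ((s + 1) * S1) := by
    rw [hS1, ← sum_insert_eq, mul_sum]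
    refine sum_congr rfl fun A hA => ?_
    rw [mul_sum]
    refine sum_congr rfl fun u hu => ?_
    rw [sum_const, nsmul_eq_mul, card_erase_of_mem hu, Nat.cast_sub, hcA A hA]
    · simp
    · exact card_pos.2 ⟨u, hu⟩
  have q1' : ∑ A ∈ powersetCard s (univ : Finset ι), ∑ u ∈ Aᶜ, ∑ v ∈ Aᶜ.erase u,
      f (insert v A) = ((N : ℝ) - s - 1) * ((s + 1) * S1) := by
    rw [hS1, ← sum_insert_eq, mul_sum]
    refine sum_congr rfl fun A hA => ?_
    have h1 : ∀ u ∈ (Aᶜ : Finset ι), ∑ v ∈ Aᶜ.erase u, f (insert v A) =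
        ∑ v ∈ Aᶜ, f (insert v A) - f (insert u A) := by
      intro u hu
      rw [← add_sum_erase _ _ hu]
      ring
    rw [sum_congr rfl h1, sum_sub_distrib, sum_const, nsmul_eq_mul, hcA A hA]
    ring
  have q0 : ∑ A ∈ powersetCard s (univ : Finset ι), ∑ u ∈ Aᶜ, ∑ v ∈ Aᶜ.erase u,
      f A = ((N : ℝ) - s) * ((N : ℝ) - s - 1) * S0 := by
    rw [hS0, mul_sum]
    refine sum_congr rfl fun A hA => ?_
    rw [sum_congr rfl fun u hu => by
      rw [sum_const, nsmul_eq_mul, card_erase_of_mem hu, Nat.cast_sub (card_pos.2 ⟨u, hu⟩),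
        hcA A hA]]
    rw [sum_const, nsmul_eq_mul, hcA A hA]
    push_cast
    ring
  simp only [sum_add_distrib, sum_sub_distrib]
  rw [q2, q1, q1', q0]
  have r2 : av (s + 2) f * N.choose (s + 2) = S2 := by
    unfold av
    rw [← hN]
    field_simp
    rw [hS2]
  have r1 : av (s + 1) f * N.choose (s + 1) = S1 := by
    unfold av
    rw [← hN]
    field_simp
    rw [hS1]
  have r0 : av s f * N.choose s = S0 := by
    unfold av
    rw [← hN]
    field_simp
    rw [hS0]
  rw [← r2, ← r1, ← r0]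
  have t2 : (s + 1 : ℝ) * ((s + 2) * (av (s + 2) f * N.choose (s + 2))) =
      N.choose s * (N - s) * (N - s - 1) * av (s + 2) f := by
    calc (s + 1 : ℝ) * ((s + 2) * (av (s + 2) f * N.choose (s + 2)))
        = (s + 1) * (N.choose (s + 2) * (s + 2)) * av (s + 2) f := by ring
      _ = (N.choose (s + 1) * (s + 1)) * (N - s - 1) * av (s + 2) f := by rw [hc2]; ring
      _ = _ := by rw [hc1]
  have t1 : ((N : ℝ) - s - 1) * ((s + 1) * (av (s + 1) f * N.choose (s + 1))) =
      N.choose s * (N - s) * (N - s - 1) * av (s + 1) f := by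
    calc ((N : ℝ) - s - 1) * ((s + 1) * (av (s + 1) f * N.choose (s + 1)))
        = (N.choose (s + 1) * (s + 1)) * ((N : ℝ) - s - 1) * av (s + 1) f := by ring
      _ = _ := by rw [hc1]
  rw [t2, t1]
  ring

omit [DecidableEq ι] in
theorem av_mono (s : ℕ) {f g : Finset ι → ℝ} (h : ∀ A, A.card = s → f A ≤ g A) :
    av s f ≤ av s g := by
  unfold av
  exact div_le_div_of_nonneg_right
    (sum_le_sum fun A hA => h A (mem_powersetCard.1 hA).2) (Nat.cast_nonneg _)

omit [DecidableEq ι] in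
theorem av_nonneg (s : ℕ) {f : Finset ι → ℝ} (h : ∀ A, A.card = s → 0 ≤ f A) : 0 ≤ av s f := by
  unfold av
  exact div_nonneg (sum_nonneg fun A hA => h A (mem_powersetCard.1 hA).2) (Nat.cast_nonneg _)

omit [DecidableEq ι] in
theorem av_const (s : ℕ) (hs : s ≤ Fintype.card ι) (c : ℝ) :
    av s (fun _ : Finset ι => c) = c := by
  unfold av
  have p0 : (0 : ℝ) < ((Fintype.card ι).choose s : ℝ) := by exact_mod_cast Nat.choose_pos hs
  rw [sum_const, card_powersetCard, card_univ, nsmul_eq_mul]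
  field_simp

end Averages

section Sizes

variable {α : Type*} [Lattice α] [OrderBot α] {ι : Type*} [Fintype ι] [DecidableEq ι]

/-- the mutual information of two lines, given a random past of size `s` -/
noncomputable def wt (D : α → ℝ) (L : ι → α) (s : ℕ) (u v : ι) : ℝ :=
  av s (fun A => if u ∉ A ∧ v ∉ A then mi D (L u) (L v) (A.sup L) else 0)

variable {D : α → ℝ} (hD : SupMod D) {L : ι → α}

include hD in
theorem wt_nonneg (s : ℕ) (u v : ι) : 0 ≤ wt D L s u v := by
  refine av_nonneg s fun A _ => ?_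
  split_ifs
  · exact mi_nonneg hD _ _ _
  · exact le_rfl

theorem sum_wt (s : ℕ) : (∑ u : ι, ∑ v ∈ univ.erase u, wt D L s u v) * (Fintype.card ι).choose s =
    if s ≤ Fintype.card ι then
    ∑ A ∈ powersetCard s (univ : Finset ι), ∑ u ∈ Aᶜ, ∑ v ∈ Aᶜ.erase u,
      mi D (L u) (L v) (A.sup L) else 0 := by
  split_ifs with hs
  · have p0 : (0 : ℝ) < ((Fintype.card ι).choose s : ℝ) := by exact_mod_cast Nat.choose_pos hs
    have e1 : ∀ u v : ι, wt D L s u v * (Fintype.card ι).choose s =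
        ∑ A ∈ powersetCard s (univ : Finset ι),
          if u ∉ A ∧ v ∉ A then mi D (L u) (L v) (A.sup L) else 0 := by
      intro u v
      unfold wt av
      field_simp
    rw [sum_mul]
    simp_rw [sum_mul, e1]
    rw [sum_congr rfl fun u _ => sum_comm, sum_comm]
    refine sum_congr rfl fun A _ => ?_
    rw [← sum_subset (subset_univ (Aᶜ : Finset ι))]
    · refine sum_congr rfl fun u hu => ?_
      rw [mem_compl] at hu
      rw [← sum_subset (erase_subset_erase u (subset_univ (Aᶜ : Finset ι)))]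
      · refine sum_congr rfl fun v hv => ?_
        rw [mem_erase, mem_compl] at hv
        rw [if_pos ⟨hu, hv.2⟩]
      · intro v _ hv2
        rw [mem_erase, mem_compl, not_and, not_not] at hv2
        rename_i hv1
        rw [if_neg]
        exact fun h => h.2 (hv2 (ne_of_mem_erase hv1))
    · intro u _ hu
      rw [mem_compl, not_not] at hu
      refine sum_eq_zero fun v _ => ?_
      rw [if_neg]
      exact fun h => h.1 hu
  · rw [Nat.choose_eq_zero_of_lt (by omega)]
    simp

include hD in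
/-- one step of the telescoping -/
theorem sum_wt_le {κ : ℕ} (hT : Tri L κ) {s h : ℕ} (h0 : 0 < h) (hκ : s + 1 + h ≤ κ)
    (hh : h ≤ Fintype.card ι) (hs : 2 * (s + 1) ≤ Fintype.card ι) :
    ∑ u : ι, ∑ v ∈ univ.erase u, wt D L s u v ≤ (Fintype.card ι : ℝ) ^ 2 *
      (av (s + 2) (fun A : Finset ι => D (A.sup L)) - 2 * av (s + 1) (fun A => D (A.sup L)) +
        av s (fun A => D (A.sup L)) +
        4 / h * (av (s + 1) (fun A => D (A.sup L)) - av s (fun A => D (A.sup L)))) := by
  set N := Fintype.card ι with hN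
  set f : Finset ι → ℝ := fun A => D (A.sup L) with hf
  have hN2 : s + 2 ≤ N := by omega
  have p0 : (0 : ℝ) < (N.choose s : ℝ) := by exact_mod_cast Nat.choose_pos (by omega)
  have hsN : (2 : ℝ) * (s + 1) ≤ N := by exact_mod_cast hs
  have hhN : (h : ℝ) ≤ N := by exact_mod_cast hh
  have hh0 : (0 : ℝ) < h := by exact_mod_cast h0
  have hs0 : (0 : ℝ) ≤ s := Nat.cast_nonneg s
  -- first difference
  have g1 : 0 ≤ av (s + 1) f - av s f := by
    have h1 := sum_first s f
    have h2 : 0 ≤ ∑ A ∈ powersetCard s (univ : Finset ι), ∑ u ∈ Aᶜ, (f (insert u A) - f A) :=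
      sum_nonneg fun A _ => sum_nonneg fun u _ =>
        sub_nonneg.2 (hD.mono (sup_mono (subset_insert u A)))
    rw [h1] at h2
    have h3 : 0 < (N.choose s : ℝ) * ((N : ℝ) - s) := mul_pos p0 (by linarith)
    exact nonneg_of_mul_nonneg_right h2 h3
  -- the triple sum
  have e1 : ∑ A ∈ powersetCard s (univ : Finset ι), ∑ u ∈ Aᶜ, ∑ v ∈ Aᶜ.erase u,
      mi D (L u) (L v) (A.sup L) =
      ∑ A ∈ powersetCard s (univ : Finset ι), ∑ u ∈ Aᶜ, ∑ v ∈ Aᶜ.erase u,
        (f (insert v (insert u A)) - f (insert u A) - f (insert v A) + f A) +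
      ∑ A ∈ powersetCard s (univ : Finset ι), ∑ u ∈ Aᶜ, ∑ v ∈ Aᶜ.erase u,
        sh D (L u) (L v) (A.sup L) := by
    rw [← sum_add_distrib]
    refine sum_congr rfl fun A _ => ?_
    rw [← sum_add_distrib]
    refine sum_congr rfl fun u _ => ?_
    rw [← sum_add_distrib]
    refine sum_congr rfl fun v _ => ?_
    rw [mi_eq, hf]
    simp only [sup_insert]
    have : L v ⊔ (L u ⊔ A.sup L) = L u ⊔ L v ⊔ A.sup L := by ac_rfl
    rw [this]
  have e2 : ∑ A ∈ powersetCard s (univ : Finset ι), ∑ u ∈ Aᶜ, ∑ v ∈ Aᶜ.erase u,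
        sh D (L u) (L v) (A.sup L) ≤
      ((N : ℝ) / h + 1) * ((N.choose s : ℝ) * ((N : ℝ) - s) * (av (s + 1) f - av s f)) := by
    rw [← sum_first s f, mul_sum]
    refine sum_le_sum fun A hA => ?_
    rw [mul_sum]
    refine sum_le_sum fun u _ => ?_
    have hA' := (mem_powersetCard.1 hA).2
    have h1 := sum_sh_le hD hT A u h0 (by omega) _ (Aᶜ.erase u) rfl
      (fun v hv => ne_of_mem_erase hv)
    refine h1.trans ?_
    have h2 : dc D (L u) (A.sup L) = f (insert u A) - f A := by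
      rw [hf]
      simp only [sup_insert]
      rfl
    rw [h2]
    refine mul_le_mul_of_nonneg_right ?_ ?_
    · have h3 : ((Aᶜ.erase u).card : ℝ) ≤ N := by
        exact_mod_cast card_le_univ _
      have := div_le_div_of_nonneg_right h3 hh0.le
      linarith
    · exact sub_nonneg.2 (hD.mono (sup_mono (subset_insert u A)))
  have e3 := sum_second s hN2 f
  rw [← hN] at e3
  have e4 : ((N : ℝ) / h + 1) ≤ 4 / h * ((N : ℝ) - s - 1) := by
    have h1 : 1 ≤ (N : ℝ) / h := by rwa [le_div_iff₀ hh0, one_mul]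
    have h2 : 4 / h * ((N : ℝ) / 2) ≤ 4 / h * ((N : ℝ) - s - 1) :=
      mul_le_mul_of_nonneg_left (by linarith) (by positivity)
    have h3 : 4 / (h : ℝ) * ((N : ℝ) / 2) = 2 * (N / h) := by ring
    linarith
  set B := av (s + 2) f - 2 * av (s + 1) f + av s f + 4 / h * (av (s + 1) f - av s f) with hB
  have e5 : (∑ u : ι, ∑ v ∈ univ.erase u, wt D L s u v) * (N.choose s : ℝ) ≤
      (N.choose s : ℝ) * ((N : ℝ) - s) * ((N : ℝ) - s - 1) * B := by
    rw [sum_wt, if_pos (by omega), e1, e3]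
    have h1 : ((N : ℝ) / h + 1) * ((N.choose s : ℝ) * ((N : ℝ) - s) * (av (s + 1) f - av s f)) ≤
        (4 / h * ((N : ℝ) - s - 1)) *
          ((N.choose s : ℝ) * ((N : ℝ) - s) * (av (s + 1) f - av s f)) :=
      mul_le_mul_of_nonneg_right e4
        (mul_nonneg (mul_nonneg p0.le (by linarith)) g1)
    rw [hB]
    have h2 := e2.trans h1
    nlinarith [h2]
  have e6 : 0 ≤ (∑ u : ι, ∑ v ∈ univ.erase u, wt D L s u v) :=
    sum_nonneg fun u _ => sum_nonneg fun v _ => wt_nonneg hD s u v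
  have e7 : (∑ u : ι, ∑ v ∈ univ.erase u, wt D L s u v) ≤
      ((N : ℝ) - s) * ((N : ℝ) - s - 1) * B := by
    have h1 : (∑ u : ι, ∑ v ∈ univ.erase u, wt D L s u v) * (N.choose s : ℝ) ≤
      (((N : ℝ) - s) * ((N : ℝ) - s - 1) * B) * (N.choose s : ℝ) := by
      refine e5.trans (le_of_eq ?_)
      ring
    exact le_of_mul_le_mul_right h1 p0
  have e8 : 0 ≤ B := by
    have h1 : 0 ≤ ((N : ℝ) - s) * ((N : ℝ) - s - 1) * B := e6.trans e7
    have h2 : 0 < ((N : ℝ) - s) * ((N : ℝ) - s - 1) := mul_pos (by linarith) (by linarith)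
    exact nonneg_of_mul_nonneg_right h1 h2
  refine e7.trans (mul_le_mul_of_nonneg_right ?_ e8)
  rw [sq]
  refine mul_le_mul (by linarith) (by linarith) (by linarith) (by positivity)

include hD in
/-- **Existence of a size** such that the average mutual information is small for the pasts with
`s, …, s + 4` lines. -/
theorem exists_size {κ : ℕ} (hT : Tri L κ) {Dm : ℝ} (hDm : ∀ A : Finset ι, 0 ≤ D (A.sup L) ∧ D (A.sup L) ≤ Dm) {m : ℕ}
    (hm : 4 ≤ m) (hκ : 6 * m ≤ κ) (hN : 8 * m ≤ Fintype.card ι) :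
    ∃ s, m ≤ s ∧ s < 2 * m ∧ ∑ e ∈ range 5, ∑ u : ι, ∑ v ∈ univ.erase u, wt D L (s + e) u v ≤
      25 * (Fintype.card ι : ℝ) ^ 2 * Dm / (m : ℝ) ^ 2 := by
  set N := Fintype.card ι with hNdef
  set F : ℕ → ℝ := fun s => av s (fun A : Finset ι => D (A.sup L)) with hF
  set T : ℕ → ℝ := fun s => ∑ u : ι, ∑ v ∈ univ.erase u, wt D L s u v with hTdef
  have hm0 : (0 : ℝ) < m := by exact_mod_cast (by omega : 0 < m)
  have hF0 : ∀ s, 0 ≤ F s := fun s => av_nonneg s fun A _ => (hDm _).1
  have hF1 : ∀ s, s ≤ N → F s ≤ Dm := fun s hs => by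
    rw [← av_const (ι := ι) s hs Dm]
    exact av_mono s fun A _ => (hDm _).2
  have hT0 : ∀ s, 0 ≤ T s := fun s => sum_nonneg fun u _ => sum_nonneg fun v _ => wt_nonneg hD s u v
  have hDm0 : 0 ≤ Dm := (hF0 0).trans (hF1 0 (Nat.zero_le _))
  -- choice of the end point
  obtain ⟨t, ht1, ht2, ht3⟩ : ∃ t, 3 * m ≤ t ∧ t < 4 * m ∧ F (t + 1) - F t ≤ Dm / m := by
    by_contra hcon
    push Not at hcon
    have h1 : ∑ t ∈ Ico (3 * m) (4 * m), Dm / (m : ℝ) < ∑ t ∈ Ico (3 * m) (4 * m), (F (t + 1) - F t) := by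
      refine sum_lt_sum_of_nonempty ⟨3 * m, mem_Ico.2 ⟨le_rfl, by omega⟩⟩ fun t ht => ?_
      rw [mem_Ico] at ht
      exact hcon t ht.1 ht.2
    rw [sum_const, Nat.card_Ico, nsmul_eq_mul, sum_Ico_sub _ (by omega : 3 * m ≤ 4 * m)] at h1
    have h2 : ((4 * m - 3 * m : ℕ) : ℝ) * (Dm / m) = Dm := by
      rw [show 4 * m - 3 * m = m by omega]
      field_simp
    rw [h2] at h1
    have := hF0 (3 * m)
    have := hF1 (4 * m) (by omega)
    linarith
  -- telescoping
  have hstep : ∀ s ∈ Ico m t, T s ≤ (N : ℝ) ^ 2 *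
      ((F (s + 1 + 1) - F (s + 1)) - (F (s + 1) - F s) + 4 / m * (F (s + 1) - F s)) := by
    intro s hs
    rw [mem_Ico] at hs
    have h1 := sum_wt_le hD hT (s := s) (h := m) (by omega) (by omega) (by omega) (by omega)
    rw [hTdef]
    refine h1.trans (le_of_eq ?_)
    rw [← hNdef]
    simp only [hF]
    ring
  have hsum : ∑ s ∈ Ico m t, T s ≤ (N : ℝ) ^ 2 * (5 * Dm / m) := by
    refine (sum_le_sum hstep).trans ?_
    rw [← mul_sum]
    refine mul_le_mul_of_nonneg_left ?_ (by positivity)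
    rw [sum_add_distrib, ← mul_sum, sum_Ico_sub _ (by omega : m ≤ t)]
    have h1 := sum_Ico_sub (fun s => F (s + 1) - F s) (by omega : m ≤ t)
    rw [h1]
    have h2 : 0 ≤ F (m + 1) - F m := by
      have h3 := sum_first (ι := ι) m (fun A => D (A.sup L))
      have h4 : 0 ≤ ∑ A ∈ powersetCard m (univ : Finset ι), ∑ u ∈ Aᶜ,
          (D ((insert u A).sup L) - D (A.sup L)) :=
        sum_nonneg fun A _ => sum_nonneg fun u _ =>
          sub_nonneg.2 (hD.mono (sup_mono (subset_insert u A)))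
      rw [h3, ← hNdef] at h4
      have p0 : (0 : ℝ) < (N.choose m : ℝ) := by exact_mod_cast Nat.choose_pos (by omega)
      have p1 : (0 : ℝ) < (N : ℝ) - m := by
        have : (m : ℝ) < N := by exact_mod_cast (by omega : m < N)
        linarith
      exact nonneg_of_mul_nonneg_right h4 (mul_pos p0 p1)
    have h3 : 4 / (m : ℝ) * (F t - F m) ≤ 4 / m * Dm := by
      refine mul_le_mul_of_nonneg_left ?_ (by positivity)
      have := hF0 m
      have := hF1 t (by omega)
      linarith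
    have h4 : 5 * Dm / (m : ℝ) = Dm / m + 4 / m * Dm := by ring
    rw [h4]
    linarith
  have hsum2 : ∑ s ∈ Ico m (3 * m), T s ≤ (N : ℝ) ^ 2 * (5 * Dm / m) := by
    refine (sum_le_sum_of_subset_of_nonneg (Ico_subset_Ico le_rfl ht1) fun s _ _ => hT0 s).trans hsum
  -- average
  by_contra hcon
  push Not at hcon
  have h1 : ∑ s ∈ Ico m (2 * m), 25 * (N : ℝ) ^ 2 * Dm / (m : ℝ) ^ 2 <
      ∑ s ∈ Ico m (2 * m), ∑ e ∈ range 5, T (s + e) := by
    refine sum_lt_sum_of_nonempty ⟨m, mem_Ico.2 ⟨le_rfl, by omega⟩⟩ fun s hs => ?_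
    rw [mem_Ico] at hs
    exact hcon s hs.1 hs.2
  rw [sum_comm, sum_const, Nat.card_Ico, nsmul_eq_mul] at h1
  have h2 : ∀ e ∈ range 5, ∑ s ∈ Ico m (2 * m), T (s + e) ≤ (N : ℝ) ^ 2 * (5 * Dm / m) := by
    intro e he
    rw [mem_range] at he
    rw [sum_Ico_add' T m (2 * m) e]
    refine (sum_le_sum_of_subset_of_nonneg (Ico_subset_Ico (by omega) (by omega))
      fun s _ _ => hT0 s).trans hsum2
  have h3 := sum_le_sum h2
  rw [sum_const, card_range, nsmul_eq_mul] at h3
  have h4 : ((2 * m - m : ℕ) : ℝ) * (25 * (N : ℝ) ^ 2 * Dm / (m : ℝ) ^ 2) =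
      ((5 : ℕ) : ℝ) * ((N : ℝ) ^ 2 * (5 * Dm / m)) := by
    rw [show 2 * m - m = m by omega]
    push_cast
    field_simp
    ring
  rw [h4] at h1
  linarith

end Sizes

section Extras

variable {α : Type*} [Lattice α] [OrderBot α] {ι : Type*} [Fintype ι] [DecidableEq ι]
  {D : α → ℝ} (hD : SupMod D) {L : ι → α}

include hD in
/-- a few additional fixed lines in the past -/
theorem sum_extra_le (s : ℕ) (E : Finset ι) {u v : ι} (hu : u ∉ E) (hv : v ∉ E) :
    ∑ A ∈ powersetCard s (univ : Finset ι),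
      (if Disjoint A E ∧ u ∉ A ∧ v ∉ A then mi D (L u) (L v) ((A ∪ E).sup L) else 0) ≤
      ((Fintype.card ι).choose (s + E.card) : ℝ) * wt D L (s + E.card) u v := by
  rcases Nat.lt_or_ge (Fintype.card ι) (s + E.card) with hlt | hle
  · rw [Nat.choose_eq_zero_of_lt hlt, Nat.cast_zero, zero_mul]
    refine (sum_nonpos fun A hA => ?_)
    rw [if_neg]
    rintro ⟨h, -, -⟩
    have h1 := card_union_of_disjoint h
    rw [(mem_powersetCard.1 hA).2] at h1
    have h2 := card_le_univ (A ∪ E)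
    omega
  have p0 : (0 : ℝ) < ((Fintype.card ι).choose (s + E.card) : ℝ) := by
    exact_mod_cast Nat.choose_pos hle
  have e1 : ((Fintype.card ι).choose (s + E.card) : ℝ) * wt D L (s + E.card) u v =
      ∑ A ∈ powersetCard (s + E.card) (univ : Finset ι),
        if u ∉ A ∧ v ∉ A then mi D (L u) (L v) (A.sup L) else 0 := by
    unfold wt av
    field_simp
  rw [e1, ← sum_filter]
  set S := (powersetCard s (univ : Finset ι)).filter (fun A => Disjoint A E ∧ u ∉ A ∧ v ∉ A) with hS
  have hinj : Set.InjOn (fun A : Finset ι => A ∪ E) S := by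
    intro A hA A' hA' h
    rw [mem_coe, hS, mem_filter] at hA hA'
    have h' : (A ∪ E) \ E = (A' ∪ E) \ E := by
      simp only at h
      rw [h]
    rwa [union_sdiff_cancel_right hA.2.1, union_sdiff_cancel_right hA'.2.1] at h'
  have e2 : ∑ A ∈ S, mi D (L u) (L v) ((A ∪ E).sup L) =
      ∑ A ∈ S.image (fun A => A ∪ E), mi D (L u) (L v) (A.sup L) := by
    rw [sum_image hinj]
  rw [e2]
  have e3 : ∀ A ∈ S.image (fun A => A ∪ E), mi D (L u) (L v) (A.sup L) =
      if u ∉ A ∧ v ∉ A then mi D (L u) (L v) (A.sup L) else 0 := by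
    intro A hA
    rw [mem_image] at hA
    obtain ⟨A', hA', rfl⟩ := hA
    rw [hS, mem_filter] at hA'
    rw [if_pos]
    rw [mem_union, mem_union, not_or, not_or]
    exact ⟨⟨hA'.2.2.1, hu⟩, hA'.2.2.2, hv⟩
  rw [sum_congr rfl e3]
  refine sum_le_sum_of_subset_of_nonneg ?_ fun A _ _ => ?_
  · intro A hA
    rw [mem_image] at hA
    obtain ⟨A', hA', rfl⟩ := hA
    rw [hS, mem_filter, mem_powersetCard] at hA'
    rw [mem_powersetCard, card_union_of_disjoint hA'.2.1, hA'.1.2]
    exact ⟨subset_univ _, rfl⟩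
  · split_ifs
    · exact mi_nonneg hD _ _ _
    · exact le_rfl

theorem choose_ratio {N m s : ℕ} (hm : 0 < m) (hs : m ≤ s) (e : ℕ) :
    (N.choose (s + e) : ℝ) ≤ ((N : ℝ) / m) ^ e * N.choose s := by
  induction e with
  | zero => simp
  | succ e ih =>
    have hm0 : (0 : ℝ) < m := by exact_mod_cast hm
    have h1 : (N.choose (s + e + 1) : ℝ) * m ≤ N.choose (s + e) * N := by
      have h2 := Nat.choose_succ_right_eq N (s + e)
      have h3 : N.choose (s + e + 1) * m ≤ N.choose (s + e + 1) * (s + e + 1) :=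
        Nat.mul_le_mul_left _ (by omega)
      have h4 : N.choose (s + e) * (N - (s + e)) ≤ N.choose (s + e) * N :=
        Nat.mul_le_mul_left _ (Nat.sub_le _ _)
      exact_mod_cast h3.trans (h2.le.trans h4)
    rw [pow_succ, ← add_assoc]
    have h5 : (N.choose (s + e + 1) : ℝ) ≤ (N.choose (s + e) : ℝ) * (N / m) := by
      rw [← mul_div_assoc, le_div_iff₀ hm0]
      exact h1
    refine h5.trans ?_
    have h6 := mul_le_mul_of_nonneg_right ih (show 0 ≤ (N : ℝ) / m by positivity)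
    refine h6.trans (le_of_eq ?_)
    ring

theorem choose_ratio4 {N m s : ℕ} (hm : 0 < m) (hs : m ≤ s) (hmN : m ≤ N) {e : ℕ} (he : e ≤ 4) :
    (N.choose (s + e) : ℝ) ≤ ((N : ℝ) / m) ^ 4 * N.choose s := by
  refine (choose_ratio hm hs e).trans (mul_le_mul_of_nonneg_right ?_ (Nat.cast_nonneg _))
  have hm0 : (0 : ℝ) < m := by exact_mod_cast hm
  have h1 : 1 ≤ (N : ℝ) / m := by
    rw [le_div_iff₀ hm0, one_mul]
    exact_mod_cast hmN
  exact pow_le_pow_right₀ h1 he

/-- sets of size `s` which meet a given set -/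
theorem card_meet_le (s : ℕ) (Z : Finset ι) (h : 12 * (Z.card * s) ≤ Fintype.card ι) :
    12 * ((powersetCard s (univ : Finset ι)).filter (fun A => ¬ Disjoint A Z)).card ≤
      (Fintype.card ι).choose s := by
  set N := Fintype.card ι with hN
  rcases Nat.eq_zero_or_pos s with rfl | hs
  · have : (powersetCard 0 (univ : Finset ι)).filter (fun A => ¬ Disjoint A Z) = ∅ := by
      rw [powersetCard_zero]
      ext A
      simp only [mem_filter, mem_singleton, notMem_empty, iff_false, not_and, not_not]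
      rintro rfl
      exact disjoint_empty_left _
    rw [this]
    simp
  have h1 : ∀ a ∈ Z, ((powersetCard s (univ : Finset ι)).filter (fun A => a ∈ A)).card ≤
      (N - 1).choose (s - 1) := by
    intro a _
    have h2 : ((powersetCard s (univ : Finset ι)).filter (fun A => a ∈ A)).card ≤
        (powersetCard (s - 1) ((univ : Finset ι).erase a)).card := by
      refine card_le_card_of_injOn (fun A => A.erase a) ?_ ?_
      · intro A hA
        rw [mem_coe, mem_filter, mem_powersetCard] at hA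
        rw [mem_coe, mem_powersetCard]
        exact ⟨erase_subset_erase a (subset_univ A), by rw [card_erase_of_mem hA.2, hA.1.2]⟩
      · intro A hA A' hA' heq
        rw [mem_coe, mem_filter, mem_powersetCard] at hA hA'
        simp only at heq
        rw [← insert_erase hA.2, heq, insert_erase hA'.2]
    rw [card_powersetCard, card_erase_of_mem (mem_univ a), card_univ] at h2
    exact h2
  have h2 : ((powersetCard s (univ : Finset ι)).filter (fun A => ¬ Disjoint A Z)).card ≤
      Z.card * (N - 1).choose (s - 1) := by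
    have h3 : (powersetCard s (univ : Finset ι)).filter (fun A => ¬ Disjoint A Z) ⊆
        Z.biUnion (fun a => (powersetCard s (univ : Finset ι)).filter (fun A => a ∈ A)) := by
      intro A hA
      rw [mem_filter, not_disjoint_iff] at hA
      obtain ⟨hA, a, ha, haZ⟩ := hA
      rw [mem_biUnion]
      exact ⟨a, haZ, mem_filter.2 ⟨hA, ha⟩⟩
    refine (card_le_card h3).trans (card_biUnion_le.trans ?_)
    refine (sum_le_sum h1).trans ?_
    rw [sum_const, smul_eq_mul]
  rcases Nat.eq_zero_or_pos N with h0 | h0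
  · have hZ : Z.card = 0 := by
      have := card_le_univ Z
      omega
    rw [hZ, zero_mul] at h2
    omega
  · have h3 : N * (N - 1).choose (s - 1) = N.choose s * s := by
      obtain ⟨N', hN'⟩ : ∃ N', N = N' + 1 := ⟨N - 1, by omega⟩
      obtain ⟨s', hs'⟩ : ∃ s', s = s' + 1 := ⟨s - 1, by omega⟩
      rw [hN', hs']
      exact Nat.add_one_mul_choose_eq N' s'
    refine Nat.le_of_mul_le_mul_left ?_ h0
    calc N * (12 * ((powersetCard s (univ : Finset ι)).filter (fun A => ¬ Disjoint A Z)).card)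
        ≤ N * (12 * (Z.card * (N - 1).choose (s - 1))) :=
          Nat.mul_le_mul_left _ (Nat.mul_le_mul_left _ h2)
      _ = 12 * Z.card * (N * (N - 1).choose (s - 1)) := by ring
      _ = 12 * (Z.card * s) * N.choose s := by rw [h3]; ring
      _ ≤ N * N.choose s := Nat.mul_le_mul_right _ h

end Extras

section Three

variable {ι : Type*} [Fintype ι] [DecidableEq ι]

/-- the number of pairs of sets which are disjoint from each other and from a given one -/
theorem card_two (s : ℕ) {A : Finset ι} (hA : A.card = s) :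
    ∑ B ∈ powersetCard s (univ : Finset ι), ∑ C ∈ powersetCard s (univ : Finset ι),
      (if Disjoint A B ∧ Disjoint A C ∧ Disjoint B C then 1 else 0) =
      (Fintype.card ι - s).choose s * (Fintype.card ι - 2 * s).choose s := by
  have h1 : ∀ B ∈ powersetCard s (univ : Finset ι), ∑ C ∈ powersetCard s (univ : Finset ι),
      (if Disjoint A B ∧ Disjoint A C ∧ Disjoint B C then 1 else 0) =
      if Disjoint A B then (Fintype.card ι - 2 * s).choose s else 0 := by
    intro B hB
    split_ifs with hAB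
    · rw [← card_filter]
      have e : (powersetCard s (univ : Finset ι)).filter
          (fun C => Disjoint A B ∧ Disjoint A C ∧ Disjoint B C) =
          powersetCard s (A ∪ B)ᶜ := by
        ext C
        rw [mem_filter, mem_powersetCard, mem_powersetCard]
        constructor
        · rintro ⟨⟨-, hc⟩, -, h1, h2⟩
          refine ⟨fun x hx => ?_, hc⟩
          rw [mem_compl, mem_union, not_or]
          exact ⟨fun h => disjoint_left.1 h1 h hx, fun h => disjoint_left.1 h2 h hx⟩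
        · rintro ⟨h1, h2⟩
          refine ⟨⟨subset_univ _, h2⟩, hAB, ?_, ?_⟩
          · rw [disjoint_left]
            intro x hx hxC
            have := h1 hxC
            rw [mem_compl, mem_union, not_or] at this
            exact this.1 hx
          · rw [disjoint_left]
            intro x hx hxC
            have := h1 hxC
            rw [mem_compl, mem_union, not_or] at this
            exact this.2 hx
      rw [e, card_powersetCard, card_compl, card_union_of_disjoint hAB, hA,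
        (mem_powersetCard.1 hB).2]
      congr 1
      omega
    · refine sum_eq_zero fun C _ => ?_
      rw [if_neg]
      exact fun h => hAB h.1
  rw [sum_congr rfl h1, ← sum_filter, sum_const, smul_eq_mul]
  congr 1
  have e : (powersetCard s (univ : Finset ι)).filter (fun B => Disjoint A B) =
      powersetCard s Aᶜ := by
    ext B
    rw [mem_filter, mem_powersetCard, mem_powersetCard]
    constructor
    · rintro ⟨⟨-, hc⟩, h1⟩
      refine ⟨fun x hx => ?_, hc⟩
      rw [mem_compl]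
      exact fun h => disjoint_left.1 h1 h hx
    · rintro ⟨h1, h2⟩
      refine ⟨⟨subset_univ _, h2⟩, ?_⟩
      rw [disjoint_left]
      intro x hx hxC
      have := h1 hxC
      rw [mem_compl] at this
      exact this hx
  rw [e, card_powersetCard, card_compl, hA]

/-- **Three disjoint good sets.** -/
theorem exists_three {s : ℕ} (hs : 3 * s ≤ Fintype.card ι) (Bd : Finset (Finset ι))
    (hB : Bd ⊆ powersetCard s (univ : Finset ι)) (hc : 3 * Bd.card < (Fintype.card ι).choose s) :
    ∃ A : Fin 3 → Finset ι, (∀ l, (A l).card = s) ∧ (∀ l, A l ∉ Bd) ∧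
      ∀ l l', l ≠ l' → Disjoint (A l) (A l') := by
  by_contra hcon
  set Ps := powersetCard s (univ : Finset ι) with hPs
  set c := (Fintype.card ι - s).choose s * (Fintype.card ι - 2 * s).choose s with hcdef
  have hcpos : 0 < c := Nat.mul_pos (Nat.choose_pos (by omega)) (Nat.choose_pos (by omega))
  have hne : ∀ A ∈ Ps, ∀ B ∈ Ps, ∀ C ∈ Ps, Disjoint A B → Disjoint A C → Disjoint B C →
      A ∈ Bd ∨ B ∈ Bd ∨ C ∈ Bd := by
    intro A hA B hB' C hC h1 h2 h3
    by_contra h
    push Not at h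
    refine hcon ⟨![A, B, C], ?_, ?_, ?_⟩
    · intro l
      fin_cases l
      · exact (mem_powersetCard.1 hA).2
      · exact (mem_powersetCard.1 hB').2
      · exact (mem_powersetCard.1 hC).2
    · intro l
      fin_cases l
      · exact h.1
      · exact h.2.1
      · exact h.2.2
    · intro l l' hl
      fin_cases l <;> fin_cases l' <;> first | exact absurd rfl hl | skip
      · exact h1
      · exact h2
      · exact h1.symm
      · exact h3
      · exact h2.symm
      · exact h3.symm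
  set t : Finset ι → Finset ι → Finset ι → ℕ := fun A B C =>
    if Disjoint A B ∧ Disjoint A C ∧ Disjoint B C then 1 else 0 with ht
  have tot : ∑ A ∈ Ps, ∑ B ∈ Ps, ∑ C ∈ Ps, t A B C = (Fintype.card ι).choose s * c := by
    rw [sum_congr rfl fun A hA => card_two s (mem_powersetCard.1 hA).2, sum_const, smul_eq_mul,
      card_powersetCard, card_univ]
  have b1 : ∑ A ∈ Ps, ∑ B ∈ Ps, ∑ C ∈ Ps, (if A ∈ Bd then t A B C else 0) = Bd.card * c := by
    have h1 : ∀ A ∈ Ps, ∑ B ∈ Ps, ∑ C ∈ Ps, (if A ∈ Bd then t A B C else 0) =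
        if A ∈ Bd then c else 0 := by
      intro A hA
      split_ifs with h
      · exact card_two s (mem_powersetCard.1 hA).2
      · simp
    rw [sum_congr rfl h1, ← sum_filter, sum_const, smul_eq_mul]
    congr 2
    ext A
    rw [mem_filter]
    exact ⟨fun h => h.2, fun h => ⟨hB h, h⟩⟩
  have b2 : ∑ A ∈ Ps, ∑ B ∈ Ps, ∑ C ∈ Ps, (if B ∈ Bd then t A B C else 0) = Bd.card * c := by
    rw [← b1, sum_comm]
    refine sum_congr rfl fun A _ => sum_congr rfl fun B _ => sum_congr rfl fun C _ => ?_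
    have e : (Disjoint B A ∧ Disjoint B C ∧ Disjoint A C) ↔
        (Disjoint A B ∧ Disjoint A C ∧ Disjoint B C) := by
      rw [disjoint_comm (a := B) (b := A)]
      tauto
    simp only [ht, e]
  have b3 : ∑ A ∈ Ps, ∑ B ∈ Ps, ∑ C ∈ Ps, (if C ∈ Bd then t A B C else 0) = Bd.card * c := by
    rw [← b2]
    refine sum_congr rfl fun A _ => ?_
    rw [sum_comm]
    refine sum_congr rfl fun B _ => sum_congr rfl fun C _ => ?_
    have e : (Disjoint A C ∧ Disjoint A B ∧ Disjoint C B) ↔
        (Disjoint A B ∧ Disjoint A C ∧ Disjoint B C) := by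
      rw [disjoint_comm (a := C) (b := B)]
      tauto
    simp only [ht, e]
  have hle : ∑ A ∈ Ps, ∑ B ∈ Ps, ∑ C ∈ Ps, t A B C ≤
      ∑ A ∈ Ps, ∑ B ∈ Ps, ∑ C ∈ Ps, ((if A ∈ Bd then t A B C else 0) +
        (if B ∈ Bd then t A B C else 0) + (if C ∈ Bd then t A B C else 0)) := by
    refine sum_le_sum fun A hA => sum_le_sum fun B hB' => sum_le_sum fun C hC => ?_
    by_cases hd : Disjoint A B ∧ Disjoint A C ∧ Disjoint B C
    · rcases hne A hA B hB' C hC hd.1 hd.2.1 hd.2.2 with h | h | h <;> rw [if_pos h] <;> omega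
    · simp only [ht, if_neg hd]
      exact Nat.zero_le _
  simp only [sum_add_distrib] at hle
  rw [tot, b1, b2, b3] at hle
  have h1 : 3 * Bd.card * c < (Fintype.card ι).choose s * c := Nat.mul_lt_mul_of_pos_right hc hcpos
  have h2 : Bd.card * c + Bd.card * c + Bd.card * c = 3 * Bd.card * c := by ring
  omega

end Three

section Strong

variable {α : Type*} [Lattice α] [OrderBot α] {ι : Type*} [Fintype ι] [DecidableEq ι]
  {D : α → ℝ} (hD : SupMod D) {L : ι → α}

theorem wt_comm (D : α → ℝ) (L : ι → α) (s : ℕ) (u v : ι) : wt D L s u v = wt D L s v u := by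
  unfold wt
  congr 1
  funext A
  rw [mi_comm]
  exact if_congr and_comm rfl rfl

/-- The strong relation: two different lines whose average mutual information exceeds `θ` for one of
the sizes `s, …, s + 4`. -/
def Str (D : α → ℝ) (L : ι → α) (s : ℕ) (θ : ℝ) (u v : ι) : Prop :=
  u ≠ v ∧ ∃ e < 5, θ < wt D L (s + e) u v

theorem Str.symm {D : α → ℝ} {L : ι → α} {s : ℕ} {θ : ℝ} {u v : ι} (h : Str D L s θ u v) :
    Str D L s θ v u := by
  obtain ⟨h1, e, he, h2⟩ := h
  exact ⟨h1.symm, e, he, by rwa [wt_comm]⟩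

theorem not_str {D : α → ℝ} {L : ι → α} {s : ℕ} {θ : ℝ} {u v : ι} (huv : u ≠ v)
    (h : ¬ Str D L s θ u v) : ∀ e < 5, wt D L (s + e) u v ≤ θ := by
  intro e he
  by_contra hcon
  push Not at hcon
  exact h ⟨huv, e, he, hcon⟩

include hD in
open Classical in
/-- the number of strong pairs -/
theorem card_str_mul_le (s : ℕ) {θ : ℝ} {B : ℝ}
    (hB : ∑ e ∈ range 5, ∑ u : ι, ∑ v ∈ univ.erase u, wt D L (s + e) u v ≤ B) :
    ((univ.filter (fun p : ι × ι => Str D L s θ p.1 p.2)).card : ℝ) * θ ≤ B := by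
  rw [← nsmul_eq_mul]
  set g : ι × ι → ℝ := fun p => ∑ e ∈ range 5, wt D L (s + e) p.1 p.2 with hg
  have h1 : (univ.filter (fun p : ι × ι => Str D L s θ p.1 p.2)).card • θ ≤
      ∑ p ∈ univ.filter (fun p : ι × ι => Str D L s θ p.1 p.2), g p := by
    refine card_nsmul_le_sum _ _ _ fun p hp => ?_
    rw [mem_filter] at hp
    obtain ⟨-, e, he, h⟩ := hp.2
    refine h.le.trans ?_
    exact single_le_sum (f := fun e => wt D L (s + e) p.1 p.2)
      (fun e _ => wt_nonneg hD _ _ _) (mem_range.2 he)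
  refine h1.trans (le_trans ?_ hB)
  have h2 : ∑ e ∈ range 5, ∑ u : ι, ∑ v ∈ univ.erase u, wt D L (s + e) u v =
      ∑ p ∈ (univ : Finset ι).sigma (fun u => univ.erase u), g (p.1, p.2) := by
    rw [sum_sigma, sum_comm]
    refine sum_congr rfl fun u _ => ?_
    rw [sum_comm]
  rw [h2]
  have h3 : ∑ p ∈ univ.filter (fun p : ι × ι => Str D L s θ p.1 p.2), g p =
      ∑ p ∈ (univ.filter (fun p : ι × ι => Str D L s θ p.1 p.2)).map
        ⟨fun p => (⟨p.1, p.2⟩ : (_ : ι) × ι), fun p q h => by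
          simp only [Sigma.mk.injEq, heq_eq_eq] at h
          exact Prod.ext h.1 h.2⟩, g (p.1, p.2) := by
    rw [sum_map]
    rfl
  rw [h3]
  refine sum_le_sum_of_subset_of_nonneg ?_ fun p _ _ => ?_
  · intro p hp
    rw [mem_map] at hp
    obtain ⟨q, hq, rfl⟩ := hp
    rw [mem_filter] at hq
    rw [mem_sigma]
    refine ⟨mem_univ _, ?_⟩
    rw [mem_erase]
    exact ⟨hq.2.1.symm, mem_univ _⟩
  · exact sum_nonneg fun e _ => wt_nonneg hD _ _ _

include hD in
open Classical in
/-- **Existence of a size with few strong pairs.** -/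
theorem exists_size_str {κ : ℕ} (hT : Tri L κ) {Dm : ℝ} (hDm : ∀ A : Finset ι, 0 ≤ D (A.sup L) ∧ D (A.sup L) ≤ Dm) {m : ℕ}
    (hm : 4 ≤ m) (hκ : 6 * m ≤ κ) (hN : 8 * m ≤ Fintype.card ι) :
    ∃ s, m ≤ s ∧ s < 2 * m ∧ ∀ θ : ℝ,
      ((univ.filter (fun p : ι × ι => Str D L s θ p.1 p.2)).card : ℝ) * θ ≤
        25 * (Fintype.card ι : ℝ) ^ 2 * Dm / (m : ℝ) ^ 2 := by
  obtain ⟨s, h1, h2, h3⟩ := exists_size hD hT hDm hm hκ hN
  exact ⟨s, h1, h2, fun θ => card_str_mul_le hD s h3⟩

end Strong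

section Main

variable {α : Type*} [Lattice α] [OrderBot α] {ι : Type*} [Fintype ι] [DecidableEq ι]
  {D : α → ℝ} (hD : SupMod D) {L : ι → α}

include hD in
/-- **Good pasts.** Four different lines `i, i', j, j'` such that the pairs `(i, j)`, `(i', j)`,
`(i, j')`, `(i', j')` have small average mutual informations; `E₀` the lines which are added to the
past; `Z` a small set of lines to be avoided; `Bd` a small family of forbidden pasts. There are
three disjoint good pasts. -/
theorem good_pasts {s m : ℕ} (hm : 0 < m) (hms : m ≤ s) (h3s : 3 * s ≤ Fintype.card ι)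
    {i i' j j' : ι} {E₀ Z : Finset ι} (hE₀ : E₀.card ≤ 2)
    (hii : i ≠ i') (hij : i ≠ j) (hij' : i ≠ j') (hi'j : i' ≠ j) (_hi'j' : i' ≠ j') (hjj : j ≠ j')
    (hiE : i ∉ E₀) (hi'E : i' ∉ E₀) (hjE : j ∉ E₀) (hj'E : j' ∉ E₀)
    (hZ : insert i (insert i' (insert j (insert j' E₀))) ⊆ Z)
    (hZc : 12 * (Z.card * s) ≤ Fintype.card ι) {θ e₀ : ℝ} (he₀ : 0 < e₀)
    (hθ : 48 * ((Fintype.card ι : ℝ) / m) ^ 4 * θ ≤ e₀)
    (w1 : ∀ e < 5, wt D L (s + e) i j ≤ θ) (w2 : ∀ e < 5, wt D L (s + e) i' j ≤ θ)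
    (w3 : ∀ e < 5, wt D L (s + e) i j' ≤ θ) (w4 : ∀ e < 5, wt D L (s + e) i' j' ≤ θ)
    (Bd : Finset (Finset ι))
    (hBd : 12 * (Bd ∩ powersetCard s univ).card ≤ (Fintype.card ι).choose s) :
    ∃ A : Fin 3 → Finset ι, (∀ l, (A l).card = s) ∧ (∀ l, Disjoint (A l) Z) ∧ (∀ l, A l ∉ Bd) ∧
      (∀ l, mi D (L i ⊔ L i') (L j ⊔ L j') ((A l ∪ E₀).sup L) ≤ e₀) ∧
      ∀ l l', l ≠ l' → Disjoint (A l) (A l') := by
  set N := Fintype.card ι with hN
  set Ps := powersetCard s (univ : Finset ι) with hPs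
  have hC : 0 < N.choose s := Nat.choose_pos (by omega)
  have hCr : (0 : ℝ) < (N.choose s : ℝ) := by exact_mod_cast hC
  set B1 := Ps.filter (fun A => ¬ Disjoint A Z) with hB1
  set B2 := Ps.filter (fun A => Disjoint A Z ∧
    e₀ < mi D (L i ⊔ L i') (L j ⊔ L j') ((A ∪ E₀).sup L)) with hB2
  have c1 : 12 * B1.card ≤ N.choose s := card_meet_le s Z hZc
  -- the informations
  have hdisj : ∀ A, Disjoint A Z → i ∉ A ∧ i' ∉ A ∧ j ∉ A ∧ j' ∉ A ∧ Disjoint A E₀ := by
    intro A hA
    refine ⟨?_, ?_, ?_, ?_, ?_⟩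
    · exact fun h => disjoint_left.1 hA h (hZ (by simp))
    · exact fun h => disjoint_left.1 hA h (hZ (by simp))
    · exact fun h => disjoint_left.1 hA h (hZ (by simp))
    · exact fun h => disjoint_left.1 hA h (hZ (by simp))
    · refine disjoint_left.2 fun x hx hx' => disjoint_left.1 hA hx (hZ ?_)
      simp only [mem_insert]
      exact Or.inr (Or.inr (Or.inr (Or.inr hx')))
  have bound : ∀ (E : Finset ι) (u v : ι), E.card ≤ 4 → u ∉ E → v ∉ E →
      (∀ e < 5, wt D L (s + e) u v ≤ θ) →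
      ∑ A ∈ Ps, (if Disjoint A E ∧ u ∉ A ∧ v ∉ A then mi D (L u) (L v) ((A ∪ E).sup L) else 0) ≤
        ((N : ℝ) / m) ^ 4 * N.choose s * θ := by
    intro E u v hE hu hv hw
    have h1 := sum_extra_le hD (L := L) s E hu hv
    have h2 := choose_ratio4 (N := N) hm hms (by omega) hE
    have h3 := hw E.card (by omega)
    have h4 := wt_nonneg hD (L := L) (s + E.card) u v
    refine h1.trans ((mul_le_mul h2 h3 h4 (by positivity)).trans (le_of_eq ?_))
    ring
  have c2 : 12 * B2.card ≤ N.choose s := by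
    have k1 := bound E₀ i j (by omega) hiE hjE w1
    have k2 := bound (insert i E₀) i' j ((card_insert_le i E₀).trans (by omega))
      (by simp [hi'E, hii.symm]) (by simp [hjE, hij.symm]) w2
    have k3 := bound (insert j E₀) i j' ((card_insert_le j E₀).trans (by omega))
      (by simp [hiE, hij]) (by simp [hj'E, hjj.symm]) w3
    have k4 := bound (insert i (insert j E₀)) i' j'
      ((card_insert_le i _).trans (by have := card_insert_le j E₀; omega))
      (by simp [hi'E, hii.symm, hi'j]) (by simp [hj'E, hij'.symm, hjj.symm]) w4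
    have k5 : ∑ A ∈ B2, mi D (L i ⊔ L i') (L j ⊔ L j') ((A ∪ E₀).sup L) ≤
        4 * (((N : ℝ) / m) ^ 4 * N.choose s * θ) := by
      have h1 : ∀ A ∈ B2, mi D (L i ⊔ L i') (L j ⊔ L j') ((A ∪ E₀).sup L) ≤
          (if Disjoint A E₀ ∧ i ∉ A ∧ j ∉ A then mi D (L i) (L j) ((A ∪ E₀).sup L) else 0) +
          (if Disjoint A (insert i E₀) ∧ i' ∉ A ∧ j ∉ A then
            mi D (L i') (L j) ((A ∪ insert i E₀).sup L) else 0) +
          (if Disjoint A (insert j E₀) ∧ i ∉ A ∧ j' ∉ A then
            mi D (L i) (L j') ((A ∪ insert j E₀).sup L) else 0) +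
          (if Disjoint A (insert i (insert j E₀)) ∧ i' ∉ A ∧ j' ∉ A then
            mi D (L i') (L j') ((A ∪ insert i (insert j E₀)).sup L) else 0) := by
        intro A hA
        rw [hB2, mem_filter] at hA
        obtain ⟨g1, g2, g3, g4, g5⟩ := hdisj A hA.2.1
        rw [if_pos ⟨g5, g1, g3⟩, if_pos ⟨disjoint_insert_right.2 ⟨g1, g5⟩, g2, g3⟩,
          if_pos ⟨disjoint_insert_right.2 ⟨g3, g5⟩, g1, g4⟩,
          if_pos ⟨disjoint_insert_right.2 ⟨g1, disjoint_insert_right.2 ⟨g3, g5⟩⟩, g2, g4⟩]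
        simp only [union_insert, sup_insert]
        exact mi_four hD _ _ _ _ _
      refine (sum_le_sum h1).trans ?_
      simp only [sum_add_distrib]
      have hsub : B2 ⊆ Ps := filter_subset _ _
      have mono : ∀ (E : Finset ι) (u v : ι),
          ∑ A ∈ B2, (if Disjoint A E ∧ u ∉ A ∧ v ∉ A then
            mi D (L u) (L v) ((A ∪ E).sup L) else 0) ≤
          ∑ A ∈ Ps, (if Disjoint A E ∧ u ∉ A ∧ v ∉ A then
            mi D (L u) (L v) ((A ∪ E).sup L) else 0) := by
        intro E u v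
        refine sum_le_sum_of_subset_of_nonneg hsub fun A _ _ => ?_
        split_ifs
        · exact mi_nonneg hD _ _ _
        · exact le_rfl
      have q1 := mono E₀ i j
      have q2 := mono (insert i E₀) i' j
      have q3 := mono (insert j E₀) i j'
      have q4 := mono (insert i (insert j E₀)) i' j'
      linarith
    have k6 : (B2.card : ℝ) * e₀ ≤ ∑ A ∈ B2, mi D (L i ⊔ L i') (L j ⊔ L j') ((A ∪ E₀).sup L) := by
      rw [← nsmul_eq_mul]
      refine card_nsmul_le_sum _ _ _ fun A hA => ?_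
      rw [hB2, mem_filter] at hA
      exact hA.2.2.le
    have k7 : (12 * B2.card : ℝ) * e₀ ≤ (N.choose s : ℝ) * e₀ := by
      have h1 := mul_le_mul_of_nonneg_right hθ hCr.le
      nlinarith
    have k8 := le_of_mul_le_mul_right k7 he₀
    exact_mod_cast k8
  obtain ⟨A, hA1, hA2, hA3⟩ := exists_three (ι := ι) h3s (B1 ∪ B2 ∪ (Bd ∩ Ps))
    (union_subset (union_subset (filter_subset _ _) (filter_subset _ _)) inter_subset_right)
    (by
      have h1 := card_union_le (B1 ∪ B2) (Bd ∩ Ps)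
      have h2 := card_union_le B1 B2
      rw [← hN]
      omega)
  have hAP : ∀ l, A l ∈ Ps := fun l => mem_powersetCard.2 ⟨subset_univ _, hA1 l⟩
  have hZ' : ∀ l, Disjoint (A l) Z := by
    intro l
    by_contra h
    exact hA2 l (mem_union_left _ (mem_union_left _ (mem_filter.2 ⟨hAP l, h⟩)))
  refine ⟨A, hA1, hZ', ?_, ?_, hA3⟩
  · intro l h
    exact hA2 l (mem_union_right _ (mem_inter.2 ⟨h, hAP l⟩))
  · intro l
    by_contra h
    push Not at h
    exact hA2 l (mem_union_left _ (mem_union_right _ (mem_filter.2 ⟨hAP l, hZ' l, h⟩)))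

end Main

section Deficit

open Module

variable {Ω : Type*} [Fintype Ω] {K : Type*} [Field K] [Finite K] {V : Type*} [AddCommGroup V]
  [Module K V] [FiniteDimensional K V] (P : FinProb Ω) (X : Ω → Dual K V)

/-- the entropy deficit is monotone and supermodular -/
theorem supMod_D : SupMod (Lat.D P X) where
  mono := fun h => Lat.D_mono P X h
  sm := fun x y => Lat.D_supermodular P X x y

theorem D_bounds {Dm : ℝ} (h : Lat.D P X ⊤ ≤ Dm) (x : Submodule K V) :
    0 ≤ Lat.D P X x ∧ Lat.D P X x ≤ Dm :=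
  ⟨Lat.D_nonneg P X x, (Lat.D_mono P X le_top).trans h⟩

end Deficit

end TV2

end Vale.Agent.P060.HW
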