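import Vale.Agent.P060.HW.TVI

/-!
# P060/HW: the ambient space of the test values and the spaces of the three pasts (definitions)
-/

open scoped Classical

noncomputable section

set_option linter.unusedSectionVars false

namespace Vale.Agent.P060.HW

open Module

variable {N d : ℕ} {E P Om : Type} [Fintype E] [Fintype P] [Fintype Om] [NeZero N]

/-- the type of the form in a slot -/
def sa (a a' : Ty N d) : Fin 4 → Ty N d := ![a, a, a', a']

/-- the type of the test in a slot -/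
def sb (b b' : Ty N d) : Fin 4 → Ty N d := ![b, b', b, b']

/-- The ambient space of the test values: slot `i` vanishes on the zero rows of the form and of the
test, and is orthogonal to the vector of the form. -/
def W0 (fr : Frame N d E Om) (p : Lin N → Co E P Om → F) (a a' b b' : Ty N d) :
    Submodule F (Fin 4 → Co E P Om → F) where
  carrier := {m | ∀ i, (∀ w, w ∈ fr.U (sa a a' i) ∨ w ∈ fr.U (sb b b' i) → m i (Sum.inr w) = 0) ∧
    gv p (sa a a' i) ⬝ᵥ m i = 0}
  zero_mem' := fun i => ⟨fun w _ => rfl, by rw [Pi.zero_apply, dotProduct_zero]⟩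
  add_mem' := by
    intro m m' h h' i
    refine ⟨fun w hw => ?_, ?_⟩
    · rw [Pi.add_apply, Pi.add_apply, (h i).1 w hw, (h' i).1 w hw, add_zero]
    · rw [Pi.add_apply, dotProduct_add, (h i).2, (h' i).2, add_zero]
  smul_mem' := by
    intro c m h i
    refine ⟨fun w hw => ?_, ?_⟩
    · rw [Pi.smul_apply, Pi.smul_apply, (h i).1 w hw, smul_zero]
    · rw [Pi.smul_apply, dotProduct_smul, (h i).2, smul_zero]

/-- The types whose rows are known on the lines of `b₀` from the past `A`: all lines of `c` are in the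
past or in the pair `β`, `c ≠ b₀` meets `b₀` in a line which is not common to `b, b'`. -/
def Blk (A : Finset (Lin N)) (b b' b₀ c : Ty N d) : Prop :=
  lins c ⊆ A ∪ lins2 (b, b') ∧ c ≠ b₀ ∧
    ∃ s, lin c s ∈ lins b₀ ∧ ¬ (lin c s ∈ lins b ∧ lin c s ∈ lins b')

/-- The space of the past `A`. -/
def NA (fr : Frame N d E Om) (p : Lin N → Co E P Om → F) (a a' b b' : Ty N d)
    (A : Finset (Lin N)) : Submodule F (Fin 4 → Co E P Om → F) where
  carrier := {m | m ∈ W0 fr p a a' b b' ∧ ∀ i, (∀ u ∈ A, p u ⬝ᵥ m i = 0) ∧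
    ∀ c, Blk A b b' (sb b b' i) c → ∀ w ∈ fr.U c, m i (Sum.inr w) = 0}
  zero_mem' := ⟨Submodule.zero_mem _, fun i => ⟨fun u _ => by rw [Pi.zero_apply, dotProduct_zero],
    fun c _ w _ => rfl⟩⟩
  add_mem' := by
    rintro m m' ⟨h0, h⟩ ⟨h0', h'⟩
    refine ⟨Submodule.add_mem _ h0 h0', fun i => ⟨fun u hu => ?_, fun c hc w hw => ?_⟩⟩
    · rw [Pi.add_apply, dotProduct_add, (h i).1 u hu, (h' i).1 u hu, add_zero]
    · rw [Pi.add_apply, Pi.add_apply, (h i).2 c hc w hw, (h' i).2 c hc w hw, add_zero]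
  smul_mem' := by
    rintro r m ⟨h0, h⟩
    refine ⟨Submodule.smul_mem _ r h0, fun i => ⟨fun u hu => ?_, fun c hc w hw => ?_⟩⟩
    · rw [Pi.smul_apply, dotProduct_smul, (h i).1 u hu, smul_zero]
    · rw [Pi.smul_apply, Pi.smul_apply, (h i).2 c hc w hw, smul_zero]

lemma NA_le_W0 (fr : Frame N d E Om) (p : Lin N → Co E P Om → F) (a a' b b' : Ty N d)
    (A : Finset (Lin N)) : NA fr p a a' b b' A ≤ W0 fr p a a' b b' := fun _ h => h.1

/-- (T7) TRIPLE SUM. -/
def TripleSum : Prop := ∀ (N d : ℕ) (E P Om : Type) [Fintype E] [Fintype P] [Fintype Om] [NeZero N]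
  (fr : Frame N d E Om) (p : Lin N → Co E P Om → F) (a a' b b' : Ty N d)
  (A : Fin 3 → Finset (Lin N)), b ≠ b' → Disjoint (lins2 (b, b')) (lins2 (a, a')) →
  (∀ l l', l ≠ l' → Disjoint (A l) (A l')) → (∀ l, Disjoint (A l) (lins2 (b, b'))) →
  (∀ l, Disjoint (A l) (lins2 (a, a'))) →
  LinearIndependent F (fun u : (A 0 ∪ A 1 ∪ A 2 ∪ lins2 (a, a') : Finset (Lin N)) =>
    fun j : P => p u (Sum.inl (Sum.inr j))) →
  W0 fr p a a' b b' ≤ NA fr p a a' b b' (A 0) ⊓ NA fr p a a' b b' (A 1) ⊔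
    (NA fr p a a' b b' (A 0) ⊓ NA fr p a a' b b' (A 2) ⊔
      NA fr p a a' b b' (A 1) ⊓ NA fr p a a' b b' (A 2))

end Vale.Agent.P060.HW
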