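import Vale.Agent.P060.HW.TV8a

/-!
# P060/HW: the statement of the one pair theorem (T8)
-/

open scoped Classical

noncomputable section

set_option linter.unusedSectionVars false

namespace Vale.Agent.P060.HW

open Module

/-- (T8) ONE PAIR.  Three disjoint pasts for the pair `β = (b, b')`: bounded deficit given every past,
nearly independent groups given every past and the third lines, no large nontrivial coefficient.
Then the law of the test values is close to its average along `Zab`. -/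
def OneBeta : Prop := ∀ (ψ : AddChar F ℂ), ψ ≠ 0 → ∀ (ε K₀ : ℝ), 0 < ε → 0 ≤ K₀ →
  ∃ d₀ > (0 : ℝ), ∃ η > (0 : ℝ), ∀ (N d : ℕ) (E P Om : Type) [Fintype E] [Fintype P] [Fintype Om]
  [NeZero N] (fr : Frame N d E Om) (p : Lin N → Co E P Om → F) (h : Ext fr p)
  (a a' b b' : Ty N d) (ι ι' : Bool) (Λ M : ℝ) (w : _ → _ → ℝ)
  (hw : PLaw (dsg fr p h) a a' ι ι' Λ M w),
  b ≠ b' → Disjoint (lins2 (b, b')) (lins2 (a, a')) →
  ∀ (i j q i' j' q' : Fin 3), i ≠ j → i ≠ q → j ≠ q → i' ≠ j' → i' ≠ q' → j' ≠ q' →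
  (∀ s t, lin b s = lin b' t → s = q ∧ t = q') →
  ∀ A : Fin 3 → Finset (Lin N), (∀ l l', l ≠ l' → Disjoint (A l) (A l')) →
  (∀ l, Disjoint (A l) (lins2 (b, b'))) → (∀ l, Disjoint (A l) (lins2 (a, a'))) →
  LinearIndependent F (fun u : (A 0 ∪ A 1 ∪ A 2 ∪ lins2 (b, b') ∪ lins2 (a, a') :
    Finset (Lin N)) => fun j : P => p u (Sum.inl (Sum.inr j))) →
  (∀ w : Om, LinearIndependent F (fun u : (A 0 ∪ A 1 ∪ A 2 ∪ lins2 (b, b') ∪ lins2 (a, a') ∪
    rowLines fr w : Finset (Lin N)) => fun j : P => p u (Sum.inl (Sum.inr j)))) →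
  (∀ l, Lat.Dc hw.prob Xf (Gp p (lins2 (b, b'))) (GA fr p h a a' (A l)) ≤ K₀) →
  Lat.Dc hw.prob Xf (Gp p (lins2 (b, b'))) (GA fr p h a a' ∅) ≤ K₀ →
  (∀ l, Lat.mi hw.prob Xf (Gp p {lin b i, lin b' i'}) (Gp p {lin b j, lin b' j'})
    (GA fr p h a a' (A l ∪ {lin b q, lin b' q'})) ≤ d₀) →
  ¬ BadC ψ (dsg fr p h) a a' w η (b, b') → tdist (dsg fr p h) a a' w (b, b') ≤ ε

end Vale.Agent.P060.HW
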