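import Vale.Agent.P060.HW.EntConv2
import Vale.Agent.P060.HW.Pasts4

/-!
# P060/HW: the analytic part of the TV theorem

Three pasts, two nearly independent groups of bounded deficit for each past, small Fourier
coefficients at the functionals which do not kill `Z`: then the law is close to its average over
the cosets of `Z`. Everything relative to a subspace `W` whose coset carries the law.
-/

open scoped Classical
open Finset Module

noncomputable section

set_option linter.unusedSectionVars false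

namespace Vale.Agent.P060.HW

section Trunc

variable {F V : Type*} [Field F] [Fintype F] [AddCommGroup V] [Module F V] [Fintype V]

/-- `three_pasts_close_common` for a function which is bounded up to a small `ℓ¹` error. -/
theorem tva_top {ψ : AddChar F ℂ} (hψ : ψ ≠ 0) {N₁ N₂ N₃ : Submodule F V}
    (s : ℕ) (hN : finrank F V ≤ finrank F ↥(N₁ ⊓ N₂ ⊔ (N₁ ⊓ N₃ ⊔ N₂ ⊓ N₃)) + s)
    {U₁ U₂ U₃ : V → Submodule F V}
    (hU₁ : IsField N₁ U₁) (hU₂ : IsField N₂ U₂) (hU₃ : IsField N₃ U₃) (R R' : ℕ)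
    (hR' : s + Fintype.card F ^ s * R ≤ R')
    (hr₁ : ∀ x, finrank F N₁ ≤ finrank F (U₁ x) + R)
    (hr₂ : ∀ x, finrank F N₂ ≤ finrank F (U₂ x) + R)
    (hr₃ : ∀ x, finrank F N₃ ≤ finrank F (U₃ x) + R)
    (f f₁ : V → ℝ) {e B δ η t : ℝ} (hδ : 0 < δ) (hB : ∀ x, |f₁ x| ≤ B)
    (ht : ∑ x, |f x - f₁ x| ≤ t)
    (he₁ : ∑ x, |f x - favg U₁ f x| ≤ e) (he₂ : ∑ x, |f x - favg U₂ f x| ≤ e)
    (he₃ : ∑ x, |f x - favg U₃ f x| ≤ e) (Z : Submodule F V) (hη0 : 0 ≤ η)
    (hη : ∀ ξ : Dual F V, (¬ ∀ z ∈ Z, ξ z = 0) → ‖fc ψ f ξ‖ ≤ η) (c : ℕ)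
    (hc : 3 * (R' * (R' / δ)) ≤ c) :
    ∑ x, |f x - avg Z f x| ≤
      2 * (48 * (e + 2 * t) + 6 * B * (δ * Fintype.card V) + 2 * t
        + (Fintype.card F : ℝ) ^ c * η) := by
  have hfin : FiniteDimensional F V := Module.Finite.of_finite
  obtain ⟨T, hT⟩ := Submodule.exists_isCompl (N₁ ⊓ N₂ ⊔ (N₁ ⊓ N₃ ⊔ N₂ ⊓ N₃))
  have hT1 := hT.codisjoint.eq_top
  have hT2 : finrank F T ≤ s := by
    have := Submodule.finrank_add_eq_of_isCompl hT
    omega
  have hT3 : finrank F T + (carr T).card * R ≤ R' := by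
    refine le_trans ?_ hR'
    rw [card_carr]
    exact Nat.add_le_add hT2 (Nat.mul_le_mul_right _
      (Nat.pow_le_pow_right Fintype.card_pos hT2))
  -- closeness for the truncated function
  have ht' : ∑ x, |f₁ x - f x| ≤ t := by
    refine le_trans (le_of_eq (Finset.sum_congr rfl fun x _ => abs_sub_comm _ _)) ht
  have key : ∀ {N : Submodule F V} {U : V → Submodule F V}, IsField N U →
      ∑ x, |f x - favg U f x| ≤ e → ∑ x, |f₁ x - favg U f₁ x| ≤ e + 2 * t := by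
    intro N U hU he
    have h1 := l1_triangle f₁ f (favg U f₁)
    have h2 := l1_triangle f (favg U f) (favg U f₁)
    have h3 := l1_favg_sub_le hU f f₁
    linarith
  obtain ⟨U, hU, hUe⟩ := three_pasts_common hT1 hU₁ hU₂ hU₃ R R' hT3 hr₁ hr₂ hr₃ f₁ hδ hB
    (key hU₁ he₁) (key hU₂ he₂) (key hU₃ he₃)
  have h1 : finrank F V ≤ finrank F U + c := by
    have : (finrank F V : ℝ) ≤ ((finrank F U + c : ℕ) : ℝ) := by
      push_cast
      linarith
    exact_mod_cast this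
  have h2 := avg_close hψ U Z f hη0 (fun ξ _ h => hη ξ h) c h1
  have h5 : ∑ x, |f x - avg U f x| ≤
      48 * (e + 2 * t) + 6 * B * (δ * Fintype.card V) + 2 * t := by
    have g1 := l1_triangle f f₁ (avg U f)
    have g2 := l1_triangle f₁ (avg U f₁) (avg U f)
    have g3 : ∑ x, |avg U f₁ x - avg U f x| ≤ ∑ x, |f₁ x - f x| :=
      l1_favg_sub_le (N := ⊤) (U := fun _ => U) (isField_const le_top) f₁ f
    linarith
  have h3 := l1_triangle f (avg U f) (avg (U ⊔ Z) f)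
  have h4 : ∑ x, |f x - favg (fun _ => U ⊔ Z) f x| ≤
      48 * (e + 2 * t) + 6 * B * (δ * Fintype.card V) + 2 * t
        + (Fintype.card F : ℝ) ^ c * η := by
    change ∑ x, |f x - avg (U ⊔ Z) f x| ≤ _
    linarith
  exact l1_refine (N := ⊤) (isField_const le_top) (isField_const le_top)
    (fun _ => le_sup_right) f h4

end Trunc

section Rel

variable {F V : Type*} [Field F] [Fintype F] [AddCommGroup V] [Module F V] [Fintype V]

/-- the function on the subspace -/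
def shf (W : Submodule F V) (m₀ : V) (f : V → ℝ) (w : W) : ℝ := f (m₀ + w)

lemma sum_shf (W : Submodule F V) (m₀ : V) {β : Type*} [AddCommMonoid β] (G : V → β)
    (hG : ∀ x, G x ≠ 0 → x - m₀ ∈ W) : ∑ w : W, G (m₀ + w) = ∑ x, G x := by
  have h1 : ∑ w : W, G (m₀ + w) = ∑ v ∈ carr W, G (m₀ + v) := by
    refine Finset.sum_bij (fun (w : W) _ => (w : V)) (fun w _ => mem_carr.2 w.2)
      (fun a _ b _ h => Subtype.ext h) (fun b hb => ⟨⟨b, mem_carr.1 hb⟩, Finset.mem_univ _, rfl⟩)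
      (fun w _ => rfl)
  have h2 : ∑ v ∈ carr W, G (m₀ + v) = ∑ v, G (m₀ + v) := by
    refine Finset.sum_subset (Finset.subset_univ _) fun v _ hv => ?_
    by_contra h
    have := hG _ h
    rw [add_sub_cancel_left] at this
    exact hv (mem_carr.2 this)
  rw [h1, h2]
  exact Fintype.sum_equiv (Equiv.addLeft m₀) _ _ fun x => rfl

lemma avg_shf (W U : Submodule F V) (hU : U ≤ W) (m₀ : V) (f : V → ℝ) (w : W) :
    avg (U.comap W.subtype) (shf W m₀ f) w = avg U f (m₀ + w) := by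
  have h1 : ∀ g : V → ℝ, ∑ u ∈ carr (U.comap W.subtype), g (u : V) = ∑ u ∈ carr U, g u := by
    intro g
    refine Finset.sum_bij (fun (u : W) _ => (u : V)) (fun u hu => ?_)
      (fun a _ b _ h => Subtype.ext h) (fun b hb => ?_) (fun w _ => rfl)
    · have h0 : u ∈ U.comap W.subtype := mem_carr.1 hu
      exact mem_carr.2 (show (u : V) ∈ U from h0)
    · have h0 : b ∈ U := mem_carr.1 hb
      exact ⟨⟨b, hU h0⟩, mem_carr.2 (show (⟨b, hU h0⟩ : W) ∈ U.comap W.subtype from h0), rfl⟩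
  have h2 : ((carr (U.comap W.subtype)).card : ℝ) = (carr U).card := by
    have := h1 (fun _ => 1)
    simpa using this
  unfold avg
  rw [h2, ← h1 (fun u => f (m₀ + w + u))]
  congr 1
  refine Finset.sum_congr rfl fun u _ => ?_
  unfold shf
  rw [Submodule.coe_add, add_assoc]

lemma isField_comap {W N : Submodule F V} {U : V → Submodule F V} (hU : IsField N U) (m₀ : V) :
    IsField (N.comap W.subtype) (fun w : W => (U (m₀ + w)).comap W.subtype) := by
  refine ⟨fun w => Submodule.comap_mono (hU.le _), fun w n hn => ?_⟩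
  have h1 : U (m₀ + ((w + n : W) : V)) = U (m₀ + w) := by
    rw [Submodule.coe_add, ← add_assoc]
    exact hU.inv _ _ hn
  simp only [h1]

lemma finrank_comap {W U : Submodule F V} (hU : U ≤ W) :
    finrank F (U.comap W.subtype) = finrank F U :=
  LinearEquiv.finrank_eq (Submodule.comapSubtypeEquivOfLe hU)

/-- The relative version. -/
theorem tva_rel {ψ : AddChar F ℂ} (hψ : ψ ≠ 0) (W : Submodule F V) (m₀ : V)
    {N₁ N₂ N₃ : Submodule F V} (hW₁ : N₁ ≤ W) (hW₂ : N₂ ≤ W) (hW₃ : N₃ ≤ W)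
    (s : ℕ) (hN : finrank F W ≤ finrank F ↥(N₁ ⊓ N₂ ⊔ (N₁ ⊓ N₃ ⊔ N₂ ⊓ N₃)) + s)
    {U₁ U₂ U₃ : V → Submodule F V}
    (hU₁ : IsField N₁ U₁) (hU₂ : IsField N₂ U₂) (hU₃ : IsField N₃ U₃) (R R' : ℕ)
    (hR' : s + Fintype.card F ^ s * R ≤ R')
    (hr₁ : ∀ x, finrank F N₁ ≤ finrank F (U₁ x) + R)
    (hr₂ : ∀ x, finrank F N₂ ≤ finrank F (U₂ x) + R)
    (hr₃ : ∀ x, finrank F N₃ ≤ finrank F (U₃ x) + R)
    (f f₁ : V → ℝ) (hf : ∀ x, f x ≠ 0 → x - m₀ ∈ W) (hf₁ : ∀ x, f₁ x ≠ 0 → x - m₀ ∈ W)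
    {e B δ η t : ℝ} (hδ : 0 < δ) (hB : ∀ x, |f₁ x| ≤ B)
    (ht : ∑ x, |f x - f₁ x| ≤ t)
    (he₁ : ∑ x, |f x - favg U₁ f x| ≤ e) (he₂ : ∑ x, |f x - favg U₂ f x| ≤ e)
    (he₃ : ∑ x, |f x - favg U₃ f x| ≤ e) (Z : Submodule F V) (hZ : Z ≤ W) (hη0 : 0 ≤ η)
    (hη : ∀ ξ : Dual F V, (¬ ∀ z ∈ Z, ξ z = 0) → ‖fc ψ f ξ‖ ≤ η) (c : ℕ)
    (hc : 3 * (R' * (R' / δ)) ≤ c) :
    ∑ x, |f x - avg Z f x| ≤
      2 * (48 * (e + 2 * t) + 6 * B * (δ * (carr W).card) + 2 * t
        + (Fintype.card F : ℝ) ^ c * η) := by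
  have hfin : FiniteDimensional F V := Module.Finite.of_finite
  have hcard : (Fintype.card W : ℝ) = (carr W).card := by
    have := sum_shf W (0 : V) (fun x => if x ∈ W then (1 : ℝ) else 0) (by
      intro x hx
      rw [sub_zero]
      by_contra h
      exact hx (if_neg h))
    simp only [zero_add, Submodule.coe_mem, if_true, Finset.sum_const, Finset.card_univ,
      nsmul_eq_mul, mul_one] at this
    rw [this, Finset.sum_boole]
    rfl
  have havg0 : ∀ (U : Submodule F V) (g : V → ℝ), U ≤ W → (∀ x, g x ≠ 0 → x - m₀ ∈ W) →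
      ∀ x, avg U g x ≠ 0 → x - m₀ ∈ W := by
    intro U g hU hg x hx
    by_contra h
    apply hx
    unfold avg
    rw [Finset.sum_eq_zero, zero_div]
    intro u hu
    by_contra h0
    apply h
    have h1 := hg _ h0
    have h2 := hU (mem_carr.1 hu)
    have : x - m₀ = (x + u - m₀) - u := by abel
    rw [this]
    exact W.sub_mem h1 h2
  have hfield : ∀ {N : Submodule F V} {U : V → Submodule F V}, N ≤ W → IsField N U →
      ∑ x, |f x - favg U f x| ≤ e →
      ∑ w : W, |shf W m₀ f w - favg (fun w : W => (U (m₀ + w)).comap W.subtype) (shf W m₀ f) w|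
        ≤ e := by
    intro N U hNW hU he
    have h1 : ∀ w : W, favg (fun w : W => (U (m₀ + w)).comap W.subtype) (shf W m₀ f) w
        = favg U f (m₀ + w) := fun w => avg_shf W (U (m₀ + w)) ((hU.le _).trans hNW) m₀ f w
    refine le_trans (le_of_eq ?_) he
    simp only [h1]
    refine sum_shf W m₀ (fun x => |f x - favg U f x|) ?_
    intro x hx
    by_contra h
    apply hx
    have h2 : f x = 0 := by
      by_contra h0; exact h (hf x h0)
    have h3 : favg U f x = 0 := by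
      by_contra h0
      exact h (havg0 (U x) f ((hU.le _).trans hNW) hf x h0)
    simp only [h2, h3, sub_zero, abs_zero]
  have hNs : finrank F W ≤ finrank F ↥(N₁.comap W.subtype ⊓ N₂.comap W.subtype ⊔
      (N₁.comap W.subtype ⊓ N₃.comap W.subtype ⊔ N₂.comap W.subtype ⊓ N₃.comap W.subtype)) + s := by
    refine hN.trans (Nat.add_le_add_right ?_ s)
    have hle : N₁ ⊓ N₂ ⊔ (N₁ ⊓ N₃ ⊔ N₂ ⊓ N₃) ≤ W :=
      sup_le (inf_le_left.trans hW₁) (sup_le (inf_le_left.trans hW₁) (inf_le_left.trans hW₂))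
    rw [← finrank_comap hle]
    apply Submodule.finrank_mono
    intro x hx
    have hx' : (x : V) ∈ N₁ ⊓ N₂ ⊔ (N₁ ⊓ N₃ ⊔ N₂ ⊓ N₃) := hx
    obtain ⟨a, ha, y, hy, hxy⟩ := Submodule.mem_sup.1 hx'
    obtain ⟨b, hb, c, hc, hbc⟩ := Submodule.mem_sup.1 hy
    have haW := hW₁ ha.1
    have hbW := hW₁ hb.1
    have hcW := hW₂ hc.1
    refine Submodule.mem_sup.2 ⟨⟨a, haW⟩, ha, ⟨b + c, W.add_mem hbW hcW⟩, ?_, ?_⟩
    · exact Submodule.mem_sup.2 ⟨⟨b, hbW⟩, hb, ⟨c, hcW⟩, hc, rfl⟩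
    · apply Subtype.ext
      show a + (b + c) = x
      rw [hbc, hxy]
  have main := tva_top (V := W) hψ s hNs (isField_comap hU₁ m₀) (isField_comap hU₂ m₀)
    (isField_comap hU₃ m₀) R R' hR'
    (fun x => by rw [finrank_comap hW₁, finrank_comap ((hU₁.le _).trans hW₁)]; exact hr₁ _)
    (fun x => by rw [finrank_comap hW₂, finrank_comap ((hU₂.le _).trans hW₂)]; exact hr₂ _)
    (fun x => by rw [finrank_comap hW₃, finrank_comap ((hU₃.le _).trans hW₃)]; exact hr₃ _)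
    (shf W m₀ f) (shf W m₀ f₁) (t := t) hδ (fun w => hB _) (by
      refine le_trans (le_of_eq ?_) ht
      refine sum_shf W m₀ (fun x => |f x - f₁ x|) ?_
      intro x hx
      by_contra h
      apply hx
      have h2 : f x = 0 := by
        by_contra h0; exact h (hf x h0)
      have h3 : f₁ x = 0 := by
        by_contra h0; exact h (hf₁ x h0)
      simp only [h2, h3, sub_zero, abs_zero])
    (hfield hW₁ hU₁ he₁) (hfield hW₂ hU₂ he₂) (hfield hW₃ hU₃ he₃) (Z.comap W.subtype) hη0 (by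
      intro ξ' hξ'
      obtain ⟨ξ, hξ⟩ := LinearMap.exists_extend ξ'
      have hξ2 : ∀ w : W, ξ (w : V) = ξ' w := fun w => LinearMap.congr_fun hξ w
      have h1 : ¬ ∀ z ∈ Z, ξ z = 0 := by
        intro h
        apply hξ'
        intro z hz
        rw [← hξ2]
        exact h z hz
      have h2 := hη ξ h1
      have h3 : fc ψ f ξ = ψ (ξ m₀) * fc ψ (shf W m₀ f) ξ' := by
        unfold fc
        rw [← sum_shf W m₀ (fun x => (f x : ℂ) * ψ (ξ x)), Finset.mul_sum]
        · refine Finset.sum_congr rfl fun w _ => ?_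
          unfold shf
          rw [map_add, AddChar.map_add_eq_mul, hξ2]
          ring
        · intro x hx
          apply hf
          intro h0
          apply hx
          rw [h0]; simp
      rw [h3, norm_mul, AddChar.norm_apply, one_mul] at h2
      exact h2) c hc
  rw [hcard] at main
  refine le_trans (le_of_eq ?_) main
  have h1 : ∀ w : W, avg (Z.comap W.subtype) (shf W m₀ f) w = avg Z f (m₀ + w) :=
    fun w => avg_shf W Z hZ m₀ f w
  simp only [h1]
  refine (sum_shf W m₀ (fun x => |f x - avg Z f x|) ?_).symm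
  intro x hx
  by_contra h
  apply hx
  have h2 : f x = 0 := by
    by_contra h0; exact h (hf x h0)
  have h3 : avg Z f x = 0 := by
    by_contra h0
    exact h (havg0 Z f hZ hf x h0)
  simp only [h2, h3, sub_zero, abs_zero]

end Rel

namespace FinProb

variable {Ω : Type*} [Fintype Ω] (P : FinProb Ω)

lemma p_const {τ : Type*} (t : τ) : P.p (fun _ => t) t = 1 := by
  unfold p
  simp only [if_true]
  exact P.sum_one

/-- Unconditional truncation. -/
theorem trunc_mass' {α : Type*} [Fintype α] (f : Ω → α) (S : Finset α) {L K : ℝ}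
    (hL : 1 < L) (hS : ∀ ω, 0 < P.w ω → f ω ∈ S) (hne : 0 < S.card)
    (hK : Real.log S.card - P.H f ≤ K) :
    ∑ y, (if L / S.card < P.p f y then P.p f y else 0) ≤ (K + 1) / Real.log L := by
  have h1 : P.H (fun ω => (f ω, (fun _ : Ω => ()) ω)) = P.H f :=
    P.H_congr_det fun ω ω' => ⟨fun h => by simp [h], fun h => (Prod.ext_iff.1 h).1⟩
  have h2 : P.H (fun _ : Ω => ()) = 0 := by
    unfold H
    refine Finset.sum_eq_zero fun ω _ => ?_
    rw [P.p_const ()]
    simp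
  have h3 := P.trunc_mass f (fun _ => ()) (fun _ => S) (M := S.card) (L := L) (K := K)
    (by exact_mod_cast hne) hL hS (fun _ => le_rfl) (by
      have h4 : P.H (fun ω => (f ω, (fun _ : Ω => ()) ω)) - P.H (fun _ : Ω => ()) = P.H f := by
        rw [h1, h2, sub_zero]
      simp only at h4
      rw [h4]
      exact hK)
  refine le_trans (le_of_eq ?_) h3
  have h5 : ∀ y, P.cond f (fun _ => ()) () y = P.p f y := by
    intro y
    unfold cond
    rw [P.p_const (), div_one]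
    unfold p
    refine Finset.sum_congr rfl fun ω _ => ?_
    simp
  simp only [h5]
  rw [← Finset.sum_mul, P.sum_one, one_mul]

end FinProb

section Assembly

universe u v w x

variable (F : Type u) [Field F] [Fintype F]

/-- **Analytic TV theorem.** -/
theorem tv_assembly (ψ : AddChar F ℂ) (hψ : ψ ≠ 0) {ε K : ℝ} (hε : 0 < ε) (hK : 0 ≤ K) (s : ℕ) :
    ∃ d₀ : ℝ, 0 < d₀ ∧ ∃ η₀ : ℝ, 0 < η₀ ∧
    ∀ (V : Type v) [AddCommGroup V] [Module F V] [Fintype V] (Ω : Type w) [Fintype Ω]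
      (P : FinProb Ω) (M : Ω → V) (W : Submodule F V) (m₀ : V)
      (_ : ∀ ω, 0 < P.w ω → M ω - m₀ ∈ W) (_ : Real.log (carr W).card - P.H M ≤ K)
      (τ : Fin 3 → Type x) [∀ l, Fintype (τ l)] (T : ∀ l, Ω → τ l) (X₁ X₂ : Fin 3 → Ω → V)
      (c : ∀ l, τ l → V) (_ : ∀ l ω, M ω = X₁ l ω + X₂ l ω + c l (T l ω))
      (N : Fin 3 → Submodule F V) (_ : ∀ l, N l ≤ W)
      (_ : ∀ l ω ω', T l ω = T l ω' → X₁ l ω - X₁ l ω' ∈ N l)
      (_ : ∀ l ω ω', T l ω = T l ω' → X₂ l ω - X₂ l ω' ∈ N l)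
      (_ : ∀ l, Real.log (carr (N l)).card - (P.H (fun ω => (X₁ l ω, T l ω)) - P.H (T l)) ≤ K)
      (_ : ∀ l, Real.log (carr (N l)).card - (P.H (fun ω => (X₂ l ω, T l ω)) - P.H (T l)) ≤ K)
      (_ : ∀ l, P.H (fun ω => (X₁ l ω, T l ω)) + P.H (fun ω => (X₂ l ω, T l ω))
        - P.H (fun ω => (X₁ l ω, X₂ l ω, T l ω)) - P.H (T l) ≤ d₀)
      (_ : finrank F W ≤ finrank F ↥(N 0 ⊓ N 1 ⊔ (N 0 ⊓ N 2 ⊔ N 1 ⊓ N 2)) + s)
      (Z : Submodule F V) (_ : Z ≤ W)
      (_ : ∀ ξ : Dual F V, (¬ ∀ z ∈ Z, ξ z = 0) →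
        ‖∑ ω, (P.w ω : ℂ) * ψ (ξ (M ω))‖ ≤ η₀),
      ∑ x, |P.p M x - avg Z (P.p M) x| ≤ ε := by
  set e₀ : ℝ := ε / 1000 with he₀
  have he₀' : 0 < e₀ := by positivity
  set L : ℝ := Real.exp ((K + 1) / e₀) with hL
  have hL1 : 1 < L := by
    rw [hL]
    exact Real.one_lt_exp_iff.2 (by positivity)
  have hlog : Real.log L = (K + 1) / e₀ := Real.log_exp _
  have hKL : (K + 1) / Real.log L = e₀ := by
    rw [hlog]
    field_simp
  have hL0 : 0 < L := by linarith
  set p : ℝ := e₀ ^ 2 / L with hp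
  have hp0 : 0 < p := by positivity
  have hpL : Real.sqrt (p * L) = e₀ := by
    rw [hp, div_mul_cancel₀ _ hL0.ne']
    exact Real.sqrt_sq he₀'.le
  set R : ℕ := ⌊L / p⌋₊ with hR
  set R' : ℕ := s + Fintype.card F ^ s * R with hR'
  set δ : ℝ := e₀ / L with hδ
  have hδ0 : 0 < δ := by positivity
  set c : ℕ := ⌈3 * ((R' : ℝ) * (R' / δ))⌉₊ with hc
  have hFc : 0 < (Fintype.card F : ℝ) ^ c := by
    have : 0 < Fintype.card F := Fintype.card_pos
    positivity
  refine ⟨e₀ ^ 2 / 2, by positivity, e₀ / (Fintype.card F : ℝ) ^ c, by positivity, ?_⟩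
  intro V _ _ _ Ω _ P M W m₀ hM hKM τ _ T X₁ X₂ cc hsum N hNW h₁ h₂ hK₁ hK₂ hI hs Z hZ hco
  have hfield : ∀ l, ∃ U : V → Submodule F V, IsField (N l) U ∧
      (∀ x, finrank F (N l) ≤ finrank F (U x) + R) ∧
      ∑ x, |P.p M x - favg U (P.p M) x| ≤ 8 * e₀ := by
    intro l
    obtain ⟨U, a, b, c⟩ := P.near_field2 ψ hψ (N l) (T l) (X₁ l) (X₂ l) (cc l) (h₁ l) (h₂ l)
      hL1 hp0 (hK₁ l) (hK₂ l) (hI l)
    have h3 : (fun ω => X₁ l ω + X₂ l ω + cc l (T l ω)) = M := funext fun ω => (hsum l ω).symm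
    rw [h3] at c
    refine ⟨U, a, b, c.trans (le_of_eq ?_)⟩
    rw [hKL, hpL]
    have : (2 : ℝ) * (e₀ ^ 2 / 2) = e₀ ^ 2 := by ring
    rw [this, Real.sqrt_sq he₀'.le]
    ring
  obtain ⟨U₀, a₀, b₀, c₀⟩ := hfield 0
  obtain ⟨U₁, a₁, b₁, c₁⟩ := hfield 1
  obtain ⟨U₂, a₂, b₂, c₂⟩ := hfield 2
  have hW := carr_card_pos W
  have hsupp : ∀ x, P.p M x ≠ 0 → x - m₀ ∈ W := by
    intro x hx
    obtain ⟨ω, rfl, h0⟩ := P.exists_of_p_ne_zero hx
    exact hM ω h0
  set f₁ : V → ℝ := fun x => if L / (carr W).card < P.p M x then 0 else P.p M x with hf₁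
  have ht : ∑ x, |P.p M x - f₁ x| ≤ e₀ := by
    have h3 := P.trunc_mass' M ((carr W).image fun v => v + m₀) (L := L) (K := K) hL1
      (fun ω h => Finset.mem_image.2 ⟨M ω - m₀, mem_carr.2 (hM ω h), by abel⟩)
      (Finset.card_pos.2 ((carr_nonempty W).image _)) (by
        rw [Finset.card_image_of_injective _ (add_left_injective m₀)]
        exact hKM)
    rw [Finset.card_image_of_injective _ (add_left_injective m₀), hKL] at h3
    refine le_trans (le_of_eq (Finset.sum_congr rfl fun x _ => ?_)) h3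
    rw [hf₁]
    simp only
    split_ifs
    · rw [sub_zero, abs_of_nonneg (P.p_nonneg _ _)]
    · rw [sub_self, abs_zero]
  have hB : ∀ x, |f₁ x| ≤ L / (carr W).card := by
    intro x
    rw [hf₁]
    simp only
    split_ifs with h
    · rw [abs_zero]; positivity
    · rw [abs_of_nonneg (P.p_nonneg _ _)]; exact not_lt.1 h
  have main := tva_rel hψ W m₀ (hNW 0) (hNW 1) (hNW 2) s hs a₀ a₁ a₂ R R' le_rfl b₀ b₁ b₂
    (P.p M) f₁ hsupp (fun x hx => hsupp x (fun h0 => hx (by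
      rw [hf₁]; simp only; rw [h0]; simp))) hδ0 hB ht c₀ c₁ c₂ Z hZ
    (η := e₀ / (Fintype.card F : ℝ) ^ c) (by positivity) (by
      intro ξ hξ
      refine le_trans (le_of_eq ?_) (hco ξ hξ)
      congr 1
      unfold fc
      have h5 : ∀ x, (P.p M x : ℂ) * ψ (ξ x)
          = ∑ ω, (if M ω = x then (P.w ω : ℂ) * ψ (ξ (M ω)) else 0) := by
        intro x
        unfold FinProb.p
        push_cast
        rw [Finset.sum_mul]
        refine Finset.sum_congr rfl fun ω _ => ?_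
        split_ifs with h
        · rw [h]
        · simp
      rw [Finset.sum_congr rfl fun x _ => h5 x, Finset.sum_comm]
      refine Finset.sum_congr rfl fun ω _ => ?_
      rw [Finset.sum_ite_eq]
      simp) c (Nat.le_ceil _)
  refine main.trans ?_
  have e1 : 6 * (L / (carr W).card) * (δ * (carr W).card) = 6 * e₀ := by
    rw [hδ]
    field_simp
  have e2 : (Fintype.card F : ℝ) ^ c * (e₀ / (Fintype.card F : ℝ) ^ c) = e₀ := by
    field_simp
  rw [e1, e2]
  linarith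

end Assembly

end Vale.Agent.P060.HW
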