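import Vale.Agent.P060.HW.TVA
import Vale.Agent.P060.HW.Lat

/-!
# P060/HW: the bridge from the lattice of functionals to the analytic TV theorem
-/

open scoped Classical
open Finset Module

noncomputable section

set_option linter.unusedSectionVars false

namespace Vale.Agent.P060.HW

namespace Lat

variable {Ω : Type*} [Fintype Ω] {K : Type*} [Field K] [Finite K] {V : Type*} [AddCommGroup V]
  [Module K V] [FiniteDimensional K V] (P : FinProb Ω) (X : Ω → Dual K V)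

omit [Finite K] in
/-- Data processing and conditioning on functions of one side. -/
theorem info_bridge {R₁ R₂ G₁ G₂ P₁ P₂ S : Submodule K V} (hG₁ : G₁ ≤ R₁) (hG₂ : G₂ ≤ R₂)
    (hS : S = R₁ ⊓ R₂ ⊔ (G₁ ⊔ G₂)) (hP₁ : P₁ ≤ R₁ ⊔ S) (hP₂ : P₂ ≤ R₂ ⊔ S)
    :
    ent P X P₁ + ent P X P₂ - ent P X (P₁ ⊔ P₂) - ent P X S ≤
      ent P X R₁ + ent P X R₂ - ent P X (R₁ ⊔ R₂) - ent P X (R₁ ⊓ R₂) := by
  have hSle : S ≤ R₁ ⊔ R₂ := by
    rw [hS]
    exact sup_le (inf_le_left.trans le_sup_left)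
      (sup_le (hG₁.trans le_sup_left) (hG₂.trans le_sup_right))
  -- data processing, first variable
  have h1 := ent_submodular P X (R₁ ⊔ S) (P₁ ⊔ P₂)
  have h1a : ent P X P₁ ≤ ent P X ((R₁ ⊔ S) ⊓ (P₁ ⊔ P₂)) :=
    ent_mono P X (le_inf hP₁ le_sup_left)
  have h1b : R₁ ⊔ S ⊔ (P₁ ⊔ P₂) = R₁ ⊔ S ⊔ P₂ := by
    rw [← sup_assoc, sup_eq_left.2 hP₁]
  rw [h1b] at h1
  -- second variable
  have h2 := ent_submodular P X (R₂ ⊔ S) (R₁ ⊔ S ⊔ P₂)
  have h2a : ent P X P₂ ≤ ent P X ((R₂ ⊔ S) ⊓ (R₁ ⊔ S ⊔ P₂)) :=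
    ent_mono P X (le_inf hP₂ le_sup_right)
  have h2b : R₂ ⊔ S ⊔ (R₁ ⊔ S ⊔ P₂) = R₁ ⊔ R₂ := by
    apply le_antisymm
    · refine sup_le (sup_le le_sup_right hSle) (sup_le (sup_le le_sup_left hSle) ?_)
      exact hP₂.trans (sup_le le_sup_right hSle)
    · exact sup_le (le_sup_left.trans (le_sup_left.trans le_sup_right))
        (le_sup_left.trans le_sup_left)
  rw [h2b] at h2
  -- conditioning on `G₂`, a function of the second variable
  have h3 := ent_submodular P X R₁ S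
  have h3a : ent P X (R₁ ⊓ R₂ ⊔ G₁) ≤ ent P X (R₁ ⊓ S) := by
    refine ent_mono P X (le_inf (sup_le inf_le_left hG₁) ?_)
    rw [hS]
    exact sup_le le_sup_left (le_sup_left.trans le_sup_right)
  have h4 := ent_submodular P X R₂ (R₁ ⊓ R₂ ⊔ G₁)
  have h4a : ent P X (R₁ ⊓ R₂) ≤ ent P X (R₂ ⊓ (R₁ ⊓ R₂ ⊔ G₁)) :=
    ent_mono P X (le_inf inf_le_right le_sup_left)
  have h4b : R₂ ⊔ (R₁ ⊓ R₂ ⊔ G₁) = R₂ ⊔ S := by
    rw [hS]
    apply le_antisymm
    · exact sup_le le_sup_left (sup_le (le_sup_left.trans le_sup_right)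
        ((le_sup_left.trans le_sup_right).trans le_sup_right))
    · exact sup_le le_sup_left (sup_le (le_sup_left.trans le_sup_right)
        (sup_le (le_sup_right.trans le_sup_right) (hG₂.trans le_sup_left)))
  rw [h4b] at h4
  linarith

/-- The same in terms of the deficit. -/
theorem info_bridge_D {R₁ R₂ G₁ G₂ P₁ P₂ S : Submodule K V} (hG₁ : G₁ ≤ R₁) (hG₂ : G₂ ≤ R₂)
    (hS : S = R₁ ⊓ R₂ ⊔ (G₁ ⊔ G₂)) (hP₁ : P₁ ≤ R₁ ⊔ S) (hP₂ : P₂ ≤ R₂ ⊔ S)
    :
    ent P X P₁ + ent P X P₂ - ent P X (P₁ ⊔ P₂) - ent P X S ≤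
      D P X (R₁ ⊔ R₂) + D P X (R₁ ⊓ R₂) - D P X R₁ - D P X R₂ := by
  refine (info_bridge P X hG₁ hG₂ hS hP₁ hP₂).trans (le_of_eq ?_)
  have h2 : (finrank K (R₁ ⊔ R₂ : Submodule K V) : ℝ) + finrank K (R₁ ⊓ R₂ : Submodule K V) =
      finrank K R₁ + finrank K R₂ := by
    exact_mod_cast Submodule.finrank_sup_add_finrank_inf_eq R₁ R₂
  have h3 := congrArg (· * Real.log (Nat.card K)) h2
  simp only [add_mul] at h3
  unfold D
  linarith

omit [Fintype Ω] in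
/-- Dimension of the range modulo `S`. -/
theorem finrank_range_sup {T : Type*} [AddCommGroup T] [Module K T] [FiniteDimensional K T]
    (e : T →ₗ[K] V) (S : Submodule K V) :
    finrank K (LinearMap.range e ⊔ S : Submodule K V) + finrank K (S.comap e)
      = finrank K S + finrank K T := by
  have h1 := LinearMap.finrank_range_add_finrank_ker (S.mkQ.comp e)
  have h2 : LinearMap.ker (S.mkQ.comp e) = S.comap e := by
    rw [LinearMap.ker_comp, Submodule.ker_mkQ]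
  have h3 : LinearMap.range (S.mkQ.comp e) = (LinearMap.range e).map S.mkQ :=
    LinearMap.range_comp _ _
  rw [h2, h3] at h1
  have h4 : (LinearMap.range e ⊔ S).map S.mkQ = (LinearMap.range e).map S.mkQ := by
    rw [Submodule.map_sup, Submodule.mkQ_map_self, sup_bot_eq]
  have h5 := LinearMap.finrank_range_add_finrank_ker (S.mkQ.domRestrict (LinearMap.range e ⊔ S))
  have h6 : LinearMap.range (S.mkQ.domRestrict (LinearMap.range e ⊔ S))
      = (LinearMap.range e ⊔ S).map S.mkQ := by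
    rw [LinearMap.domRestrict, LinearMap.range_comp, Submodule.range_subtype]
  have h7 : finrank K (LinearMap.ker (S.mkQ.domRestrict (LinearMap.range e ⊔ S)))
      = finrank K S := by
    have : LinearMap.ker (S.mkQ.domRestrict (LinearMap.range e ⊔ S))
        = S.comap (LinearMap.range e ⊔ S).subtype := by
      rw [LinearMap.domRestrict, LinearMap.ker_comp, Submodule.ker_mkQ]
    rw [this]
    exact LinearEquiv.finrank_eq (Submodule.comapSubtypeEquivOfLe le_sup_right)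
  rw [h6, h7, h4] at h5
  omega

end Lat

section Bridge

universe u v w x

variable (F : Type u) [Field F] [Fintype F]

/-- **Bridge.** The law of the observed value `M`, whose functionals are `X ∘ τ`, is close to its
average over `Z` if for three pasts `A l` the functionals split into two groups `e₁ l, e₂ l` of
bounded deficit and small mutual information given the past, and if all functionals which do not
kill `Z` have small Fourier coefficients. `Kn l` contains the functionals one of whose group parts is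
known from the past and the other group. -/
theorem tv_bridge (ψ : AddChar F ℂ) (hψ : ψ ≠ 0) {ε κ : ℝ} (hε : 0 < ε) (hκ : 0 ≤ κ) (s : ℕ) :
    ∃ d₀ : ℝ, 0 < d₀ ∧ ∃ η₀ : ℝ, 0 < η₀ ∧
    ∀ (V : Type v) [AddCommGroup V] [Module F V] [Fintype V] (Ω : Type w) [Fintype Ω]
      (P : FinProb Ω) (L : Type x) [AddCommGroup L] [Module F L] [FiniteDimensional F L]
      (X : Ω → Dual F L) (M : Ω → V) (τ : Dual F V →ₗ[F] L)
      (_ : ∀ ω (ξ : Dual F V), ξ (M ω) = X ω (τ ξ)) (L₀ : Submodule F L)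
      (_ : ∀ ω ω', 0 < P.w ω → 0 < P.w ω' → ∀ t ∈ L₀, X ω t = X ω' t)
      (_ : Lat.D P X (LinearMap.range τ ⊔ L₀) - Lat.D P X L₀ ≤ κ)
      (A E₁ E₂ : Fin 3 → Submodule F L) (_ : ∀ l, L₀ ≤ A l)
      (e₁ e₂ : Fin 3 → Dual F V →ₗ[F] L) (_ : ∀ l ξ, e₁ l ξ ∈ A l ⊔ E₁ l)
      (_ : ∀ l ξ, e₂ l ξ ∈ A l ⊔ E₂ l) (_ : ∀ l ξ, τ ξ - e₁ l ξ - e₂ l ξ ∈ A l)
      (Kn : Fin 3 → Submodule F (Dual F V)) (_ : ∀ l ξ, e₁ l ξ ∈ A l ⊔ E₂ l → ξ ∈ Kn l)
      (_ : ∀ l ξ, e₂ l ξ ∈ A l ⊔ E₁ l → ξ ∈ Kn l)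
      (_ : ∀ l, Lat.D P X (A l ⊔ E₁ l ⊔ (A l ⊔ E₂ l)) - Lat.D P X (A l) ≤ κ)
      (_ : ∀ l, Lat.D P X (A l ⊔ E₁ l ⊔ (A l ⊔ E₂ l))
        + Lat.D P X ((A l ⊔ E₁ l) ⊓ (A l ⊔ E₂ l))
        - Lat.D P X (A l ⊔ E₁ l) - Lat.D P X (A l ⊔ E₂ l) ≤ d₀)
      (_ : finrank F ↥((Kn 0 ⊔ Kn 1) ⊓ ((Kn 0 ⊔ Kn 2) ⊓ (Kn 1 ⊔ Kn 2)))
        ≤ finrank F (L₀.comap τ) + s)
      (Z : Submodule F V) (_ : ∀ ξ, τ ξ ∈ L₀ → ∀ z ∈ Z, ξ z = 0)
      (_ : ∀ ξ : Dual F V, (¬ ∀ z ∈ Z, ξ z = 0) →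
        ‖∑ ω, (P.w ω : ℂ) * ψ (ξ (M ω))‖ ≤ η₀),
      ∑ x, |P.p M x - avg Z (P.p M) x| ≤ ε := by
  obtain ⟨d₀, hd₀, η₀, hη₀, main⟩ := tv_assembly.{u, v, w, max u x} F ψ hψ hε hκ s
  refine ⟨d₀, hd₀, η₀, hη₀, ?_⟩
  intro V _ _ _ Ω _ P L _ _ _ X M τ hM L₀ hc hdef A E₁ E₂ hA e₁ e₂ he₁ he₂ he Kn hK₁ hK₂ hD hI hs
    Z hZ hco
  have hfV : FiniteDimensional F V := Module.Finite.of_finite
  -- elements with prescribed functionals
  set dd : Dual F (Dual F V) → V := fun φ => (evalEquiv F V).symm φ with hdd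
  have dd_spec : ∀ (φ : Dual F (Dual F V)) (ξ : Dual F V), ξ (dd φ) = φ ξ :=
    fun φ ξ => apply_evalEquiv_symm_apply F V ξ φ
  have hsep : ∀ a b : V, (∀ ξ : Dual F V, ξ a = ξ b) → a = b := by
    intro a b h
    apply (evalEquiv F V).injective
    ext ξ
    exact h ξ
  -- the support
  obtain ⟨ω₀, hω₀⟩ : ∃ ω₀, 0 < P.w ω₀ := by
    by_contra h
    push Not at h
    have h1 : ∑ ω, P.w ω ≤ 0 := Finset.sum_nonpos fun ω _ => h ω
    rw [P.sum_one] at h1
    linarith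
  set W : Submodule F V := (L₀.comap τ).dualCoannihilator with hW
  have hlogc : ∀ U : Submodule F V, Real.log ((carr U).card : ℝ)
      = finrank F U * Real.log (Nat.card F) := by
    intro U
    rw [card_carr, Nat.card_eq_fintype_card]
    push_cast
    rw [Real.log_pow]
  have hnc : ∀ Φ : Submodule F (Dual F V), finrank F Φ + finrank F Φ.dualCoannihilator
      = finrank F V := fun Φ => Subspace.finrank_add_finrank_dualCoannihilator_eq Φ
  have hdualV : finrank F (Dual F V) = finrank F V := Subspace.dual_finrank_eq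
  -- the known spaces
  set R₁ : Fin 3 → Submodule F L := fun l => A l ⊔ E₁ l with hR₁
  set R₂ : Fin 3 → Submodule F L := fun l => A l ⊔ E₂ l with hR₂
  set S : Fin 3 → Submodule F L := fun l =>
    R₁ l ⊓ R₂ l ⊔ ((Kn l).map (e₁ l) ⊔ (Kn l).map (e₂ l)) with hSdef
  have hAS : ∀ l, A l ≤ S l := fun l =>
    (le_inf le_sup_left le_sup_left).trans le_sup_left
  have he₁' : ∀ l, LinearMap.range (e₁ l) ≤ R₁ l := by
    rintro l _ ⟨ξ, rfl⟩
    exact he₁ l ξ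
  have he₂' : ∀ l, LinearMap.range (e₂ l) ≤ R₂ l := by
    rintro l _ ⟨ξ, rfl⟩
    exact he₂ l ξ
  have hG₁ : ∀ l, (Kn l).map (e₁ l) ≤ R₁ l := fun l =>
    (LinearMap.map_le_range).trans (he₁' l)
  have hG₂ : ∀ l, (Kn l).map (e₂ l) ≤ R₂ l := fun l =>
    (LinearMap.map_le_range).trans (he₂' l)
  have hSR : ∀ l, S l ≤ R₁ l ⊔ R₂ l := fun l =>
    sup_le (inf_le_left.trans le_sup_left)
      (sup_le ((hG₁ l).trans le_sup_left) ((hG₂ l).trans le_sup_right))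
  -- the functionals known after conditioning
  have hcomap₁ : ∀ l, (S l).comap (e₁ l) = Kn l := by
    intro l
    apply le_antisymm
    · intro ξ hξ
      have hξ' : e₁ l ξ ∈ S l := hξ
      obtain ⟨t, ht, y, hy, hty⟩ := Submodule.mem_sup.1 hξ'
      obtain ⟨_, ⟨k₁, hk₁, rfl⟩, _, ⟨k₂, hk₂, rfl⟩, rfl⟩ := Submodule.mem_sup.1 hy
      have h1 : e₁ l (ξ - k₁) = t + e₂ l k₂ := by
        rw [map_sub, ← hty]
        abel
      have h2 : ξ - k₁ ∈ Kn l := by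
        apply hK₁ l
        rw [h1]
        exact Submodule.add_mem _ ht.2 (he₂ l k₂)
      have h3 := (Kn l).add_mem h2 hk₁
      rwa [sub_add_cancel] at h3
    · intro ξ hξ
      exact Submodule.mem_sup_right (Submodule.mem_sup_left ⟨ξ, hξ, rfl⟩)
  have hcomap₂ : ∀ l, (S l).comap (e₂ l) = Kn l := by
    intro l
    apply le_antisymm
    · intro ξ hξ
      have hξ' : e₂ l ξ ∈ S l := hξ
      obtain ⟨t, ht, y, hy, hty⟩ := Submodule.mem_sup.1 hξ'
      obtain ⟨_, ⟨k₁, hk₁, rfl⟩, _, ⟨k₂, hk₂, rfl⟩, rfl⟩ := Submodule.mem_sup.1 hy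
      have h1 : e₂ l (ξ - k₂) = t + e₁ l k₁ := by
        rw [map_sub, ← hty]
        abel
      have h2 : ξ - k₂ ∈ Kn l := by
        apply hK₂ l
        rw [h1]
        exact Submodule.add_mem _ ht.1 (he₁ l k₁)
      have h3 := (Kn l).add_mem h2 hk₂
      rwa [sub_add_cancel] at h3
    · intro ξ hξ
      exact Submodule.mem_sup_right (Submodule.mem_sup_right ⟨ξ, hξ, rfl⟩)
  -- variables
  set T : ∀ l, Ω → Dual F (S l) := fun l ω => Lat.ev X (S l) ω with hT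
  set X₁ : Fin 3 → Ω → V := fun l ω => dd ((X ω).comp (e₁ l)) with hX₁
  set X₂ : Fin 3 → Ω → V := fun l ω => dd ((X ω).comp (e₂ l)) with hX₂
  have hX₁s : ∀ l ω (ξ : Dual F V), ξ (X₁ l ω) = X ω (e₁ l ξ) := fun l ω ξ => dd_spec _ _
  have hX₂s : ∀ l ω (ξ : Dual F V), ξ (X₂ l ω) = X ω (e₂ l ξ) := fun l ω ξ => dd_spec _ _
  let rest : ∀ l, Dual F V →ₗ[F] (S l) := fun l =>
    LinearMap.codRestrict (S l) (τ - e₁ l - e₂ l) (fun ξ => hAS l (he l ξ))
  have hrest : ∀ l (ξ : Dual F V), ((rest l ξ : S l) : L) = τ ξ - e₁ l ξ - e₂ l ξ :=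
    fun l ξ => rfl
  let c : ∀ l, Dual F (S l) → V := fun l φ => dd (φ.comp (rest l))
  have hfinD : ∀ l, Fintype (Dual F (S l)) := fun l =>
    @Fintype.ofFinite _ (Module.finite_of_finite F)
  -- entropies of the variables
  have hH : ∀ l, P.H (T l) = Lat.ent P X (S l) := fun l => rfl
  have hHX : ∀ (G : Submodule F L) (e : Dual F V →ₗ[F] L) (Y : Ω → V),
      (∀ ω (ξ : Dual F V), ξ (Y ω) = X ω (e ξ)) →
      P.H (fun ω => (Y ω, Lat.ev X G ω)) = Lat.ent P X (LinearMap.range e ⊔ G) := by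
    intro G e Y hY
    refine P.H_congr_det fun ω ω' => ?_
    rw [Lat.ev_eq_iff, Lat.agree_sup_iff, Prod.mk.injEq, Lat.ev_eq_iff]
    refine and_congr ?_ Iff.rfl
    constructor
    · intro h
      apply hsep
      intro ξ
      rw [hY, hY]
      exact h _ ⟨ξ, rfl⟩
    · rintro h _ ⟨ξ, rfl⟩
      rw [← hY, ← hY, h]
  have hHXX : ∀ l, P.H (fun ω => (X₁ l ω, X₂ l ω, T l ω))
      = Lat.ent P X (LinearMap.range (e₁ l) ⊔ S l ⊔ (LinearMap.range (e₂ l) ⊔ S l)) := by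
    intro l
    refine P.H_congr_det fun ω ω' => ?_
    rw [Lat.ev_eq_iff, Lat.agree_sup_iff (G := LinearMap.range (e₁ l) ⊔ S l)
      (G' := LinearMap.range (e₂ l) ⊔ S l), Lat.agree_sup_iff (G := LinearMap.range (e₁ l))
      (G' := S l), Lat.agree_sup_iff (G := LinearMap.range (e₂ l)) (G' := S l), Prod.mk.injEq,
      Prod.mk.injEq, hT]
    simp only
    rw [Lat.ev_eq_iff]
    constructor
    · rintro ⟨⟨h1, h2⟩, h3, -⟩
      refine ⟨hsep _ _ fun ξ => ?_, hsep _ _ fun ξ => ?_, h2⟩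
      · rw [hX₁s, hX₁s]; exact h1 _ ⟨ξ, rfl⟩
      · rw [hX₂s, hX₂s]; exact h3 _ ⟨ξ, rfl⟩
    · rintro ⟨h1, h2, h3⟩
      refine ⟨⟨?_, h3⟩, ?_, h3⟩
      · rintro _ ⟨ξ, rfl⟩
        rw [← hX₁s, ← hX₁s, h1]
      · rintro _ ⟨ξ, rfl⟩
        rw [← hX₂s, ← hX₂s, h2]
  have hKnle : ∀ l, L₀.comap τ ≤ Kn l := by
    intro l ξ hξ
    have hξ' : τ ξ ∈ L₀ := hξ
    apply hK₁ l
    have h1 : e₁ l ξ = τ ξ - (τ ξ - e₁ l ξ - e₂ l ξ) - e₂ l ξ := by abel
    rw [h1]
    exact Submodule.sub_mem _ (Submodule.sub_mem _ (Submodule.mem_sup_left (hA l hξ'))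
      (Submodule.mem_sup_left (he l ξ))) (he₂ l ξ)
  have hdefic : ∀ l (e : Dual F V →ₗ[F] L) (Y : Ω → V), (∀ ω (ξ : Dual F V), ξ (Y ω) = X ω (e ξ)) →
      (S l).comap e = Kn l → LinearMap.range e ⊔ S l ≤ R₁ l ⊔ R₂ l →
      Real.log (carr (Kn l).dualCoannihilator).card
        - (P.H (fun ω => (Y ω, T l ω)) - P.H (T l)) ≤ κ := by
    intro l e Y hY hce hle
    have h1 : P.H (fun ω => (Y ω, T l ω)) = Lat.ent P X (LinearMap.range e ⊔ S l) :=
      hHX (S l) e Y hY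
    rw [h1, hH, hlogc]
    have h2 := Lat.finrank_range_sup e (S l)
    rw [hce, hdualV] at h2
    have h3 := hnc (Kn l)
    have h4 : finrank F (LinearMap.range e ⊔ S l : Submodule F L)
        = finrank F (S l) + finrank F (Kn l).dualCoannihilator := by omega
    have h5 : (finrank F (LinearMap.range e ⊔ S l : Submodule F L) : ℝ)
        = finrank F (S l) + finrank F (Kn l).dualCoannihilator := by exact_mod_cast h4
    have h6 := Lat.D_mono P X hle
    have h7 := Lat.D_mono P X (hAS l)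
    have h8 := hD l
    have h9 : Lat.D P X (LinearMap.range e ⊔ S l) - Lat.D P X (S l) ≤ κ := by
      have : Lat.D P X (A l ⊔ E₁ l ⊔ (A l ⊔ E₂ l)) = Lat.D P X (R₁ l ⊔ R₂ l) := rfl
      linarith
    unfold Lat.D at h9
    rw [h5] at h9
    linarith
  refine main V Ω P M W (M ω₀) ?_ ?_ (fun l => Dual F (S l)) T X₁ X₂ c ?_
    (fun l => (Kn l).dualCoannihilator) ?_ ?_ ?_ ?_ ?_ ?_ ?_ Z ?_ hco
  · intro ω hω
    rw [hW, Submodule.mem_dualCoannihilator]
    intro ξ hξ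
    rw [map_sub, hM, hM, hc ω ω₀ hω hω₀ _ hξ, sub_self]
  · -- unconditional deficit
    have h1 := Lat.finrank_range_sup τ L₀
    rw [hdualV] at h1
    have h2 := hnc (L₀.comap τ)
    have h3 : finrank F (LinearMap.range τ ⊔ L₀ : Submodule F L)
        = finrank F L₀ + finrank F W := by rw [hW]; omega
    have h4 : (finrank F (LinearMap.range τ ⊔ L₀ : Submodule F L) : ℝ)
        = finrank F L₀ + finrank F W := by exact_mod_cast h3
    have h5 : P.H M = Lat.ent P X (LinearMap.range τ) := by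
      refine P.H_congr_det fun ω ω' => ?_
      rw [Lat.ev_eq_iff]
      constructor
      · intro h
        apply hsep
        intro ξ
        rw [hM, hM]
        exact h _ ⟨ξ, rfl⟩
      · rintro h _ ⟨ξ, rfl⟩
        rw [← hM, ← hM, h]
    have h6 := Lat.ent_submodular P X (LinearMap.range τ) L₀
    have h7 := Lat.ent_nonneg P X (LinearMap.range τ ⊓ L₀)
    rw [hlogc, h5]
    unfold Lat.D at hdef
    rw [h4] at hdef
    linarith
  · intro l ω
    apply hsep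
    intro ξ
    rw [map_add, map_add, hX₁s, hX₂s]
    have h1 : ξ (c l (T l ω)) = X ω (τ ξ - e₁ l ξ - e₂ l ξ) := by
      have h2 : ξ (c l (T l ω)) = (T l ω) (rest l ξ) := dd_spec _ _
      rw [h2, ← hrest]
      rfl
    rw [h1, hM, map_sub, map_sub]
    ring
  · intro l
    rw [hW]
    intro v hv
    rw [Submodule.mem_dualCoannihilator] at hv ⊢
    exact fun ξ hξ => hv ξ (hKnle l hξ)
  · intro l ω ω' h
    rw [Submodule.mem_dualCoannihilator]
    intro ξ hξ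
    rw [map_sub, hX₁s, hX₁s, sub_eq_zero]
    have h1 := (Lat.ev_eq_iff (X := X) (G := S l)).1 h
    apply h1
    exact Submodule.mem_sup_right (Submodule.mem_sup_left ⟨ξ, hξ, rfl⟩)
  · intro l ω ω' h
    rw [Submodule.mem_dualCoannihilator]
    intro ξ hξ
    rw [map_sub, hX₂s, hX₂s, sub_eq_zero]
    have h1 := (Lat.ev_eq_iff (X := X) (G := S l)).1 h
    apply h1
    exact Submodule.mem_sup_right (Submodule.mem_sup_right ⟨ξ, hξ, rfl⟩)
  · exact fun l => hdefic l (e₁ l) (X₁ l) (hX₁s l) (hcomap₁ l)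
      (sup_le ((he₁' l).trans le_sup_left) (hSR l))
  · exact fun l => hdefic l (e₂ l) (X₂ l) (hX₂s l) (hcomap₂ l)
      (sup_le ((he₂' l).trans le_sup_right) (hSR l))
  · intro l
    have h1 : P.H (fun ω => (X₁ l ω, T l ω)) = Lat.ent P X (LinearMap.range (e₁ l) ⊔ S l) :=
      hHX (S l) (e₁ l) (X₁ l) (hX₁s l)
    have h2 : P.H (fun ω => (X₂ l ω, T l ω)) = Lat.ent P X (LinearMap.range (e₂ l) ⊔ S l) :=
      hHX (S l) (e₂ l) (X₂ l) (hX₂s l)
    rw [h1, h2, hHXX, hH]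
    have h3 := Lat.info_bridge_D P X (hG₁ l) (hG₂ l) (S := S l) rfl
      (P₁ := LinearMap.range (e₁ l) ⊔ S l) (P₂ := LinearMap.range (e₂ l) ⊔ S l)
      (sup_le_sup_right (he₁' l) _) (sup_le_sup_right (he₂' l) _)
    exact h3.trans (hI l)
  · -- the three pasts
    have hNN : ∀ l m, (Kn l).dualCoannihilator ⊓ (Kn m).dualCoannihilator
        = (Kn l ⊔ Kn m).dualCoannihilator := fun l m =>
      (Submodule.dualCoannihilator_sup_eq _ _).symm
    rw [hNN, hNN, hNN]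
    set Q := (Kn 0 ⊔ Kn 1).dualCoannihilator ⊔ ((Kn 0 ⊔ Kn 2).dualCoannihilator
      ⊔ (Kn 1 ⊔ Kn 2).dualCoannihilator) with hQ
    have h1 : Q.dualAnnihilator = (Kn 0 ⊔ Kn 1) ⊓ ((Kn 0 ⊔ Kn 2) ⊓ (Kn 1 ⊔ Kn 2)) := by
      rw [hQ, Submodule.dualAnnihilator_sup_eq, Submodule.dualAnnihilator_sup_eq,
        Subspace.dualCoannihilator_dualAnnihilator_eq,
        Subspace.dualCoannihilator_dualAnnihilator_eq,
        Subspace.dualCoannihilator_dualAnnihilator_eq]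
    have h2 := Subspace.finrank_add_finrank_dualAnnihilator_eq Q
    rw [h1] at h2
    have h3 := hnc (L₀.comap τ)
    rw [← hW] at h3
    omega
  · intro z hz
    rw [hW, Submodule.mem_dualCoannihilator]
    exact fun ξ hξ => hZ ξ hξ z hz

end Bridge

end Vale.Agent.P060.HW
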