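import Vale.Agent.P060.HW.Budget
import Vale.Agent.P060.HW.TVI

/-!
# The entropy budget in the notation of the TV blocks
-/

open scoped Classical

noncomputable section

set_option linter.unusedSectionVars false

namespace Vale.Agent.P060.HW

open Module

variable {K T : Type} [Fintype K]

lemma Nn_symm {δ : Design K T} {a : T} {Q : Matrix K K F} (hQ : Q ∈ δ.Nn a) : Q.IsSymm := by
  unfold Design.Nn at hQ
  induction hQ using Submodule.span_induction with
  | mem Q hQ =>
    have hsm : ∀ u v : K → F, (sm u v).IsSymm := by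
      intro u v
      ext i j
      rw [Matrix.transpose_apply]
      simp only [sm, Matrix.add_apply, Matrix.vecMulVec_apply]
      ring
    rcases hQ with (⟨c, w, hw, rfl⟩ | ⟨w, hw, v, rfl⟩) | ⟨v, rfl⟩
    · exact hsm _ _
    · exact hsm _ _
    · exact hsm _ _
  | zero => exact Matrix.isSymm_zero
  | add Q Q' _ _ h h' => exact h.add h'
  | smul c Q _ h => exact h.smul c

lemma N2_le_SS (δ : Design K T) (a a' : T) : δ.N2 a a' ≤ SS K :=
  fun _ hQ => ⟨Nn_symm hQ.1, Nn_symm hQ.2⟩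

/-- (T1) BUDGET, general form. -/
theorem tv_budget_le {δ : Design K T} {a a' : T} {ι ι' : Bool} {Λ M : ℝ}
    {w : Matrix K K F → Matrix K K F → ℝ} (hw : PLaw δ a a' ι ι' Λ M w)
    (G : Submodule F (MM K)) (hG : G ≤ SS K) :
    Lat.D hw.prob Xf G - Lat.D hw.prob Xf (δ.N2 a a') ≤ Real.log Λ := by
  have key := Budget.deficit (Budget.pair2 K) hw.prob Fms.val
    ((δ.Dir a).prod (δ.Dir a'))
    (if ι then δ.B0 a else 0, if ι' then δ.B0 a' else 0) Λ ?_ ?_ (δ.N2 a a') G ?_ ?_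
  · exact key
  · intro ω _
    exact ⟨ω.mem.1, ω.mem.2⟩
  · intro y
    have h1 : hw.prob.p Fms.val y ≤ w y.1 y.2 := by
      unfold FinProb.p
      by_cases hy : y.1 ∈ δ.Form a ι ∧ y.2 ∈ δ.Form a' ι'
      · obtain ⟨ω0, hω0⟩ : ∃ ω0 : Fms δ a a' ι ι', ω0.val = y := ⟨⟨y, hy⟩, rfl⟩
        subst hω0
        rw [Finset.sum_eq_single ω0]
        · rw [if_pos rfl]; exact le_rfl
        · intro ω _ hω
          exact if_neg fun h => hω (Fms.val_injective h)
        · intro h; exact absurd (Finset.mem_univ _) h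
      · rw [Finset.sum_eq_zero]
        · exact hw.nonneg _ _
        · intro ω _
          refine if_neg fun h => hy ?_
          rw [← h]
          exact ω.mem
    rw [Budget.card_prod, Nat.cast_mul]
    refine le_trans (mul_le_mul_of_nonneg_right h1 (by positivity)) (hw.joint y.1 y.2)
  · intro Q hQ y hy
    rw [Budget.pair2_apply, annDirect K T δ a Q.1 hQ.1 y.1 hy.1,
      annDirect K T δ a' Q.2 hQ.2 y.2 hy.2, add_zero]
  · intro Q hQ h
    refine ⟨annConverse K T δ a Q.1 (hG hQ).1 fun B hB => ?_,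
      annConverse K T δ a' Q.2 (hG hQ).2 fun B hB => ?_⟩
    · have := h (B, 0) ⟨hB, Submodule.zero_mem _⟩
      rw [Budget.pair2_apply] at this
      simpa [pr] using this
    · have := h (0, B) ⟨Submodule.zero_mem _, hB⟩
      rw [Budget.pair2_apply] at this
      simpa [pr] using this

/-- (T1) BUDGET. -/
theorem tv_budget {δ : Design K T} {a a' : T} {ι ι' : Bool} {Λ M : ℝ}
    {w : Matrix K K F → Matrix K K F → ℝ} (hw : PLaw δ a a' ι ι' Λ M w) :
    Lat.D hw.prob Xf (SS K) - Lat.D hw.prob Xf (δ.N2 a a') ≤ Real.log Λ :=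
  tv_budget_le hw _ le_rfl

/-- Functionals of the test values are pairings with `tz`. -/
lemma Xf_tz {δ : Design K T} {a a' : T} {ι ι' : Bool} (ω : Fms δ a a' ι ι') (g g' : K → F)
    (z : Fin 4 → K → F) :
    Xf ω (Budget.tz g g' z) = ∑ i, z i ⬝ᵥ tv g g' ω.val.1 ω.val.2 i :=
  Budget.pair2_tz (Budget.isSymm_of_form ω.mem.1) (Budget.isSymm_of_form ω.mem.2) g g' z

/-- Sums over pairs of matrices and sums over pairs of forms. -/
lemma sum_fms {δ : Design K T} {a a' : T} {ι ι' : Bool} {A : Type*} [AddCommMonoid A]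
    (f : MM K → A) (hf : ∀ x, f x ≠ 0 → x.1 ∈ δ.Form a ι ∧ x.2 ∈ δ.Form a' ι') :
    ∑ ω : Fms δ a a' ι ι', f ω.val = ∑ B, ∑ B', f (B, B') := by
  rw [← Fintype.sum_prod_type f]
  refine Finset.sum_bij_ne_zero (fun x _ _ => x.val) (fun _ _ _ => Finset.mem_univ _)
    (fun x _ _ y _ _ h => Fms.val_injective h) (fun x _ hx => ?_) (fun _ _ _ => rfl)
  exact ⟨⟨x, hf x hx⟩, Finset.mem_univ _, hx, rfl⟩

/-- The law of the test values. -/
lemma tlaw_eq {δ : Design K T} {a a' : T} {ι ι' : Bool} {Λ M : ℝ}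
    {w : Matrix K K F → Matrix K K F → ℝ} (hw : PLaw δ a a' ι ι' Λ M w) (g g' : K → F)
    (m : Fin 4 → K → F) :
    tlaw w g g' m = hw.prob.p (fun ω => tv g g' ω.val.1 ω.val.2) m := by
  unfold tlaw FinProb.p
  rw [← sum_fms (δ := δ) (a := a) (a' := a') (ι := ι) (ι' := ι')
    (fun x => if tv g g' x.1 x.2 = m then w x.1 x.2 else 0) fun x hx => ?_]
  · refine Finset.sum_congr rfl fun ω _ => ?_
    by_cases h : tv g g' ω.val.1 ω.val.2 = m
    · rw [if_pos h, if_pos h]; rfl
    · rw [if_neg h, if_neg h]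
  · refine hw.supp _ _ fun h => hx ?_
    simp only [h, ite_self]

/-- The coefficient of the test values. -/
lemma coefT_eq_prob {δ : Design K T} {a a' : T} {ι ι' : Bool} {Λ M : ℝ}
    {w : Matrix K K F → Matrix K K F → ℝ} (hw : PLaw δ a a' ι ι' Λ M w) (ψ : AddChar F ℂ)
    (g g' : K → F) (z : Fin 4 → K → F) :
    coefT ψ w g g' z = ∑ ω, (hw.prob.w ω : ℂ) * ψ (Xf ω (Budget.tz g g' z)) := by
  unfold coefT
  rw [← sum_fms (δ := δ) (a := a) (a' := a') (ι := ι) (ι' := ι')
    (fun x => (w x.1 x.2 : ℂ) * ψ (∑ i, z i ⬝ᵥ tv g g' x.1 x.2 i)) fun x hx => ?_]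
  · refine Finset.sum_congr rfl fun ω _ => ?_
    rw [Xf_tz]
    rfl
  · refine hw.supp _ _ fun h => hx ?_
    simp only [h, Complex.ofReal_zero, zero_mul]

end Vale.Agent.P060.HW
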