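import Vale.Agent.P060.HW.TVI

/-!
# P060/HW: statements of the three parts of the TV theorem

`TvK2`: bounded conditional deficit of most pairs of types given every small past.
`TvSel`: selection of the alignment and of three disjoint pasts for most pairs.
`TvLoc`: one good pair.
-/

open scoped Classical

noncomputable section

set_option linter.unusedSectionVars false

namespace Vale.Agent.P060.HW

open Module

/-- The deficit of a pair law on a space of pairs of tensors (`Lat.D` elaborated for general `K`: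
no clash of decidability instances). -/
def PLaw.Dd {K T : Type*} [Fintype K] {δ : Design K T} {a a' : T} {ι ι' : Bool} {Λ M : ℝ}
    {w : Matrix K K F → Matrix K K F → ℝ} (hw : PLaw δ a a' ι ι' Λ M w)
    (G : Submodule F (MM K)) : ℝ := Lat.D hw.prob Xf G

variable {N d : ℕ} {E P Om : Type} [Fintype E] [Fintype P] [Fintype Om] [NeZero N]

/-- The type of pair laws. -/
abbrev WL (E P Om : Type) : Type :=
  Matrix (Co E P Om) (Co E P Om) F → Matrix (Co E P Om) (Co E P Om) F → ℝ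

/-- The deficit of the law `hw` on the space of the tensors visible from the lines in `A` (and the
trivial tensors). -/
def PLaw.dA {fr : Frame N d E Om} {p : Lin N → Co E P Om → F} {h : Ext fr p} {a a' : Ty N d}
    {ι ι' : Bool} {Λ M : ℝ} {w : WL E P Om} (hw : PLaw (dsg fr p h) a a' ι ι' Λ M w)
    (A : Finset (Lin N)) : ℝ := hw.Dd (GA fr p h a a' A)

/-- The mutual information of the lines in `B` and the lines in `B'`, given the lines in `A` and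
everything visible both from `A ∪ B` and from `A ∪ B'`. -/
def PLaw.miA {fr : Frame N d E Om} {p : Lin N → Co E P Om → F} {h : Ext fr p} {a a' : Ty N d}
    {ι ι' : Bool} {Λ M : ℝ} {w : WL E P Om} (hw : PLaw (dsg fr p h) a a' ι ι' Λ M w)
    (B B' A : Finset (Lin N)) : ℝ :=
  hw.dA (A ∪ B ∪ B') + hw.Dd (GA fr p h a a' (A ∪ B) ⊓ GA fr p h a a' (A ∪ B'))
    - hw.dA (A ∪ B) - hw.dA (A ∪ B')

/-- A past of admissible size: at most `|P| / (D₀ + 20) ^ 2` lines. -/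
def Small (P : Type) [Fintype P] (D₀ : ℕ) (A : Finset (Lin N)) : Prop :=
  A.card * (D₀ + 20) ^ 2 ≤ Fintype.card P

/-- A good pair of types `β = (b, b')` for the law `hw`: an alignment (third lines `lin b q`,
`lin b' q'`) and three disjoint pasts. -/
def GoodB {fr : Frame N d E Om} {p : Lin N → Co E P Om → F} {h : Ext fr p} {a a' : Ty N d}
    {ι ι' : Bool} {Λ M : ℝ} {w : WL E P Om} (hw : PLaw (dsg fr p h) a a' ι ι' Λ M w)
    (D₀ : ℕ) (lam d₀ : ℝ) (β : Ty N d × Ty N d) : Prop :=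
  β.1 ≠ β.2 ∧ Disjoint (lins2 β) (lins2 (a, a')) ∧
  (∀ c : Ty N d, lins c ⊆ lins2 (a, a') ∪ lins2 β → c = a ∨ c = a' ∨ c = β.1 ∨ c = β.2) ∧
  hw.dA (lins2 (a, a') ∪ lins2 β) - hw.dA (lins2 (a, a')) ≤ lam ∧
  ∃ (i j q i' j' q' : Fin 3), i ≠ j ∧ i ≠ q ∧ j ≠ q ∧ i' ≠ j' ∧ i' ≠ q' ∧ j' ≠ q' ∧
    (∀ s t, lin β.1 s = lin β.2 t → s = q ∧ t = q') ∧
    ∃ S : Fin 3 → Finset (Lin N), (∀ l, Small P D₀ (S l)) ∧
      (∀ l l', l ≠ l' → Disjoint (S l) (S l')) ∧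
      (∀ l, Disjoint (S l) (lins2 (a, a') ∪ lins2 β)) ∧
      (∀ l, hw.dA (S l ∪ lins2 (a, a') ∪ lins2 β) - hw.dA (S l ∪ lins2 (a, a')) ≤ lam) ∧
      (∀ l, hw.miA {lin β.1 i, lin β.2 i'} {lin β.1 j, lin β.2 j'}
        (S l ∪ lins2 (a, a') ∪ {lin β.1 q, lin β.2 q'}) ≤ d₀)

/-- `K₂` for the past `A`: the pairs with large conditional deficit have mass at most `ε`. -/
def K2At {fr : Frame N d E Om} {p : Lin N → Co E P Om → F} {h : Ext fr p} {a a' : Ty N d}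
    {ι ι' : Bool} {Λ M : ℝ} {w : WL E P Om} (hw : PLaw (dsg fr p h) a a' ι ι' Λ M w)
    (lam ε : ℝ) (ρ : Ty N d × Ty N d → ℝ) (A : Finset (Lin N)) : Prop :=
  ∑ β, (if Disjoint (lins2 β) (A ∪ lins2 (a, a')) ∧
      lam < hw.dA (A ∪ lins2 (a, a') ∪ lins2 β) - hw.dA (A ∪ lins2 (a, a'))
    then ρ β else 0) ≤ ε

/-- TvK2 (helper72, helper503).  `lam` depends only on `C` and `ε`. -/
def TvK2 : Prop := ∀ C ε : ℝ, 0 < ε → ∃ lam : ℝ, 0 ≤ lam ∧ ∃ D₁ : ℕ, ∀ D₀ ≥ D₁, ∀ (d : ℕ)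
  (E : Type) [Fintype E], ∃ θ > (0 : ℝ), ∃ k₀ : ℕ, ∀ (N : ℕ) (P Om : Type) [Fintype P]
  [Fintype Om] [NeZero N] (fr : Frame N d E Om), k₀ ≤ Fintype.card P → Sizes fr P D₀ θ 0 →
  ∃ G : Set (Dz fr P), 40 * Nat.card (Gᶜ : Set (Dz fr P)) ≤ Nat.card (Dz fr P) ∧
  ∀ p ∈ G, ∀ (a a' : Ty N d) (ι ι' : Bool), a ≠ a' →
  ∀ (M : ℝ) (w : WL E P Om)
    (hw : PLaw (dsg fr p.1 p.2) a a' ι ι' (2521 ^ (C * Fintype.card P)) M w),
  ∀ ρ, TCoup 8 ρ → ∀ A : Finset (Lin N), Small P D₀ A → Disjoint A (lins2 (a, a')) →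
    K2At hw lam ε ρ A

/-- TvSel (helper797).  `ε₁` depends only on `ε`; `d₁` depends on `C, ε, lam, d₀, D₀`. -/
def TvSel : Prop := ∀ ε : ℝ, 0 < ε → ∃ ε₁ > (0 : ℝ), ∀ C lam d₀ : ℝ, 0 ≤ lam → 0 < d₀ →
  ∀ D₀ : ℕ, 0 < D₀ → ∃ d₁ : ℕ, ∀ d ≥ d₁, ∀ (E : Type) [Fintype E], ∃ θ > (0 : ℝ), ∃ k₀ : ℕ,
  ∀ (N : ℕ) (P Om : Type) [Fintype P] [Fintype Om] [NeZero N] (fr : Frame N d E Om)
    (p : Lin N → Co E P Om → F) (h : Ext fr p), k₀ ≤ Fintype.card P → Sizes fr P D₀ θ 0 →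
  (∀ κ : ℕ, κ ≤ 20 * Fintype.card P / (D₀ + 20) ^ 2 → Ev1 p κ) →
  ∀ (a a' : Ty N d) (ι ι' : Bool), a ≠ a' →
  ∀ (M : ℝ) (w : WL E P Om)
    (hw : PLaw (dsg fr p h) a a' ι ι' (2521 ^ (C * Fintype.card P)) M w),
  ∀ ρ, TCoup 8 ρ →
  (∀ A : Finset (Lin N), Small P D₀ A → Disjoint A (lins2 (a, a')) → K2At hw lam ε₁ ρ A) →
    ∑ β, (if ¬ GoodB hw D₀ lam d₀ β then ρ β else 0) ≤ ε

/-- TvLoc (helper743). -/
def TvLoc : Prop := ∀ (ψ : AddChar F ℂ), ψ ≠ 0 → ∀ ε lam : ℝ, 0 < ε → 0 ≤ lam →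
  ∃ d₀ > (0 : ℝ), ∃ η > (0 : ℝ), ∀ (D₀ N d : ℕ) (E P Om : Type) [Fintype E] [Fintype P]
    [Fintype Om] [NeZero N] (fr : Frame N d E Om) (p : Lin N → Co E P Om → F) (h : Ext fr p),
  (∀ κ : ℕ, κ ≤ 20 * Fintype.card P / (D₀ + 20) ^ 2 → Ev1 p κ) →
  30 ≤ Fintype.card P / (D₀ + 20) ^ 2 →
  (∀ w, 30 + (rowLines fr w).card ≤ Fintype.card P / (D₀ + 20) ^ 2) →
  ∀ (a a' : Ty N d) (ι ι' : Bool), a ≠ a' →
  ∀ (Λ M : ℝ) (w : WL E P Om) (hw : PLaw (dsg fr p h) a a' ι ι' Λ M w) (β : Ty N d × Ty N d),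
    GoodB hw D₀ lam d₀ β →
      tdist (dsg fr p h) a a' w β ≤ ε ∨ BadC ψ (dsg fr p h) a a' w η β

end Vale.Agent.P060.HW
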