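import Vale.Agent.P060.HW.Blocks

/-!
# The combination of the blocks TV and LS
-/

open scoped Classical

noncomputable section

namespace Vale.Agent.P060.HW

open Module

lemma Sizes.mono {N d : ℕ} {E P Om : Type} [Fintype E] [Fintype P] [Fintype Om] [NeZero N]
    {fr : Frame N d E Om} {D₀ : ℕ} {θ θ' C C' : ℝ} (h : Sizes fr P D₀ θ C) (hθ : θ ≤ θ')
    (hC : C' ≤ C) : Sizes fr P D₀ θ' C' where
  hN := h.hN
  hN' := h.hN'
  hd := h.hd
  hOm := h.hOm.trans (mul_le_mul_of_nonneg_right hθ (Nat.cast_nonneg _))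
  hA := fun w => (h.hA w).trans (mul_le_mul_of_nonneg_right hθ (Nat.cast_nonneg _))
  hq := (mul_le_mul_of_nonneg_right hC (Real.log_natCast_nonneg _)).trans h.hq
  hγ := h.hγ

lemma exists_char : ∃ ψ : AddChar F ℂ, ψ ≠ 0 := by
  refine ⟨ZMod.stdAddChar, fun h => ?_⟩
  have h1 := ZMod.isPrimitive_stdAddChar 2521
  have h2 := h1 (a := 1) one_ne_zero
  rw [h] at h2
  apply h2
  ext x
  simp

theorem tvls_of (hTV : TV) (hLS : LS) (hLD : LDFam) : TVLS := by
  intro E _ C ε hε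
  obtain ⟨ψ, hψ⟩ := exists_char
  obtain ⟨η, hη, D₂, hTV⟩ := hTV ψ hψ E C (ε / 2) (by linarith)
  obtain ⟨D₁, hLS⟩ := hLS ψ hψ E C η (ε / 2 / 1000) hη (by positivity)
  refine ⟨max D₁ D₂, fun D₀ hD₀ => ?_⟩
  obtain ⟨d₁, hTV⟩ := hTV D₀ ((le_max_right _ _).trans hD₀)
  refine ⟨max d₁ 1, fun d hd => ?_⟩
  obtain ⟨C₁, θ₁, hθ₁, k₁, hTV⟩ := hTV d ((le_max_left _ _).trans hd)
  obtain ⟨C₂, θ₂, hθ₂, k₂, hLS⟩ := hLS D₀ ((le_max_left _ _).trans hD₀) d
  refine ⟨max C₁ C₂, min θ₁ θ₂, lt_min hθ₁ hθ₂, max k₁ k₂, ?_⟩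
  intro N P Om _ _ _ fr hk hS
  obtain ⟨G₁, hG₁, hTV⟩ := hTV N P Om fr ((le_max_left _ _).trans hk)
    (hS.mono (min_le_left _ _) (le_max_left _ _))
  obtain ⟨G₂, hG₂, hLS⟩ := hLS N P Om fr ((le_max_right _ _).trans hk)
    (hS.mono (min_le_right _ _) (le_max_right _ _))
  refine ⟨G₁ ∩ G₂, ?_, ?_⟩
  · have h1 : Nat.card ((G₁ ∩ G₂)ᶜ : Set (Dz fr P)) ≤ Nat.card (G₁ᶜ : Set (Dz fr P))
        + Nat.card (G₂ᶜ : Set (Dz fr P)) := by
      rw [Set.compl_inter, Nat.card_coe_set_eq, Nat.card_coe_set_eq, Nat.card_coe_set_eq]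
      exact Set.ncard_union_le _ _

    omega
  · intro p hp a a' ι ι' haa w hw ρ hρ
    have h1 := hTV p hp.1 a a' ι ι' haa w hw ρ hρ
    have h2 : ∑ β, (if BadC ψ (dsg fr p.1 p.2) a a' w η β then ρ β else 0) ≤ ε / 2 := by
      by_contra h
      push Not at h
      rw [← Finset.sum_filter] at h
      obtain ⟨𝓕, h𝓕, hLD', hne, hcard⟩ := hLD N d
        (lt_of_lt_of_le Nat.one_pos ((le_max_right _ _).trans hd)) hS.hd ρ hρ _ _ h
      have h3 := hLS p hp.2 a a' ι ι' haa w hw 𝓕 hLD' hne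
        (fun β hβ => (Finset.mem_filter.1 (h𝓕 hβ)).2)
      have h4 : ε / 2 * N / 1000 = ε / 2 / 1000 * N := by ring
      linarith
    calc ∑ β, (if ε < tdist (dsg fr p.1 p.2) a a' w β then ρ β else 0)
        ≤ ∑ β, ((if ε / 2 < tdist (dsg fr p.1 p.2) a a' w β ∧
            ¬ BadC ψ (dsg fr p.1 p.2) a a' w η β then ρ β else 0)
          + (if BadC ψ (dsg fr p.1 p.2) a a' w η β then ρ β else 0)) := by
          refine Finset.sum_le_sum fun β _ => ?_
          have h0 := hρ.nonneg β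
          by_cases hb : BadC ψ (dsg fr p.1 p.2) a a' w η β
          · simp only [hb, not_true_eq_false, and_false, if_false, if_true, zero_add]
            split_ifs <;> linarith
          · by_cases ht : ε < tdist (dsg fr p.1 p.2) a a' w β
            · have ht' : ε / 2 < tdist (dsg fr p.1 p.2) a a' w β := by linarith
              simp [ht, ht', hb]
            · simp only [ht, hb, if_false, add_zero, not_false_eq_true, and_true]
              split_ifs <;> linarith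
      _ ≤ ε / 2 + ε / 2 := by
          rw [Finset.sum_add_distrib]
          exact add_le_add h1 h2
      _ = ε := by ring

end Vale.Agent.P060.HW
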