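import Mathlib

/-!
# Three disjoint good subsets

If fewer than one third of the `l`-subsets of `s` are bad and `3 l ≤ #s`, there are three pairwise
disjoint good `l`-subsets.
-/

open scoped Classical

namespace Vale.Agent.P060.HW.Three

variable {X : Type*}

/-- Double counting: the number of ordered pairs of disjoint `l`-subsets with first member `A`. -/
theorem sum_sdiff_comm (s : Finset X) (l : ℕ) (f : Finset X → Finset X → ℕ) :
    ∑ A ∈ s.powersetCard l, ∑ B ∈ (s \ A).powersetCard l, f A B =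
      ∑ B ∈ s.powersetCard l, ∑ A ∈ (s \ B).powersetCard l, f A B := by
  refine Finset.sum_comm' fun A B => ?_
  simp only [Finset.mem_powersetCard, Finset.subset_sdiff]
  constructor
  · rintro ⟨⟨h1, h2⟩, ⟨h3, h4⟩, h5⟩
    exact ⟨⟨⟨h1, h4.symm⟩, h2⟩, h3, h5⟩
  · rintro ⟨⟨⟨h1, h4⟩, h2⟩, h3, h5⟩
    exact ⟨⟨h1, h2⟩, ⟨h3, h4.symm⟩, h5⟩

/-- The three good subsets. -/
theorem three_disjoint (s : Finset X) (l : ℕ) (hl : 3 * l ≤ s.card) (Bad : Finset X → Prop)
    (hbad : 3 * ((s.powersetCard l).filter Bad).card < (s.powersetCard l).card) :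
    ∃ A : Fin 3 → Finset X, (∀ i, A i ⊆ s ∧ (A i).card = l ∧ ¬ Bad (A i)) ∧
      ∀ i j, i ≠ j → Disjoint (A i) (A j) := by
  -- the number of completions of a member is constant
  set c₂ : ℕ := (s.card - 2 * l).choose l with hc₂
  set c₁ : ℕ := (s.card - l).choose l with hc₁
  have hc₂pos : 0 < c₂ := Nat.choose_pos (by omega)
  have hc₁pos : 0 < c₁ := Nat.choose_pos (by omega)
  have e2 : ∀ A ∈ s.powersetCard l, ∀ B ∈ (s \ A).powersetCard l,
      (((s \ A) \ B).powersetCard l).card = c₂ := by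
    intro A hA B hB
    rw [Finset.mem_powersetCard] at hA hB
    rw [Finset.card_powersetCard, Finset.card_sdiff_of_subset hB.1,
      Finset.card_sdiff_of_subset hA.1, hA.2, hB.2, hc₂]
    congr 1
    omega
  have e1 : ∀ A ∈ s.powersetCard l, ((s \ A).powersetCard l).card = c₁ := by
    intro A hA
    rw [Finset.mem_powersetCard] at hA
    rw [Finset.card_powersetCard, Finset.card_sdiff_of_subset hA.1, hA.2, hc₁]
  by_contra hcon
  push Not at hcon
  -- every triple has a bad member
  have key : ∀ A ∈ s.powersetCard l, ∀ B ∈ (s \ A).powersetCard l,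
      ∀ C ∈ ((s \ A) \ B).powersetCard l,
      1 ≤ (if Bad A then 1 else 0) + (if Bad B then 1 else 0) + (if Bad C then 1 else 0) := by
    intro A hA B hB C hC
    by_contra hlt
    rw [Finset.mem_powersetCard] at hA hB hC
    have hA' : ¬ Bad A := by intro h; simp [h] at hlt
    have hB' : ¬ Bad B := by intro h; simp [h] at hlt
    have hC' : ¬ Bad C := by intro h; simp [h] at hlt
    have hBs := Finset.subset_sdiff.1 hB.1
    have hCs := Finset.subset_sdiff.1 hC.1
    have hCs' := Finset.subset_sdiff.1 hCs.1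
    obtain ⟨i, j, hij, hd⟩ := hcon ![A, B, C] (by
      intro i
      fin_cases i
      · exact ⟨hA.1, hA.2, hA'⟩
      · exact ⟨hBs.1, hB.2, hB'⟩
      · exact ⟨hCs'.1, hC.2, hC'⟩)
    apply hd
    fin_cases i <;> fin_cases j
    · exact absurd rfl hij
    · exact hBs.2.symm
    · exact hCs'.2.symm
    · exact hBs.2
    · exact absurd rfl hij
    · exact hCs.2.symm
    · exact hCs'.2
    · exact hCs.2
    · exact absurd rfl hij
  set b : Finset X → ℕ := fun A => if Bad A then 1 else 0 with hb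
  have hsumb : ∑ A ∈ s.powersetCard l, b A = ((s.powersetCard l).filter Bad).card := by
    rw [hb, Finset.card_filter]
  -- the total number of triples
  have htot : ∑ A ∈ s.powersetCard l, ∑ B ∈ (s \ A).powersetCard l,
      ∑ _C ∈ ((s \ A) \ B).powersetCard l, 1 = (s.powersetCard l).card * c₁ * c₂ := by
    rw [Finset.sum_congr rfl fun A hA => Finset.sum_congr rfl fun B hB => by
      rw [Finset.sum_const, smul_eq_mul, mul_one, e2 A hA B hB]]
    rw [Finset.sum_congr rfl fun A hA => by
      rw [Finset.sum_const, smul_eq_mul, e1 A hA]]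
    rw [Finset.sum_const, smul_eq_mul, mul_assoc]
  have hA : ∑ A ∈ s.powersetCard l, ∑ B ∈ (s \ A).powersetCard l,
      ∑ _C ∈ ((s \ A) \ B).powersetCard l, b A = (∑ A ∈ s.powersetCard l, b A) * c₁ * c₂ := by
    rw [Finset.sum_congr rfl fun A hA => Finset.sum_congr rfl fun B hB => by
      rw [Finset.sum_const, smul_eq_mul, e2 A hA B hB]]
    rw [Finset.sum_congr rfl fun A hA => by
      rw [Finset.sum_const, smul_eq_mul, e1 A hA]]
    rw [mul_assoc, Finset.sum_mul]
    exact Finset.sum_congr rfl fun A _ => by ring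
  have hB : ∑ A ∈ s.powersetCard l, ∑ B ∈ (s \ A).powersetCard l,
      ∑ _C ∈ ((s \ A) \ B).powersetCard l, b B = (∑ A ∈ s.powersetCard l, b A) * c₁ * c₂ := by
    rw [Finset.sum_congr rfl fun A hA => Finset.sum_congr rfl fun B hB => by
      rw [Finset.sum_const, smul_eq_mul, e2 A hA B hB]]
    rw [sum_sdiff_comm s l fun _ B => c₂ * b B]
    rw [Finset.sum_congr rfl fun A hA => by
      rw [Finset.sum_const, smul_eq_mul, e1 A hA]]
    rw [mul_assoc, Finset.sum_mul]
    exact Finset.sum_congr rfl fun A _ => by ring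
  have hC : ∑ A ∈ s.powersetCard l, ∑ B ∈ (s \ A).powersetCard l,
      ∑ C ∈ ((s \ A) \ B).powersetCard l, b C = (∑ A ∈ s.powersetCard l, b A) * c₁ * c₂ := by
    rw [← hB]
    refine Finset.sum_congr rfl fun A hA => ?_
    exact (sum_sdiff_comm (s \ A) l fun _ C => b C).trans
      (Finset.sum_congr rfl fun B _ => rfl)
  have hle : ∑ A ∈ s.powersetCard l, ∑ B ∈ (s \ A).powersetCard l,
      ∑ _C ∈ ((s \ A) \ B).powersetCard l, 1 ≤
      ∑ A ∈ s.powersetCard l, ∑ B ∈ (s \ A).powersetCard l,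
        ∑ C ∈ ((s \ A) \ B).powersetCard l, (b A + b B + b C) :=
    Finset.sum_le_sum fun A hA => Finset.sum_le_sum fun B hB => Finset.sum_le_sum fun C hC =>
      key A hA B hB C hC
  simp only [Finset.sum_add_distrib] at hle
  rw [htot, hA, hB, hC, hsumb] at hle
  have hpos : 0 < c₁ * c₂ := Nat.mul_pos hc₁pos hc₂pos
  have h6 : (s.powersetCard l).card * (c₁ * c₂) ≤
      3 * ((s.powersetCard l).filter Bad).card * (c₁ * c₂) := by
    calc (s.powersetCard l).card * (c₁ * c₂) = (s.powersetCard l).card * c₁ * c₂ := by ring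
      _ ≤ _ := hle
      _ = 3 * ((s.powersetCard l).filter Bad).card * (c₁ * c₂) := by ring
  exact absurd (Nat.le_of_mul_le_mul_right h6 hpos) (by omega)

/-- Markov form: finitely many nonnegative functions of the past with small averages are all small
on three pairwise disjoint `l`-subsets. -/
theorem three_disjoint_avg (s : Finset X) (l : ℕ) (hl : 3 * l ≤ s.card) {ι : Type*} (I : Finset ι)
    (f : ι → Finset X → ℝ) (hf : ∀ i ∈ I, ∀ A ∈ s.powersetCard l, 0 ≤ f i A) (a lam : ι → ℝ)
    (hlam : ∀ i ∈ I, 0 < lam i)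
    (havg : ∀ i ∈ I, ∑ A ∈ s.powersetCard l, f i A ≤ a i * (s.powersetCard l).card)
    (hsum : ∑ i ∈ I, a i / lam i < 1 / 3) :
    ∃ A : Fin 3 → Finset X, (∀ j, A j ⊆ s ∧ (A j).card = l) ∧
      (∀ i j, i ≠ j → Disjoint (A i) (A j)) ∧ ∀ i ∈ I, ∀ j, f i (A j) < lam i := by
  have hcard : (0 : ℝ) < (s.powersetCard l).card := by
    rw [Finset.card_powersetCard]
    exact_mod_cast Nat.choose_pos (by omega)
  obtain ⟨Bad, hBad⟩ : ∃ Bad : Finset X → Prop, Bad = fun A => ∃ i ∈ I, lam i ≤ f i A := ⟨_, rfl⟩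
  have h1 : ((((s.powersetCard l).filter Bad).card : ℕ) : ℝ) ≤
      (∑ i ∈ I, a i / lam i) * (s.powersetCard l).card := by
    have h2 : ((((s.powersetCard l).filter Bad).card : ℕ) : ℝ) ≤
        ∑ A ∈ s.powersetCard l, ∑ i ∈ I, f i A / lam i := by
      rw [Finset.card_filter, Nat.cast_sum]
      refine Finset.sum_le_sum fun A hA => ?_
      split_ifs with h
      · rw [hBad] at h
        obtain ⟨i, hi, hi'⟩ := h
        rw [Nat.cast_one]
        calc (1 : ℝ) ≤ f i A / lam i := (one_le_div (hlam i hi)).2 hi'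
          _ ≤ ∑ i ∈ I, f i A / lam i := Finset.single_le_sum
              (f := fun i => f i A / lam i)
              (fun i hi => div_nonneg (hf i hi A hA) (hlam i hi).le) hi
      · rw [Nat.cast_zero]
        exact Finset.sum_nonneg fun i hi => div_nonneg (hf i hi A hA) (hlam i hi).le
    refine h2.trans ?_
    rw [Finset.sum_comm, Finset.sum_mul]
    refine Finset.sum_le_sum fun i hi => ?_
    rw [← Finset.sum_div, div_mul_eq_mul_div]
    exact div_le_div_of_nonneg_right (havg i hi) (hlam i hi).le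
  obtain ⟨A, hA, hd⟩ := three_disjoint s l hl Bad (by
    have h3 : (3 : ℝ) * (((s.powersetCard l).filter Bad).card : ℕ) <
        (s.powersetCard l).card := by
      nlinarith [mul_lt_mul_of_pos_right hsum hcard]
    exact_mod_cast h3)
  refine ⟨A, fun j => ⟨(hA j).1, (hA j).2.1⟩, hd, fun i hi j => ?_⟩
  by_contra hlt
  exact (hA j).2.2 (by rw [hBad]; exact ⟨i, hi, not_lt.1 hlt⟩)

end Vale.Agent.P060.HW.Three
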