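import Vale.Agent.P060.HW.AN
import Vale.Agent.P060.HW.Align
import Vale.Agent.P060.HW.Ann
import Vale.Agent.P060.HW.AtomCut
import Vale.Agent.P060.HW.Biased
import Vale.Agent.P060.HW.BiasedE
import Vale.Agent.P060.HW.Blocks
import Vale.Agent.P060.HW.Bridge
import Vale.Agent.P060.HW.Bridge2
import Vale.Agent.P060.HW.Budget
import Vale.Agent.P060.HW.Code
import Vale.Agent.P060.HW.Code2
import Vale.Agent.P060.HW.CodeB
import Vale.Agent.P060.HW.Combi
import Vale.Agent.P060.HW.Cond
import Vale.Agent.P060.HW.Conv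
import Vale.Agent.P060.HW.Count
import Vale.Agent.P060.HW.Count2
import Vale.Agent.P060.HW.CountD
import Vale.Agent.P060.HW.CountQ
import Vale.Agent.P060.HW.Energy
import Vale.Agent.P060.HW.Ent
import Vale.Agent.P060.HW.EntConv
import Vale.Agent.P060.HW.EntConv2
import Vale.Agent.P060.HW.EvXDef
import Vale.Agent.P060.HW.Ex1
import Vale.Agent.P060.HW.ExB
import Vale.Agent.P060.HW.ExC
import Vale.Agent.P060.HW.ExI
import Vale.Agent.P060.HW.ExI1
import Vale.Agent.P060.HW.ExI2
import Vale.Agent.P060.HW.ExI3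
import Vale.Agent.P060.HW.Exch
import Vale.Agent.P060.HW.Expose
import Vale.Agent.P060.HW.FProj
import Vale.Agent.P060.HW.Field
import Vale.Agent.P060.HW.Field2
import Vale.Agent.P060.HW.Field3
import Vale.Agent.P060.HW.Final0
import Vale.Agent.P060.HW.Final1
import Vale.Agent.P060.HW.Final2
import Vale.Agent.P060.HW.Frame
import Vale.Agent.P060.HW.FrameInst
import Vale.Agent.P060.HW.GaaGA
import Vale.Agent.P060.HW.GenX
import Vale.Agent.P060.HW.GlDef
import Vale.Agent.P060.HW.Good
import Vale.Agent.P060.HW.Graph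
import Vale.Agent.P060.HW.Greedy
import Vale.Agent.P060.HW.Host
import Vale.Agent.P060.HW.Info
import Vale.Agent.P060.HW.K2
import Vale.Agent.P060.HW.K2Frame
import Vale.Agent.P060.HW.LAExt
import Vale.Agent.P060.HW.LDFam
import Vale.Agent.P060.HW.LS1
import Vale.Agent.P060.HW.LS2
import Vale.Agent.P060.HW.LS3
import Vale.Agent.P060.HW.Lat
import Vale.Agent.P060.HW.Marg
import Vale.Agent.P060.HW.NOADef
import Vale.Agent.P060.HW.NearInd
import Vale.Agent.P060.HW.Num
import Vale.Agent.P060.HW.Ov4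
import Vale.Agent.P060.HW.Overlap
import Vale.Agent.P060.HW.OverlapB
import Vale.Agent.P060.HW.Pasts
import Vale.Agent.P060.HW.Pasts2
import Vale.Agent.P060.HW.Pasts3
import Vale.Agent.P060.HW.Pasts4
import Vale.Agent.P060.HW.Pinsker
import Vale.Agent.P060.HW.Rank
import Vale.Agent.P060.HW.RankL
import Vale.Agent.P060.HW.RankRow
import Vale.Agent.P060.HW.RedA
import Vale.Agent.P060.HW.RedB
import Vale.Agent.P060.HW.RedThm
import Vale.Agent.P060.HW.Reduc
import Vale.Agent.P060.HW.Rows
import Vale.Agent.P060.HW.Rows2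
import Vale.Agent.P060.HW.Select
import Vale.Agent.P060.HW.Skel1
import Vale.Agent.P060.HW.Skel2
import Vale.Agent.P060.HW.Skel3
import Vale.Agent.P060.HW.Strong
import Vale.Agent.P060.HW.T3Frame
import Vale.Agent.P060.HW.T3FrameD
import Vale.Agent.P060.HW.TV2
import Vale.Agent.P060.HW.TV8a
import Vale.Agent.P060.HW.TV8s
import Vale.Agent.P060.HW.TVA
import Vale.Agent.P060.HW.TVB
import Vale.Agent.P060.HW.TVBudget
import Vale.Agent.P060.HW.TVI
import Vale.Agent.P060.HW.TVIface
import Vale.Agent.P060.HW.TVLS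
import Vale.Agent.P060.HW.TVLS2
import Vale.Agent.P060.HW.TVdefs
import Vale.Agent.P060.HW.Three
import Vale.Agent.P060.HW.Trunc
import Vale.Agent.P060.HW.UB

/-! Test file: imports every file of the P060-HW closure at once, to detect name clashes. -/
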