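import Vale.Agent.P060.Defs

/-!
# P060/HW: the final form

From a finite graph with `hadwigerNumber G < chromaticNumber G` to a graph without `K_(t+1)` minor
which is not `t`-colourable.
-/

open scoped Classical

noncomputable section

namespace Vale.Agent.P060.HW.FinalForm

open Vale.Agent.P060

lemma minor_le {n t : ℕ} {G : SimpleGraph (Fin n)} (h : HasCliqueMinor G t) : t ≤ n := by
  obtain ⟨B, hB, hd⟩ := h
  choose f hf using fun i => (hB i).1
  have hinj : Function.Injective f := by
    intro i j hij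
    by_contra hne
    exact Set.disjoint_left.1 (hd i j hne).1 (hf i) (hij ▸ hf j)
  simpa using Fintype.card_le_of_injective f hinj

lemma bddAbove {n : ℕ} (G : SimpleGraph (Fin n)) : BddAbove {t : ℕ | HasCliqueMinor G t} :=
  ⟨n, fun _ h => minor_le h⟩

lemma one_minor {n : ℕ} (G : SimpleGraph (Fin n)) (hn : 0 < n) : HasCliqueMinor G 1 := by
  refine ⟨fun _ => {⟨0, hn⟩}, fun _ => ⟨⟨_, rfl⟩, ?_⟩, fun i j hij => absurd (Subsingleton.elim i j) hij⟩
  exact SimpleGraph.Connected.mk (SimpleGraph.Preconnected.of_subsingleton)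

theorem final_form (h : ∃ n : ℕ, ∃ G : SimpleGraph (Fin n), G.indepNum ≤ 2 ∧
      (hadwigerNumber G : ℕ∞) < G.chromaticNumber) :
    ∃ (n t : ℕ) (G : SimpleGraph (Fin n)), 1 ≤ t ∧ G.indepNum ≤ 2 ∧ ¬ HasCliqueMinor G (t + 1) ∧
      ¬ G.Colorable t ∧ (hadwigerNumber G : ℕ∞) < G.chromaticNumber := by
  obtain ⟨n, G, hG, hlt⟩ := h
  refine ⟨n, hadwigerNumber G, G, ?_, hG, ?_, ?_, hlt⟩
  · have hn : 0 < n := by
      rcases Nat.eq_zero_or_pos n with rfl | hn
      · exfalso
        have h0 : G.chromaticNumber = 0 := by simp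
        rw [h0] at hlt
        exact absurd hlt (by simp)
      · exact hn
    exact le_csSup (bddAbove G) (one_minor G hn)
  · intro h
    have := le_csSup (bddAbove G) h
    exact absurd this (by unfold hadwigerNumber; omega)
  · intro h
    exact absurd hlt (not_lt.2 h.chromaticNumber_le)

end Vale.Agent.P060.HW.FinalForm
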