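import Vale.Agent.P060.HW.AsmF
import Vale.Agent.P060.HW.FinalForm

/-!
# P060/HW: counterexamples for all large `t`

Adding dominating vertices to one counterexample gives a counterexample for every larger `t`.
-/

open scoped Classical

noncomputable section

namespace Vale.Agent.P060.HW.AllLarge

open Vale.Agent.P060

variable {V : Type*}

/-- The cone over `G`: a new vertex joined to all vertices. -/
def cone (G : SimpleGraph V) : SimpleGraph (Option V) where
  Adj x y := x ≠ y ∧ ∀ a b, x = some a → y = some b → G.Adj a b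
  symm := ⟨fun _ _ h => ⟨h.1.symm, fun a b ha hb => (h.2 b a hb ha).symm⟩⟩
  loopless := ⟨fun _ h => h.1 rfl⟩

lemma cone_some {G : SimpleGraph V} {a b : V} : (cone G).Adj (some a) (some b) ↔ G.Adj a b := by
  constructor
  · intro h
    exact h.2 a b rfl rfl
  · intro h
    refine ⟨fun e => h.ne (Option.some_injective _ e), fun a' b' ha hb => ?_⟩
    cases ha
    cases hb
    exact h

lemma cone_none {G : SimpleGraph V} {a : V} : (cone G).Adj none (some a) :=
  ⟨by simp, fun _ _ h => by simp at h⟩

/-- Removing the apex from a set not containing it. -/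
def isoPre (G : SimpleGraph V) (B : Set (Option V)) (hB : none ∉ B) :
    G.induce (some ⁻¹' B) ≃g (cone G).induce B where
  toFun x := ⟨some x.1, x.2⟩
  invFun x := ⟨x.1.get (by
    rcases x with ⟨x, hx⟩
    cases x with
    | none => exact absurd hx hB
    | some a => rfl), by
    rcases x with ⟨x, hx⟩
    cases x with
    | none => exact absurd hx hB
    | some a => exact hx⟩
  left_inv x := by simp
  right_inv x := by simp
  map_rel_iff' := by
    intro x y
    simp [cone_some]

lemma minor_of_cone {G : SimpleGraph V} {t : ℕ} (h : HasCliqueMinor (cone G) (t + 1)) :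
    HasCliqueMinor G t := by
  obtain ⟨B, hB, hd⟩ := h
  obtain ⟨i0, hi0⟩ : ∃ i0 : Fin (t + 1), ∀ i, i ≠ i0 → none ∉ B i := by
    by_cases hex : ∃ i, none ∈ B i
    · obtain ⟨i, hi⟩ := hex
      exact ⟨i, fun j hj hn => Set.disjoint_left.1 (hd i j hj.symm).1 hi hn⟩
    · exact ⟨0, fun i _ hi => hex ⟨i, hi⟩⟩
  refine ⟨fun j => some ⁻¹' B (i0.succAbove j), fun j => ?_, fun j k hjk => ?_⟩
  · have hn := hi0 _ (Fin.succAbove_ne i0 j)
    obtain ⟨⟨x, hx⟩, hc⟩ := hB (i0.succAbove j)
    constructor
    · cases x with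
      | none => exact absurd hx hn
      | some a => exact ⟨a, hx⟩
    · exact (isoPre G _ hn).connected_iff.2 hc
  · obtain ⟨h1, x, hx, y, hy, hxy⟩ := hd _ _ (fun e => hjk (Fin.succAbove_right_injective e) :
      i0.succAbove j ≠ i0.succAbove k)
    have hnj := hi0 _ (Fin.succAbove_ne i0 j)
    have hnk := hi0 _ (Fin.succAbove_ne i0 k)
    refine ⟨Set.disjoint_left.2 fun a ha hb => Set.disjoint_left.1 h1 ha hb, ?_⟩
    cases x with
    | none => exact absurd hx hnj
    | some a =>
      cases y with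
      | none => exact absurd hy hnk
      | some b => exact ⟨a, hx, b, hy, cone_some.1 hxy⟩

lemma colorable_of_cone {G : SimpleGraph V} {t : ℕ} (h : (cone G).Colorable (t + 1)) :
    G.Colorable t := by
  obtain ⟨c⟩ := h
  have hc : ∀ v, c (some v) ≠ c none := fun v e => c.valid (cone_none (a := v)) e.symm
  have col : G.Coloring {x : Fin (t + 1) // x ≠ c none} :=
    SimpleGraph.Coloring.mk (fun v => ⟨c (some v), hc v⟩) (by
      intro v w hvw e
      exact c.valid (cone_some.2 hvw) (congrArg Subtype.val e))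
  have := col.colorable
  rwa [Fintype.card_subtype_compl, Fintype.card_fin, Fintype.card_unique,
    Nat.add_sub_cancel] at this

lemma indep_le {W : Type*} [Finite W] {G : SimpleGraph W} :
    G.indepNum ≤ 2 ↔ ∀ s : Finset W, G.IsIndepSet s → s.card ≤ 2 := by
  constructor
  · intro h s hs
    exact le_trans hs.card_le_indepNum h
  · intro h
    obtain ⟨s, hs⟩ := G.exists_isNIndepSet_indepNum
    rw [← hs.card_eq]
    exact h s hs.isIndepSet

lemma indep_cone [Finite V] {G : SimpleGraph V} (h : G.indepNum ≤ 2) :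
    (cone G).indepNum ≤ 2 := by
  rw [indep_le] at h ⊢
  intro s hs
  by_cases hn : none ∈ s
  · have : s ⊆ {none} := by
      intro x hx
      cases x with
      | none => simp
      | some a => exact absurd cone_none (hs hn hx (by simp))
    exact le_trans (Finset.card_le_card this) (by simp)
  · have e : s = (Finset.eraseNone s).image some := by
      rw [Finset.image_some_eraseNone, Finset.erase_eq_of_notMem hn]
    rw [e, Finset.card_image_of_injective _ (Option.some_injective _)]
    refine h _ ?_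
    intro a ha b hb hab hadj
    exact hs (Finset.mem_eraseNone.1 ha) (Finset.mem_eraseNone.1 hb)
      (fun e => hab (Option.some_injective _ e)) (cone_some.2 hadj)

/-- `t` is a failure of Hadwiger's conjecture on a graph with independence number at most two. -/
def Bad (t : ℕ) : Prop := ∃ (n : ℕ) (G : SimpleGraph (Fin n)), G.indepNum ≤ 2 ∧
  ¬ HasCliqueMinor G (t + 1) ∧ ¬ G.Colorable t

lemma minor_iso {W : Type*} {G : SimpleGraph V} {H : SimpleGraph W} (e : G ≃g H) {t : ℕ}
    (h : HasCliqueMinor G t) : HasCliqueMinor H t := by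
  obtain ⟨B, hB, hd⟩ := h
  refine ⟨fun i => e '' B i, fun i => ⟨(hB i).1.image _, ?_⟩, fun i j hij => ⟨?_, ?_⟩⟩
  · have hc := (hB i).2
    let f : G.induce (B i) →g H.induce (e '' B i) :=
      ⟨fun x => ⟨e x.1, x.1, x.2, rfl⟩, fun {x y} hxy => e.map_adj_iff.2 hxy⟩
    refine hc.map f ?_
    rintro ⟨_, x, hx, rfl⟩
    exact ⟨⟨x, hx⟩, rfl⟩
  · rw [Set.disjoint_left]
    rintro _ ⟨x, hx, rfl⟩ ⟨y, hy, hxy⟩
    have : y = x := e.injective hxy
    subst this
    exact Set.disjoint_left.1 (hd i j hij).1 hx hy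
  · obtain ⟨-, x, hx, y, hy, hxy⟩ := hd i j hij
    exact ⟨e x, ⟨x, hx, rfl⟩, e y, ⟨y, hy, rfl⟩, e.map_adj_iff.2 hxy⟩

lemma bad_succ {t : ℕ} (h : Bad t) : Bad (t + 1) := by
  obtain ⟨n, G, h1, h2, h3⟩ := h
  have hcard : Fintype.card (Option (Fin n)) = n + 1 := by simp
  let e : (cone G) ≃g (cone G).overFin hcard := (cone G).overFinIso hcard
  refine ⟨n + 1, (cone G).overFin hcard, ?_, ?_, ?_⟩
  · rw [indep_le]
    intro s hs
    have := (indep_le.1 (indep_cone h1)) (s.map e.symm.toEquiv.toEmbedding) ?_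
    · simpa using this
    · intro a ha b hb hab hadj
      simp only [Finset.coe_map, Set.mem_image] at ha hb
      obtain ⟨a', ha', rfl⟩ := ha
      obtain ⟨b', hb', rfl⟩ := hb
      exact hs ha' hb' (fun e' => hab (by rw [e'])) (e.symm.map_adj_iff.1 hadj)
  · intro hm
    exact h2 (minor_of_cone (minor_iso e.symm hm))
  · intro hc
    exact h3 (colorable_of_cone (hc.of_hom e.toHom))

lemma bad_mono {t u : ℕ} (htu : t ≤ u) (h : Bad t) : Bad u := by
  induction u, htu using Nat.le_induction with
  | base => exact h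
  | succ u _ ih => exact bad_succ ih

lemma minor_mono {G : SimpleGraph V} {s t : ℕ} (hst : s ≤ t) (h : HasCliqueMinor G t) :
    HasCliqueMinor G s := by
  obtain ⟨B, hB, hd⟩ := h
  refine ⟨fun i => B (Fin.castLE hst i), fun i => hB _, fun i j hij => hd _ _ fun e => hij ?_⟩
  exact Fin.castLE_injective hst e

/-- **Hadwiger's conjecture fails for all large `t`**, on graphs with independence number at most
two. -/
theorem all_large : ∃ t₀ : ℕ, ∀ t : ℕ, t₀ ≤ t → ∃ (n : ℕ) (G : SimpleGraph (Fin n)),
    G.indepNum ≤ 2 ∧ ¬ HasCliqueMinor G (t + 1) ∧ ¬ G.Colorable t ∧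
      (hadwigerNumber G : ℕ∞) < G.chromaticNumber := by
  obtain ⟨n, t, G, -, h1, h2, h3, -⟩ := FinalForm.final_form disproof
  refine ⟨t, fun u hu => ?_⟩
  obtain ⟨m, H, k1, k2, k3⟩ := bad_mono hu ⟨n, G, h1, h2, h3⟩
  refine ⟨m, H, k1, k2, k3, ?_⟩
  have e1 : hadwigerNumber H ≤ u := by
    refine csSup_le' fun s hs => ?_
    by_contra hlt
    exact k2 (minor_mono (by omega) hs)
  have e2 : ((u + 1 : ℕ) : ℕ∞) ≤ H.chromaticNumber := by
    rw [SimpleGraph.le_chromaticNumber_iff_colorable]
    intro m' hm'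
    by_contra hlt
    have : m' ≤ u := by
      by_contra hh
      exact hlt (by exact_mod_cast (by omega : u + 1 ≤ m'))
    exact k3 (hm'.mono this)
  refine lt_of_lt_of_le ?_ e2
  exact_mod_cast Nat.lt_succ_of_le e1

end Vale.Agent.P060.HW.AllLarge
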