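import Vale.Agent.P060.HW.TVIface
import Vale.Agent.P060.HW.TVLS2

/-!
# P060/HW: the TV theorem from its three parts
-/

open scoped Classical

noncomputable section

set_option linter.unusedSectionVars false

namespace Vale.Agent.P060.HW

open Module

namespace TVMain

variable {N d : ℕ} {E P Om : Type} [Fintype E] [Fintype P] [Fintype Om] [NeZero N]

lemma card_rowLines_le (fr : Frame N d E Om) (w : Om) :
    (rowLines fr w).card ≤ 3 * (Finset.univ.filter fun c : Ty N d => w ∈ fr.U c).card := by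
  unfold rowLines
  refine Finset.card_biUnion_le.trans ?_
  rw [mul_comm]
  refine Finset.sum_le_card_nsmul _ _ 3 fun c _ => ?_
  unfold lins
  refine Finset.card_image_le.trans ?_
  simp

lemma rowLines_small {fr : Frame N d E Om} {D₀ : ℕ} {θ C : ℝ} (hS : Sizes fr P D₀ θ C)
    (hθ : θ * (6 * ((D₀ : ℝ) + 20) ^ 2) ≤ 1) (hk : 60 * (D₀ + 20) ^ 2 ≤ Fintype.card P) (w : Om) :
    30 + (rowLines fr w).card ≤ Fintype.card P / (D₀ + 20) ^ 2 := by
  rw [Nat.le_div_iff_mul_le (by positivity)]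
  have h1 : ((rowLines fr w).card : ℝ)
      ≤ 3 * ((Finset.univ.filter fun c : Ty N d => w ∈ fr.U c).card : ℝ) := by
    exact_mod_cast card_rowLines_le fr w
  have h2 := hS.hA w
  have h3 : (60 : ℝ) * ((D₀ : ℝ) + 20) ^ 2 ≤ Fintype.card P := by exact_mod_cast hk
  have h4 : (0 : ℝ) ≤ Fintype.card P := Nat.cast_nonneg _
  have h5 : ((30 + (rowLines fr w).card : ℕ) : ℝ) * ((D₀ : ℝ) + 20) ^ 2 ≤ Fintype.card P := by
    push_cast
    have h6 : ((rowLines fr w).card : ℝ) ≤ 3 * (θ * Fintype.card P) := by linarith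
    have h7 : ((rowLines fr w).card : ℝ) * ((D₀ : ℝ) + 20) ^ 2
        ≤ 3 * (θ * Fintype.card P) * ((D₀ : ℝ) + 20) ^ 2 :=
      mul_le_mul_of_nonneg_right h6 (by positivity)
    have h8 : 3 * (θ * Fintype.card P) * ((D₀ : ℝ) + 20) ^ 2
        = (θ * (6 * ((D₀ : ℝ) + 20) ^ 2)) * Fintype.card P / 2 := by ring
    have h9 : (θ * (6 * ((D₀ : ℝ) + 20) ^ 2)) * Fintype.card P ≤ 1 * Fintype.card P :=
      mul_le_mul_of_nonneg_right hθ h4
    nlinarith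
  exact_mod_cast h5

end TVMain

/-- The TV theorem from its parts. -/
theorem tv_of (hK2 : TvK2) (hSel : TvSel) (hLoc : TvLoc) (hE1 : Ex1) : TV := by
  intro ψ hψ E _ C ε hε
  obtain ⟨ε₁, hε₁, sel⟩ := hSel ε hε
  obtain ⟨lam, hlam, D₁, k2⟩ := hK2 C ε₁ hε₁
  obtain ⟨d₀, hd₀, η, hη, loc⟩ := hLoc ψ hψ ε lam hε hlam
  refine ⟨η, hη, max D₁ 1, fun D₀ hD₀ => ?_⟩
  obtain ⟨d₁, sel⟩ := sel C lam d₀ hlam hd₀ D₀
    (lt_of_lt_of_le Nat.one_pos ((le_max_right _ _).trans hD₀))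
  refine ⟨d₁, fun d hd => ⟨0, ?_⟩⟩
  obtain ⟨θ₁, hθ₁, k₁, sel⟩ := sel d hd E
  obtain ⟨θ₂, hθ₂, k₂, k2⟩ := k2 D₀ ((le_max_left _ _).trans hD₀) d E
  obtain ⟨θ₃, hθ₃, k₃, e1⟩ := hE1 D₀ d E
  have hpos : (0 : ℝ) < 6 * ((D₀ : ℝ) + 20) ^ 2 := by positivity
  refine ⟨min (min θ₁ θ₂) (min θ₃ (1 / (6 * ((D₀ : ℝ) + 20) ^ 2))),
    lt_min (lt_min hθ₁ hθ₂) (lt_min hθ₃ (by positivity)),
    max (max k₁ k₂) (max k₃ (60 * (D₀ + 20) ^ 2)), ?_⟩
  intro N P Om _ _ _ fr hk hS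
  have hk1 : k₁ ≤ Fintype.card P := ((le_max_left _ _).trans (le_max_left _ _)).trans hk
  have hk2 : k₂ ≤ Fintype.card P := ((le_max_right _ _).trans (le_max_left _ _)).trans hk
  have hk3 : k₃ ≤ Fintype.card P := ((le_max_left _ _).trans (le_max_right _ _)).trans hk
  have hk4 : 60 * (D₀ + 20) ^ 2 ≤ Fintype.card P :=
    ((le_max_right _ _).trans (le_max_right _ _)).trans hk
  have hS1 : Sizes fr P D₀ θ₁ 0 := hS.mono ((min_le_left _ _).trans (min_le_left _ _)) le_rfl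
  have hS2 : Sizes fr P D₀ θ₂ 0 := hS.mono ((min_le_left _ _).trans (min_le_right _ _)) le_rfl
  have hS3 : Sizes fr P D₀ θ₃ 0 := hS.mono ((min_le_right _ _).trans (min_le_left _ _)) le_rfl
  have hS4 : Sizes fr P D₀ (1 / (6 * ((D₀ : ℝ) + 20) ^ 2)) 0 :=
    hS.mono ((min_le_right _ _).trans (min_le_right _ _)) le_rfl
  obtain ⟨G₂, hG₂, k2⟩ := k2 N P Om fr hk2 hS2
  have hR := e1 N P Om fr hk3 hS3
  set G₁ : Set (Dz fr P) :=
    {p | ∀ κ : ℕ, κ ≤ 20 * Fintype.card P / (D₀ + 20) ^ 2 → Ev1 p.1 κ} with hG₁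
  have hG₁' : G₁ᶜ = {p : Dz fr P | ¬ ∀ κ : ℕ, κ ≤ 20 * Fintype.card P / (D₀ + 20) ^ 2 →
      Ev1 p.1 κ} := rfl
  refine ⟨G₁ ∩ G₂, ?_, ?_⟩
  · have h1 : Nat.card ((G₁ ∩ G₂)ᶜ : Set (Dz fr P)) ≤ Nat.card (G₁ᶜ : Set (Dz fr P))
        + Nat.card (G₂ᶜ : Set (Dz fr P)) := by
      rw [Set.compl_inter, Nat.card_coe_set_eq, Nat.card_coe_set_eq, Nat.card_coe_set_eq]
      exact Set.ncard_union_le _ _
    have h2 : 100 * Nat.card (G₁ᶜ : Set (Dz fr P)) ≤ Nat.card (Dz fr P) := by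
      rw [hG₁']
      exact hR
    omega
  · intro p hp a a' ι ι' haa w hw ρ hρ
    have h1 := sel N P Om fr p.1 p.2 hk1 hS1 hp.1 a a' ι ι' haa _ w hw ρ hρ
      (fun A hA hA' => k2 p hp.2 a a' ι ι' haa _ w hw ρ hρ A hA hA')
    refine le_trans (Finset.sum_le_sum fun β _ => ?_) h1
    have h0 := hρ.nonneg β
    by_cases hb : GoodB hw D₀ lam d₀ β
    · rw [if_neg (not_not.2 hb), if_neg]
      rintro ⟨ha, ha'⟩
      rcases loc D₀ N d E P Om fr p.1 p.2 hp.1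
        ((Nat.le_div_iff_mul_le (by positivity)).2 (by omega))
        (fun u => TVMain.rowLines_small hS4 (by
          rw [one_div, inv_mul_cancel₀ hpos.ne']) hk4 u)
        a a' ι ι' haa _ _ w hw β hb with h | h
      · exact absurd ha (not_lt.2 h)
      · exact ha' h
    · rw [if_pos hb]
      split_ifs
      · exact le_rfl
      · exact h0

end Vale.Agent.P060.HW
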