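import Vale.Agent.P060.HW.Final3
import Vale.Agent.P060.HW.Ex1
import Vale.Agent.P060.HW.ExC
import Vale.Agent.P060.HW.TVMain
import Vale.Agent.P060.HW.TVLS2
import Vale.Agent.P060.HW.LDFam
import Vale.Agent.P060.HW.OverlapB
import Vale.Agent.P060.HW.NOADef

/-!
# Assembly: the final theorem from the blocks which are still open
-/

noncomputable section

namespace Vale.Agent.P060.HW

/-- The final theorem from the open blocks. -/
theorem disproof_of_open (hK2 : TvK2) (hSel : TvSel) (hLoc : TvLoc) (hLS : LS) (hA : NotOutA) :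
    ∃ n : ℕ, ∃ G : SimpleGraph (Fin n), G.indepNum ≤ 2 ∧
      (hadwigerNumber G : ℕ∞) < G.chromaticNumber :=
  disproof_of frameInst ex1 exC (tvls_of (tv_of hK2 hSel hLoc ex1) hLS ldFam) overlap hA

end Vale.Agent.P060.HW
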