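import Mathlib

/-!
# Constants of the block LS
-/

noncomputable section

namespace Vale.Agent.P060.HW.LS5

lemma n1 {D₀ k A s : ℕ} (h1 : 2 * (D₀ + 20) ^ 2 ≤ k) (h2 : (12 * s + 20) * (D₀ + 20) ^ 2 ≤ k)
    (hA : A * (D₀ + 20) ^ 2 ≤ k) :
    6 * (2 * s + 1) ≤ 20 * k / (D₀ + 20) ^ 2 ∧
    6 * (k / (D₀ + 20) ^ 2) + 3 * A ≤ 20 * k / (D₀ + 20) ^ 2 ∧
    12 + 6 * A ≤ 20 * k / (D₀ + 20) ^ 2 := by
  have hSnpos : 0 < (D₀ + 20) ^ 2 := by positivity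
  generalize (D₀ + 20) ^ 2 = S at *
  have hbn : k / S * S ≤ k := Nat.div_mul_le_self _ _
  refine ⟨?_, ?_, ?_⟩
  · rw [Nat.le_div_iff_mul_le hSnpos]
    nlinarith
  · rw [Nat.le_div_iff_mul_le hSnpos]
    nlinarith
  · rw [Nat.le_div_iff_mul_le hSnpos]
    nlinarith

lemma n2 {c C' k N : ℝ} {A s t n f1 f2 : ℝ} (hc : 0 < c) (hN : k ≤ N)
    (e1 : f1 ≤ c / 32 * N) (e2 : f2 ≤ C' * k) (e3 : 64 * C' * k ≤ c * N)
    (hA : A * (400 * (t + 1)) ≤ c * k) (hA0 : 0 ≤ A) (ht : 0 ≤ t)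
    (e5 : 64 * (24 + 8 * s) ≤ c * k) (hn : c * N ≤ n) :
    4 * (2 * (f1 + (3 + f2 + t * (3 * A))) + 2 * s) ≤ n := by
  have h4 : c * k ≤ c * N := mul_le_mul_of_nonneg_left hN hc.le
  have e4 : (t * A) * 300 ≤ c * N := by nlinarith
  nlinarith

lemma n3 {k S M D₀ n N κ₀ b : ℝ} (hM : 0 < M) (hD : 0 < D₀) (hS : 0 < S)
    (hκ : κ₀ = 1 / (24 * M * D₀ * S)) (hN : N ≤ 2 * D₀ * k) (hn : n ≤ 3 * N)
    (hb : k / S - 1 ≤ b) (hk : 2 * S ≤ k) : κ₀ * n * (2 * M) ≤ b := by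
  refine le_trans ?_ hb
  have hκ0 : 0 < κ₀ := by rw [hκ]; positivity
  have h2 : κ₀ * n * (2 * M) ≤ κ₀ * (6 * D₀ * k) * (2 * M) := by
    have : n ≤ 6 * D₀ * k := by linarith
    have h3 : κ₀ * n ≤ κ₀ * (6 * D₀ * k) := mul_le_mul_of_nonneg_left this hκ0.le
    exact mul_le_mul_of_nonneg_right h3 (by positivity)
  have h3 : κ₀ * (6 * D₀ * k) * (2 * M) = k / S / 2 := by
    rw [hκ]
    field_simp
    ring
  have h4 : 2 ≤ k / S := by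
    rw [le_div_iff₀ hS]; exact hk
  linarith

lemma n4 {c C' e k K N M D₀ n T f2 : ℝ} (hM : 0 < M) (hc : 0 < c) (hN0 : 0 < N) (hk : 0 ≤ k)
    (hN : D₀ * k ≤ N) (hK : K ≤ (e + 2) * k) (h1 : 16 * M * (C' + 3 * (e + 2)) ≤ c * D₀)
    (e2 : f2 ≤ C' * k) (hn : c * N ≤ n) (hnT : n ≤ 2 * M * (T + 2 * (f2 + 3 * K))) :
    c / (4 * M) * N ≤ T ∧ 0 < T := by
  have h2 : 16 * M * (C' + 3 * (e + 2)) * k ≤ c * N := by
    calc 16 * M * (C' + 3 * (e + 2)) * k ≤ c * D₀ * k := mul_le_mul_of_nonneg_right h1 hk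
      _ = c * (D₀ * k) := by ring
      _ ≤ c * N := mul_le_mul_of_nonneg_left hN hc.le
  have h3 : 4 * (M * (f2 + 3 * K)) ≤ c * N / 4 := by
    have h4 : f2 + 3 * K ≤ (C' + 3 * (e + 2)) * k := by linarith
    have h5 : M * (f2 + 3 * K) ≤ M * ((C' + 3 * (e + 2)) * k) :=
      mul_le_mul_of_nonneg_left h4 hM.le
    linarith
  have h6 : c * N * (3 / 4) ≤ 2 * (M * T) := by linarith
  have h0 : 0 < c * N := mul_pos hc hN0
  have hT : c / (4 * M) * N ≤ T := by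
    have h7 : c / (4 * M) * N = c * N / (4 * M) := by ring
    rw [h7, div_le_iff₀ (by positivity)]
    linarith
  refine ⟨hT, ?_⟩
  have h8 : (0 : ℝ) < c / (4 * M) * N := by positivity
  exact lt_of_lt_of_le h8 hT

lemma n5 {k S : ℕ} (hS : 0 < S) : (k : ℝ) / S - 1 ≤ ((k / S : ℕ) : ℝ) := by
  have h2 := Nat.lt_div_mul_add (a := k) hS
  have h3 : (k : ℝ) < ((k / S : ℕ) : ℝ) * S + S := by exact_mod_cast h2
  have hSr : (0 : ℝ) < S := Nat.cast_pos.2 hS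
  rw [sub_le_iff_le_add, div_le_iff₀ hSr]
  linarith

/-- The constants: `D₁`, then `κ₀, t`. -/
lemma n6 (c C' : ℝ) (e M : ℕ) :
    ∃ D₁ : ℕ, 0 < D₁ ∧ ∀ D₀ ≥ D₁, (1 : ℝ) ≤ D₀ ∧ (0 < c → 64 * C' ≤ c * D₀) ∧
      (0 < c → 16 * M * (C' + 3 * (e + 2)) ≤ c * D₀) := by
  obtain ⟨D₁, hD₁⟩ := exists_nat_ge (max 1 (max (64 * C' / c) (16 * M * (C' + 3 * (e + 2)) / c)))
  have hD₁1 : (1 : ℝ) ≤ D₁ := (le_max_left _ _).trans hD₁
  have hD₁2 : 64 * C' / c ≤ D₁ := ((le_max_left _ _).trans (le_max_right _ _)).trans hD₁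
  have hD₁3 : 16 * M * (C' + 3 * (e + 2)) / c ≤ D₁ :=
    ((le_max_right _ _).trans (le_max_right _ _)).trans hD₁
  refine ⟨D₁, by exact_mod_cast (lt_of_lt_of_le one_pos hD₁1), fun D₀ hD₀ => ?_⟩
  have hD₀r : (D₁ : ℝ) ≤ D₀ := by exact_mod_cast hD₀
  refine ⟨hD₁1.trans hD₀r, fun hc => ?_, fun hc => ?_⟩
  · have h1 := hD₁2.trans hD₀r
    rw [div_le_iff₀ hc, mul_comm (D₀ : ℝ)] at h1
    exact h1
  · have h1 := hD₁3.trans hD₀r
    rw [div_le_iff₀ hc, mul_comm (D₀ : ℝ)] at h1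
    exact h1

/-- The numeric inequalities of the block LS, except those for the number of rows. -/
theorem numeric (c C' : ℝ) (hc : 0 < c) (hC' : 0 ≤ C') (e s M : ℕ) (hM : 0 < M) :
    ∃ D₁ : ℕ, 0 < D₁ ∧ ∀ D₀ ≥ D₁, ∃ (κ₀ : ℝ) (t : ℕ), 0 < κ₀ ∧ 1 < κ₀ * (t + 1) ∧
      ∃ θ > (0 : ℝ), ∃ k₀ : ℕ, ∀ k ≥ k₀, ∀ N K A : ℕ, D₀ * k ≤ N → N ≤ 2 * D₀ * k →
        (A : ℝ) ≤ θ * k → (K : ℝ) ≤ e + k + θ * k →
        (6 * (2 * s + 1) ≤ 20 * k / (D₀ + 20) ^ 2 ∧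
        6 * (k / (D₀ + 20) ^ 2) + 3 * A ≤ 20 * k / (D₀ + 20) ^ 2 ∧
        12 + 6 * A ≤ 20 * k / (D₀ + 20) ^ 2) ∧ 0 < k ∧
        (∀ n : ℕ, c * N ≤ n → 0 < n ∧
          4 * (2 * (⌊c / 32 * N⌋₊ + (3 + ⌊C' * k⌋₊ + t * (3 * A))) + 2 * s) ≤ n) ∧
        (∀ n : ℕ, n ≤ 3 * N → κ₀ * n * (2 * M) ≤ (k / (D₀ + 20) ^ 2 : ℕ)) ∧
        ∀ n T : ℕ, c * N ≤ n → (n : ℝ) ≤ 2 * M * (T + 2 * (⌊C' * k⌋₊ + 3 * K)) →
          c / (4 * M) * N ≤ T ∧ 0 < T := by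
  have hMr : (0 : ℝ) < M := Nat.cast_pos.2 hM
  obtain ⟨D₁, hD₁, hD⟩ := n6 c C' e M
  refine ⟨D₁, hD₁, fun D₀ hD₀ => ?_⟩
  obtain ⟨hD0, hD64, hD16⟩ := hD D₀ hD₀
  have hD0pos : (0 : ℝ) < D₀ := by linarith
  obtain ⟨S, hS⟩ : ∃ S : ℕ, S = (D₀ + 20) ^ 2 := ⟨_, rfl⟩
  have hSpos : 0 < S := by rw [hS]; positivity
  have hSr : (0 : ℝ) < S := Nat.cast_pos.2 hSpos
  obtain ⟨κ₀, hκ₀⟩ : ∃ κ₀ : ℝ, κ₀ = 1 / (24 * M * D₀ * S) := ⟨_, rfl⟩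
  have hκ₀pos : 0 < κ₀ := by rw [hκ₀]; positivity
  obtain ⟨t, ht⟩ := exists_nat_ge (1 / κ₀)
  have ht1 : 1 < κ₀ * (t + 1) := by
    have h1 : 1 ≤ κ₀ * t := by
      rw [div_le_iff₀ hκ₀pos] at ht
      linarith [mul_comm κ₀ (t : ℝ)]
    linarith
  refine ⟨κ₀, t, hκ₀pos, ht1, min 1 (min (1 / S) (c / (400 * (t + 1)))), ?_, ?_⟩
  · exact lt_min one_pos (lt_min (by positivity) (by positivity))
  obtain ⟨k₀, hk₀⟩ := exists_nat_ge (max ((2 * S : ℕ) : ℝ) (max (((12 * s + 20) * S : ℕ) : ℝ)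
    (64 * (24 + 8 * s) / c)))
  refine ⟨max 1 k₀, fun k hk N K A hN hN' hA hK => ?_⟩
  have hkr : (k₀ : ℝ) ≤ k := by exact_mod_cast (le_max_right _ _).trans hk
  have hk1 : ((2 * S : ℕ) : ℝ) ≤ k := ((le_max_left _ _).trans hk₀).trans hkr
  have hk2 : (((12 * s + 20) * S : ℕ) : ℝ) ≤ k :=
    (((le_max_left _ _).trans (le_max_right _ _)).trans hk₀).trans hkr
  have hk3 : 64 * (24 + 8 * s) / c ≤ k :=
    (((le_max_right _ _).trans (le_max_right _ _)).trans hk₀).trans hkr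
  have hk1n : 2 * S ≤ k := by exact_mod_cast hk1
  have hk2n : (12 * s + 20) * S ≤ k := by exact_mod_cast hk2
  have hk1' : 1 ≤ k := (le_max_left _ _).trans hk
  have hk1r : (1 : ℝ) ≤ k := by exact_mod_cast hk1'
  have hkpos : (0 : ℝ) < k := by linarith
  obtain ⟨θ, hθ⟩ : ∃ θ : ℝ, θ = min 1 (min (1 / (S : ℝ)) (c / (400 * (t + 1)))) := ⟨_, rfl⟩
  rw [← hθ] at hA hK
  have hθ1 : θ ≤ 1 := hθ ▸ min_le_left _ _
  have hθ2 : θ ≤ 1 / S := hθ ▸ (min_le_right _ _).trans (min_le_left _ _)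
  have hθ3 : θ ≤ c / (400 * (t + 1)) := hθ ▸ (min_le_right _ _).trans (min_le_right _ _)
  have hNr : (D₀ : ℝ) * k ≤ N := by exact_mod_cast hN
  have hNr' : (N : ℝ) ≤ 2 * D₀ * k := by exact_mod_cast hN'
  have hNk : (k : ℝ) ≤ N := le_trans (le_mul_of_one_le_left hkpos.le hD0) hNr
  have hN0 : (0 : ℝ) < N := by linarith
  have hA2 : (A : ℝ) * S ≤ k := by
    have h1 : (A : ℝ) ≤ 1 / S * k := hA.trans (mul_le_mul_of_nonneg_right hθ2 hkpos.le)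
    rw [one_div, ← div_eq_inv_mul, le_div_iff₀ hSr] at h1
    exact h1
  have hAn : A * S ≤ k := by exact_mod_cast hA2
  have hC0 : (0 : ℝ) ≤ C' * k := mul_nonneg hC' hkpos.le
  have e2 : ((⌊C' * k⌋₊ : ℕ) : ℝ) ≤ C' * k := Nat.floor_le hC0
  rw [← hS]
  refine ⟨?_, hk1', ?_, ?_, ?_⟩
  · rw [hS] at hk1n hk2n hAn ⊢
    exact n1 hk1n hk2n hAn
  · intro n hn
    have hn0 : (0 : ℝ) < n := lt_of_lt_of_le (mul_pos hc hN0) hn
    refine ⟨by exact_mod_cast hn0, ?_⟩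
    have e1 : ((⌊c / 32 * N⌋₊ : ℕ) : ℝ) ≤ c / 32 * N := Nat.floor_le (by positivity)
    have e3 : 64 * C' * k ≤ c * N := by
      calc 64 * C' * k ≤ c * D₀ * k := mul_le_mul_of_nonneg_right (hD64 hc) hkpos.le
        _ = c * (D₀ * k) := by ring
        _ ≤ c * N := mul_le_mul_of_nonneg_left hNr hc.le
    have e4 : (A : ℝ) * (400 * (t + 1)) ≤ c * k := by
      have h1 : (A : ℝ) ≤ c / (400 * (t + 1)) * k :=
        hA.trans (mul_le_mul_of_nonneg_right hθ3 hkpos.le)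
      have h3 : c / (400 * ((t : ℝ) + 1)) * k = c * k / (400 * (t + 1)) := by ring
      rw [h3, le_div_iff₀ (by positivity)] at h1
      exact h1
    have e5 : 64 * (24 + 8 * (s : ℝ)) ≤ c * k := by
      rw [div_le_iff₀ hc] at hk3
      linarith [mul_comm c (k : ℝ)]
    have h9 := n2 hc hNk e1 e2 e3 e4 (Nat.cast_nonneg _) (Nat.cast_nonneg _) e5 hn
    exact_mod_cast h9
  · intro n hn
    have hnr : (n : ℝ) ≤ 3 * N := by exact_mod_cast hn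
    exact n3 hMr hD0pos hSr hκ₀ hNr' hnr (n5 hSpos) (by exact_mod_cast hk1)
  · intro n T hn hnT
    have hKk : (K : ℝ) ≤ (e + 2) * k := by
      have h1 : θ * k ≤ k := mul_le_of_le_one_left hkpos.le hθ1
      have h2 : (e : ℝ) ≤ e * k := le_mul_of_one_le_right (Nat.cast_nonneg _) hk1r
      linarith
    obtain ⟨h1, h2⟩ := n4 hMr hc hN0 hkpos.le hNr hKk (hD16 hc) e2 hn hnT
    exact ⟨h1, by exact_mod_cast h2⟩

/-- The rows: `q ≥ C₁ log k` is large enough. -/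
theorem rows (C C₂ η : ℝ) (hη : 0 < η) : ∃ (C₁ : ℝ) (k₀ : ℕ), ∀ k ≥ k₀, ∀ q : ℕ,
    C₁ * Real.log k ≤ q →
    (k : ℝ) ^ C < η / 2521 ^ ⌈C₂ * Real.log k⌉₊ * 2521 ^ (q / 2) := by
  have hlog : Filter.Tendsto (fun k : ℕ => Real.log k) Filter.atTop Filter.atTop :=
    Real.tendsto_log_atTop.comp tendsto_natCast_atTop_atTop
  have h2521 : 1 < Real.log 2521 := by
    rw [Real.lt_log_iff_exp_lt (by norm_num)]
    have := Real.exp_one_lt_d9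
    linarith
  obtain ⟨k₀, hk₀⟩ := Filter.eventually_atTop.1
    ((hlog.eventually_ge_atTop ((|Real.log η| + 1) / 1 + 3 * Real.log 2521)).and
      (Filter.eventually_ge_atTop 1))
  refine ⟨2 * (|C₂| + |C| + 1), k₀, fun k hk q hq => ?_⟩
  obtain ⟨h1, h2⟩ := hk₀ k hk
  have hkpos : (0 : ℝ) < k := by exact_mod_cast h2
  set l := Real.log k with hl
  have hl0 : 0 ≤ l := Real.log_nonneg (by exact_mod_cast h2)
  set n0 := ⌈C₂ * l⌉₊ with hn0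
  have hn0' : (n0 : ℝ) ≤ |C₂| * l + 1 := by
    have h3 : (n0 : ℝ) < |C₂| * l + 1 := by
      refine lt_of_le_of_lt ?_ (Nat.ceil_lt_add_one (by positivity : 0 ≤ |C₂| * l))
      exact_mod_cast Nat.ceil_le_ceil (mul_le_mul_of_nonneg_right (le_abs_self _) hl0)
    exact h3.le
  have hq2 : (q : ℝ) / 2 - 1 ≤ ((q / 2 : ℕ) : ℝ) := by
    have := n5 (k := q) (S := 2) two_pos
    simpa using this
  have hlt : C * l < Real.log η - n0 * Real.log 2521 + (q / 2 : ℕ) * Real.log 2521 := by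
    have h3 : (|C₂| + |C| + 1) * l - 1 ≤ ((q / 2 : ℕ) : ℝ) := by linarith
    have h4 : (|C| + 1) * l - 2 ≤ ((q / 2 : ℕ) : ℝ) - n0 := by linarith
    have h5 : ((|C| + 1) * l - 2) * Real.log 2521 ≤
        (((q / 2 : ℕ) : ℝ) - n0) * Real.log 2521 :=
      mul_le_mul_of_nonneg_right h4 (by linarith)
    have h6 : (|C| + 1) * l ≤ (|C| + 1) * l * Real.log 2521 :=
      le_mul_of_one_le_right (by positivity) h2521.le
    have h7 : C * l ≤ |C| * l := mul_le_mul_of_nonneg_right (le_abs_self _) hl0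
    have h8 := neg_abs_le (Real.log η)
    linarith
  have hR : 0 < η / 2521 ^ n0 * 2521 ^ (q / 2) := by positivity
  rw [← Real.exp_log (Real.rpow_pos_of_pos hkpos C), ← Real.exp_log hR, Real.exp_lt_exp,
    Real.log_rpow hkpos, Real.log_mul (by positivity) (by positivity),
    Real.log_div hη.ne' (by positivity), Real.log_pow, Real.log_pow]
  exact hlt

end Vale.Agent.P060.HW.LS5
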