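import Vale.Agent.P060.HW.Rows
import Vale.Agent.P060.HW.Good
import Vale.Agent.P060.HW.Biased

/-!
# The last step of LS: a common biased functional is a cut functional
-/

open scoped Classical

noncomputable section

set_option linter.unusedSectionVars false

namespace Vale.Agent.P060.HW

open Module

variable {N d : ℕ} {E P Om : Type} [Fintype E] [Fintype P] [Fintype Om] [NeZero N]

theorem card_lins_le_three (c : Ty N d) : (lins c).card ≤ 3 := by
  unfold lins
  exact Finset.card_image_le.trans (by simp)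

theorem card_rowLines_le_three (fr : Frame N d E Om) (w : Om) {m : ℕ}
    (hm : (Finset.univ.filter fun c : Ty N d => w ∈ fr.U c).card ≤ m) :
    (rowLines fr w).card ≤ 3 * m := by
  unfold rowLines
  refine Finset.card_biUnion_le.trans ?_
  refine (Finset.sum_le_sum fun c _ => card_lins_le_three c).trans ?_
  rw [Finset.sum_const, smul_eq_mul, mul_comm]
  exact Nat.mul_le_mul_left 3 hm

theorem rowInd_of_Ev1 (fr : Frame N d E Om) (p : Lin N → Co E P Om → F) {κ m : ℕ}
    (h1 : Ev1 p κ) (hm : ∀ w, (Finset.univ.filter fun c : Ty N d => w ∈ fr.U c).card ≤ m)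
    (hκ : 3 + 6 * m ≤ κ) (a' : Ty N d) : RowInd fr p a' := by
  intro w _ w' _
  refine h1 _ ?_
  have e1 := Finset.card_union_le (lins a' ∪ rowLines fr w) (rowLines fr w')
  have e2 := Finset.card_union_le (lins a') (rowLines fr w)
  have e3 := card_lins_le_three a'
  have e4 := card_rowLines_le_three fr w (hm w)
  have e5 := card_rowLines_le_three fr w' (hm w')
  omega

/-- Products with a surviving vector are trivial up to the cut direction. -/
theorem Surv.sm_mem {fr : Frame N d E Om} {p : Lin N → Co E P Om → F} (h : Ext fr p)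
    {a a' : Ty N d} {u : Co E P Om → F} (hu : Surv fr p a a' u) :
    ∃ c : F, ∀ v, sm u v - c • sm (gv p a) v ∈ (dsg fr p h).Nn a' := by
  obtain ⟨c, c', η, hη, hη', rfl⟩ := hu
  refine ⟨c, fun v => ?_⟩
  have hs : η = ∑ w, η (Sum.inr w) • (Pi.single (Sum.inr w) 1 : Co E P Om → F) := by
    funext j
    rw [Finset.sum_apply]
    cases j with
    | inl j =>
      have : η (Sum.inl j) = 0 := congrFun hη j
      rw [this, Finset.sum_eq_zero]
      intro w _
      simp
    | inr w0 =>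
      rw [Finset.sum_eq_single w0]
      · simp
      · intro w _ hw
        simp [Ne.symm hw]
      · intro h'
        exact absurd (Finset.mem_univ _) h'
  have e1 : sm (c • gv p a + c' • gv p a' + η) v - c • sm (gv p a) v =
      c' • sm v (gv p a') + ∑ w, η (Sum.inr w) • sm (Pi.single (Sum.inr w) 1) v := by
    have e2 : sm η v = ∑ w, η (Sum.inr w) • sm (Pi.single (Sum.inr w) 1 : Co E P Om → F) v := by
      conv_lhs => rw [hs]
      ext i j
      simp only [sm, Matrix.add_apply, Matrix.vecMulVec_apply, Matrix.sum_apply,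
        Matrix.smul_apply, smul_eq_mul, Finset.sum_apply, Pi.smul_apply, Finset.sum_mul,
        Finset.mul_sum, ← Finset.sum_add_distrib]
      refine Finset.sum_congr rfl fun w _ => ?_
      ring
    rw [← e2]
    ext i j
    simp only [sm, Matrix.add_apply, Matrix.vecMulVec_apply, Matrix.sub_apply,
        Matrix.smul_apply, smul_eq_mul, Pi.add_apply, Pi.smul_apply]
    ring
  rw [e1]
  refine Submodule.add_mem _ (Submodule.smul_mem _ _ ?_) (Submodule.sum_mem _ fun w _ => ?_)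
  · exact Submodule.subset_span (Or.inr ⟨v, rfl⟩)
  · by_cases hw : w ∈ fr.U a'
    · refine Submodule.smul_mem _ _ (Submodule.subset_span
        (Or.inl (Or.inr ⟨Sum.inr w, Finset.mem_image_of_mem _ hw, v, ?_⟩)))
      congr
      exact Subsingleton.elim _ _
    · rw [hη' w hw, zero_smul]
      exact Submodule.zero_mem _

theorem smm_two {K : Type*} (x y g g' : K → F) :
    smm ![x, y] ![g, g'] = sm x g + sm y g' := by
  unfold smm
  rw [Fin.sum_univ_two]
  rfl

theorem smm_mem_of_surv {fr : Frame N d E Om} {p : Lin N → Co E P Om → F} (h : Ext fr p)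
    {a a' b b' : Ty N d} {u v : Co E P Om → F} (hu : Surv fr p a a' u) (hv : Surv fr p a a' v) :
    ∃ c c' : F, smm ![u, v] ![(dsg fr p h).g b, (dsg fr p h).g b'] -
      c • sm ((dsg fr p h).g a) ((dsg fr p h).g b) -
      c' • sm ((dsg fr p h).g a) ((dsg fr p h).g b') ∈ (dsg fr p h).Nn a' := by
  obtain ⟨c, hc⟩ := hu.sm_mem h
  obtain ⟨c', hc'⟩ := hv.sm_mem h
  refine ⟨c, c', ?_⟩
  have e : smm ![u, v] ![(dsg fr p h).g b, (dsg fr p h).g b'] -
      c • sm ((dsg fr p h).g a) ((dsg fr p h).g b) -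
      c' • sm ((dsg fr p h).g a) ((dsg fr p h).g b') =
      (sm u (gv p b) - c • sm (gv p a) (gv p b)) +
      (sm v (gv p b') - c' • sm (gv p a) (gv p b')) := by
    rw [smm_two]
    show sm u (gv p b) + sm v (gv p b') - c • sm (gv p a) (gv p b) - c' • sm (gv p a) (gv p b') = _
    abel
  rw [e]
  exact Submodule.add_mem _ (hc _) (hc' _)

theorem trivPsi_of_surv {fr : Frame N d E Om} {p : Lin N → Co E P Om → F} (h : Ext fr p)
    {a a' : Ty N d} {z : Fin 4 → Co E P Om → F} (h0 : Surv fr p a' a (z 0))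
    (h1 : Surv fr p a' a (z 1)) (h2 : Surv fr p a a' (z 2)) (h3 : Surv fr p a a' (z 3))
    (b b' : Ty N d) : TrivPsi (dsg fr p h) a a' b b' z :=
  ⟨smm_mem_of_surv h h0 h1, smm_mem_of_surv h h2 h3⟩

/-! ### The atom of the pair of test functionals -/

theorem form_symm {K T : Type*} [Fintype K] (δ : Design K T) {a : T} {ι : Bool}
    {B : Matrix K K F} (hB : B ∈ δ.Form a ι) : B.IsSymm := by
  have h1 : (B - (if ι then δ.B0 a else 0)).IsSymm := (hB : _ ∈ δ.Dir a).1.1
  have h2 : (if ι then δ.B0 a else 0 : Matrix K K F).IsSymm := by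
    split_ifs
    · exact (δ.B0_mem_Com a).1
    · exact Matrix.isSymm_zero
  have h3 := h1.add h2
  rwa [sub_add_cancel] at h3

/-- The coefficient is a coefficient of the pair `(B z₀ + B' z₂, B z₁ + B' z₃)`. -/
theorem coef_arg {K : Type*} [Fintype K] {B B' : Matrix K K F} (hB : B.IsSymm) (hB' : B'.IsSymm)
    (g g' : K → F) (z : Fin 4 → K → F) :
    ∑ i, z i ⬝ᵥ tv g g' B B' i =
      (B.mulVec (z 0) + B'.mulVec (z 2)) ⬝ᵥ g + (B.mulVec (z 1) + B'.mulVec (z 3)) ⬝ᵥ g' := by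
  rw [Fin.sum_univ_four]
  show z 0 ⬝ᵥ B.mulVec g + z 1 ⬝ᵥ B.mulVec g' + z 2 ⬝ᵥ B'.mulVec g + z 3 ⬝ᵥ B'.mulVec g' = _
  have e : ∀ (A : Matrix K K F), A.IsSymm → ∀ u v : K → F, u ⬝ᵥ A.mulVec v = A.mulVec u ⬝ᵥ v := by
    intro A hA u v
    rw [Matrix.dotProduct_mulVec, ← Matrix.mulVec_transpose, hA]
  rw [e B hB, e B hB, e B' hB', e B' hB', add_dotProduct, add_dotProduct]
  ring

/-- The law of the pair `(B z₀ + B' z₂, B z₁ + B' z₃)` as a function on `Fin 2 × K → F`. -/
def pairLaw {K : Type*} [Fintype K] (w : Matrix K K F → Matrix K K F → ℝ) (z : Fin 4 → K → F)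
    (y : Fin 2 × K → F) : ℝ :=
  ∑ B, ∑ B', if (fun x : Fin 2 × K => (![B.mulVec (z 0) + B'.mulVec (z 2),
    B.mulVec (z 1) + B'.mulVec (z 3)] : Fin 2 → K → F) x.1 x.2) = y then w B B' else 0

/-- Pairs of matrices (a separate type, to fix the instances). -/
structure PairT (K : Type*) where
  /-- first form -/
  fst : Matrix K K F
  /-- second form -/
  snd : Matrix K K F

/-- Pairs as a product. -/
def PairT.equiv (K : Type*) : Matrix K K F × Matrix K K F ≃ PairT K where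
  toFun x := ⟨x.1, x.2⟩
  invFun x := (x.fst, x.snd)
  left_inv _ := rfl
  right_inv _ := rfl

instance instFintypePairT {K : Type*} [Fintype K] : Fintype (PairT K) :=
  Fintype.ofEquiv _ (PairT.equiv K)

theorem sum_pairT {K : Type*} [Fintype K] {R : Type*} [AddCommMonoid R]
    (f : PairT K → R) : ∑ x, f x = ∑ B : Matrix K K F, ∑ B' : Matrix K K F, f ⟨B, B'⟩ := by
  rw [← (PairT.equiv K).sum_comp, Fintype.sum_prod_type]
  rfl

/-- The law of a pair of forms as a probability space. -/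
def lawProb {K T : Type*} [Fintype K] {δ : Design K T} {a a' : T} {ι ι' : Bool} {Λ M : ℝ}
    {w : Matrix K K F → Matrix K K F → ℝ} (hw : PLaw δ a a' ι ι' Λ M w) :
    FinProb (PairT K) where
  w x := w x.fst x.snd
  nonneg x := hw.nonneg _ _
  sum_one := by
    rw [sum_pairT]
    exact hw.sum_one

theorem pairLaw_eq {K T : Type*} [Fintype K] {δ : Design K T} {a a' : T} {ι ι' : Bool} {Λ M : ℝ}
    {w : Matrix K K F → Matrix K K F → ℝ} (hw : PLaw δ a a' ι ι' Λ M w) (z : Fin 4 → K → F)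
    (y : Fin 2 × K → F) :
    pairLaw w z y = (lawProb hw).p (fun x => fun t : Fin 2 × K =>
      (![x.fst.mulVec (z 0) + x.snd.mulVec (z 2),
        x.fst.mulVec (z 1) + x.snd.mulVec (z 3)] : Fin 2 → K → F) t.1 t.2) y := by
  unfold pairLaw FinProb.p
  rw [sum_pairT]
  refine Finset.sum_congr rfl fun B _ => Finset.sum_congr rfl fun B' _ => ?_
  by_cases hy : (fun t : Fin 2 × K => (![B.mulVec (z 0) + B'.mulVec (z 2),
      B.mulVec (z 1) + B'.mulVec (z 3)] : Fin 2 → K → F) t.1 t.2) = y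
  · rw [if_pos hy]
    exact (if_pos hy).symm
  · rw [if_neg hy]
    exact (if_neg hy).symm

theorem sum_p_mul {Ω α : Type*} [Fintype Ω] [Fintype α] (Pr : FinProb Ω) (f : Ω → α)
    (φ : α → ℂ) : ∑ y, (Pr.p f y : ℂ) * φ y = ∑ ω, (Pr.w ω : ℂ) * φ (f ω) := by
  simp only [FinProb.p]
  push_cast
  simp only [Finset.sum_mul]
  rw [Finset.sum_comm]
  refine Finset.sum_congr rfl fun ω _ => ?_
  rw [Finset.sum_eq_single (f ω)]
  · rw [if_pos rfl]
  · intro y _ hy
    rw [if_neg (Ne.symm hy), Complex.ofReal_zero, zero_mul]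
  · intro h'
    exact absurd (Finset.mem_univ _) h'

/-- A common large coefficient on a good family of tests forces an atom. -/
theorem exists_pair_atom {K T : Type*} [Fintype K] {δ : Design K T} {a a' : T} {ι ι' : Bool}
    {Λ M : ℝ} {w : Matrix K K F → Matrix K K F → ℝ} (hw : PLaw δ a a' ι ι' Λ M w)
    {ψ : AddChar F ℂ} {m n₀ : ℕ} (hm : 0 < m) {η : ℝ} (hη : 0 < η) (G : Fin m → Fin 2 → K → F)
    (hgood : ¬ ∃ y : Fin n₀ → (Fin 2 → K → F), LinearIndependent F y ∧
      ∀ l, η ^ 2 / 2 * m ≤ ∑ s, (ψ (∑ i, y l i ⬝ᵥ G s i)).re)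
    (z : Fin 4 → K → F) (hz : ∀ s, η ≤ ‖coefT ψ w (G s 0) (G s 1) z‖) :
    ∃ y : Fin 2 × K → F, η ^ 2 / 2 / 2521 ^ n₀ ≤ pairLaw w z y := by
  have hdot : ∀ (y : Fin 2 × K → F) (g : Fin 2 → K → F),
      y ⬝ᵥ (fun t : Fin 2 × K => g t.1 t.2) = ∑ i, (fun j => y (i, j)) ⬝ᵥ g i := by
    intro y g
    simp only [dotProduct]
    rw [Fintype.sum_prod_type]
  have key := exists_atom (K := F) (κ := Fin 2 × K) (ψ := ψ) (n := n₀) hm
    (G := fun s t => G s t.1 t.2) (eta := η) ?_ (P := fun y => pairLaw w z y) ?_ ?_ hη ?_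
  · obtain ⟨y, hy⟩ := key
    have hF : ((Fintype.card F : ℕ) : ℝ) = 2521 := by
      rw [ZMod.card 2521]
      norm_cast
    rw [hF] at hy
    exact ⟨y, hy⟩
  · rintro ⟨y, hy, hb⟩
    refine hgood ⟨fun l i j => y l (i, j), ?_, fun l => ?_⟩
    · have := hy.map' (LinearEquiv.curry F F (Fin 2) K).toLinearMap
        (LinearEquiv.ker _)
      exact this
    · have := hb l
      simp only [BiasedAt, hdot] at this
      exact this
  · intro y
    rw [pairLaw_eq hw]
    exact FinProb.p_nonneg _ _ _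
  · have h1 := sum_p_mul (lawProb hw) (fun x => fun t : Fin 2 × K =>
      (![x.fst.mulVec (z 0) + x.snd.mulVec (z 2),
        x.fst.mulVec (z 1) + x.snd.mulVec (z 3)] : Fin 2 → K → F) t.1 t.2) (fun _ => 1)
    simp only [mul_one] at h1
    have h2 : ((∑ y, pairLaw w z y : ℝ) : ℂ) = 1 := by
      push_cast
      simp only [pairLaw_eq hw]
      rw [h1]
      have := (lawProb hw).sum_one
      exact_mod_cast this
    exact_mod_cast h2
  · intro s
    refine (hz s).trans (le_of_eq ?_)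
    congr 1
    simp only [pairLaw_eq hw]
    rw [sum_p_mul (lawProb hw) _ (fun y => ψ (y ⬝ᵥ fun t : Fin 2 × K => G s t.1 t.2))]
    unfold coefT
    rw [sum_pairT]
    refine Finset.sum_congr rfl fun B _ => Finset.sum_congr rfl fun B' _ => ?_
    by_cases h0 : w B B' = 0
    · show (w B B' : ℂ) * _ = (w B B' : ℂ) * _
      rw [h0]
      simp
    · show (w B B' : ℂ) * _ = (w B B' : ℂ) * _
      obtain ⟨hB, hB'⟩ := hw.supp B B' h0
      rw [coef_arg (form_symm δ hB) (form_symm δ hB'), hdot, Fin.sum_univ_two]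
      rfl

theorem p_le_of_imp {Ω α β : Type*} [Fintype Ω] (Pr : FinProb Ω) {f : Ω → α} {g : Ω → β}
    {x : α} {y : β} (hfg : ∀ ω, f ω = x → g ω = y) : Pr.p f x ≤ Pr.p g y := by
  unfold FinProb.p
  refine Finset.sum_le_sum fun ω _ => ?_
  by_cases h : f ω = x
  · rw [if_pos h, if_pos (hfg ω h)]
  · rw [if_neg h]
    split_ifs
    · exact Pr.nonneg ω
    · exact le_rfl

theorem form_row (fr : Frame N d E Om) (p : Lin N → Co E P Om → F) (h : Ext fr p) {a : Ty N d}
    {ι : Bool} {B : Matrix (Co E P Om) (Co E P Om) F} (hB : B ∈ (dsg fr p h).Form a ι)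
    {w : Om} (hw : w ∈ fr.U a) (v : Co E P Om) : B (Sum.inr w) v = 0 := by
  have hw' : Sum.inr w ∈ (dsg fr p h).U a := Finset.mem_image_of_mem _ hw
  have h1 : (B - (if ι then (dsg fr p h).B0 a else 0)) (Sum.inr w) v = 0 :=
    (hB : _ ∈ (dsg fr p h).Dir a).2.1 _ hw' v
  have h2 : (if ι then (dsg fr p h).B0 a else 0 : Matrix (Co E P Om) (Co E P Om) F)
      (Sum.inr w) v = 0 := by
    split_ifs
    · exact (dsg fr p h).B0_row a a hw' v
    · rfl
  rw [Matrix.sub_apply, h2, sub_zero] at h1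
  exact h1

theorem lawProb_fst {K T : Type*} [Fintype K] {δ : Design K T} {a a' : T} {ι ι' : Bool}
    {Λ M : ℝ} {w : Matrix K K F → Matrix K K F → ℝ} (hw : PLaw δ a a' ι ι' Λ M w)
    (B : Matrix K K F) : (lawProb hw).p PairT.fst B * Nat.card (δ.Dir a) ≤ M := by
  have : (lawProb hw).p PairT.fst B = ∑ B', w B B' := by
    unfold FinProb.p
    rw [sum_pairT, Finset.sum_eq_single B]
    · refine Finset.sum_congr rfl fun B' _ => ?_
      rw [if_pos rfl]
      rfl
    · intro B1 _ hB1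
      refine Finset.sum_eq_zero fun B' _ => ?_
      rw [if_neg hB1]
    · intro h'
      exact absurd (Finset.mem_univ _) h'
  rw [this]
  exact hw.left B

theorem lawProb_snd {K T : Type*} [Fintype K] {δ : Design K T} {a a' : T} {ι ι' : Bool}
    {Λ M : ℝ} {w : Matrix K K F → Matrix K K F → ℝ} (hw : PLaw δ a a' ι ι' Λ M w)
    (B' : Matrix K K F) : (lawProb hw).p PairT.snd B' * Nat.card (δ.Dir a') ≤ M := by
  have : (lawProb hw).p PairT.snd B' = ∑ B, w B B' := by
    unfold FinProb.p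
    rw [sum_pairT]
    refine Finset.sum_congr rfl fun B _ => ?_
    rw [Finset.sum_eq_single B']
    · rw [if_pos rfl]
      rfl
    · intro B1 _ hB1
      rw [if_neg hB1]
    · intro h'
      exact absurd (Finset.mem_univ _) h'
  rw [this]
  exact hw.right B'

/-- Probability of `f = y` under the law of the pair of forms. -/
def lawP {K T : Type*} [Fintype K] {δ : Design K T} {a a' : T} {ι ι' : Bool}
    {Λ M : ℝ} {w : Matrix K K F → Matrix K K F → ℝ} (hw : PLaw δ a a' ι ι' Λ M w)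
    {α : Type*} (f : PairT K → α) (y : α) : ℝ := (lawProb hw).p f y

theorem lawP_le_of_imp {K T : Type*} [Fintype K] {δ : Design K T} {a a' : T} {ι ι' : Bool}
    {Λ M : ℝ} {w : Matrix K K F → Matrix K K F → ℝ} (hw : PLaw δ a a' ι ι' Λ M w)
    {α β : Type*} {f : PairT K → α} {g : PairT K → β}
    {x : α} {y : β} (hfg : ∀ ω, f ω = x → g ω = y) : lawP hw f x ≤ lawP hw g y :=
  p_le_of_imp (lawProb hw) hfg

theorem pairLaw_eq' {K T : Type*} [Fintype K] {δ : Design K T} {a a' : T} {ι ι' : Bool} {Λ M : ℝ}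
    {w : Matrix K K F → Matrix K K F → ℝ} (hw : PLaw δ a a' ι ι' Λ M w) (z : Fin 4 → K → F)
    (y : Fin 2 × K → F) :
    pairLaw w z y = lawP hw (fun x => fun t : Fin 2 × K =>
      (![x.fst.mulVec (z 0) + x.snd.mulVec (z 2),
        x.fst.mulVec (z 1) + x.snd.mulVec (z 3)] : Fin 2 → K → F) t.1 t.2) y :=
  pairLaw_eq hw z y

theorem surv_right (fr : Frame N d E Om) (p : Lin N → Co E P Om → F) (h : Ext fr p)
    {a a' : Ty N d} (haa : a ≠ a') (hRI : RowInd fr p a') {ι ι' : Bool} {Λ M : ℝ}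
    {w : Matrix (Co E P Om) (Co E P Om) F → Matrix (Co E P Om) (Co E P Om) F → ℝ}
    (hw : PLaw (dsg fr p h) a a' ι ι' Λ M w) {κ : ℝ} (h1 h3 y : Co E P Om → F)
    (hκ : κ ≤ lawP hw (fun x => x.fst.mulVec h1 + x.snd.mulVec h3) y)
    (hlarge : M < κ * 2521 ^ (fr.q / 2)) : Surv fr p a a' h3 := by
  refine surv_of_atom fr p h haa hRI (lawProb hw) PairT.fst PairT.snd
    (if ι' then (dsg fr p h).B0 a' else 0) ?_ ?_ (lawProb_snd hw) h1 h3 y hκ hlarge
  · intro ω hω u hu v
    exact form_row fr p h (hw.supp _ _ hω).1 hu v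
  · intro ω hω
    exact (hw.supp _ _ hω).2

theorem surv_left (fr : Frame N d E Om) (p : Lin N → Co E P Om → F) (h : Ext fr p)
    {a a' : Ty N d} (haa : a ≠ a') (hRI : RowInd fr p a) {ι ι' : Bool} {Λ M : ℝ}
    {w : Matrix (Co E P Om) (Co E P Om) F → Matrix (Co E P Om) (Co E P Om) F → ℝ}
    (hw : PLaw (dsg fr p h) a a' ι ι' Λ M w) {κ : ℝ} (h1 h3 y : Co E P Om → F)
    (hκ : κ ≤ lawP hw (fun x => x.fst.mulVec h1 + x.snd.mulVec h3) y)
    (hlarge : M < κ * 2521 ^ (fr.q / 2)) : Surv fr p a' a h1 := by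
  refine surv_of_atom fr p h haa.symm hRI (lawProb hw) PairT.snd
    PairT.fst (if ι then (dsg fr p h).B0 a else 0) ?_ ?_ (lawProb_fst hw) h3 h1 y
    (hκ.trans (lawP_le_of_imp hw fun ω hω => by
      rw [← hω, add_comm])) hlarge
  · intro ω hω u hu v
    exact form_row fr p h (hw.supp _ _ hω).2 hu v
  · intro ω hω
    exact (hw.supp _ _ hω).1

/-- LS, LAST STEP.  If one common `z` has a large coefficient on all members of a line-disjoint
family of `m` pairs, then `z` is trivial or a cut functional for all pairs. -/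
theorem ls_last (fr : Frame N d E Om) (p : Lin N → Co E P Om → F) (h : Ext fr p)
    {a a' : Ty N d} (haa : a ≠ a') (hRI : RowInd fr p a) (hRI' : RowInd fr p a') {ι ι' : Bool}
    {Λ M : ℝ} {w : Matrix (Co E P Om) (Co E P Om) F → Matrix (Co E P Om) (Co E P Om) F → ℝ}
    (hw : PLaw (dsg fr p h) a a' ι ι' Λ M w) {ψ : AddChar F ℂ} {m n₀ : ℕ} (hm : 0 < m) {η : ℝ}
    (hη : 0 < η) (hEv : EvB ψ p d m n₀ (η ^ 2 / 2)) (fam : Fin m → Ty N d × Ty N d)
    (hne : ∀ s, (fam s).1 ≠ (fam s).2)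
    (hdisj : ∀ s s', s ≠ s' → Disjoint (lins2 (fam s)) (lins2 (fam s')))
    (z : Fin 4 → Co E P Om → F)
    (hz : ∀ s, η ≤ ‖coefT ψ w ((dsg fr p h).g (fam s).1) ((dsg fr p h).g (fam s).2) z‖)
    (hM : M < η ^ 2 / 2 / 2521 ^ n₀ * 2521 ^ (fr.q / 2)) (b b' : Ty N d) :
    TrivPsi (dsg fr p h) a a' b b' z := by
  have hgood : ¬ ∃ y : Fin n₀ → (Fin 2 → Co E P Om → F), LinearIndependent F y ∧
      ∀ l, η ^ 2 / 2 * m ≤ ∑ s, (ψ (∑ i, y l i ⬝ᵥ g2 p (fam s) i)).re := by
    rintro ⟨y, hy, hb⟩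
    obtain ⟨l, hl⟩ := hEv fam hne hdisj y hy
    exact absurd (hb l) (not_le.2 hl)
  obtain ⟨y, hy⟩ := exists_pair_atom hw hm hη (fun s => g2 p (fam s)) hgood z hz
  rw [pairLaw_eq' hw] at hy
  set κ := η ^ 2 / 2 / 2521 ^ n₀ with hκ
  have hy0 : κ ≤ lawP hw (fun x => x.fst.mulVec (z 0) + x.snd.mulVec (z 2))
      (fun j => y (0, j)) := hy.trans (lawP_le_of_imp hw fun ω hω => by
    funext j
    exact congrFun hω (0, j))
  have hy1 : κ ≤ lawP hw (fun x => x.fst.mulVec (z 1) + x.snd.mulVec (z 3))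
      (fun j => y (1, j)) := hy.trans (lawP_le_of_imp hw fun ω hω => by
    funext j
    exact congrFun hω (1, j))
  exact trivPsi_of_surv h (surv_left fr p h haa hRI hw _ _ _ hy0 hM)
    (surv_left fr p h haa hRI hw _ _ _ hy1 hM)
    (surv_right fr p h haa hRI' hw _ _ _ hy0 hM)
    (surv_right fr p h haa hRI' hw _ _ _ hy1 hM) b b'

end Vale.Agent.P060.HW
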