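import Vale.Agent.P060.HW.LS3
import Vale.Agent.P060.HW.LS5n
import Vale.Agent.P060.HW.Budget
import Vale.Agent.P060.HW.RankL
import Vale.Agent.P060.HW.Rows2
import Vale.Agent.P060.HW.ExI
import Vale.Agent.P060.HW.Ex1
import Vale.Agent.P060.HW.ExB

/-!
# LS: large coefficients are trivial or cut functionals
-/

open scoped Classical

noncomputable section

set_option linter.unusedSectionVars false

namespace Vale.Agent.P060.HW

namespace LS5

open Module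

/-- A maximal independent part of a finite family. -/
theorem exists_basis {ι V : Type*} [AddCommGroup V] [Module F V] (v : ι → V) (S : Finset ι) :
    ∃ J ⊆ S, LinearIndependent F (fun β : J => v β) ∧
      ∀ β ∈ S, v β ∈ Submodule.span F (v '' (J : Set ι)) := by
  obtain ⟨J, hJ, hmax⟩ := Finset.exists_max_image
    (S.powerset.filter fun J : Finset ι => LinearIndepOn F v (J : Set ι)) Finset.card
    ⟨∅, by
      rw [Finset.mem_filter, Finset.mem_powerset]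
      exact ⟨Finset.empty_subset _, by rw [Finset.coe_empty]; exact linearIndepOn_empty F v⟩⟩
  rw [Finset.mem_filter, Finset.mem_powerset] at hJ
  refine ⟨J, hJ.1, hJ.2, fun β hβ => ?_⟩
  by_cases hβJ : β ∈ J
  · exact Submodule.subset_span ⟨β, hβJ, rfl⟩
  by_contra hcon
  have h1 : LinearIndepOn F v ((insert β J : Finset ι) : Set ι) := by
    rw [Finset.coe_insert, linearIndepOn_insert (by exact_mod_cast hβJ)]
    exact ⟨hJ.2, hcon⟩
  have h2 := hmax (insert β J) (Finset.mem_filter.2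
    ⟨Finset.mem_powerset.2 (Finset.insert_subset hβ hJ.1), h1⟩)
  rw [Finset.card_insert_of_notMem hβJ] at h2
  omega

/-- The modulus of a coefficient does not change under trivial tensors. -/
theorem norm_coefT_eq {K T : Type} [Fintype K] {δ : Design K T} {a a' : T} {ι ι' : Bool}
    {Λ M : ℝ} {w : Matrix K K F → Matrix K K F → ℝ} (hw : PLaw δ a a' ι ι' Λ M w)
    (ψ : AddChar F ℂ) (g g' : K → F) (z z' : Fin 4 → K → F)
    (h1 : smm ![z 0, z 1] ![g, g'] - smm ![z' 0, z' 1] ![g, g'] ∈ δ.Nn a)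
    (h2 : smm ![z 2, z 3] ![g, g'] - smm ![z' 2, z' 3] ![g, g'] ∈ δ.Nn a') :
    ‖coefT ψ w g g' z‖ = ‖coefT ψ w g g' z'‖ := by
  have hsub : Budget.tz g g' z - Budget.tz g g' z' ∈ (δ.Nn a).prod (δ.Nn a') := by
    unfold Budget.tz
    rw [← smul_sub]
    exact Submodule.smul_mem _ _ ⟨h1, h2⟩
  set Q := Budget.tz g g' z - Budget.tz g g' z' with hQ
  have hconst : ∀ ω : Matrix K K F × Matrix K K F, w ω.1 ω.2 ≠ 0 →
      Budget.pair2 K ω Q = pr Q.1 (if ι then δ.B0 a else 0)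
        + pr Q.2 (if ι' then δ.B0 a' else 0) := by
    intro ω hω
    obtain ⟨s1, s2⟩ := hw.supp _ _ hω
    have e1 := annDirect K T δ a Q.1 hsub.1 _ s1
    have e2 := annDirect K T δ a' Q.2 hsub.2 _ s2
    have e3 : pr Q.1 ω.1 = pr Q.1 (ω.1 - (if ι then δ.B0 a else 0))
        + pr Q.1 (if ι then δ.B0 a else 0) := by
      rw [← ann_pr_add_right, sub_add_cancel]
    have e4 : pr Q.2 ω.2 = pr Q.2 (ω.2 - (if ι' then δ.B0 a' else 0))
        + pr Q.2 (if ι' then δ.B0 a' else 0) := by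
      rw [← ann_pr_add_right, sub_add_cancel]
    rw [Budget.pair2_apply, e3, e4, e1, e2, zero_add, zero_add]
  set κ := pr Q.1 (if ι then δ.B0 a else 0) + pr Q.2 (if ι' then δ.B0 a' else 0) with hκ
  rw [Budget.coefT_eq hw, Budget.coefT_eq hw]
  have h3 : ∑ ω, ((Budget.prob hw).w ω : ℂ) * ψ (Budget.pair2 K ω (Budget.tz g g' z)) =
      ψ κ * ∑ ω, ((Budget.prob hw).w ω : ℂ) * ψ (Budget.pair2 K ω (Budget.tz g g' z')) := by
    rw [Finset.mul_sum]
    refine Finset.sum_congr rfl fun ω _ => ?_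
    by_cases hω : w ω.1 ω.2 = 0
    · have : (Budget.prob hw).w ω = 0 := hω
      rw [this, Complex.ofReal_zero, zero_mul, zero_mul, mul_zero]
    · have e5 : Budget.pair2 K ω (Budget.tz g g' z) = κ + Budget.pair2 K ω (Budget.tz g g' z') := by
        rw [← hconst ω hω, hQ, map_sub, sub_add_cancel]
      rw [e5, AddChar.map_add_eq_mul]
      ring
  rw [h3, norm_mul, AddChar.norm_apply, one_mul]

lemma smm_g2 {N d : ℕ} {E P Om : Type} [Fintype E] [Fintype P] [Fintype Om] [NeZero N]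
    (fr : Frame N d E Om) (p : Lin N → Co E P Om → F) (h : Ext fr p) (u : Fin 2 → Co E P Om → F)
    (β : Ty N d × Ty N d) :
    smm ![u 0, u 1] ![(dsg fr p h).g β.1, (dsg fr p h).g β.2] = smm u (g2 p β) := by
  have e1 : ![u 0, u 1] = u := by
    funext i
    fin_cases i <;> rfl
  rw [e1]
  rfl

/-- The deterministic core of LS. -/
theorem core {N d : ℕ} {E P Om : Type} [Fintype E] [Fintype P] [Fintype Om] [NeZero N]
    (fr : Frame N d E Om) (p : Lin N → Co E P Om → F) (h : Ext fr p)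
    {ψ : AddChar F ℂ} (hψ : ψ ≠ 0) {κ t R s m A b n₀ : ℕ} (h1 : Ev1 p κ) (hI : EvI fr p t R s m)
    (hκ : 6 * (2 * s + 1) ≤ κ) (hκ2 : 12 + 6 * A ≤ κ)
    (hA : ∀ w, (Finset.univ.filter fun c : Ty N d => w ∈ fr.U c).card ≤ A)
    {a a' : Ty N d} (haa : a ≠ a') {ι ι' : Bool} {Λ M' η : ℝ} (hη : 0 < η)
    {w : Matrix (Co E P Om) (Co E P Om) F → Matrix (Co E P Om) (Co E P Om) F → ℝ}
    (hw : PLaw (dsg fr p h) a a' ι ι' Λ M' w) (hR : 2 * Real.log Λ / η ^ 2 < R + 1)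
    (𝓕 : Finset (Ty N d × Ty N d)) (hLD : LD 𝓕) (hne : ∀ β ∈ 𝓕, β.1 ≠ β.2)
    (hbad : ∀ β ∈ 𝓕, BadC ψ (dsg fr p h) a a' w η β) (h𝓕 : 𝓕.Nonempty)
    (hX : 4 * (2 * (m + (3 + R + t * (3 * A))) + 2 * s) ≤ 𝓕.card)
    {M : ℕ} (hM : M = 2521 ^ (4 * s + 4 * Fintype.card E))
    {κ₀ : ℝ} (hκ₀ : 0 < κ₀) (hκt : 1 < κ₀ * (t + 1))
    (hb : κ₀ * 𝓕.card * (2 * M) ≤ b) (hbκ : 6 * b + 3 * A ≤ κ)
    (hEv : ∀ T : ℕ, (𝓕.card : ℝ) ≤ 2 * M * (T + 2 * (R + 3 * Fintype.card (Co E P Om))) →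
      0 < T ∧ EvB ψ p d T n₀ (η ^ 2 / 2))
    (hM' : M' < η ^ 2 / 2 / 2521 ^ n₀ * 2521 ^ (fr.q / 2)) : False := by
  have hch : ∀ β : Ty N d × Ty N d, ∃ z : Fin 4 → Co E P Om → F, β ∈ 𝓕 →
      η ≤ ‖coefT ψ w ((dsg fr p h).g β.1) ((dsg fr p h).g β.2) z‖ ∧
      ¬ TrivPsi (dsg fr p h) a a' β.1 β.2 z := by
    intro β
    by_cases hβ : β ∈ 𝓕
    · obtain ⟨z, hz⟩ := hbad β hβ
      exact ⟨z, fun _ => hz⟩
    · exact ⟨0, fun h => absurd h hβ⟩
  choose z hz using hch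
  let H : Ty N d × Ty N d → Fin 2 → Co E P Om → F := fun β => ![z β 0, z β 1]
  let H' : Ty N d × Ty N d → Fin 2 → Co E P Om → F := fun β => ![z β 2, z β 3]
  let NN := ((dsg fr p h).Nn a).prod ((dsg fr p h).Nn a')
  let tp : Ty N d × Ty N d → Matrix (Co E P Om) (Co E P Om) F × Matrix (Co E P Om) (Co E P Om) F :=
    fun β => (smm ![z β 0, z β 1] ![(dsg fr p h).g β.1, (dsg fr p h).g β.2],
      smm ![z β 2, z β 3] ![(dsg fr p h).g β.1, (dsg fr p h).g β.2])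
  obtain ⟨J, hJ, hli, hspan⟩ := exists_basis (fun β => NN.mkQ (tp β)) 𝓕
  have hJR : J.card ≤ R := by
    have h2 := Budget.rank_biased_finset rankLem hw ψ hψ hη z J hli
      fun β hβ => (hz β (hJ hβ)).1
    have h3 : (J.card : ℝ) < ((R + 1 : ℕ) : ℝ) := by
      push_cast
      exact lt_of_le_of_lt h2 hR
    exact Nat.lt_succ_iff.1 (by exact_mod_cast h3)
  -- the spans
  have hsp : ∀ β ∈ 𝓕, ∃ x ∈ Submodule.span F (tp '' (J : Set (Ty N d × Ty N d))),
      tp β - x ∈ NN := by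
    intro β hβ
    have h2 := hspan β hβ
    have h3 : (fun β => NN.mkQ (tp β)) '' (J : Set (Ty N d × Ty N d)) =
        NN.mkQ '' (tp '' (J : Set (Ty N d × Ty N d))) := by
      rw [Set.image_image]
    rw [h3, Submodule.span_image] at h2
    obtain ⟨x, hx, hxe⟩ := h2
    refine ⟨x, hx, ?_⟩
    rw [← Submodule.Quotient.mk_eq_zero NN, Submodule.Quotient.mk_sub, sub_eq_zero]
    exact hxe.symm
  have hf : ∀ x ∈ Submodule.span F (tp '' (J : Set (Ty N d × Ty N d))), x.1 ∈ SpJ p J H ∧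
      x.2 ∈ SpJ p J H' := by
    intro x hx
    refine Submodule.span_induction (p := fun x _ => x.1 ∈ SpJ p J H ∧ x.2 ∈ SpJ p J H')
      ?_ ?_ ?_ ?_ hx
    · rintro y ⟨β, hβ, rfl⟩
      refine ⟨Submodule.subset_span ⟨β, hβ, ?_⟩, Submodule.subset_span ⟨β, hβ, ?_⟩⟩
      · exact smm_g2 fr p h (H β) β
      · exact smm_g2 fr p h (H' β) β
    · exact ⟨Submodule.zero_mem _, Submodule.zero_mem _⟩
    · intro u v _ _ hu hv
      exact ⟨Submodule.add_mem _ hu.1 hv.1, Submodule.add_mem _ hu.2 hv.2⟩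
    · intro c u _ hu
      exact ⟨Submodule.smul_mem _ _ hu.1, Submodule.smul_mem _ _ hu.2⟩
  have hs1 : ∀ β ∈ 𝓕, smm (H β) (g2 p β) ∈ SpJ p J H ⊔ (dsg fr p h).Nn a := by
    intro β hβ
    obtain ⟨x, hx, hd⟩ := hsp β hβ
    have h4 : smm (H β) (g2 p β) = x.1 + ((tp β).1 - x.1) := by
      rw [add_sub_cancel]
      exact (smm_g2 fr p h (H β) β).symm
    rw [h4]
    exact Submodule.add_mem_sup (hf x hx).1 hd.1
  have hs2 : ∀ β ∈ 𝓕, smm (H' β) (g2 p β) ∈ SpJ p J H' ⊔ (dsg fr p h).Nn a' := by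
    intro β hβ
    obtain ⟨x, hx, hd⟩ := hsp β hβ
    have h4 : smm (H' β) (g2 p β) = x.2 + ((tp β).2 - x.2) := by
      rw [add_sub_cancel]
      exact (smm_g2 fr p h (H' β) β).symm
    rw [h4]
    exact Submodule.add_mem_sup (hf x hx).2 hd.2
  obtain ⟨T₂, hs, hs', hT₂, hcard, hT⟩ := class_extract fr p h a a' h1 hI hκ hA hLD hne hJ hJR
    H H' hs1 hs2 h𝓕 hX hM hκ₀ hκt hb hbκ
  obtain ⟨hT0, hEvT⟩ := hEv T₂.card hcard
  -- the common functional
  let zs : Fin 4 → Co E P Om → F := ![hs 0, hs 1, hs' 0, hs' 1]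
  have hd1 : ∀ β ∈ T₂, smm ![z β 0, z β 1] ![(dsg fr p h).g β.1, (dsg fr p h).g β.2] -
      smm ![zs 0, zs 1] ![(dsg fr p h).g β.1, (dsg fr p h).g β.2] ∈ (dsg fr p h).Nn a := by
    intro β hβ
    have e1 : smm ![z β 0, z β 1] ![(dsg fr p h).g β.1, (dsg fr p h).g β.2] =
      smm (H β) (g2 p β) := smm_g2 fr p h (H β) β
    have e2 : smm ![zs 0, zs 1] ![(dsg fr p h).g β.1, (dsg fr p h).g β.2] =
      smm hs (g2 p β) := smm_g2 fr p h hs β
    rw [e1, e2]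
    exact (hT β hβ).1
  have hd2 : ∀ β ∈ T₂, smm ![z β 2, z β 3] ![(dsg fr p h).g β.1, (dsg fr p h).g β.2] -
      smm ![zs 2, zs 3] ![(dsg fr p h).g β.1, (dsg fr p h).g β.2] ∈ (dsg fr p h).Nn a' := by
    intro β hβ
    have e1 : smm ![z β 2, z β 3] ![(dsg fr p h).g β.1, (dsg fr p h).g β.2] =
      smm (H' β) (g2 p β) := smm_g2 fr p h (H' β) β
    have e2 : smm ![zs 2, zs 3] ![(dsg fr p h).g β.1, (dsg fr p h).g β.2] =
      smm hs' (g2 p β) := smm_g2 fr p h hs' β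
    rw [e1, e2]
    exact (hT β hβ).2
  let e : Fin T₂.card ≃ T₂ := T₂.equivFin.symm
  have hRI := rowInd_of_Ev1 fr p h1 hA (by omega) a
  have hRI' := rowInd_of_Ev1 fr p h1 hA (by omega) a'
  have hlast : ∀ b b' : Ty N d, TrivPsi (dsg fr p h) a a' b b' zs :=
    ls_last fr p h haa hRI hRI' hw hT0 hη hEvT (fun i => (e i).1)
      (fun i => hne _ (hT₂ (e i).2))
      (fun i j hij => hLD _ (hT₂ (e i).2) _ (hT₂ (e j).2) fun h2 =>
        hij (e.injective (Subtype.ext h2)))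
      zs (fun i => by
        rw [← norm_coefT_eq hw ψ _ _ (z (e i).1) zs (hd1 _ (e i).2) (hd2 _ (e i).2)]
        exact (hz _ (hT₂ (e i).2)).1) hM'
  obtain ⟨β, hβ⟩ := Finset.card_pos.1 hT0
  refine (hz β (hT₂ hβ)).2 ?_
  obtain ⟨⟨c1, c2, hc⟩, ⟨c3, c4, hc'⟩⟩ := hlast β.1 β.2
  refine ⟨⟨c1, c2, ?_⟩, ⟨c3, c4, ?_⟩⟩
  · have := Submodule.add_mem _ (hd1 β hβ) hc
    convert this using 1
    abel
  · have := Submodule.add_mem _ (hd2 β hβ) hc'
    convert this using 1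
    abel

/-- Sizes are monotone. -/
lemma sz_mono {N d : ℕ} {E P Om : Type} [Fintype E] [Fintype P] [Fintype Om] [NeZero N]
    {fr : Frame N d E Om} {D₀ : ℕ} {θ θ' C C' : ℝ} (h : Sizes fr P D₀ θ C) (hθ : θ ≤ θ')
    (hC : C' * Real.log (Fintype.card P) ≤ C * Real.log (Fintype.card P)) :
    Sizes fr P D₀ θ' C' where
  hN := h.hN
  hN' := h.hN'
  hd := h.hd
  hOm := h.hOm.trans (mul_le_mul_of_nonneg_right hθ (Nat.cast_nonneg _))
  hA := fun w => (h.hA w).trans (mul_le_mul_of_nonneg_right hθ (Nat.cast_nonneg _))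
  hq := hC.trans h.hq
  hγ := h.hγ

/-- A line-disjoint family has at most `3 N` members. -/
lemma card_LD {N d : ℕ} [NeZero N] {𝓕 : Finset (Ty N d × Ty N d)} (hLD : LD 𝓕) :
    𝓕.card ≤ 3 * N := by
  have h1 : 𝓕.card ≤ (Finset.univ : Finset (Lin N)).card := by
    refine Finset.card_le_card_of_injOn (fun β => lin β.1 0) (fun _ _ => Finset.mem_coe.2
      (Finset.mem_univ _)) ?_
    intro β hβ β' hβ' hb
    by_contra hne
    have hmem : ∀ γ : Ty N d × Ty N d, lin γ.1 0 ∈ lins2 γ := fun γ =>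
      Finset.mem_union_left _ (Finset.mem_image_of_mem _ (Finset.mem_univ _))
    have h2 := hLD β hβ β' hβ' hne
    refine Finset.disjoint_left.1 h2 (hmem β) ?_
    have h3 : lin β.1 0 = lin β'.1 0 := hb
    rw [h3]
    exact hmem β'
  rw [Finset.card_univ, Fintype.card_prod, Fintype.card_fin, ZMod.card] at h1
  exact h1

lemma card_compl {X : Type*} [Finite X] (A B C : Set X) (hA : Rare Aᶜ) (hB : Rare Bᶜ)
    (hC : Rare Cᶜ) : 20 * Nat.card ((A ∩ B ∩ C)ᶜ : Set X) ≤ Nat.card X := by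
  have h1 : Nat.card ((A ∩ B ∩ C)ᶜ : Set X) ≤ Nat.card (Aᶜ : Set X) + Nat.card (Bᶜ : Set X)
      + Nat.card (Cᶜ : Set X) := by
    rw [Set.compl_inter, Set.compl_inter, Nat.card_coe_set_eq, Nat.card_coe_set_eq,
      Nat.card_coe_set_eq, Nat.card_coe_set_eq]
    exact (Set.ncard_union_le _ _).trans (Nat.add_le_add_right (Set.ncard_union_le _ _) _)
  unfold Rare at hA hB hC
  omega

end LS5

open LS5 in
/-- LS. -/
theorem ls : LS := by
  intro ψ hψ E _ C η c hη hc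
  have hl0 : 0 < Real.log 2521 := Real.log_pos (by norm_num)
  obtain ⟨C', hC'⟩ : ∃ C' : ℝ, C' = 2 * |C| * Real.log 2521 / η ^ 2 := ⟨_, rfl⟩
  have hC'0 : 0 ≤ C' := by rw [hC']; positivity
  obtain ⟨s, hI⟩ := exI C'
  obtain ⟨DI, hI⟩ := hI (c / 32) (by positivity)
  obtain ⟨M, hM⟩ : ∃ M : ℕ, M = 2521 ^ (4 * s + 4 * Fintype.card E) := ⟨_, rfl⟩
  have hM0 : 0 < M := by rw [hM]; positivity
  have hMr : (0 : ℝ) < M := Nat.cast_pos.2 hM0
  obtain ⟨DN, hDN, hnum⟩ := numeric c C' hc hC'0 (Fintype.card E) s M hM0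
  obtain ⟨DB, hB⟩ := exB ψ hψ (c / (4 * M)) (η ^ 2 / 2) (by positivity) (by positivity)
  refine ⟨max DI (max DN DB), fun D₀ hD₀ d => ?_⟩
  obtain ⟨κ₀, t, hκ₀, hκt, θN, hθN, kN, hnum⟩ :=
    hnum D₀ (((le_max_left _ _).trans (le_max_right _ _)).trans hD₀)
  obtain ⟨θI, hθI, kI, hI⟩ := hI D₀ ((le_max_left _ _).trans hD₀) d t E
  obtain ⟨C₂, θB, hθB, kB, hB⟩ :=
    hB D₀ (((le_max_right _ _).trans (le_max_right _ _)).trans hD₀) d E
  obtain ⟨θ1, hθ1, k1, hE1⟩ := ex1 D₀ d E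
  obtain ⟨C₁, kR, hrows⟩ := rows C C₂ (η ^ 2 / 2) (by positivity)
  refine ⟨max 0 C₁, min (min θN θI) (min θB θ1), lt_min (lt_min hθN hθI) (lt_min hθB hθ1),
    max (max kN kI) (max (max kB k1) kR), ?_⟩
  intro N P Om _ _ _ fr hk hS
  have hkN : kN ≤ Fintype.card P := ((le_max_left _ _).trans (le_max_left _ _)).trans hk
  have hkI : kI ≤ Fintype.card P := ((le_max_right _ _).trans (le_max_left _ _)).trans hk
  have hkB : kB ≤ Fintype.card P :=
    (((le_max_left _ _).trans (le_max_left _ _)).trans (le_max_right _ _)).trans hk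
  have hk1 : k1 ≤ Fintype.card P :=
    (((le_max_right _ _).trans (le_max_left _ _)).trans (le_max_right _ _)).trans hk
  have hkR : kR ≤ Fintype.card P := ((le_max_right _ _).trans (le_max_right _ _)).trans hk
  have hlogk : 0 ≤ Real.log (Fintype.card P) := Real.log_natCast_nonneg _
  have hz0 : (0 : ℝ) * Real.log (Fintype.card P) ≤ max 0 C₁ * Real.log (Fintype.card P) :=
    mul_le_mul_of_nonneg_right (le_max_left _ _) hlogk
  have g1 := hI N P Om fr hkI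
    (sz_mono hS ((min_le_left _ _).trans (min_le_right _ _)) hz0)
  have g2 := hE1 N P Om fr hk1
    (sz_mono hS ((min_le_right _ _).trans (min_le_right _ _)) hz0)
  have g3 := hB N P Om fr hkB
    (sz_mono hS ((min_le_right _ _).trans (min_le_left _ _)) hz0)
  refine ⟨{p : Dz fr P | EvI fr p.1 t ⌊C' * Fintype.card P⌋₊ s ⌊c / 32 * N⌋₊} ∩
    {p : Dz fr P | ∀ κ : ℕ, κ ≤ 20 * Fintype.card P / (D₀ + 20) ^ 2 → Ev1 p.1 κ} ∩
    {p : Dz fr P | ∀ m : ℕ, c / (4 * M) * N ≤ m →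
      EvB ψ p.1 d m ⌈C₂ * Real.log (Fintype.card P)⌉₊ (η ^ 2 / 2)}, ?_, ?_⟩
  · exact card_compl _ _ _ g1 g2 g3
  rintro p ⟨⟨pI, p1⟩, pB⟩ a a' ι ι' haa w hw 𝓕 hLD hne hbad
  rw [Set.mem_setOf_eq] at pI p1 pB
  by_contra hcon
  rw [not_lt] at hcon
  have hθle : min (min θN θI) (min θB θ1) ≤ θN := (min_le_left _ _).trans (min_le_left _ _)
  have hA : ∀ w, (Finset.univ.filter fun c : Ty N d => w ∈ fr.U c).card ≤
      ⌊θN * Fintype.card P⌋₊ := fun w => Nat.le_floor ((hS.hA w).trans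
        (mul_le_mul_of_nonneg_right hθle (Nat.cast_nonneg _)))
  have hK : (Fintype.card (Co E P Om) : ℝ) ≤ Fintype.card E + Fintype.card P
      + θN * Fintype.card P := by
    rw [Fintype.card_sum, Fintype.card_sum]
    push_cast
    have := hS.hOm.trans (mul_le_mul_of_nonneg_right hθle (Nat.cast_nonneg _))
    linarith
  obtain ⟨⟨n1, n2, n3⟩, n4, n5, n6, n7⟩ := hnum (Fintype.card P) hkN N
    (Fintype.card (Co E P Om)) ⌊θN * Fintype.card P⌋₊ hS.hN hS.hN'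
    (Nat.floor_le (by positivity)) hK
  obtain ⟨h𝓕0, hX⟩ := n5 𝓕.card hcon
  have hq : C₁ * Real.log (Fintype.card P) ≤ fr.q :=
    (mul_le_mul_of_nonneg_right (le_max_right _ _) hlogk).trans hS.hq
  refine core fr p.1 p.2 hψ (p1 _ le_rfl) pI n1 n3 hA haa hη hw ?_ 𝓕 hLD hne hbad
    (Finset.card_pos.1 h𝓕0) hX hM hκ₀ hκt (n6 _ (card_LD hLD)) n2 ?_ (hrows _ hkR _ hq)
  · rw [Real.log_rpow (by norm_num)]
    refine lt_of_le_of_lt ?_ (Nat.lt_floor_add_one (C' * Fintype.card P))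
    rw [hC']
    have h1 : C * Fintype.card P * Real.log 2521 ≤ |C| * Fintype.card P * Real.log 2521 :=
      mul_le_mul_of_nonneg_right (mul_le_mul_of_nonneg_right (le_abs_self _)
        (Nat.cast_nonneg _)) hl0.le
    have h2 : 2 * |C| * Real.log 2521 / η ^ 2 * Fintype.card P =
        2 * (|C| * Fintype.card P * Real.log 2521) / η ^ 2 := by ring
    rw [h2]
    exact div_le_div_of_nonneg_right (by linarith) (by positivity)
  · intro T hT
    obtain ⟨h1, h2⟩ := n7 𝓕.card T hcon hT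
    exact ⟨h2, pB T h1⟩

end Vale.Agent.P060.HW
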