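import Vale.Agent.P060.HW.NOADef
import Vale.Agent.P060.HW.Align

/-!
# OUT-A from its core
-/

open scoped Classical

noncomputable section

set_option linter.unusedSectionVars false

namespace Vale.Agent.P060.HW

namespace NOAF

lemma tlogt {t : ℝ} (ht : 0 ≤ t) : 0 ≤ t * Real.log t + 1 := by
  rcases ht.eq_or_lt with h | h
  · rw [← h]; simp
  · have h1 := mul_le_mul_of_nonneg_left (Real.one_sub_inv_le_log_of_pos h) ht
    have h2 : t * (1 - t⁻¹) = t - 1 := by
      rw [mul_sub, mul_one, mul_inv_cancel₀ h.ne']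
    linarith

/-- A law with bounded divergence is comparable to the uniform law on a dense set. -/
lemma dense_level {X : Type*} [Fintype X] [Nonempty X] (C : ℝ) (q : X → ℝ) (h0 : ∀ x, 0 ≤ q x)
    (h1 : ∑ x, q x = 1) (hC : ∑ x, q x * Real.log (q x * Fintype.card X) ≤ C) :
    (Fintype.card X : ℝ) ≤ 4 * Real.exp (4 * (|C| + 1)) *
      ((Finset.univ.filter fun x => 1 / 2 ≤ q x * Fintype.card X ∧
        q x * Fintype.card X ≤ Real.exp (4 * (|C| + 1))).card : ℝ) := by
  set n : ℝ := (Fintype.card X : ℝ) with hn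
  have hn0 : 0 < n := by rw [hn]; exact_mod_cast Fintype.card_pos
  set l : ℝ := 4 * (|C| + 1) with hl
  have hC0 := abs_nonneg C
  have hl0 : 0 < l := by rw [hl]; linarith
  set A : Finset X := Finset.univ.filter fun x => 1 / 2 ≤ q x * n ∧ q x * n ≤ Real.exp l with hA
  have hpt : ∀ x, q x * n ≤ 1 / 2 + (if x ∈ A then Real.exp l else 0)
      + (q x * n * Real.log (q x * n) + 1) / l := by
    intro x
    have ha : 0 ≤ q x * n := mul_nonneg (h0 x) hn0.le
    have ht := div_nonneg (tlogt ha) hl0.le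
    have he : (0 : ℝ) ≤ if x ∈ A then Real.exp l else 0 := by
      split_ifs
      · exact (Real.exp_pos l).le
      · exact le_rfl
    by_cases hx1 : q x * n < 1 / 2
    · linarith
    · by_cases hx2 : q x * n ≤ Real.exp l
      · have : x ∈ A := Finset.mem_filter.2 ⟨Finset.mem_univ _, not_lt.1 hx1, hx2⟩
        rw [if_pos this]
        linarith
      · push Not at hx2
        have h3 : l ≤ Real.log (q x * n) := by
          rw [Real.le_log_iff_exp_le ((Real.exp_pos l).trans hx2)]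
          exact hx2.le
        have h4 : q x * n ≤ (q x * n * Real.log (q x * n) + 1) / l := by
          rw [le_div_iff₀ hl0]
          have := mul_le_mul_of_nonneg_left h3 ha
          linarith
        linarith
  have hsum := Finset.sum_le_sum fun x (_ : x ∈ Finset.univ) => hpt x
  rw [Finset.sum_add_distrib, Finset.sum_add_distrib, ← Finset.sum_mul, h1, one_mul,
    Finset.sum_const, Finset.card_univ, nsmul_eq_mul, ← Finset.sum_filter, Finset.sum_const,
    Finset.filter_mem_eq_inter, Finset.univ_inter, nsmul_eq_mul, ← Finset.sum_div,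
    Finset.sum_add_distrib, Finset.sum_const, Finset.card_univ, nsmul_eq_mul, mul_one, ← hn] at hsum
  have h5 : ∑ x, q x * n * Real.log (q x * n) ≤ |C| * n := by
    have : ∑ x, q x * n * Real.log (q x * n) = n * ∑ x, q x * Real.log (q x * n) := by
      rw [Finset.mul_sum]
      exact Finset.sum_congr rfl fun x _ => by ring
    rw [this, mul_comm]
    exact mul_le_mul_of_nonneg_right (hC.trans (le_abs_self C)) hn0.le
  have h6 : (∑ x, q x * n * Real.log (q x * n) + n) / l ≤ n / 4 := by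
    rw [div_le_iff₀ hl0, hl]
    nlinarith
  nlinarith

/-- The types sharing a line with a given type. -/
lemma card_meet {N d : ℕ} [NeZero N] (a : Ty N d) :
    (Finset.univ.filter fun b : Ty N d => ¬ Disjoint (lins a) (lins b)).card ≤ 3 * d := by
  have hsub : (Finset.univ.filter fun b : Ty N d => ¬ Disjoint (lins a) (lins b)) ⊆
      (Finset.univ : Finset (Fin 3)).biUnion fun t =>
        Finset.univ.filter fun b : Ty N d => ∃ s, lin b s = lin a t := by
    intro b hb
    have h1 := (Finset.mem_filter.1 hb).2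
    rw [Finset.not_disjoint_iff] at h1
    obtain ⟨u, hu, hu'⟩ := h1
    unfold lins at hu hu'
    obtain ⟨t, -, ht⟩ := Finset.mem_image.1 hu
    obtain ⟨s, -, hs⟩ := Finset.mem_image.1 hu'
    rw [Finset.mem_biUnion]
    exact ⟨t, Finset.mem_univ _, Finset.mem_filter.2 ⟨Finset.mem_univ _, s, hs.trans ht.symm⟩⟩
  refine (Finset.card_le_card hsub).trans (Finset.card_biUnion_le.trans ?_)
  calc ∑ t : Fin 3, (Finset.univ.filter fun b : Ty N d => ∃ s, lin b s = lin a t).card
      ≤ ∑ _t : Fin 3, d := Finset.sum_le_sum fun t _ => Align.card_types_of_line _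
    _ = 3 * d := by rw [Finset.sum_const, Finset.card_univ, Fintype.card_fin, smul_eq_mul]

/-- Greedy choice of pairwise line-disjoint types. -/
lemma exists_disj {N d : ℕ} [NeZero N] (S : Finset (Ty N d)) (m : ℕ) (h : 3 * d * m ≤ S.card)
    (hd : 0 < d) :
    ∃ S' ⊆ S, S'.card = m ∧ ∀ a ∈ S', ∀ b ∈ S', a ≠ b → Disjoint (lins a) (lins b) := by
  induction m with
  | zero => exact ⟨∅, Finset.empty_subset _, rfl, fun a ha => absurd ha (Finset.notMem_empty a)⟩
  | succ m ih =>
    obtain ⟨S', hS', hc, hdis⟩ := ih (le_trans (Nat.mul_le_mul_left _ (Nat.le_succ m)) h)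
    set Bd : Finset (Ty N d) := S'.biUnion fun a =>
      Finset.univ.filter fun b : Ty N d => ¬ Disjoint (lins a) (lins b) with hBd
    have h1 : Bd.card ≤ 3 * d * m := by
      refine Finset.card_biUnion_le.trans ?_
      calc _ ≤ ∑ _a ∈ S', 3 * d := Finset.sum_le_sum fun a _ => card_meet a
        _ = 3 * d * m := by rw [Finset.sum_const, hc, smul_eq_mul, mul_comm]
    have h2 : Bd.card < S.card := by
      have h3 : 3 * d * m < 3 * d * (m + 1) := by
        have : 0 < 3 * d := by omega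
        exact Nat.mul_lt_mul_of_pos_left (Nat.lt_succ_self m) this
      omega
    obtain ⟨b, hbS, hb⟩ := Finset.exists_mem_notMem_of_card_lt_card h2
    have hb' : ∀ a ∈ S', Disjoint (lins a) (lins b) := by
      intro a ha
      by_contra hn
      exact hb (Finset.mem_biUnion.2 ⟨a, ha, Finset.mem_filter.2 ⟨Finset.mem_univ _, hn⟩⟩)
    have hbn : b ∉ S' := by
      intro hbS'
      have h3 := hb' b hbS'
      rw [disjoint_self] at h3
      have h4 : lin b 0 ∈ lins b := Finset.mem_image_of_mem _ (Finset.mem_univ _)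
      rw [h3] at h4
      exact Finset.notMem_empty _ h4
    refine ⟨insert b S', Finset.insert_subset hbS hS', ?_, ?_⟩
    · rw [Finset.card_insert_of_notMem hbn, hc]
    · intro a ha c hcc hac
      rcases Finset.mem_insert.1 ha with ha1 | ha1 <;>
        rcases Finset.mem_insert.1 hcc with hc1 | hc1
      · exact absurd (ha1.trans hc1.symm) hac
      · rw [ha1]; exact (hb' c hc1).symm
      · rw [hc1]; exact hb' a ha1
      · exact hdis a ha1 c hc1 hac

/-- The parameters of a label. -/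
def slice {T M : Type*} [Fintype M] (A : Finset (T × Bool × M)) (a : T) (i : Bool) : Finset M :=
  Finset.univ.filter fun x => (a, i, x) ∈ A

lemma mem_slice {T M : Type*} [Fintype M] {A : Finset (T × Bool × M)} {a : T} {i : Bool} {x : M} :
    x ∈ slice A a i ↔ (a, i, x) ∈ A := by
  unfold slice
  rw [Finset.mem_filter]
  exact ⟨fun h => h.2, fun h => ⟨Finset.mem_univ _, h⟩⟩

/-- Many types have a dense set of parameters for some bit. -/
lemma dense_types {T M : Type*} [Fintype T] [Fintype M] [Nonempty M] (δ : ℝ) (A : Finset (T × Bool × M))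
    (hA : δ * Fintype.card (T × Bool × M) ≤ (A.card : ℝ)) (hδ : 0 ≤ δ) :
    δ / 2 * Fintype.card T ≤ ((Finset.univ.filter fun a : T => ∃ ι : Bool,
      δ / 2 * Fintype.card M ≤ ((Finset.univ.filter fun x : M => (a, ι, x) ∈ A).card : ℝ)).card : ℝ) := by
  set S := Finset.univ.filter fun a : T => ∃ ι : Bool,
      δ / 2 * Fintype.card M ≤ ((Finset.univ.filter fun x : M => (a, ι, x) ∈ A).card : ℝ) with hS
  have hM : (0 : ℝ) < Fintype.card M := by exact_mod_cast Fintype.card_pos
  have h1 : (A.card : ℝ) = ∑ a : T, ∑ ι : Bool,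
      ((Finset.univ.filter fun x : M => (a, ι, x) ∈ A).card : ℝ) := by
    have : A.card = ∑ a : T, ∑ ι : Bool, (Finset.univ.filter fun x : M => (a, ι, x) ∈ A).card := by
      rw [← Finset.sum_product', Finset.univ_product_univ]
      have h2 : A = (Finset.univ : Finset (T × Bool)).biUnion fun y =>
          (Finset.univ.filter fun x : M => (y.1, y.2, x) ∈ A).image fun x => (y.1, y.2, x) := by
        ext ⟨a, ι, x⟩
        simp only [Finset.mem_biUnion, Finset.mem_univ, true_and, Finset.mem_image,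
          Finset.mem_filter, Prod.mk.injEq, Prod.exists]
        constructor
        · intro h
          exact ⟨a, ι, x, h, rfl, rfl, rfl⟩
        · rintro ⟨a', ι', x', h, rfl, rfl, rfl⟩
          exact h
      conv_lhs => rw [h2]
      rw [Finset.card_biUnion]
      · refine Finset.sum_congr rfl fun y _ => ?_
        rw [Finset.card_image_of_injective]
        intro x x' h
        exact (Prod.mk.injEq _ _ _ _ ▸ (Prod.mk.injEq _ _ _ _ ▸ h).2).2
      · intro y _ y' _ hne
        rw [Function.onFun, Finset.disjoint_left]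
        rintro _ h3 h4
        obtain ⟨x, -, rfl⟩ := Finset.mem_image.1 h3
        obtain ⟨x', -, h5⟩ := Finset.mem_image.1 h4
        apply hne
        have h6 := (Prod.ext_iff.1 h5)
        have h7 := (Prod.ext_iff.1 h6.2)
        exact Prod.ext h6.1.symm h7.1.symm
    rw [this]
    push_cast
    rfl
  have h2 : ∀ a : T, ∑ ι : Bool, ((Finset.univ.filter fun x : M => (a, ι, x) ∈ A).card : ℝ)
      ≤ (if a ∈ S then 2 * (Fintype.card M : ℝ) else 0) + δ * Fintype.card M := by
    intro a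
    have hle : ∀ ι : Bool, ((Finset.univ.filter fun x : M => (a, ι, x) ∈ A).card : ℝ)
        ≤ Fintype.card M := by
      intro ι
      exact_mod_cast Finset.card_le_univ _
    rw [Fintype.sum_bool]
    have hδM : 0 ≤ δ * Fintype.card M := mul_nonneg hδ hM.le
    by_cases ha : a ∈ S
    · rw [if_pos ha]
      linarith [hle true, hle false]
    · rw [if_neg ha]
      have h3 : ∀ ι : Bool, ((Finset.univ.filter fun x : M => (a, ι, x) ∈ A).card : ℝ)
          < δ / 2 * Fintype.card M := by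
        intro ι
        by_contra hn
        exact ha (Finset.mem_filter.2 ⟨Finset.mem_univ _, ι, not_lt.1 hn⟩)
      linarith [h3 true, h3 false]
  have h3 : (A.card : ℝ) ≤ S.card * (2 * (Fintype.card M : ℝ)) + Fintype.card T * (δ * Fintype.card M) := by
    rw [h1]
    refine (Finset.sum_le_sum fun a _ => h2 a).trans (le_of_eq ?_)
    rw [Finset.sum_add_distrib, ← Finset.sum_filter, Finset.sum_const, Finset.sum_const,
      Finset.filter_mem_eq_inter, Finset.univ_inter, nsmul_eq_mul, nsmul_eq_mul, Finset.card_univ]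
  have h4 : (Fintype.card (T × Bool × M) : ℝ) = Fintype.card T * (2 * Fintype.card M) := by
    rw [Fintype.card_prod, Fintype.card_prod, Fintype.card_bool]
    push_cast
    ring
  rw [h4] at hA
  have h5 : δ * Fintype.card T * Fintype.card M ≤ S.card * 2 * Fintype.card M := by linarith
  have h6 := le_of_mul_le_mul_right h5 hM
  linarith

lemma dense_types' {T M : Type*} [Fintype T] [Fintype M] [Nonempty M] (δ : ℝ)
    (A : Finset (T × Bool × M))
    (hA : δ * Fintype.card (T × Bool × M) ≤ (A.card : ℝ)) (hδ : 0 ≤ δ) :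
    ∃ S : Finset T, δ / 2 * Fintype.card T ≤ (S.card : ℝ) ∧ ∀ a ∈ S, ∃ ι : Bool,
      δ / 2 * Fintype.card M ≤ ((slice A a ι).card : ℝ) :=
  ⟨_, dense_types δ A hA hδ, fun _ ha => (Finset.mem_filter.1 ha).2⟩

/-- The final numbers. -/
lemma numbers {δ m R W n N d D₀ k R' : ℝ} (hδ : 0 < δ) (hm : 0 < m) (hR : 0 < R) (hN : 0 < N)
    (hd : 0 < d) (hn : n = N * d * 2 * m) (hlow : W * (1 / (2 * n)) ^ 2 ≤ (R ^ 2)⁻¹)
    (hpairs : (δ / 2) ^ 2 * m ^ 2 ≤ 20168 * R * W) (hNk : N ≤ 2 * D₀ * k) (hRR : R' ≤ R)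
    (hlast : 20168 * 64 * D₀ ^ 2 * d ^ 2 * k ^ 2 < δ ^ 2 / 4 * R') : False := by
  have hn0 : 0 < n := by rw [hn]; positivity
  have hW1 : W * R ^ 2 ≤ 4 * n ^ 2 := by
    have h1 : W * (1 / (2 * n)) ^ 2 = W / (4 * n ^ 2) := by
      rw [div_pow, one_pow, mul_pow, mul_one_div]
      norm_num
    rw [h1, inv_eq_one_div, div_le_div_iff₀ (by positivity) (by positivity), one_mul] at hlow
    exact hlow
  have hfin : (δ / 2) ^ 2 * m ^ 2 * R ≤ 20168 * (4 * n ^ 2) := by
    calc (δ / 2) ^ 2 * m ^ 2 * R ≤ 20168 * R * W * R := mul_le_mul_of_nonneg_right hpairs hR.le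
      _ = 20168 * (W * R ^ 2) := by ring
      _ ≤ 20168 * (4 * n ^ 2) := mul_le_mul_of_nonneg_left hW1 (by norm_num)
  rw [hn] at hfin
  have hm2 : 0 < m ^ 2 := by positivity
  have hfin2 : δ ^ 2 / 4 * R ≤ 20168 * 16 * N ^ 2 * d ^ 2 := by
    have h1 : δ ^ 2 / 4 * R * m ^ 2 ≤ 20168 * 16 * N ^ 2 * d ^ 2 * m ^ 2 := by
      calc δ ^ 2 / 4 * R * m ^ 2 = (δ / 2) ^ 2 * m ^ 2 * R := by ring
        _ ≤ 20168 * (4 * (N * d * 2 * m) ^ 2) := hfin
        _ = 20168 * 16 * N ^ 2 * d ^ 2 * m ^ 2 := by ring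
    exact le_of_mul_le_mul_right h1 hm2
  have hN2 : N ^ 2 ≤ (2 * D₀ * k) ^ 2 := pow_le_pow_left₀ hN.le hNk 2
  have h1 : δ ^ 2 / 4 * R' ≤ δ ^ 2 / 4 * R := mul_le_mul_of_nonneg_left hRR (by positivity)
  have h2 : 20168 * 16 * N ^ 2 * d ^ 2 ≤ 20168 * 64 * D₀ ^ 2 * d ^ 2 * k ^ 2 := by
    calc 20168 * 16 * N ^ 2 * d ^ 2 = (20168 * 16 * d ^ 2) * N ^ 2 := by ring
      _ ≤ (20168 * 16 * d ^ 2) * (2 * D₀ * k) ^ 2 := mul_le_mul_of_nonneg_left hN2 (by positivity)
      _ = 20168 * 64 * D₀ ^ 2 * d ^ 2 * k ^ 2 := by ring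
  linarith

/-- The lower bound for the adjacency mass. -/
lemma adj_low {T M : Type*} [Fintype T] [Fintype M] (q : T × Bool × M → ℝ) (q0 : ∀ x, 0 ≤ q x)
    (Adj : T × Bool × M → T × Bool × M → Prop) (A : Finset (T × Bool × M)) {n : ℝ} (hn : 0 < n)
    (hA : ∀ x ∈ A, 1 / 2 ≤ q x * n) (a b : T) (i j : Bool) :
    (((slice A a i ×ˢ slice A b j).filter
        fun x => Adj (a, i, x.1) (b, j, x.2)).card : ℝ) * (1 / (2 * n)) ^ 2
      ≤ ∑ x, ∑ y, (if Adj x y then q x * q y else 0) := by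
  rw [← Finset.sum_product', Finset.univ_product_univ]
  set W := ((slice A a i ×ˢ slice A b j).filter
        fun x => Adj (a, i, x.1) (b, j, x.2)) with hW
  have hinj : Function.Injective (fun x : M × M =>
      (((a, i, x.1), (b, j, x.2)) : (T × Bool × M) × (T × Bool × M))) := by
    intro x y hxy
    have h1 := Prod.ext_iff.1 hxy
    have h2 := Prod.ext_iff.1 (Prod.ext_iff.1 h1.1).2
    have h3 := Prod.ext_iff.1 (Prod.ext_iff.1 h1.2).2
    exact Prod.ext h2.2 h3.2
  have hnn : ∀ z : (T × Bool × M) × (T × Bool × M),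
      0 ≤ (if Adj z.1 z.2 then q z.1 * q z.2 else 0) := by
    intro z
    split_ifs
    · exact mul_nonneg (q0 _) (q0 _)
    · exact le_rfl
  refine le_trans ?_ (Finset.sum_le_sum_of_subset_of_nonneg (Finset.subset_univ
    (W.image (fun x => (((a, i, x.1), (b, j, x.2)) : (T × Bool × M) × (T × Bool × M)))))
    fun z _ _ => hnn z)
  rw [Finset.sum_image (fun x _ y _ hxy => hinj hxy), ← nsmul_eq_mul, ← Finset.sum_const]
  refine Finset.sum_le_sum fun x hx => ?_
  obtain ⟨hx1, hx2⟩ := Finset.mem_filter.1 hx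
  obtain ⟨hxa, hxb⟩ := Finset.mem_product.1 hx1
  have e1 := hA _ (mem_slice.1 hxa)
  have e2 := hA _ (mem_slice.1 hxb)
  rw [if_pos hx2, pow_two]
  have f1 : 1 / (2 * n) ≤ q (a, i, x.1) := by
    rw [div_le_iff₀ (by positivity)]
    linarith
  have f2 : 1 / (2 * n) ≤ q (b, j, x.2) := by
    rw [div_le_iff₀ (by positivity)]
    linarith
  exact mul_le_mul f1 f2 (by positivity) (q0 _)

lemma exists_large (c e : ℝ) (he : 0 < e) : ∃ k₀ : ℕ, ∀ k : ℕ, k₀ ≤ k →
    c * (k : ℝ) ^ 2 < e * (2521 : ℝ) ^ k := by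
  have h := tendsto_pow_const_div_const_pow_of_one_lt 2 (by norm_num : (1 : ℝ) < 2521)
  have h2 : 0 < e / (|c| + 1) := div_pos he (by positivity)
  obtain ⟨k₀, hk⟩ := Filter.eventually_atTop.1 (h.eventually (gt_mem_nhds h2))
  refine ⟨k₀, fun k hk' => ?_⟩
  have h3 := hk k hk'
  rw [div_lt_div_iff₀ (by positivity) (by positivity)] at h3
  have h4 : c * (k : ℝ) ^ 2 ≤ (k : ℝ) ^ 2 * (|c| + 1) := by
    have h5 : c ≤ |c| + 1 := by linarith [le_abs_self c]
    have := mul_le_mul_of_nonneg_left h5 (sq_nonneg (k : ℝ))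
    linarith
  linarith

end NOAF

open NOAF in
/-- **OUT-A from its core.** -/
theorem notOutA_of (hcore : NOACore) : NotOutA := by
  intro C
  refine ⟨1, fun D₀ hD₀ d E _ hd => ?_⟩
  set L : ℝ := Real.exp (4 * (|C| + 1)) with hL
  have hL0 : 0 < L := Real.exp_pos _
  set δ : ℝ := 1 / (4 * L) with hδ
  have hδ0 : 0 < δ := by positivity
  obtain ⟨M, hM⟩ := hcore (δ / 2) (by positivity)
  obtain ⟨k₁, hk₁⟩ := exists_large (20168 * 64 * (D₀ : ℝ) ^ 2 * (d : ℝ) ^ 2) (δ ^ 2 / 4) (by positivity)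
  refine ⟨1, one_pos, max k₁ (max (3 * (D₀ + 20) ^ 2) ⌈6 * M / δ⌉₊), ?_⟩
  intro N P Om _ _ _ fr p h hk hs hE hrow hOut
  obtain ⟨q, q0, q1, qC, qI⟩ := hOut
  set k := Fintype.card P with hkdef
  have hka : k₁ ≤ k := (le_max_left _ _).trans hk
  have hkb : 3 * (D₀ + 20) ^ 2 ≤ k := (le_max_left _ _).trans ((le_max_right _ _).trans hk)
  have hkc : 6 * M / δ ≤ (k : ℝ) :=
    (Nat.le_ceil _).trans (by exact_mod_cast (le_max_right _ _).trans ((le_max_right _ _).trans hk))
  have hkN : k ≤ N := le_trans (by nlinarith) hs.hN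
  set m : ℝ := (Fintype.card (Matrix (Co E P Om) (Co E P Om) F) : ℝ) with hm
  have hm0 : 0 < m := by rw [hm]; exact_mod_cast Fintype.card_pos
  have hne : Nonempty (Design.Vtx (Co E P Om) (Ty N d)) := ⟨((0, ⟨0, hd⟩), true, 0)⟩
  have hlev := dense_level C q q0 q1 qC
  set n : ℝ := (Fintype.card (Design.Vtx (Co E P Om) (Ty N d)) : ℝ) with hn
  set A : Finset (Design.Vtx (Co E P Om) (Ty N d)) := Finset.univ.filter fun x =>
    1 / 2 ≤ q x * n ∧ q x * n ≤ L with hA
  have hnval : n = N * d * 2 * m := by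
    rw [hn, Fintype.card_prod, Fintype.card_prod, Fintype.card_prod, ZMod.card, Fintype.card_fin,
      Fintype.card_bool, hm]
    push_cast
    ring
  have hN0 : (0 : ℝ) < N := by exact_mod_cast Nat.pos_of_ne_zero (NeZero.ne N)
  have hd0 : (0 : ℝ) < d := by exact_mod_cast hd
  have hn0 : 0 < n := by rw [hnval]; positivity
  have hAδ : δ * n ≤ (A.card : ℝ) := by
    rw [hδ, div_mul_eq_mul_div, one_mul, div_le_iff₀ (by positivity), mul_comm]
    exact hlev
  obtain ⟨S0, hS, hS0⟩ := dense_types' δ A hAδ hδ0.le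
  have hcT : (Fintype.card (Ty N d) : ℝ) = N * d := by
    rw [Fintype.card_prod, ZMod.card, Fintype.card_fin]
    push_cast
    ring
  have hS0c : 3 * d * M ≤ S0.card := by
    have h1 : (3 * d * M : ℝ) ≤ S0.card := by
      refine le_trans ?_ hS
      rw [hcT]
      have h2 : 6 * (M : ℝ) ≤ k * δ := (div_le_iff₀ hδ0).1 hkc
      have h3 : (k : ℝ) ≤ N := by exact_mod_cast hkN
      have h4 : (k : ℝ) * δ ≤ N * δ := mul_le_mul_of_nonneg_right h3 hδ0.le
      have h5 : 6 * (M : ℝ) * d ≤ N * δ * d := mul_le_mul_of_nonneg_right (h2.trans h4) hd0.le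
      linarith
    exact_mod_cast h1
  obtain ⟨S, hSS, hSc, hSd⟩ := exists_disj S0 M hS0c hd
  -- the bits
  have hbit : ∀ a : Ty N d, ∃ ι : Bool, a ∈ S → δ / 2 * m ≤ ((slice A a ι).card : ℝ) := by
    intro a
    by_cases ha : a ∈ S
    · obtain ⟨ι, hι⟩ := hS0 a (hSS ha)
      exact ⟨ι, fun _ => hι⟩
    · exact ⟨true, fun h' => absurd h' ha⟩
  choose ι hι using hbit
  -- the number of independent lines
  set κ : ℕ := 5 * k / (D₀ + 20) ^ 2 with hκ
  have hκ12 : 12 ≤ κ := by
    rw [hκ, Nat.le_div_iff_mul_le (by positivity)]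
    nlinarith
  have hκE : Ev1 p κ := hE κ (Nat.div_le_div_right (by omega))
  obtain ⟨a, haS, b, hbS, hab, hpairs⟩ := hM N d E P Om fr p h κ hκ12 hrow hκE S hSc.ge hSd
    (fun a => slice A a (ι a)) ι hι
  have hlow := (adj_low q q0 (dsg fr p h).Adj A hn0 (fun x hx => (Finset.mem_filter.1 hx).2.1)
    a b (ι a) (ι b)).trans qI
  have hck : k ≤ Fintype.card (Co E P Om) := by
    rw [Fintype.card_sum, Fintype.card_sum]
    omega
  have hR2 : (2521 : ℝ) ^ (2 * Fintype.card (Co E P Om)) =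
      ((2521 : ℝ) ^ Fintype.card (Co E P Om)) ^ 2 := by rw [← pow_mul, mul_comm]
  rw [hR2] at hlow
  exact numbers hδ0 hm0 (by positivity) hN0 hd0 hnval hlow hpairs (by exact_mod_cast hs.hN')
    (pow_le_pow_right₀ (by norm_num) hck) (hk₁ k hka)

end Vale.Agent.P060.HW
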