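import Vale.Agent.P060.HW.NOACore
import Vale.Agent.P060.HW.NOAFin

/-!
# OUT-A
-/

namespace Vale.Agent.P060.HW

theorem notOutA : NotOutA := notOutA_of noaCore

end Vale.Agent.P060.HW
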