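import Vale.Agent.P060.HW.TVFrame

/-!
# P060/HW: the TV theorem for one pair of types in a frame

`tvLoc_core` : the one pair theorem `TVF.tv_pair` for a good pair of types of a frame.
-/

open scoped Classical

noncomputable section

set_option linter.unusedSectionVars false

namespace Vale.Agent.P060.HW

namespace TVF

open Module

section Inst

variable {N d : ℕ} {E P Om : Type} [Fintype E] [Fintype P] [Fintype Om] [NeZero N]

lemma GA_sup (fr : Frame N d E Om) (p : Lin N → Co E P Om → F) (h : Ext fr p) (a a' : Ty N d)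
    (A B : Finset (Lin N)) :
    GA fr p h a a' A ⊔ GA fr p h a a' B = GA fr p h a a' (A ∪ B) := by
  rw [← GA_sup_Gp]
  refine le_antisymm (sup_le le_sup_left (sup_le le_sup_right ?_))
    (sup_le le_sup_left (le_trans le_sup_left le_sup_right))
  exact (N2_le_GA fr p h a a' A).trans le_sup_left

lemma lin_mem (c : Ty N d) (s : Fin 3) : lin c s ∈ lins c := an_mem_lins.2 ⟨s, rfl⟩

lemma lin_eq_of_mem {c c' : Ty N d} {s : Fin 3} (h : lin c s ∈ lins c') :
    lin c s = lin c' s := by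
  obtain ⟨s', hs⟩ := an_mem_lins.1 h
  have h1 : s' = s := (Prod.ext_iff.1 hs).1
  rw [← hs, h1]

lemma univ_three : ∀ i j q : Fin 3, i ≠ j → i ≠ q → j ≠ q →
    (Finset.univ : Finset (Fin 3)) = {i, j, q} := by decide

lemma gv_three (p : Lin N → Co E P Om → F) (c : Ty N d) {i j q : Fin 3} (hij : i ≠ j)
    (hiq : i ≠ q) (hjq : j ≠ q) : p (lin c i) + p (lin c j) + p (lin c q) = gv p c := by
  unfold gv
  rw [univ_three i j q hij hiq hjq, Finset.sum_insert (by simp [hij, hiq]),
    Finset.sum_insert (by simp [hjq]), Finset.sum_singleton, add_assoc]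

lemma lins_three (c : Ty N d) {i j q : Fin 3} (hij : i ≠ j) (hiq : i ≠ q) (hjq : j ≠ q) :
    lins c = {lin c i, lin c j, lin c q} := by
  unfold lins
  rw [univ_three i j q hij hiq hjq, Finset.image_insert, Finset.image_insert,
    Finset.image_singleton]

lemma card_lins_le (c : Ty N d) : (lins c).card ≤ 3 := by
  unfold lins
  refine Finset.card_image_le.trans ?_
  simp

lemma card_lins2_le (β : Ty N d × Ty N d) : (lins2 β).card ≤ 6 := by
  unfold lins2
  have h1 := Finset.card_union_le (lins β.1) (lins β.2)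
  have h2 := card_lins_le β.1
  have h3 := card_lins_le β.2
  omega

lemma finrank_linsp_le (p : Lin N → Co E P Om → F) (S : Finset (Lin N)) :
    finrank F (linsp p S) ≤ S.card := by
  unfold linsp
  have h1 : p '' (S : Set (Lin N)) = ((S.image p : Finset (Co E P Om → F)) : Set _) := by
    rw [Finset.coe_image]
  rw [h1]
  exact (finrank_span_finset_le_card _).trans Finset.card_image_le

/-- the only type in `D` through the line `u` -/
lemma cross_eq {D : Finset (Lin N)} {a a' b b' : Ty N d}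
    (hcross : ∀ c : Ty N d, lins c ⊆ D → c = a ∨ c = a' ∨ c = b ∨ c = b') {u : Lin N}
    (ha : u ∉ lins a) (ha' : u ∉ lins a') (hb' : u ∉ lins b') {c : Ty N d} (hc : lins c ⊆ D)
    (hu : u ∈ lins c) : c = b := by
  rcases hcross c hc with rfl | rfl | rfl | rfl
  · exact absurd hu ha
  · exact absurd hu ha'
  · rfl
  · exact absurd hu hb'

/-- known rows on one of two lines of the type `b` -/
lemma mem_rws2 {fr : Frame N d E Om} {a b : Ty N d} {T : Finset (Lin N)} {i j : Fin 3} {w : Om}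
    (hw : w ∈ rws fr a T (lin b i) ∪ rws fr a T (lin b j)) :
    w ∈ fr.U a ∨ ∃ c, w ∈ fr.U c ∧ (lin b i ∈ lins c ∨ lin b j ∈ lins c) ∧ lins c ⊆ T := by
  rcases Finset.mem_union.1 hw with hw | hw
  · rcases (Finset.mem_filter.1 hw).2 with h | ⟨c, h1, h2, h3⟩
    · exact Or.inl h
    · exact Or.inr ⟨c, h1, Or.inl h2, h3⟩
  · rcases (Finset.mem_filter.1 hw).2 with h | ⟨c, h1, h2, h3⟩
    · exact Or.inl h
    · exact Or.inr ⟨c, h1, Or.inr h2, h3⟩

/-- The rows known from two different pasts. -/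
lemma rws_inter (fr : Frame N d E Om) (a b : Ty N d) {i j : Fin 3} {T T' D : Finset (Lin N)}
    (hT : ∀ u, u ∈ T → u ∈ T' → u ∈ D)
    (hc : ∀ c : Ty N d, lins c ⊆ D → (lin b i ∈ lins c ∨ lin b j ∈ lins c) → c = b) :
    (rws fr a T (lin b i) ∪ rws fr a T (lin b j)) ∩
      (rws fr a T' (lin b i) ∪ rws fr a T' (lin b j)) ⊆ fr.U a ∪ fr.U b := by
  intro w hw
  obtain ⟨h1, h2⟩ := Finset.mem_inter.1 hw
  rcases mem_rws2 h1 with h1 | ⟨c, c1, c2, c3⟩
  · exact Finset.mem_union_left _ h1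
  rcases mem_rws2 h2 with h2 | ⟨c', c1', c2', c3'⟩
  · exact Finset.mem_union_left _ h2
  by_cases hcc : c = c'
  · subst hcc
    have : c = b := hc c (fun u hu => hT u (c3 hu) (c3' hu)) c2
    rw [← this]
    exact Finset.mem_union_right _ c1
  · exfalso
    have e : ∀ c : Ty N d, (lin b i ∈ lins c ∨ lin b j ∈ lins c) → ∃ s, ln b s = ln c s := by
      rintro c (h | h)
      · exact ⟨i, (Prod.ext_iff.1 (lin_eq_of_mem h)).2⟩
      · exact ⟨j, (Prod.ext_iff.1 (lin_eq_of_mem h)).2⟩
    obtain ⟨s, hs⟩ := e c c2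
    obtain ⟨s', hs'⟩ := e c' c2'
    exact Finset.disjoint_left.1 (fr.star_disj b c c' s s' hcc hs hs') c1 c1'

/-- The rows known from the lines of the four types. -/
lemma rws_D (fr : Frame N d E Om) (a b : Ty N d) {D : Finset (Lin N)} {u : Lin N}
    (hc : ∀ c : Ty N d, lins c ⊆ D → u ∈ lins c → c = b) :
    rws fr a D u ⊆ fr.U a ∪ fr.U b := by
  intro w hw
  rcases (Finset.mem_filter.1 hw).2 with h | ⟨c, h1, h2, h3⟩
  · exact Finset.mem_union_left _ h
  · rw [hc c h3 h2] at h1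
    exact Finset.mem_union_right _ h1

lemma single_inst {K : Type*} (i₁ i₂ : DecidableEq K) (w : K) :
    @Pi.single K (fun _ => F) _ i₁ w 1 = @Pi.single K (fun _ => F) _ i₂ w 1 := by
  have : i₁ = i₂ := Subsingleton.elim _ _
  subst this
  rfl

/-- Vectors supported on zero rows give trivial tensors. -/
lemma row_triv (fr : Frame N d E Om) (p : Lin N → Co E P Om → F) (h : Ext fr p) (a b : Ty N d)
    {z : Co E P Om → F} (hz : z ∈ rowsp (E := E) (P := P) (fr.U a ∪ fr.U b)) :
    smB z (gv p b) ∈ (dsg fr p h).Nn a := by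
  have h1 : z = ∑ w ∈ fr.U a ∪ fr.U b, z (Sum.inr w) • (Pi.single (Sum.inr w) 1 : Co E P Om → F) := by
    funext k
    rw [Finset.sum_apply]
    rcases k with k | k
    · rw [hz.1 k]
      refine (Finset.sum_eq_zero fun w _ => ?_).symm
      rw [Pi.smul_apply, Pi.single_eq_of_ne Sum.inl_ne_inr, smul_zero]
    · by_cases hk : k ∈ fr.U a ∪ fr.U b
      · rw [Finset.sum_eq_single k]
        · rw [Pi.smul_apply, Pi.single_eq_same, smul_eq_mul, mul_one]
        · intro w _ hwk
          rw [Pi.smul_apply, Pi.single_eq_of_ne (fun e => hwk (Sum.inr_injective e).symm),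
            smul_zero]
        · intro h'; exact absurd hk h'
      · rw [hz.2 k hk]
        refine (Finset.sum_eq_zero fun w hw => ?_).symm
        rw [Pi.smul_apply, Pi.single_eq_of_ne (fun e => hk (by
          rw [Sum.inr_injective e]; exact hw)), smul_zero]
  rw [h1, map_sum, LinearMap.sum_apply]
  refine Submodule.sum_mem _ fun w hw => ?_
  rw [map_smul, LinearMap.smul_apply]
  refine Submodule.smul_mem _ _ ?_
  rw [smB_apply]
  rcases Finset.mem_union.1 hw with hw | hw
  · refine Submodule.subset_span (Or.inl (Or.inr ⟨Sum.inr w, Finset.mem_image_of_mem _ hw,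
      gv p b, ?_⟩))
    exact congrArg (fun x => sm x (gv p b)) (single_inst _ _ _)
  · refine Submodule.subset_span (Or.inl (Or.inl ⟨b, Sum.inr w, Finset.mem_image_of_mem _ hw, ?_⟩))
    exact congrArg (fun x => sm x (gv p b)) (single_inst _ _ _)

/-- The known slots of two lines outside a past. -/
lemma rep_pair (fr : Frame N d E Om) (p : Lin N → Co E P Om → F) (h : Ext fr p)
    (a a' : Ty N d) {A T : Finset (Lin N)} (hA : A ⊆ T) (ha : lins2 (a, a') ⊆ A)
    (hS : LinearIndependent F (fun u : T => fun j : P => p u (Sum.inl (Sum.inr j))))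
    (hR : ∀ w, LinearIndependent F
      (fun u : (T ∪ rowLines fr w : Finset (Lin N)) => fun j : P => p u (Sum.inl (Sum.inr j))))
    {u v : Lin N} (huv : u ≠ v) (hu : u ∈ T) (hv : v ∈ T) (huA : u ∉ A) (hvA : v ∉ A)
    (z : Fin 4 → Co E P Om → F) (hmem : tm (p u) (p v) z ∈ GA fr p h a a' A) :
    (z 0 ∈ linsp p T ⊔ rowsp (rws fr a T u) ∧ z 1 ∈ linsp p T ⊔ rowsp (rws fr a T v)) ∧
    (z 2 ∈ linsp p T ⊔ rowsp (rws fr a' T u) ∧ z 3 ∈ linsp p T ⊔ rowsp (rws fr a' T v)) := by
  obtain ⟨h1, h2⟩ := (mem_GA fr p h a a' A _).1 hmem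
  exact ⟨grp_rep fr p h a hA ((Finset.subset_union_left).trans ha) hS hR huv hu hv huA hvA _ _ h1,
    grp_rep fr p h a' hA ((Finset.subset_union_right).trans ha) hS hR huv hu hv huA hvA _ _ h2⟩

/-- the tensors of a type -/
lemma tm_gv_mem (fr : Frame N d E Om) (p : Lin N → Co E P Om → F) (h : Ext fr p)
    (a a' b b' : Ty N d) {A : Finset (Lin N)} (hA : lins2 (b, b') ⊆ A)
    (z : Fin 4 → Co E P Om → F) : tm (gv p b) (gv p b') z ∈ GA fr p h a a' A := by
  have key : ∀ (c : Ty N d) (x : Co E P Om → F), lins c ⊆ A → smB x (gv p c) ∈ Gl p A := by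
    intro c x hc
    rw [gv_eq_sum_lins, map_sum]
    exact Submodule.sum_mem _ fun u hu => smB_mem_Gl p (hc hu) x
  have hb : lins b ⊆ A := (Finset.subset_union_left).trans hA
  have hb' : lins b' ⊆ A := (Finset.subset_union_right).trans hA
  refine Gp_le_GA fr p h a a' subset_rfl ?_
  exact ⟨Submodule.smul_mem _ _ (Submodule.add_mem _ (key b _ hb) (key b' _ hb')),
    Submodule.smul_mem _ _ (Submodule.add_mem _ (key b _ hb) (key b' _ hb'))⟩

end Inst

/-- The TV theorem for one good pair of types. -/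
theorem tvLoc_core (ψ : AddChar F ℂ) (hψ : ψ ≠ 0) {ε lam : ℝ} (hε : 0 < ε) (hlam : 0 ≤ lam) :
    ∃ d₀ > (0 : ℝ), ∃ η > (0 : ℝ), ∀ (D₀ N d : ℕ) (E P Om : Type) [Fintype E] [Fintype P]
    [Fintype Om] [NeZero N] (fr : Frame N d E Om) (p : Lin N → Co E P Om → F) (h : Ext fr p),
    (∀ κ : ℕ, κ ≤ 20 * Fintype.card P / (D₀ + 20) ^ 2 → Ev1 p κ) →
    30 ≤ Fintype.card P / (D₀ + 20) ^ 2 →
    (∀ w, 30 + (rowLines fr w).card ≤ Fintype.card P / (D₀ + 20) ^ 2) →
    ∀ (a a' : Ty N d) (ι ι' : Bool), a ≠ a' →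
    ∀ (Λ M : ℝ) (w : WL E P Om) (hw : PLaw (dsg fr p h) a a' ι ι' Λ M w) (β : Ty N d × Ty N d),
      GoodB hw D₀ lam d₀ β →
      tdist (dsg fr p h) a a' w β ≤ ε ∨ BadC ψ (dsg fr p h) a a' w η β := by
  obtain ⟨d₀, hd₀, η, hη, main⟩ := tv_pair ψ hψ hε hlam 48
  refine ⟨d₀, hd₀, η, hη, ?_⟩
  intro D₀ N d E P Om _ _ _ _ fr p h hEv h30 hrow a a' ι ι' haa Λ M w hw β hβ
  obtain ⟨b, b'⟩ := β
  obtain ⟨hbb, hdis, hcross, hD0, i, j, q, i', j', q', hij, hiq, hjq, hij', hiq', hjq', hal, S, hSs,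
    hSS, hSD, hSlam, hSmi⟩ := hβ
  dsimp only at hbb hcross hal hSmi
  obtain ⟨Fix, hFix⟩ : ∃ Fix, Fix = lins2 (a, a') := ⟨_, rfl⟩
  obtain ⟨Be, hBe⟩ : ∃ Be, Be = lins2 (b, b') := ⟨_, rfl⟩
  rw [← hFix] at hcross hD0 hSD hSlam hSmi hdis
  rw [← hBe] at hcross hD0 hSD hSlam hdis
  obtain ⟨m, hm⟩ : ∃ m, m = Fintype.card P / (D₀ + 20) ^ 2 := ⟨_, rfl⟩
  rw [← hm] at h30 hrow
  -- independence
  have hind : ∀ T : Finset (Lin N), T.card ≤ 20 * m →
      LinearIndependent F (fun u : T => fun j : P => p u (Sum.inl (Sum.inr j))) := by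
    intro T hT
    refine hEv (20 * m) ?_ T hT
    rw [hm]
    exact Nat.mul_div_le_mul_div_assoc _ _ _
  have hScard : ∀ l, (S l).card ≤ m := by
    intro l
    rw [hm]
    exact (Nat.le_div_iff_mul_le (by positivity)).2 (hSs l)
  have hDcard : (Fix ∪ Be).card ≤ 12 := by
    have h1 := Finset.card_union_le Fix Be
    have h2 : Fix.card ≤ 6 := by rw [hFix]; exact card_lins2_le _
    have h3 : Be.card ≤ 6 := by rw [hBe]; exact card_lins2_le _
    omega
  obtain ⟨D, hD⟩ : ∃ D, D = Fix ∪ Be := ⟨_, rfl⟩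
  rw [← hD] at hDcard hcross hSD
  have hTi : ∀ l, LinearIndependent F
      (fun u : (S l ∪ D : Finset (Lin N)) => fun j : P => p u (Sum.inl (Sum.inr j))) := by
    intro l
    refine hind _ ?_
    have h1 := Finset.card_union_le (S l) D
    have h2 := hScard l
    omega
  have hTRi : ∀ l w, LinearIndependent F
      (fun u : (S l ∪ D ∪ rowLines fr w : Finset (Lin N)) =>
        fun j : P => p u (Sum.inl (Sum.inr j))) := by
    intro l w
    refine hind _ ?_
    have h1 := Finset.card_union_le (S l) D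
    have h2 := hScard l
    have h3 := Finset.card_union_le (S l ∪ D) (rowLines fr w)
    have h4 := hrow w
    omega
  have hDi : LinearIndependent F
      (fun u : D => fun j : P => p u (Sum.inl (Sum.inr j))) := hind _ (by omega)
  have hDRi : ∀ w, LinearIndependent F
      (fun u : (D ∪ rowLines fr w : Finset (Lin N)) =>
        fun j : P => p u (Sum.inl (Sum.inr j))) := by
    intro w
    refine hind _ ?_
    have h3 := Finset.card_union_le D (rowLines fr w)
    have h4 := hrow w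
    omega
  have h3i : LinearIndependent F
      (fun u : (S 0 ∪ S 1 ∪ S 2 ∪ D : Finset (Lin N)) =>
        fun j : P => p u (Sum.inl (Sum.inr j))) := by
    refine hind _ ?_
    have h1 := Finset.card_union_le (S 0 ∪ S 1 ∪ S 2) D
    have h2 := Finset.card_union_le (S 0 ∪ S 1) (S 2)
    have h3 := Finset.card_union_le (S 0) (S 1)
    have h4 := hScard 0
    have h5 := hScard 1
    have h6 := hScard 2
    omega
  -- the lines
  have hBb : ∀ s, lin b s ∈ Be := fun s => by
    rw [hBe]; exact Finset.mem_union_left _ (lin_mem b s)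
  have hBb' : ∀ s, lin b' s ∈ Be := fun s => by
    rw [hBe]; exact Finset.mem_union_right _ (lin_mem b' s)
  have hbF : ∀ s, lin b s ∉ Fix := fun s => Finset.disjoint_left.1 hdis (hBb s)
  have hbF' : ∀ s, lin b' s ∉ Fix := fun s => Finset.disjoint_left.1 hdis (hBb' s)
  have hba : ∀ s, lin b s ∉ lins a := fun s hs => hbF s (by
    rw [hFix]; exact Finset.mem_union_left _ hs)
  have hba' : ∀ s, lin b s ∉ lins a' := fun s hs => hbF s (by
    rw [hFix]; exact Finset.mem_union_right _ hs)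
  have hb'a : ∀ s, lin b' s ∉ lins a := fun s hs => hbF' s (by
    rw [hFix]; exact Finset.mem_union_left _ hs)
  have hb'a' : ∀ s, lin b' s ∉ lins a' := fun s hs => hbF' s (by
    rw [hFix]; exact Finset.mem_union_right _ hs)
  have hbD : ∀ s, lin b s ∈ D := fun s => by rw [hD]; exact Finset.mem_union_right _ (hBb s)
  have hbD' : ∀ s, lin b' s ∈ D := fun s => by rw [hD]; exact Finset.mem_union_right _ (hBb' s)
  have hbS : ∀ l s, lin b s ∉ S l := fun l s hs => Finset.disjoint_left.1 (hSD l) hs (hbD s)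
  have hbS' : ∀ l s, lin b' s ∉ S l := fun l s hs => Finset.disjoint_left.1 (hSD l) hs (hbD' s)
  have hbb' : ∀ s, s ≠ q → lin b s ∉ lins b' := by
    intro s hs hmem
    exact hs (hal s s (lin_eq_of_mem hmem)).1
  have hb'b : ∀ s, s ≠ q' → lin b' s ∉ lins b := by
    intro s hs hmem
    exact hs (hal s s (lin_eq_of_mem hmem).symm).2
  have hcr : ∀ s, s ≠ q → ∀ c : Ty N d, lins c ⊆ D → lin b s ∈ lins c → c = b := fun s hs c hc hu =>
    cross_eq hcross (hba s) (hba' s) (hbb' s hs) hc hu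
  have hcross' : ∀ c : Ty N d, lins c ⊆ D → c = a ∨ c = a' ∨ c = b' ∨ c = b := by
    intro c hc
    rcases hcross c hc with h | h | h | h
    · exact Or.inl h
    · exact Or.inr (Or.inl h)
    · exact Or.inr (Or.inr (Or.inr h))
    · exact Or.inr (Or.inr (Or.inl h))
  have hcr' : ∀ s, s ≠ q' → ∀ c : Ty N d, lins c ⊆ D → lin b' s ∈ lins c → c = b' :=
    fun s hs c hc hu => cross_eq hcross' (hb'a s) (hb'a' s) (hb'b s hs) hc hu
  -- representations
  have hrep : ∀ s t s' t' : Fin 3, s ≠ t → s ≠ q → s' ≠ t' → s' ≠ q' → ∀ l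
      (z : Fin 4 → Co E P Om → F),
      tm (p (lin b s)) (p (lin b' s')) z ∈
        GA fr p h a a' (S l ∪ Fix ∪ {lin b q, lin b' q'} ∪ {lin b t, lin b' t'}) →
      (z 0 ∈ linsp p (S l ∪ D) ⊔ rowsp (rws fr a (S l ∪ D) (lin b s)) ∧
        z 1 ∈ linsp p (S l ∪ D) ⊔ rowsp (rws fr a (S l ∪ D) (lin b' s'))) ∧
      (z 2 ∈ linsp p (S l ∪ D) ⊔ rowsp (rws fr a' (S l ∪ D) (lin b s)) ∧
        z 3 ∈ linsp p (S l ∪ D) ⊔ rowsp (rws fr a' (S l ∪ D) (lin b' s'))) := by
    intro s t s' t' hst hsq hst' hsq' l z hz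
    refine rep_pair fr p h a a' ?_ ?_ (hTi l) (hTRi l) ?_ (Finset.mem_union_right _ (hbD s))
      (Finset.mem_union_right _ (hbD' s')) ?_ ?_ z hz
    · intro u hu
      simp only [Finset.mem_union, Finset.mem_insert, Finset.mem_singleton] at hu ⊢
      rcases hu with ((hu | hu) | (rfl | rfl)) | (rfl | rfl)
      · exact Or.inl hu
      · exact Or.inr (by rw [hD]; exact Finset.mem_union_left _ hu)
      · exact Or.inr (hbD q)
      · exact Or.inr (hbD' q')
      · exact Or.inr (hbD t)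
      · exact Or.inr (hbD' t')
    · intro u hu
      rw [← hFix] at hu
      simp only [Finset.mem_union]
      exact Or.inl (Or.inl (Or.inr hu))
    · intro e
      exact hbb' s hsq (by rw [e]; exact lin_mem b' s')
    · intro hu
      simp only [Finset.mem_union, Finset.mem_insert, Finset.mem_singleton] at hu
      rcases hu with ((hu | hu) | (hu | hu)) | (hu | hu)
      · exact hbS l s hu
      · exact hbF s hu
      · exact hsq (an_lin_inj hu)
      · exact hbb' s hsq (by rw [hu]; exact lin_mem b' q')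
      · exact hst (an_lin_inj hu)
      · exact hbb' s hsq (by rw [hu]; exact lin_mem b' t')
    · intro hu
      simp only [Finset.mem_union, Finset.mem_insert, Finset.mem_singleton] at hu
      rcases hu with ((hu | hu) | (hu | hu)) | (hu | hu)
      · exact hbS' l s' hu
      · exact hbF' s' hu
      · exact hb'b s' hsq' (by rw [hu]; exact lin_mem b q)
      · exact hsq' (an_lin_inj hu)
      · exact hb'b s' hsq' (by rw [hu]; exact lin_mem b t)
      · exact hst' (an_lin_inj hu)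
  have hTT : ∀ l k : Fin 3, l ≠ k → ∀ u, u ∈ S l ∪ D → u ∈ S k ∪ D → u ∈ D := by
    intro l k hlk u hu hu'
    rcases Finset.mem_union.1 hu with hu | hu
    · rcases Finset.mem_union.1 hu' with hu' | hu'
      · exact absurd hu' (Finset.disjoint_left.1 (hSS l k hlk) hu)
      · exact hu'
    · exact hu
  have hc1 : ∀ c : Ty N d, lins c ⊆ D → (lin b i ∈ lins c ∨ lin b j ∈ lins c) → c = b := by
    rintro c hc (hu | hu)
    · exact hcr i hiq c hc hu
    · exact hcr j hjq c hc hu
  have hc2 : ∀ c : Ty N d, lins c ⊆ D → (lin b' i' ∈ lins c ∨ lin b' j' ∈ lins c) → c = b' := by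
    rintro c hc (hu | hu)
    · exact hcr' i' hiq' c hc hu
    · exact hcr' j' hjq' c hc hu
  obtain ⟨RR, hRR⟩ : ∃ RR : Fin 3 → Fin 4 → Finset Om, RR = fun l =>
    ![rws fr a (S l ∪ D) (lin b i) ∪ rws fr a (S l ∪ D) (lin b j),
      rws fr a (S l ∪ D) (lin b' i') ∪ rws fr a (S l ∪ D) (lin b' j'),
      rws fr a' (S l ∪ D) (lin b i) ∪ rws fr a' (S l ∪ D) (lin b j),
      rws fr a' (S l ∪ D) (lin b' i') ∪ rws fr a' (S l ∪ D) (lin b' j')] := ⟨_, rfl⟩
  obtain ⟨R₀, hR₀⟩ : ∃ R₀ : Fin 4 → Finset Om, R₀ =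
    ![fr.U a ∪ fr.U b, fr.U a ∪ fr.U b', fr.U a' ∪ fr.U b, fr.U a' ∪ fr.U b'] := ⟨_, rfl⟩
  have hRR0 : ∀ k l l', l ≠ l' → RR l k ∩ RR l' k ⊆ R₀ k := by
    intro k l l' hll
    rw [hRR, hR₀]
    fin_cases k
    · exact rws_inter fr a b (hTT l l' hll) hc1
    · exact rws_inter fr a b' (hTT l l' hll) hc2
    · exact rws_inter fr a' b (hTT l l' hll) hc1
    · exact rws_inter fr a' b' (hTT l l' hll) hc2
  have hsl : ∀ (l : Fin 3) {R R' : Finset Om} {z : Co E P Om → F}, R ⊆ R' →
      z ∈ linsp p (S l ∪ D) ⊔ rowsp R → z ∈ linsp p (S l ∪ D) ⊔ rowsp R' := fun l _ _ _ hR hz =>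
    slot_mono subset_rfl hR hz
  have hE12 : ∀ l, GA fr p h a a' (S l ∪ Fix ∪ {lin b q, lin b' q'} ∪ {lin b i, lin b' i'}) ⊔
      GA fr p h a a' (S l ∪ Fix ∪ {lin b q, lin b' q'} ∪ {lin b j, lin b' j'})
      = GA fr p h a a' (S l ∪ Fix ∪ {lin b q, lin b' q'} ∪ {lin b i, lin b' i'} ∪
        {lin b j, lin b' j'}) := by
    intro l
    rw [GA_sup]
    congr 1
    ext u
    simp only [Finset.mem_union]
    tauto
  have hE12' : ∀ l, S l ∪ Fix ∪ {lin b q, lin b' q'} ∪ {lin b i, lin b' i'} ∪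
        {lin b j, lin b' j'} = S l ∪ Fix ∪ Be := by
    intro l
    have e1 := lins_three b hij hiq hjq
    have e2 := lins_three b' hij' hiq' hjq'
    rw [hBe]
    unfold lins2
    rw [e1, e2]
    ext u
    simp only [Finset.mem_union, Finset.mem_insert, Finset.mem_singleton]
    tauto
  refine main (Co E P Om) (Ty N d) (dsg fr p h) a a' b b' ι ι' Λ M w hw
    ![p (lin b i), p (lin b j), p (lin b q)] ![p (lin b' i'), p (lin b' j'), p (lin b' q')]
    (gv_three p b hij hiq hjq) (gv_three p b' hij' hiq' hjq')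
    (fun l => GA fr p h a a' (S l ∪ Fix ∪ {lin b q, lin b' q'}))
    (fun l => GA fr p h a a' (S l ∪ Fix ∪ {lin b q, lin b' q'} ∪ {lin b i, lin b' i'}))
    (fun l => GA fr p h a a' (S l ∪ Fix ∪ {lin b q, lin b' q'} ∪ {lin b j, lin b' j'}))
    (fun l => N2_le_GA fr p h a a' _)
    (fun l => GA_mono fr p h a a' Finset.subset_union_left)
    (fun l => GA_mono fr p h a a' Finset.subset_union_left)
    (fun l z => Gp_le_GA fr p h a a' Finset.subset_union_right (tm_mem_Gp p _ _ z))
    (fun l z => Gp_le_GA fr p h a a' Finset.subset_union_right (tm_mem_Gp p _ _ z))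
    (fun l z => Gp_le_GA fr p h a a' Finset.subset_union_right (tm_mem_Gp p _ _ z))
    (fun l k => linsp p (S l ∪ D) ⊔ rowsp (RR l k)) ?_ ?_ ?_ ?_
    (linsp p D) (fun k => rowsp (R₀ k)) ?_ ?_ ?_
    (GA fr p h a a' Fix) (GA fr p h a a' (Fix ∪ Be)) (N2_le_GA fr p h a a' _)
    (GA_mono fr p h a a' Finset.subset_union_left) ?_ hD0 ?_
  · intro l z hz
    obtain ⟨⟨h0, h1⟩, h2, h3⟩ := hrep i j i' j' hij hiq hij' hiq' l z hz
    intro k
    rw [hRR]
    fin_cases k
    · exact hsl l Finset.subset_union_left h0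
    · exact hsl l Finset.subset_union_left h1
    · exact hsl l Finset.subset_union_left h2
    · exact hsl l Finset.subset_union_left h3
  · intro l z hz
    obtain ⟨⟨h0, h1⟩, h2, h3⟩ := hrep j i j' i' hij.symm hjq hij'.symm hjq' l z hz
    intro k
    rw [hRR]
    fin_cases k
    · exact hsl l Finset.subset_union_right h0
    · exact hsl l Finset.subset_union_right h1
    · exact hsl l Finset.subset_union_right h2
    · exact hsl l Finset.subset_union_right h3
  · intro l
    rw [hE12, hE12']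
    have h1 := hSlam l
    have h2 : Lat.D hw.prob Xf (GA fr p h a a' (S l ∪ Fix)) ≤
        Lat.D hw.prob Xf (GA fr p h a a' (S l ∪ Fix ∪ {lin b q, lin b' q'})) :=
      Lat.D_mono _ _ (GA_mono fr p h a a' Finset.subset_union_left)
    unfold PLaw.dA PLaw.Dd at h1
    unfold PLaw.Dd
    linarith
  · intro l
    rw [hE12]
    exact hSmi l
  · intro k
    exact slot_three (p := p) (S := S) (D₀ := D) (R := fun l => RR l k) (R₀ := R₀ k) hSS h3i
      (fun l l' hll => hRR0 k l l' hll)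
  · intro z hz
    have h0 := hz 0
    have h1 := hz 1
    have h2 := hz 2
    have h3 := hz 3
    rw [hR₀] at h0 h1 h2 h3
    exact ⟨Submodule.smul_mem _ _ (Submodule.add_mem _ (row_triv fr p h a b h0)
      (row_triv fr p h a b' h1)), Submodule.smul_mem _ _ (Submodule.add_mem _
      (row_triv fr p h a' b h2) (row_triv fr p h a' b' h3))⟩
  · have h1 := finrank_linsp_le p D
    omega
  · intro z
    exact tm_gv_mem fr p h a a' b b' (by rw [← hBe]; exact Finset.subset_union_right) z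
  · intro z hz
    obtain ⟨g1, g2⟩ := (mem_GA fr p h a a' _ _).1 hz
    have hFD : Fix ⊆ D := by rw [hD]; exact Finset.subset_union_left
    have haF : lins a ⊆ Fix := by rw [hFix]; exact Finset.subset_union_left
    have haF' : lins a' ⊆ Fix := by rw [hFix]; exact Finset.subset_union_right
    have hlb : lins b ⊆ D := by
      rw [hD, hBe]; exact Finset.subset_union_left.trans Finset.subset_union_right
    have hlb' : lins b' ⊆ D := by
      rw [hD, hBe]; exact Finset.subset_union_right.trans Finset.subset_union_right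
    obtain ⟨r0, r1⟩ := typ_rep fr p h a b b' hFD haF hDi hDRi hlb hlb' (lin_mem b i)
      (lin_mem b' i') (hbb' i hiq) (hb'b i' hiq') (hbF i) (hbF' i') _ _ g1
    obtain ⟨r2, r3⟩ := typ_rep fr p h a' b b' hFD haF' hDi hDRi hlb hlb' (lin_mem b i)
      (lin_mem b' i') (hbb' i hiq) (hb'b i' hiq') (hbF i) (hbF' i') _ _ g2
    intro k
    rw [hR₀]
    fin_cases k
    · exact slot_mono subset_rfl (rws_D fr a b (hcr i hiq)) r0
    · exact slot_mono subset_rfl (rws_D fr a b' (hcr' i' hiq')) r1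
    · exact slot_mono subset_rfl (rws_D fr a' b (hcr i hiq)) r2
    · exact slot_mono subset_rfl (rws_D fr a' b' (hcr' i' hiq')) r3

end TVF

/-- The TV theorem for one good pair of types (statement in `TVIface`). -/
theorem tvLoc : TvLoc := fun ψ hψ _ _ hε hlam => TVF.tvLoc_core ψ hψ hε hlam

end Vale.Agent.P060.HW
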