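import Vale.Agent.P060.HW.TVIface
import Vale.Agent.P060.HW.TVBudget
import Vale.Agent.P060.HW.GaaGA
import Vale.Agent.P060.HW.GenX
import Vale.Agent.P060.HW.Ex1

/-!
# P060/HW: the theorem `tvK2 : TvK2`
-/

open scoped Classical

noncomputable section

set_option linter.unusedSectionVars false

namespace Vale.Agent.P060.HW

open Module

namespace K2F

section General

variable {K T : Type} [Fintype K] {δ : Design K T} {a a' : T} {ι ι' : Bool} {Λ M : ℝ}
  {w : Matrix K K F → Matrix K K F → ℝ}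

/-- The deficit of a pair law is an entropy deficit on a lattice of subspaces. -/
lemma exists_rep (hw : PLaw δ a a' ι ι' Λ M w) :
    ∃ (Ω : Type) (_ : Fintype Ω) (Pr : FinProb Ω) (X : Ω → Dual F (MM K)),
      ∀ G, hw.Dd G = Lat.D Pr X G :=
  ⟨Fms δ a a' ι ι', inferInstance, hw.prob, Xf, fun _ => rfl⟩

lemma Dd_budget (hw : PLaw δ a a' ι ι' Λ M w) :
    hw.Dd (SS K) - hw.Dd (δ.N2 a a') ≤ Real.log Λ := tv_budget hw

lemma smB_isSymm (u v : K → F) : (smB u v).IsSymm := by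
  rw [smB_apply]
  unfold sm
  ext i j
  simp only [Matrix.transpose_apply, Matrix.add_apply, Matrix.vecMulVec_apply]
  ring

lemma Gl_le_Sy {L : Type*} [DecidableEq L] (p : L → K → F) (S : Finset L) : Gl p S ≤ Sy K := by
  unfold Gl
  refine Finset.sup_le fun u _ => ?_
  rintro _ ⟨z, rfl⟩
  exact smB_isSymm z (p u)

lemma Gp_le_SS {L : Type*} [DecidableEq L] (p : L → K → F) (S : Finset L) : Gp p S ≤ SS K :=
  Submodule.prod_mono (Gl_le_Sy p S) (Gl_le_Sy p S)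

end General

variable {N d : ℕ} {E P Om : Type} [Fintype E] [Fintype P] [Fintype Om] [NeZero N]

lemma Sizes.mono' {fr : Frame N d E Om} {D₀ : ℕ} {θ θ' C : ℝ} (hs : Sizes fr P D₀ θ C)
    (h : θ ≤ θ') : Sizes fr P D₀ θ' C where
  hN := hs.hN
  hN' := hs.hN'
  hd := hs.hd
  hOm := hs.hOm.trans (mul_le_mul_of_nonneg_right h (Nat.cast_nonneg _))
  hA := fun w => (hs.hA w).trans (mul_le_mul_of_nonneg_right h (Nat.cast_nonneg _))
  hq := hs.hq
  hγ := hs.hγ

lemma card_rowLines_le (fr : Frame N d E Om) (w : Om) :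
    (rowLines fr w).card ≤ 3 * (Finset.univ.filter fun c : Ty N d => w ∈ fr.U c).card := by
  unfold rowLines
  refine Finset.card_biUnion_le.trans ?_
  refine (Finset.sum_le_sum fun c _ => card_lins_le c).trans ?_
  rw [Finset.sum_const, smul_eq_mul, mul_comm]

lemma rare_union {X : Type*} [Finite X] {A B : Set X} (hA : Rare A) (hB : Rare B) :
    40 * Nat.card (A ∪ B : Set X) ≤ Nat.card X := by
  unfold Rare at hA hB
  have h1 : Nat.card (A ∪ B : Set X) ≤ Nat.card A + Nat.card B := by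
    rw [Nat.card_coe_set_eq, Nat.card_coe_set_eq, Nat.card_coe_set_eq]
    exact Set.ncard_union_le A B
  omega

lemma num1 {C k M' g : ℝ} (hk : 0 < k) (hg : 0 < g) (h2 : k ≤ 72 * M') :
    2 * (C * k * g) < M' * (144 * (|C| + 1) * g) := by
  have h3 : C ≤ |C| := le_abs_self C
  have h4 : (0 : ℝ) ≤ |C| := abs_nonneg C
  have h5 : k * (2 * (|C| + 1) * g) ≤ 72 * M' * (2 * (|C| + 1) * g) :=
    mul_le_mul_of_nonneg_right h2 (by positivity)
  have h6 : C * k * g ≤ |C| * k * g :=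
    mul_le_mul_of_nonneg_right (mul_le_mul_of_nonneg_right h3 hk.le) hg.le
  have h7 : 0 < k * g := by positivity
  nlinarith

lemma num2 {k M' o x θ : ℝ} (hk : 0 < k) (ho : 0 ≤ o) (e1 : 36 * M' ≤ k) (e2 : o ≤ θ * k)
    (e4 : 72 * (x + 1) ≤ k) (hx : 0 ≤ x) (hθ2 : θ * (72 * (x + 1)) ≤ 1) :
    M' + (o + 1) * x ≤ k / 18 := by
  have e5 : o * x ≤ θ * k * (x + 1) :=
    mul_le_mul e2 (by linarith) hx (ho.trans e2)
  have e6 : θ * k * (x + 1) * 72 ≤ k := by
    calc θ * k * (x + 1) * 72 = k * (θ * (72 * (x + 1))) := by ring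
      _ ≤ k * 1 := mul_le_mul_of_nonneg_left hθ2 hk.le
      _ = k := mul_one _
  nlinarith

lemma num3 {k m D₀ ε n : ℝ} (hk : 0 < k) (h2 : m ≤ k / 18) (hD0 : 0 < D₀) (hD : 6 ≤ D₀ * ε)
    (hn : D₀ * k ≤ n) : m * (96 / n) ≤ ε := by
  have hnpos : 0 < n := lt_of_lt_of_le (by positivity) hn
  rw [mul_div_assoc', div_le_iff₀ hnpos]
  have hε : 0 < ε := by
    by_contra hcon
    push Not at hcon
    nlinarith
  calc m * 96 ≤ k / 18 * 96 := mul_le_mul_of_nonneg_right h2 (by norm_num)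
    _ ≤ 6 * k := by linarith
    _ ≤ D₀ * ε * k := mul_le_mul_of_nonneg_right hD hk.le
    _ = ε * (D₀ * k) := by ring
    _ ≤ ε * n := mul_le_mul_of_nonneg_left hn hε.le

/-- **K2 for one past.** -/
theorem k2At {fr : Frame N d E Om} {p : Lin N → Co E P Om → F} {h : Ext fr p} {a a' : Ty N d}
    {ι ι' : Bool} {C M₁ ε : ℝ} {w : WL E P Om} {D₀ x0 : ℕ}
    (hw : PLaw (dsg fr p h) a a' ι ι' (2521 ^ (C * Fintype.card P)) M₁ w)
    (hX : EvX d p x0) (h1 : ∀ κ : ℕ, κ ≤ 20 * Fintype.card P / (D₀ + 20) ^ 2 → Ev1 p κ)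
    {θ : ℝ} (hs : Sizes fr P D₀ θ 0) (hθ1 : θ * (D₀ + 20) ^ 2 ≤ 1) (hθ2 : θ * (72 * (x0 + 1)) ≤ 1)
    (hk1 : (D₀ + 20) ^ 2 ≤ Fintype.card P) (hk2 : 72 * (x0 + 1) ≤ Fintype.card P)
    (hD : 6 ≤ D₀ * ε) (hD0 : 0 < D₀)
    {ρ : Ty N d × Ty N d → ℝ} (hρ : TCoup 8 ρ) {A : Finset (Lin N)} (hA : Small P D₀ A) :
    K2At hw (144 * (|C| + 1) * Real.log 2521) ε ρ A := by
  obtain ⟨Ω, _, Pr, X, hrep⟩ := exists_rep hw
  set k := Fintype.card P with hk
  set A' := A ∪ lins2 (a, a') with hA'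
  have hn : 400 ≤ (D₀ + 20) ^ 2 := by nlinarith
  have hk400 : 400 ≤ k := hn.trans hk1
  have hAc : A.card * (D₀ + 20) ^ 2 ≤ k := hA
  have hA400 : A.card * 400 ≤ k := (Nat.mul_le_mul_left _ hn).trans hAc
  have hA'c : A'.card ≤ A.card + 6 :=
    (Finset.card_union_le _ _).trans (Nat.add_le_add_left (card_lins2_le _) _)
  have hlog : 0 < Real.log 2521 := Real.log_pos (by norm_num)
  have hkpos : (0 : ℝ) < k := by exact_mod_cast (by omega : 0 < k)
  have hrow : ∀ w, (rowLines fr w).card * (D₀ + 20) ^ 2 ≤ 3 * k := by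
    intro w
    have h2 : ((rowLines fr w).card : ℝ) ≤ 3 * (θ * k) := by
      have h3 : ((rowLines fr w).card : ℝ)
          ≤ 3 * ((Finset.univ.filter fun c : Ty N d => w ∈ fr.U c).card : ℝ) := by
        exact_mod_cast card_rowLines_le fr w
      have h4 := hs.hA w
      linarith
    have h5 : ((rowLines fr w).card : ℝ) * (D₀ + 20) ^ 2 ≤ 3 * k := by
      calc ((rowLines fr w).card : ℝ) * (D₀ + 20) ^ 2 ≤ 3 * (θ * k) * (D₀ + 20) ^ 2 :=
            mul_le_mul_of_nonneg_right h2 (by positivity)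
        _ = 3 * k * (θ * (D₀ + 20) ^ 2) := by ring
        _ ≤ 3 * k * 1 := mul_le_mul_of_nonneg_left hθ1 (by positivity)
        _ = 3 * k := mul_one _
    exact_mod_cast h5
  have hrow400 : ∀ w, (rowLines fr w).card * 400 ≤ 3 * k :=
    fun w => (Nat.mul_le_mul_left _ hn).trans (hrow w)
  have hLI : ∀ S : Finset (Lin N), S.card * (D₀ + 20) ^ 2 ≤ 20 * k → LI p S := by
    intro S hS
    have h2 : S.card ≤ 20 * k / (D₀ + 20) ^ 2 := (Nat.le_div_iff_mul_le (by positivity)).2 hS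
    exact h1 _ le_rfl S h2
  set M' := k / 36 with hM'
  set M := M' + (Fintype.card Om + 1) * x0 with hM
  have hM'c : 36 * M' ≤ k := Nat.mul_div_le k 36
  have hM'l : k ≤ 72 * M' := by omega
  set 𝒦 : ℝ := C * k * Real.log 2521 with h𝒦
  have hT0 : ∀ S : Finset (Lin N), Gaa fr p h a a' S ≤ SS (Co E P Om) := by
    intro S
    rw [Gaa_eq_GA]
    exact sup_le (Gp_le_SS p S) (N2_le_SS _ _ _)
  have hK : Lat.D Pr X (SS (Co E P Om)) - Lat.D Pr X (Gaa fr p h a a' ∅) ≤ 𝒦 := by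
    rw [Gaa_eq_GA, GA_empty, ← hrep, ← hrep]
    refine (Dd_budget hw).trans (le_of_eq ?_)
    rw [Real.log_rpow (by norm_num), h𝒦]
  have hlam : 2 * 𝒦 < M' * (144 * (|C| + 1) * Real.log 2521) := by
    have h2 : (k : ℝ) ≤ 72 * M' := by exact_mod_cast hM'l
    exact num1 hkpos hlog h2
  have key := K2_frame fr p h a a' (x0 := x0) (M := M) (M' := M') hX A'
    (fun u hu => Finset.mem_union_right _ (Finset.mem_union_left _ hu))
    (fun u hu => Finset.mem_union_right _ (Finset.mem_union_right _ hu))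
    (hLI A' (by
      calc A'.card * (D₀ + 20) ^ 2 ≤ (A.card + 6) * (D₀ + 20) ^ 2 := Nat.mul_le_mul_right _ hA'c
        _ = A.card * (D₀ + 20) ^ 2 + 6 * (D₀ + 20) ^ 2 := by ring
        _ ≤ k + 6 * k := Nat.add_le_add hAc (Nat.mul_le_mul_left _ hk1)
        _ ≤ 20 * k := by omega))
    (fun w => hLI _ (by
      calc (A' ∪ rowLines fr w).card * (D₀ + 20) ^ 2
          ≤ (A.card + 6 + (rowLines fr w).card) * (D₀ + 20) ^ 2 :=
            Nat.mul_le_mul_right _ ((Finset.card_union_le _ _).trans (Nat.add_le_add_right hA'c _))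
        _ = A.card * (D₀ + 20) ^ 2 + 6 * (D₀ + 20) ^ 2
            + (rowLines fr w).card * (D₀ + 20) ^ 2 := by ring
        _ ≤ k + 6 * k + 3 * k :=
            Nat.add_le_add (Nat.add_le_add hAc (Nat.mul_le_mul_left _ hk1)) (hrow w)
        _ ≤ 20 * k := by omega))
    (by omega) (fun w => by have := hrow400 w; omega) le_rfl Pr X (SS (Co E P Om)) hT0 hK hlam hρ
  have hMN : (M : ℝ) * (96 / N) ≤ ε := by
    have hN : (D₀ : ℝ) * k ≤ N := by exact_mod_cast hs.hN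
    have hD0' : (0 : ℝ) < D₀ := by exact_mod_cast hD0
    have e3 : (M : ℝ) = M' + (Fintype.card Om + 1) * x0 := by rw [hM]; push_cast; rfl
    have e1 : (36 : ℝ) * M' ≤ k := by exact_mod_cast hM'c
    have e4 : (72 : ℝ) * (x0 + 1) ≤ k := by exact_mod_cast hk2
    exact num3 hkpos (e3.trans_le (num2 hkpos (Nat.cast_nonneg _) e1 hs.hOm e4 (Nat.cast_nonneg _) hθ2))
      hD0' hD hN
  unfold K2At PLaw.dA
  refine le_trans (le_of_eq ?_) (key.trans hMN)
  refine Finset.sum_congr rfl fun β _ => ?_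
  rw [hrep, hrep, Gaa_eq_GA, Gaa_eq_GA]

end K2F

/-- **TvK2.** -/
theorem tvK2 : TvK2 := by
  intro C ε hε
  refine ⟨144 * (|C| + 1) * Real.log 2521, ?_, ⌈6 / ε⌉₊ + 1, ?_⟩
  · have : 0 < Real.log 2521 := Real.log_pos (by norm_num)
    positivity
  intro D₀ hD₀ d E _
  obtain ⟨x0, hx0⟩ := exX D₀
  obtain ⟨θ1, hθ1, k1, hX⟩ := hx0 d E
  obtain ⟨θ2, hθ2, k2, h1⟩ := ex1 D₀ d E
  refine ⟨min (min θ1 θ2) (min (1 / ((D₀ : ℝ) + 20) ^ 2) (1 / (72 * ((x0 : ℝ) + 1)))), by positivity,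
    max (max k1 k2) (max ((D₀ + 20) ^ 2) (72 * (x0 + 1))), ?_⟩
  intro N P Om _ _ _ fr hk hs
  have hsX := hX N P Om fr (le_trans (le_trans (le_max_left _ _) (le_max_left _ _)) hk)
    (K2F.Sizes.mono' hs ((min_le_left _ _).trans (min_le_left _ _)))
  have hs1 := h1 N P Om fr (le_trans (le_trans (le_max_right _ _) (le_max_left _ _)) hk)
    (K2F.Sizes.mono' hs ((min_le_left _ _).trans (min_le_right _ _)))
  refine ⟨{p : Dz fr P | EvX d p.1 x0 ∧
    ∀ κ : ℕ, κ ≤ 20 * Fintype.card P / (D₀ + 20) ^ 2 → Ev1 p.1 κ}, ?_, ?_⟩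
  · refine le_trans (Nat.mul_le_mul_left _ ?_) (K2F.rare_union hsX hs1)
    rw [Nat.card_coe_set_eq, Nat.card_coe_set_eq]
    refine Set.ncard_le_ncard ?_ (Set.toFinite _)
    intro p hp
    rw [Set.mem_compl_iff, Set.mem_ofPred_eq, not_and_or] at hp
    exact hp
  · intro p hp a a' ι ι' _ M w hw ρ hρ A hA _
    have hn : (0 : ℝ) < ((D₀ : ℝ) + 20) ^ 2 := by positivity
    refine K2F.k2At hw hp.1 hp.2 hs ?_ ?_
      (le_trans (le_trans (le_max_left _ _) (le_max_right _ _)) hk)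
      (le_trans (le_trans (le_max_right _ _) (le_max_right _ _)) hk) ?_ (by omega) hρ hA
    · calc _ ≤ (1 / ((D₀ : ℝ) + 20) ^ 2) * ((D₀ : ℝ) + 20) ^ 2 :=
            mul_le_mul_of_nonneg_right ((min_le_right _ _).trans (min_le_left _ _)) hn.le
        _ = 1 := by field_simp
    · have hx : (0 : ℝ) < 72 * ((x0 : ℝ) + 1) := by positivity
      calc _ ≤ (1 / (72 * ((x0 : ℝ) + 1))) * (72 * ((x0 : ℝ) + 1)) :=
            mul_le_mul_of_nonneg_right ((min_le_right _ _).trans (min_le_right _ _)) hx.le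
        _ = 1 := by field_simp
    · have h2 : 6 / ε ≤ ⌈6 / ε⌉₊ := Nat.le_ceil _
      have h3 : ((⌈6 / ε⌉₊ + 1 : ℕ) : ℝ) ≤ D₀ := by exact_mod_cast hD₀
      push_cast at h3
      rw [div_le_iff₀ hε] at h2
      nlinarith

end Vale.Agent.P060.HW
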