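import Vale.Agent.P060.HW.TVPasts
import Vale.Agent.P060.HW.TVBudget
import Vale.Agent.P060.HW.GaaGA
import Vale.Agent.P060.HW.TVIface

/-!
# P060/HW: TvSel, the selection of the alignment and of the pasts
-/

open scoped Classical

noncomputable section

set_option linter.unusedSectionVars false

namespace Vale.Agent.P060.HW

open Module

namespace TvS

section General

variable {K T : Type} [Fintype K]

lemma supMod_law {δ : Design K T} {a a' : T} {ι ι' : Bool} {Λ M : ℝ}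
    {w : Matrix K K F → Matrix K K F → ℝ} (hw : PLaw δ a a' ι ι' Λ M w) :
    TV2.SupMod hw.Dd where
  mono := fun h => Lat.D_mono hw.prob Xf h
  sm := fun x y => Lat.D_supermodular hw.prob Xf x y

lemma law_budget {δ : Design K T} {a a' : T} {ι ι' : Bool} {Λ M : ℝ}
    {w : Matrix K K F → Matrix K K F → ℝ} (hw : PLaw δ a a' ι ι' Λ M w)
    (G : Submodule F (MM K)) (hG : G ≤ SS K) : hw.Dd G - hw.Dd (δ.N2 a a') ≤ Real.log Λ := by
  unfold PLaw.Dd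
  exact tv_budget_le hw G hG

lemma Gl_le_Sy {L : Type*} [DecidableEq L] (p : L → K → F) (S : Finset L) : Gl p S ≤ Sy K := by
  unfold Gl
  refine Finset.sup_le fun u _ => ?_
  rintro _ ⟨z, rfl⟩
  change (sm z (p u)).IsSymm
  ext i j
  rw [Matrix.transpose_apply]
  simp only [sm, Matrix.add_apply, Matrix.vecMulVec_apply]
  ring

lemma Gp_le_SS {L : Type*} [DecidableEq L] (p : L → K → F) (S : Finset L) : Gp p S ≤ SS K :=
  Submodule.prod_mono (Gl_le_Sy p S) (Gl_le_Sy p S)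

end General

variable {N d : ℕ} {E P Om : Type} [Fintype E] [Fintype P] [Fintype Om] [NeZero N]

section Conv

variable {fr : Frame N d E Om} {p : Lin N → Co E P Om → F} {h : Ext fr p} {a a' : Ty N d}
    {ι ι' : Bool} {Λ M : ℝ} {w : WL E P Om} (hw : PLaw (dsg fr p h) a a' ι ι' Λ M w)

lemma DG_eq (S : Finset (Lin N)) : TVP.DG fr p h a a' hw.Dd S = hw.dA S := by
  unfold TVP.DG PLaw.dA
  rw [Gaa_eq_GA]

lemma DG_budget (S : Finset (Lin N)) :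
    TVP.DG fr p h a a' hw.Dd S - TVP.DG fr p h a a' hw.Dd ∅ ≤ Real.log Λ := by
  rw [DG_eq, DG_eq]
  unfold PLaw.dA
  rw [GA_empty]
  refine law_budget hw _ ?_
  unfold GA
  exact sup_le (Gp_le_SS p S) (N2_le_SS _ a a')

lemma Fx_eq : TVP.Fx a a' = lins2 (a, a') := rfl

lemma goodB_conv {D₀ m : ℕ} (hm : 2 * m * (D₀ + 20) ^ 2 ≤ Fintype.card P) {lam d₀ : ℝ}
    {β : Ty N d × Ty N d} (hne : β.1 ≠ β.2) (hg : TVP.GoodB fr p h a a' hw.Dd m lam d₀ β) :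
    GoodB hw D₀ lam d₀ β := by
  obtain ⟨h1, h2, h3, i, j, q, i', j', q', hij, hiq, hjq, hij', hiq', hjq', hsh, S, s1, s2, s3, s4,
    s5⟩ := hg
  rw [Fx_eq] at h1 h2 h3
  rw [DG_eq, DG_eq] at h3
  refine ⟨hne, h1, h2, h3, i, j, q, i', j', q', hij, hiq, hjq, hij', hiq', hjq', hsh, S, ?_, s2, ?_,
    ?_, ?_⟩
  · intro l
    unfold Small
    exact (Nat.mul_le_mul_right _ (s1 l)).trans hm
  · intro l
    have := s3 l
    rwa [Fx_eq] at this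
  · intro l
    have := s4 l
    rwa [Fx_eq, DG_eq, DG_eq] at this
  · intro l
    have := s5 l
    rw [Fx_eq, DG_eq, DG_eq, DG_eq, Gaa_eq_GA, Gaa_eq_GA] at this
    exact this

lemma K2_conv {D₀ m : ℕ} (hm : 2 * m * (D₀ + 20) ^ 2 ≤ Fintype.card P) {lam ε₁ : ℝ}
    {ρ : Ty N d × Ty N d → ℝ}
    (hK : ∀ A : Finset (Lin N), Small P D₀ A → Disjoint A (lins2 (a, a')) → K2At hw lam ε₁ ρ A)
    (A : Finset (Lin N)) (hA : A.card ≤ 2 * m) (hAF : Disjoint A (TVP.Fx a a')) :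
      ∑ β, (if Disjoint (lins2 β) (A ∪ TVP.Fx a a') ∧
        lam < TVP.DG fr p h a a' hw.Dd (A ∪ TVP.Fx a a' ∪ lins2 β) -
          TVP.DG fr p h a a' hw.Dd (A ∪ TVP.Fx a a') then ρ β else 0) ≤ ε₁ := by
  have h1 := hK A ((Nat.mul_le_mul_right _ hA).trans hm) hAF
  unfold K2At at h1
  simp_rw [DG_eq, Fx_eq]
  exact h1

end Conv

lemma card_rowLines (fr : Frame N d E Om) (w : Om) :
    (rowLines fr w).card ≤ 3 * (Finset.univ.filter fun c : Ty N d => w ∈ fr.U c).card := by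
  unfold rowLines
  refine Finset.card_biUnion_le.trans ?_
  calc _ ≤ ∑ _c ∈ Finset.univ.filter (fun c : Ty N d => w ∈ fr.U c), 3 :=
        Finset.sum_le_sum fun c _ => TVP.card_lins c
    _ = _ := by rw [Finset.sum_const, smul_eq_mul, mul_comm]

lemma num1 {Q k : ℕ} (hQ1 : 441 ≤ Q) (hk16 : 16 * Q ≤ k) :
    ∃ m : ℕ, 4 ≤ m ∧ k ≤ 8 * Q * m ∧ 2 * m * Q ≤ k ∧
      (∀ r : ℕ, r * Q ≤ k → 6 * m + 6 + r ≤ 20 * k / Q) ∧ 6 * m + 6 ≤ 20 * k / Q ∧ 144 * m ≤ k := by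
  obtain ⟨m, hm⟩ : ∃ m : ℕ, m = k / (4 * Q) := ⟨_, rfl⟩
  have hQ4 : 0 < 4 * Q := by omega
  have hm4 : 4 ≤ m := by
    rw [hm, Nat.le_div_iff_mul_le hQ4]
    omega
  have hmk : m * (4 * Q) ≤ k := hm ▸ Nat.div_mul_le_self _ _
  have hkm : k < (m + 1) * (4 * Q) := by
    have := Nat.lt_div_mul_add (a := k) hQ4
    rw [hm]
    linarith
  have hkm2 : k ≤ 8 * Q * m := by
    have : (m + 1) * (4 * Q) ≤ 8 * Q * m := by nlinarith
    omega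
  have hkap : ∀ r : ℕ, r * Q ≤ k → 6 * m + 6 + r ≤ 20 * k / Q := by
    intro r hr
    rw [Nat.le_div_iff_mul_le (by omega)]
    nlinarith
  refine ⟨m, hm4, hkm2, by nlinarith, hkap, ?_, by nlinarith⟩
  have := hkap 0 (by omega)
  omega

lemma num2 {Q D₀ N k m : ℕ} (_hQ : 0 < Q) (hm : 0 < m) (hkm : k ≤ 8 * Q * m)
    (hN : N ≤ 2 * D₀ * k) : (3 * N : ℝ) / m ≤ 48 * D₀ * Q := by
  have hmr : (0 : ℝ) < m := by exact_mod_cast hm
  rw [div_le_iff₀ hmr]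
  have h1 : 3 * N ≤ 48 * D₀ * Q * m := by
    have : 2 * D₀ * k ≤ 2 * D₀ * (8 * Q * m) := Nat.mul_le_mul_left _ hkm
    nlinarith
  exact_mod_cast h1

lemma num3 {x R θs d₀ : ℝ} (hx : 0 ≤ x) (hxR : x ≤ R) (hθ : 0 < θs) (e2 : 48 * R ^ 4 * θs = d₀) :
    48 * x ^ 4 * θs ≤ d₀ := by
  have e1 : x ^ 4 ≤ R ^ 4 := pow_le_pow_left₀ hx hxR 4
  calc 48 * x ^ 4 * θs ≤ 48 * R ^ 4 * θs :=
        mul_le_mul_of_nonneg_right (mul_le_mul_of_nonneg_left e1 (by norm_num)) hθ.le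
    _ = d₀ := e2

lemma num4 {Q D₀ N k m : ℕ} {C L θs s₀ : ℝ} (hL : 0 ≤ L) (hθ : 0 < θs)
    (hs₀ : s₀ = 450 * D₀ * |C| * L * 64 * Q ^ 2 / θs) (hkm : k ≤ 8 * Q * m)
    (hN : N ≤ 2 * D₀ * k) : 225 * N * (|C| * k * L) ≤ s₀ * ((m : ℝ) ^ 2 * θs) := by
  have hkmr : (k : ℝ) ≤ 8 * Q * m := by exact_mod_cast hkm
  have hNr : (N : ℝ) ≤ 2 * D₀ * k := by exact_mod_cast hN
  have e1 : s₀ * ((m : ℝ) ^ 2 * θs) = 450 * D₀ * |C| * L * (8 * Q * m) ^ 2 := by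
    rw [hs₀]
    field_simp
    ring
  rw [e1]
  have e2 : (k : ℝ) ^ 2 ≤ (8 * Q * m) ^ 2 := pow_le_pow_left₀ (Nat.cast_nonneg _) hkmr 2
  have e3 : 225 * N * (|C| * k * L) ≤ 225 * (2 * D₀ * k) * (|C| * k * L) :=
    mul_le_mul_of_nonneg_right (mul_le_mul_of_nonneg_left hNr (by norm_num)) (by positivity)
  have e4 : 225 * (2 * D₀ * k) * (|C| * k * L) = 450 * D₀ * |C| * L * (k : ℝ) ^ 2 := by ring
  have e5 : 450 * D₀ * |C| * L * (k : ℝ) ^ 2 ≤ 450 * D₀ * |C| * L * (8 * Q * m) ^ 2 :=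
    mul_le_mul_of_nonneg_left e2 (by positivity)
  linarith

lemma num5 {r c k Q : ℕ} (hQ : 0 < Q) (h1 : r ≤ 3 * c) (h2 : (c : ℝ) ≤ 1 / (3 * Q) * k) :
    r * Q ≤ k := by
  have hQr : (0 : ℝ) < Q := by exact_mod_cast hQ
  have r3 : (r : ℝ) ≤ 3 * (c : ℝ) := by exact_mod_cast h1
  have r4 : (r : ℝ) * Q ≤ k := by
    have r5 : (r : ℝ) ≤ 3 * (1 / (3 * Q) * k) := by
      refine r3.trans ?_
      linarith
    have r6 : 3 * (1 / (3 * (Q : ℝ)) * k) * Q = k := by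
      field_simp
    calc (r : ℝ) * Q ≤ 3 * (1 / (3 * Q) * k) * Q := mul_le_mul_of_nonneg_right r5 hQr.le
      _ = k := r6
  exact_mod_cast r4

lemma num6 {d N k Q : ℕ} {ε : ℝ} (hε : 0 < ε) (hk : 16 * Q + ⌈1152 * (d : ℝ) / ε⌉₊ + 3 ≤ k)
    (hN : k ≤ N) : 288 * (d : ℝ) / N ≤ ε / 4 := by
  have hN0 : (0 : ℝ) < N := by exact_mod_cast (by omega : 0 < N)
  rw [div_le_iff₀ hN0]
  have e1 : 1152 * (d : ℝ) / ε ≤ N := by
    refine (Nat.le_ceil _).trans ?_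
    exact_mod_cast (by omega : ⌈1152 * (d : ℝ) / ε⌉₊ ≤ N)
  rw [div_le_iff₀ hε] at e1
  linarith

lemma log_conv (C : ℝ) (k : ℕ) :
    Real.log ((2521 : ℝ) ^ (C * (k : ℝ))) ≤ |C| * k * Real.log 2521 := by
  rw [Real.log_rpow (by norm_num)]
  refine mul_le_mul_of_nonneg_right ?_ (Real.log_nonneg (by norm_num))
  exact mul_le_mul_of_nonneg_right (le_abs_self C) (Nat.cast_nonneg _)

section Fin

variable {fr : Frame N d E Om} {p : Lin N → Co E P Om → F} {h : Ext fr p} {a a' : Ty N d}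
    {ι ι' : Bool} {Λ M : ℝ} {w : WL E P Om} (hw : PLaw (dsg fr p h) a a' ι ι' Λ M w)

lemma sum_conv {D₀ m : ℕ} (hm : 2 * m * (D₀ + 20) ^ 2 ≤ Fintype.card P) {lam d₀ : ℝ}
    {ρ : Ty N d × Ty N d → ℝ} (hρ : TCoup 8 ρ) :
    ∑ β, (if ¬ GoodB hw D₀ lam d₀ β then ρ β else 0) ≤
      ∑ β, (if TVP.GoodB fr p h a a' hw.Dd m lam d₀ β then 0 else ρ β) := by
  refine Finset.sum_le_sum fun β _ => ?_
  by_cases hg : TVP.GoodB fr p h a a' hw.Dd m lam d₀ β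
  · rw [if_pos hg]
    by_cases hne : β.1 = β.2
    · have h2 := hρ.ne β.1
      rw [show (β.1, β.1) = β from Prod.ext rfl hne] at h2
      rw [h2, ite_self]
    · rw [if_neg (not_not.2 (goodB_conv hw hm hne hg))]
  · rw [if_neg hg]
    split_ifs
    · exact hρ.nonneg β
    · exact le_rfl

end Fin

/-- **TvSel.** -/
theorem tvSel : TvSel := by
  intro ε hε
  refine ⟨ε / 52, div_pos hε (by norm_num), ?_⟩
  intro C lam d₀ hlam hd₀ D₀ hD₀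
  have hQ1 : 441 ≤ (D₀ + 20) ^ 2 := by
    have : 21 ≤ D₀ + 20 := by omega
    nlinarith
  obtain ⟨Q, hQ⟩ : ∃ Q : ℕ, Q = (D₀ + 20) ^ 2 := ⟨_, rfl⟩
  rw [← hQ] at hQ1
  have hQr : (0 : ℝ) < Q := by exact_mod_cast (by omega : 0 < Q)
  have hDr : (0 : ℝ) < D₀ := by exact_mod_cast hD₀
  obtain ⟨R, hR⟩ : ∃ R : ℝ, R = 48 * D₀ * Q := ⟨_, rfl⟩
  have hRpos : 0 < R := by rw [hR]; positivity
  obtain ⟨θs, hθs⟩ : ∃ θs : ℝ, θs = d₀ / (48 * R ^ 4) := ⟨_, rfl⟩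
  have hθpos : 0 < θs := by rw [hθs]; positivity
  have hθR : 48 * R ^ 4 * θs = d₀ := by
    rw [hθs]
    field_simp
  obtain ⟨L, hL⟩ : ∃ L : ℝ, L = Real.log 2521 := ⟨_, rfl⟩
  have hLpos : 0 ≤ L := by rw [hL]; exact Real.log_nonneg (by norm_num)
  obtain ⟨s₀, hs₀⟩ : ∃ s₀ : ℝ, s₀ = 450 * D₀ * |C| * L * 64 * Q ^ 2 / θs := ⟨_, rfl⟩
  have hs₀nn : 0 ≤ s₀ := by rw [hs₀]; positivity
  obtain ⟨Dg, d₁, hd₁⟩ := Align.exists_params (s := s₀) (ε := ε / 2) (M₀ := 8) hs₀nn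
    (by positivity) (by norm_num)
  refine ⟨max 1 d₁, ?_⟩
  intro d hd E _
  refine ⟨1 / (3 * Q), by positivity, 16 * Q + ⌈1152 * (d : ℝ) / ε⌉₊ + 3, ?_⟩
  intro N P Om _ _ _ fr p h hk hS hEv a a' ι ι' haa M w hw ρ hρ hK
  have hk16 : 16 * Q ≤ Fintype.card P := by omega
  obtain ⟨m, hm4, hkm2, hsmall, hkap, hkap0, h144⟩ := num1 hQ1 hk16
  have hd1 : 1 ≤ d := (le_max_left _ _).trans hd
  have hd2 : d₁ ≤ d := (le_max_right _ _).trans hd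
  have hNk : Fintype.card P ≤ N := (Nat.le_mul_of_pos_left _ hD₀).trans hS.hN
  have hQ0 : 0 < Q := by omega
  have hrow : ∀ w, (rowLines fr w).card * Q ≤ Fintype.card P := fun w =>
    num5 hQ0 (card_rowLines fr w) (hS.hA w)
  have hB : ∀ S, TVP.DG fr p h a a' hw.Dd S - TVP.DG fr p h a a' hw.Dd ∅ ≤
      |C| * (Fintype.card P : ℝ) * L := by
    intro S
    rw [hL]
    exact (DG_budget hw S).trans (log_conv C _)
  have h48 : 48 * ((3 * N : ℝ) / m) ^ 4 * θs ≤ d₀ :=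
    num3 (div_nonneg (mul_nonneg (by norm_num) (Nat.cast_nonneg _)) (Nat.cast_nonneg _))
      (hR ▸ num2 hQ0 (by omega) hkm2 hS.hN') hθpos hθR
  rw [hQ] at hsmall hkap hkap0
  have key := TVP.exists_pasts fr p h a a' hw.Dd (supMod_law hw)
    (κ₀ := 20 * Fintype.card P / (D₀ + 20) ^ 2) (m := m)
    (hEv _ le_rfl) hm4 (fun w => hkap _ (hQ ▸ hrow w)) hkap0 (by omega) hS.hd hd1 hB hθpos hd₀ h48
    (num4 hLpos hθpos hs₀ hkm2 hS.hN') (Dg := Dg) (ε₁ := ε / 52) (ε₂ := ε / 2) (lam := lam) hρ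
    (fun S hSS => hd₁ d hd2 N hS.hd S hSS ρ hρ)
    (fun A hA hAF => K2_conv hw hsmall hK A hA hAF)
  have hlast := num6 hε hk hNk
  have h13 : ε / 2 + 13 * (ε / 52) + ε / 4 = ε := by ring
  exact (sum_conv hw hsmall hρ).trans (key.trans ((add_le_add_right hlast _).trans h13.le))

end TvS

end Vale.Agent.P060.HW
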