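import Vale.Agent.P060.HW.TVMain
import Vale.Agent.P060.HW.TvK2
import Vale.Agent.P060.HW.TvSel
import Vale.Agent.P060.HW.TVLoc
import Vale.Agent.P060.HW.Ex1

/-!
# P060/HW: the TV theorem
-/

namespace Vale.Agent.P060.HW

/-- The TV theorem: for most pairs of types without a large nontrivial coefficient the law of the
test values is close to its average along `Zab`. -/
theorem tv_final : TV := tv_of tvK2 TvS.tvSel tvLoc ex1

end Vale.Agent.P060.HW
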