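import Vale.Agent.P060.HW.Asm
import Vale.Agent.P060.HW.TVFinal
import Vale.Agent.P060.HW.LS5
import Vale.Agent.P060.HW.NotOutA

/-!
# Assembly: the final theorem
-/

noncomputable section

namespace Vale.Agent.P060.HW

/-- **Hadwiger's conjecture is false**, already for graphs with independence number at most two. -/
theorem disproof : ∃ n : ℕ, ∃ G : SimpleGraph (Fin n), G.indepNum ≤ 2 ∧
    (hadwigerNumber G : ℕ∞) < G.chromaticNumber :=
  disproof_of_open tvK2 TvS.tvSel tvLoc ls notOutA

end Vale.Agent.P060.HW
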