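import Vale.Agent.P060.HW.ConstN

/-!
# Assembly, last layer: choice of the constants and of a good design
-/

open scoped Classical

noncomputable section

set_option linter.unusedSectionVars false

namespace Vale.Agent.P060.HW

namespace ConstN

variable {N d : ℕ} {E P Om : Type} [Fintype E] [Fintype P] [Fintype Om] [NeZero N]

lemma sizes_mono {fr : Frame N d E Om} {D₀ : ℕ} {θ θ' C C' : ℝ} (hθ : θ ≤ θ') (hC : C' ≤ C)
    (h : Sizes fr P D₀ θ C) : Sizes fr P D₀ θ' C' := by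
  have hlog : 0 ≤ Real.log (Fintype.card P : ℝ) := by
    rcases Nat.eq_zero_or_pos (Fintype.card P) with h0 | h0
    · rw [h0]; simp
    · exact Real.log_nonneg (by exact_mod_cast h0)
  refine ⟨h.hN, h.hN', h.hd, h.hOm.trans ?_, fun w => (h.hA w).trans ?_, le_trans ?_ h.hq, h.hγ⟩
  · exact mul_le_mul_of_nonneg_right hθ (Nat.cast_nonneg _)
  · exact mul_le_mul_of_nonneg_right hθ (Nat.cast_nonneg _)
  · exact mul_le_mul_of_nonneg_right hC hlog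

lemma card_rowLines_le (fr : Frame N d E Om) (w : Om) : (rowLines fr w).card
    ≤ 3 * (Finset.univ.filter fun c : Ty N d => w ∈ fr.U c).card := by
  unfold rowLines
  refine Finset.card_biUnion_le.trans ?_
  have h3 : ∀ c : Ty N d, (lins c).card ≤ 3 := by
    intro c
    unfold lins
    refine Finset.card_image_le.trans ?_
    simp
  calc ∑ c ∈ Finset.univ.filter (fun c : Ty N d => w ∈ fr.U c), (lins c).card
      ≤ ∑ _c ∈ Finset.univ.filter (fun c : Ty N d => w ∈ fr.U c), 3 :=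
        Finset.sum_le_sum fun c _ => h3 c
    _ = 3 * (Finset.univ.filter fun c : Ty N d => w ∈ fr.U c).card := by
        rw [Finset.sum_const, smul_eq_mul, mul_comm]

lemma row_bound {fr : Frame N d E Om} {D₀ : ℕ} {θ C : ℝ} (hS : Sizes fr P D₀ θ C)
    (hθ : θ ≤ 1 / ((D₀ : ℝ) + 20) ^ 2) (hk : 7 * (D₀ + 20) ^ 2 ≤ Fintype.card P) (w : Om) :
    12 + (rowLines fr w).card ≤ 5 * Fintype.card P / (D₀ + 20) ^ 2 := by
  have hDsq : 0 < (D₀ + 20) ^ 2 := by positivity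
  rw [Nat.le_div_iff_mul_le hDsq]
  have r1 := card_rowLines_le fr w
  have r2 := hS.hA w
  set A := (Finset.univ.filter fun c : Ty N d => w ∈ fr.U c).card with hA
  have r3 : (A : ℝ) * ((D₀ : ℝ) + 20) ^ 2 ≤ Fintype.card P := by
    have h1 : θ * (Fintype.card P : ℝ) ≤ 1 / ((D₀ : ℝ) + 20) ^ 2 * Fintype.card P :=
      mul_le_mul_of_nonneg_right hθ (Nat.cast_nonneg _)
    have r4 := r2.trans h1
    have r5 : (0 : ℝ) < ((D₀ : ℝ) + 20) ^ 2 := by positivity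
    calc (A : ℝ) * ((D₀ : ℝ) + 20) ^ 2
        ≤ 1 / ((D₀ : ℝ) + 20) ^ 2 * Fintype.card P * ((D₀ : ℝ) + 20) ^ 2 :=
          mul_le_mul_of_nonneg_right r4 r5.le
      _ = Fintype.card P := by field_simp
  have r6 : A * (D₀ + 20) ^ 2 ≤ Fintype.card P := by
    exact_mod_cast r3
  nlinarith

instance dz_nonempty (fr : Frame N d E Om) : Nonempty (Dz fr P) := by
  refine ⟨⟨fun u j => match j with
    | Sum.inl (Sum.inl t) => if u.1 = 1 then fr.γ u.2 t else 0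
    | _ => 0, ?_⟩⟩
  intro s i t
  rfl

lemma exists_avoid {X : Type*} [Finite X] [Nonempty X] {A B C : Set X}
    (hA : 10 * Nat.card A ≤ Nat.card X) (hB : 100 * Nat.card B ≤ Nat.card X)
    (hC : 100 * Nat.card C ≤ Nat.card X) : ∃ x, x ∉ A ∧ x ∉ B ∧ x ∉ C := by
  by_contra hcon
  push Not at hcon
  have h1 : (Set.univ : Set X) ⊆ (A ∪ B) ∪ C := by
    intro x _
    by_cases ha : x ∈ A
    · exact Or.inl (Or.inl ha)
    · by_cases hb : x ∈ B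
      · exact Or.inl (Or.inr hb)
      · exact Or.inr (hcon x ha hb)
  have h2 : Nat.card X ≤ Nat.card A + Nat.card B + Nat.card C := by
    rw [Nat.card_coe_set_eq, Nat.card_coe_set_eq, Nat.card_coe_set_eq, ← Set.ncard_univ]
    refine (Set.ncard_le_ncard h1 (Set.toFinite _)).trans ?_
    refine (Set.ncard_union_le _ _).trans ?_
    exact Nat.add_le_add_right (Set.ncard_union_le _ _) _
  have h3 : 0 < Nat.card X := Nat.card_pos
  omega

/-- TVLS for a fixed design. -/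
def TVLSAt (fr : Frame N d E Om) (p : Lin N → Co E P Om → F) (h : Ext fr p) (C ε : ℝ) : Prop :=
  ∀ (a a' : Ty N d) (ι ι' : Bool), a ≠ a' →
    ∀ w, PLaw (dsg fr p h) a a' ι ι' (2521 ^ (C * Fintype.card P)) ((Fintype.card P : ℝ) ^ C) w →
    ∀ ρ, TCoup 8 ρ → ∑ β, (if ε < tdist (dsg fr p h) a a' w β then ρ β else 0) ≤ ε

/-- OUT-A for a fixed design. -/
def NotOutAAt (fr : Frame N d E Om) (p : Lin N → Co E P Om → F) (h : Ext fr p) (C I : ℝ) : Prop :=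
  ¬ OutA (dsg fr p h).Adj C I

/-- The row classes are small and small sets of lines are independent. -/
def RowsAt (fr : Frame N d E Om) (p : Lin N → Co E P Om → F) (κ : ℕ) : Prop :=
  12 ≤ κ ∧ (∀ w, 12 + (rowLines fr w).card ≤ κ) ∧ Ev1 p κ

/-- **The choice of the constants and of a good design.** -/
theorem exists_good (hF : FrameInst) (h1 : Ex1) (hC : ExC) (hT : TVLS) (hA : NotOutA)
    (c : ℕ) {εJ ε ε₂ : ℝ} (hεJ : 0 < εJ) (hε : 0 < ε) (hε₂ : 0 < ε₂) (C : ℝ)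
    (hC1 : 1 ≤ C) (n0 n1 : ℕ) :
    ∃ (E₀ d N m k κ kk : ℕ) (_ : NeZero N) (fr : Frame N d (Fin E₀) (Fin m))
      (p : Lin N → Co (Fin E₀) (Fin k) (Fin m) → F) (h : Ext fr p),
      kk = Fintype.card (Co (Fin E₀) (Fin k) (Fin m)) ∧
      n1 ≤ N ∧ 0 < d ∧ EvJ fr εJ ∧ EvC p d ε₂ ∧
      TVLSAt fr p h (15 * C + 1) ε ∧ RowsAt fr p κ ∧
      NotOutAAt fr p h C ((2521 : ℝ) ^ (2 * kk))⁻¹ ∧
      n0 ≤ 2521 ^ (5 * kk) ∧
      C / ((2521 ^ (5 * kk) : ℕ) : ℝ) ≤ ((2521 : ℝ) ^ (2 * kk))⁻¹ ∧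
      ((N * d : ℕ) : ℝ) * Real.sqrt (C * (Real.log ((2521 ^ (5 * kk) : ℕ) : ℝ)) ^ 2 /
        ((2521 ^ (5 * kk) : ℕ) : ℝ)) ≤ 1 / 2000 ∧
      C * (Real.log ((2521 ^ (5 * kk) : ℕ) : ℝ)) ^ 2 / ((2521 ^ (5 * kk) : ℕ) : ℝ) <
        ((2521 : ℝ) ^ (4 * kk + c))⁻¹ / 400 * (1 / (400 * (((2 * (N * d) : ℕ) : ℝ)) ^ 2)) ^ 2 ∧
      400 * (((2521 ^ (5 * kk) : ℕ) : ℝ)) ^ C ≤ (2521 : ℝ) ^ ((15 * C + 1) * (k : ℝ)) ∧
      1600 * (((2 * (N * d) : ℕ) : ℝ)) ≤ (k : ℝ) ^ (15 * C + 1) := by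
  obtain ⟨E₀, hF⟩ := hF εJ hεJ
  obtain ⟨D₁, hT⟩ := hT (Fin E₀) (15 * C + 1) ε hε
  obtain ⟨D₂, hC⟩ := hC ε₂ hε₂
  obtain ⟨D₃, hA⟩ := hA C
  set D₀ : ℕ := max (max D₁ D₂) (max D₃ 1) with hD₀
  have hD01 : D₀ ≥ D₁ := le_trans (le_max_left _ _) (le_max_left _ _)
  have hD02 : D₀ ≥ D₂ := le_trans (le_max_right _ _) (le_max_left _ _)
  have hD03 : D₀ ≥ D₃ := le_trans (le_max_left _ _) (le_max_right _ _)
  have hD04 : 1 ≤ D₀ := le_trans (le_max_right _ _) (le_max_right _ _)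
  obtain ⟨d₁, hT⟩ := hT D₀ hD01
  set d : ℕ := max d₁ 1 with hd
  have hd1 : d ≥ d₁ := le_max_left _ _
  have hd0 : 0 < d := lt_of_lt_of_le one_pos (le_max_right _ _)
  obtain ⟨C₁, θ₁, hθ₁, k₁, hT⟩ := hT d hd1
  obtain ⟨θ₂, hθ₂, k₂, hC⟩ := hC D₀ hD02 d (Fin E₀) hd0
  obtain ⟨θ₃, hθ₃, k₃, hA⟩ := hA D₀ hD03 d (Fin E₀) hd0
  obtain ⟨θ₄, hθ₄, k₄, h1⟩ := h1 D₀ d (Fin E₀)
  set θ₅ : ℝ := 1 / ((D₀ : ℝ) + 20) ^ 2 with hθ₅
  have hθ₅0 : 0 < θ₅ := by positivity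
  set θ : ℝ := min (min θ₁ θ₂) (min (min θ₃ θ₄) (min θ₅ 1)) with hθ
  have hθ0 : 0 < θ := lt_min (lt_min hθ₁ hθ₂) (lt_min (lt_min hθ₃ hθ₄) (lt_min hθ₅0 one_pos))
  have t1 : θ ≤ θ₁ := (min_le_left _ _).trans (min_le_left _ _)
  have t2 : θ ≤ θ₂ := (min_le_left _ _).trans (min_le_right _ _)
  have t3 : θ ≤ θ₃ := (min_le_right _ _).trans ((min_le_left _ _).trans (min_le_left _ _))
  have t4 : θ ≤ θ₄ := (min_le_right _ _).trans ((min_le_left _ _).trans (min_le_right _ _))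
  have t5 : θ ≤ θ₅ := (min_le_right _ _).trans ((min_le_right _ _).trans (min_le_left _ _))
  have t6 : θ ≤ 1 := (min_le_right _ _).trans ((min_le_right _ _).trans (min_le_right _ _))
  set C₂ : ℝ := max C₁ 0 with hC₂
  have c1 : C₁ ≤ C₂ := le_max_left _ _
  have c2 : 0 ≤ C₂ := le_max_right _ _
  obtain ⟨k₅, hF⟩ := hF D₀ d hD04 θ hθ0 C₂
  obtain ⟨k₆, hN⟩ := numerics C hC1 n0 D₀ d c
  set k : ℕ := max (max (max k₁ k₂) (max k₃ k₄)) (max (max k₅ k₆)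
    (max (max E₀ n1) (7 * (D₀ + 20) ^ 2))) with hk
  have q1 : k₁ ≤ k := by omega
  have q2 : k₂ ≤ k := by omega
  have q3 : k₃ ≤ k := by omega
  have q4 : k₄ ≤ k := by omega
  have q5 : k₅ ≤ k := by omega
  have q6 : k₆ ≤ k := by omega
  have q7 : E₀ ≤ k := by omega
  have q8 : n1 ≤ k := by omega
  have q9 : 7 * (D₀ + 20) ^ 2 ≤ k := by
    rw [hk]
    exact (le_max_right _ _).trans ((le_max_right _ _).trans (le_max_right _ _))
  have hDsq : 0 < (D₀ + 20) ^ 2 := by positivity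
  have hk0 : 0 < k := by omega
  obtain ⟨N, m, hNZ, fr, hS, hJ⟩ := hF k q5
  have hcP : Fintype.card (Fin k) = k := Fintype.card_fin k
  have hS1 : Sizes fr (Fin k) D₀ θ₁ C₁ := sizes_mono t1 c1 hS
  have hS2 : Sizes fr (Fin k) D₀ θ₂ 0 := sizes_mono t2 c2 hS
  have hS3 : Sizes fr (Fin k) D₀ θ₃ 0 := sizes_mono t3 c2 hS
  have hS4 : Sizes fr (Fin k) D₀ θ₄ 0 := sizes_mono t4 c2 hS
  obtain ⟨G, hG, hT⟩ := hT N (Fin k) (Fin m) fr (by rw [hcP]; exact q1) hS1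
  have hC' := hC N (Fin k) (Fin m) fr (by rw [hcP]; exact q2) hS2
  have h1' := h1 N (Fin k) (Fin m) fr (by rw [hcP]; exact q4) hS4
  obtain ⟨p, hp1, hp2, hp3⟩ := exists_avoid hG h1' hC'
  have hpG : p ∈ G := by
    by_contra h
    exact hp1 h
  have hpC : EvC p.1 d ε₂ := by
    by_contra h
    exact hp3 h
  have hp1 : ∀ κ : ℕ, κ ≤ 20 * Fintype.card (Fin k) / (D₀ + 20) ^ 2 → Ev1 p.1 κ := by
    by_contra h
    exact hp2 h
  -- the row lines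
  have hrow := row_bound hS t5 (by rw [hcP]; exact q9)
  have hrow' : ∀ w, 12 + (rowLines fr w).card ≤ 20 * Fintype.card (Fin k) / (D₀ + 20) ^ 2 :=
    fun w => (hrow w).trans (Nat.div_le_div_right (by omega))
  have h12 : 12 ≤ 20 * Fintype.card (Fin k) / (D₀ + 20) ^ 2 := by
    rw [hcP, Nat.le_div_iff_mul_le hDsq]
    omega
  have hOut := hA N (Fin k) (Fin m) fr p.1 p.2 (by rw [hcP]; exact q3) hS3 hp1 hrow
  have hNk : D₀ * k ≤ N := by
    have := hS.hN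
    rwa [hcP] at this
  have hNk' : N ≤ 2 * D₀ * k := by
    have := hS.hN'
    rwa [hcP] at this
  have hNk1 : k ≤ N := le_trans (Nat.le_mul_of_pos_left k hD04) hNk
  have hOmk : (m : ℝ) ≤ k := by
    have := hS.hOm
    rw [hcP, Fintype.card_fin] at this
    refine this.trans ?_
    have : θ * (k : ℝ) ≤ 1 * k := mul_le_mul_of_nonneg_right t6 (Nat.cast_nonneg _)
    linarith
  have hOmk' : m ≤ k := by exact_mod_cast hOmk
  have hK : Fintype.card (Co (Fin E₀) (Fin k) (Fin m)) = E₀ + k + m := by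
    rw [Fintype.card_sum, Fintype.card_sum, Fintype.card_fin, Fintype.card_fin, Fintype.card_fin]
  obtain ⟨kk, hkk⟩ : ∃ kk, kk = Fintype.card (Co (Fin E₀) (Fin k) (Fin m)) := ⟨_, rfl⟩
  have hN' := hN k q6 kk (by rw [hkk, hK]; omega)
    (by rw [hkk, hK]; omega) (N * d) (Nat.mul_le_mul_right d hNk')
    (Nat.mul_pos (lt_of_lt_of_le hk0 hNk1) hd0)
  refine ⟨E₀, d, N, m, k, _, kk, hNZ, fr, p.1, p.2, hkk, q8.trans hNk1, hd0, hJ, hpC,
    hT p hpG, ⟨h12, hrow', hp1 _ le_rfl⟩, ?_, hN'.1, hN'.2⟩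
  rw [← hkk] at hOut
  exact hOut

end ConstN

end Vale.Agent.P060.HW
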