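import Vale.Agent.P060.HW.Final1
import Vale.Agent.P060.HW.Blocks
import Vale.Agent.P060.HW.FrameInst

/-!
# Assembly, last layer: numerical estimates and choice of a good design
-/

open scoped Classical

noncomputable section

set_option linter.unusedSectionVars false

namespace Vale.Agent.P060.HW

namespace ConstN

open Filter

lemma ev_poly (A : ℝ) (j : ℕ) : ∀ᶠ k : ℕ in atTop, A * (k : ℝ) ^ j ≤ (2521 : ℝ) ^ k := by
  have h := (tendsto_pow_const_div_const_pow_of_one_lt j (r := (2521 : ℝ)) (by norm_num)).const_mul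
    |A|
  rw [mul_zero] at h
  have h1 := h.eventually (ge_mem_nhds (zero_lt_one))
  filter_upwards [h1] with k hk
  have hp : (0 : ℝ) < 2521 ^ k := by positivity
  have h2 : |A| * ((k : ℝ) ^ j / 2521 ^ k) = |A| * (k : ℝ) ^ j / 2521 ^ k := by ring
  rw [h2, div_le_one hp] at hk
  refine le_trans ?_ hk
  exact mul_le_mul_of_nonneg_right (le_abs_self A) (by positivity)

lemma log_le : Real.log 2521 ≤ 8 := by
  have h1 : Real.log 2521 ≤ Real.log (Real.exp 8) := by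
    apply Real.log_le_log (by norm_num)
    have h2 : (2.7182818283 : ℝ) ^ 8 ≤ Real.exp 8 := by
      rw [show (8 : ℝ) = ((8 : ℕ) : ℝ) * 1 by norm_num, Real.exp_nat_mul]
      exact pow_le_pow_left₀ (by norm_num) Real.exp_one_gt_d9.le 8
    exact le_trans (by norm_num) h2
  rwa [Real.log_exp] at h1

/-- All numerical estimates. -/
lemma numerics (C : ℝ) (hC : 1 ≤ C) (n0 D₀ d c : ℕ) : ∃ k₀ : ℕ, ∀ k : ℕ, k₀ ≤ k → ∀ kk : ℕ,
    k ≤ kk → kk ≤ 3 * k → ∀ t : ℕ, t ≤ 2 * D₀ * k * d → 0 < t →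
    n0 ≤ 2521 ^ (5 * kk) ∧
    C / ((2521 ^ (5 * kk) : ℕ) : ℝ) ≤ ((2521 : ℝ) ^ (2 * kk))⁻¹ ∧
    (t : ℝ) * Real.sqrt (C * (Real.log ((2521 ^ (5 * kk) : ℕ) : ℝ)) ^ 2 /
      ((2521 ^ (5 * kk) : ℕ) : ℝ)) ≤ 1 / 2000 ∧
    C * (Real.log ((2521 ^ (5 * kk) : ℕ) : ℝ)) ^ 2 / ((2521 ^ (5 * kk) : ℕ) : ℝ) <
      ((2521 : ℝ) ^ (4 * kk + c))⁻¹ / 400 * (1 / (400 * (((2 * t : ℕ) : ℝ)) ^ 2)) ^ 2 ∧
    400 * (((2521 ^ (5 * kk) : ℕ) : ℝ)) ^ C ≤ (2521 : ℝ) ^ ((15 * C + 1) * (k : ℝ)) ∧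
    1600 * (((2 * t : ℕ) : ℝ)) ≤ (k : ℝ) ^ (15 * C + 1) := by
  have hC0 : 0 < C := by linarith
  set A : ℝ := C * 1600 * 9 * (4 * 10 ^ 6) * (2 * D₀ * d + 1) ^ 2 with hA
  set B : ℝ := C * 1600 * 9 * 400 * (400 ^ 2) * (4 * D₀ * d + 1) ^ 4 * 2521 ^ c * 2 with hB
  have e1 := ev_poly A 4
  have e2 := ev_poly B 6
  have e3 := eventually_ge_atTop n0
  have e4 := eventually_ge_atTop (⌈C⌉₊)
  have e5 := eventually_ge_atTop (6400 * D₀ * d + 1)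
  obtain ⟨k₀, hk₀⟩ := eventually_atTop.1 (e1.and (e2.and (e3.and (e4.and e5))))
  refine ⟨k₀, fun k hk kk h1 h2 t ht ht0 => ?_⟩
  obtain ⟨g1, g2, g3, g4, g5⟩ := hk₀ k hk
  have hk1 : 1 ≤ k := by omega
  have hkR : (1 : ℝ) ≤ k := by exact_mod_cast hk1
  have hkk1 : 1 ≤ kk := by omega
  have hkkR : (1 : ℝ) ≤ kk := by exact_mod_cast hkk1
  have h1R : (k : ℝ) ≤ kk := by exact_mod_cast h1
  have h2R : (kk : ℝ) ≤ 3 * k := by exact_mod_cast h2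
  have htR : (t : ℝ) ≤ 2 * D₀ * k * d := by exact_mod_cast ht
  have ht0R : (0 : ℝ) < t := by exact_mod_cast ht0
  have hnc : ((2521 ^ (5 * kk) : ℕ) : ℝ) = (2521 : ℝ) ^ (5 * kk) := by push_cast; ring
  have hn0 : (0 : ℝ) < (2521 : ℝ) ^ (5 * kk) := by positivity
  have hlog : Real.log ((2521 : ℝ) ^ (5 * kk)) ≤ 40 * kk := by
    rw [Real.log_pow]
    push_cast
    have := log_le
    nlinarith
  have hlog0 : 0 ≤ Real.log ((2521 : ℝ) ^ (5 * kk)) := by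
    apply Real.log_nonneg
    exact one_le_pow₀ (by norm_num)
  have hlog2 : (Real.log ((2521 : ℝ) ^ (5 * kk))) ^ 2 ≤ 1600 * (9 * (k : ℝ) ^ 2) := by
    have h3 : Real.log ((2521 : ℝ) ^ (5 * kk)) ≤ 40 * (3 * k) := by
      refine hlog.trans ?_
      linarith
    calc (Real.log ((2521 : ℝ) ^ (5 * kk))) ^ 2 ≤ (40 * (3 * (k : ℝ))) ^ 2 :=
          pow_le_pow_left₀ hlog0 h3 2
      _ = 1600 * (9 * (k : ℝ) ^ 2) := by ring
  have hI : C * (Real.log ((2521 : ℝ) ^ (5 * kk))) ^ 2 / (2521 : ℝ) ^ (5 * kk)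
      ≤ C * (1600 * (9 * (k : ℝ) ^ 2)) / (2521 : ℝ) ^ (5 * kk) := by
    apply div_le_div_of_nonneg_right _ hn0.le
    exact mul_le_mul_of_nonneg_left hlog2 hC0.le
  have hpk : ∀ j : ℕ, k ≤ j → (2521 : ℝ) ^ k ≤ (2521 : ℝ) ^ j := fun j hj =>
    pow_le_pow_right₀ (by norm_num) hj
  have hkpow : k ≤ 2521 ^ k := (Nat.lt_pow_self (by norm_num)).le
  refine ⟨?_, ?_, ?_, ?_, ?_, ?_⟩
  · refine g3.trans (hkpow.trans ?_)
    exact Nat.pow_le_pow_right (by norm_num) (by omega)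
  · rw [hnc, div_le_iff₀ hn0, show 5 * kk = 2 * kk + 3 * kk by ring, pow_add, ← mul_assoc,
      inv_mul_cancel₀ (by positivity), one_mul]
    have h3 : C ≤ k := (Nat.le_ceil C).trans (by exact_mod_cast g4)
    refine h3.trans ?_
    have h4 : (k : ℝ) ≤ 2521 ^ k := by exact_mod_cast hkpow
    exact h4.trans (hpk _ (by omega))
  · rw [hnc]
    have h3 : (t : ℝ) * Real.sqrt (C * (Real.log ((2521 : ℝ) ^ (5 * kk))) ^ 2 /
        (2521 : ℝ) ^ (5 * kk)) = Real.sqrt ((t : ℝ) ^ 2 * (C * (Real.log ((2521 : ℝ) ^ (5 * kk))) ^ 2 /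
        (2521 : ℝ) ^ (5 * kk))) := by
      rw [Real.sqrt_mul (by positivity), Real.sqrt_sq ht0R.le]
    rw [h3]
    apply Real.sqrt_le_iff.2
    refine ⟨by norm_num, ?_⟩
    have h4 : (t : ℝ) ^ 2 * (C * (Real.log ((2521 : ℝ) ^ (5 * kk))) ^ 2 / (2521 : ℝ) ^ (5 * kk))
        ≤ (2 * D₀ * k * d) ^ 2 * (C * (1600 * (9 * (k : ℝ) ^ 2)) / (2521 : ℝ) ^ (5 * kk)) := by
      apply mul_le_mul (pow_le_pow_left₀ ht0R.le htR 2) hI
      · positivity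
      · positivity
    refine h4.trans ?_
    rw [← mul_div_assoc, div_le_iff₀ hn0]
    have h5 : (2521 : ℝ) ^ k ≤ (2521 : ℝ) ^ (5 * kk) := hpk _ (by omega)
    have h6 : (2 * (D₀ : ℝ) * d) ^ 2 ≤ (2 * D₀ * d + 1) ^ 2 := by
      apply pow_le_pow_left₀ (by positivity)
      linarith
    have h7 : (2 * (D₀ : ℝ) * k * d) ^ 2 * (C * (1600 * (9 * (k : ℝ) ^ 2)))
        = (C * 1600 * 9 * (k : ℝ) ^ 4) * (2 * D₀ * d) ^ 2 := by ring
    rw [h7]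
    have h8 : (C * 1600 * 9 * (k : ℝ) ^ 4) * (2 * D₀ * d) ^ 2
        ≤ (C * 1600 * 9 * (k : ℝ) ^ 4) * (2 * D₀ * d + 1) ^ 2 :=
      mul_le_mul_of_nonneg_left h6 (by positivity)
    have h9 : (C * 1600 * 9 * (k : ℝ) ^ 4) * (2 * D₀ * d + 1) ^ 2
        = (1 / 2000) ^ 2 * (A * (k : ℝ) ^ 4) := by
      rw [hA]; ring
    refine h8.trans ?_
    rw [h9]
    apply mul_le_mul_of_nonneg_left (g1.trans h5) (by norm_num)
  · rw [hnc]
    refine lt_of_le_of_lt hI ?_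
    have ht1 : (((2 * t : ℕ) : ℝ)) ≤ (4 * D₀ * d + 1) * k := by
      push_cast
      nlinarith
    have ht2 : (0 : ℝ) < (((2 * t : ℕ) : ℝ)) := by push_cast; linarith
    set u : ℝ := (((2 * t : ℕ) : ℝ)) with hu
    rw [div_lt_iff₀ hn0]
    have h3 : ((2521 : ℝ) ^ (4 * kk + c))⁻¹ / 400 * (1 / (400 * u ^ 2)) ^ 2 * 2521 ^ (5 * kk)
        = 2521 ^ kk / (2521 ^ c * 400 * 400 ^ 2 * u ^ 4) := by
      rw [show 5 * kk = 4 * kk + kk by ring, pow_add, pow_add]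
      field_simp
    rw [h3, lt_div_iff₀ (by positivity)]
    have h4 : u ^ 4 ≤ ((4 * D₀ * d + 1) * k) ^ 4 := pow_le_pow_left₀ ht2.le ht1 4
    have h5 : C * (1600 * (9 * (k : ℝ) ^ 2)) * (2521 ^ c * 400 * 400 ^ 2 * u ^ 4)
        ≤ C * (1600 * (9 * (k : ℝ) ^ 2)) * (2521 ^ c * 400 * 400 ^ 2 * ((4 * D₀ * d + 1) * k) ^ 4) := by
      apply mul_le_mul_of_nonneg_left _ (by positivity)
      exact mul_le_mul_of_nonneg_left h4 (by positivity)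
    refine lt_of_le_of_lt h5 ?_
    have h6 : C * (1600 * (9 * (k : ℝ) ^ 2)) * (2521 ^ c * 400 * 400 ^ 2 * ((4 * D₀ * d + 1) * k) ^ 4)
        = B * (k : ℝ) ^ 6 / 2 := by
      rw [hB]; ring
    rw [h6]
    have h7 : (2521 : ℝ) ^ k ≤ 2521 ^ kk := hpk _ h1
    have h8 : (0 : ℝ) < 2521 ^ kk := by positivity
    linarith [g2.trans h7]
  · rw [hnc]
    have h3 : ((2521 : ℝ) ^ (5 * kk)) ^ C = (2521 : ℝ) ^ (C * (5 * kk)) := by
      rw [← Real.rpow_natCast, ← Real.rpow_mul (by norm_num)]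
      push_cast
      ring_nf
    rw [h3]
    have h4 : (2521 : ℝ) ^ (C * (5 * (kk : ℝ))) ≤ (2521 : ℝ) ^ (15 * C * (k : ℝ)) := by
      apply Real.rpow_le_rpow_of_exponent_le (by norm_num)
      nlinarith
    have h5 : (400 : ℝ) ≤ (2521 : ℝ) ^ (k : ℝ) := by
      calc (400 : ℝ) ≤ (2521 : ℝ) ^ (1 : ℝ) := by rw [Real.rpow_one]; norm_num
        _ ≤ _ := Real.rpow_le_rpow_of_exponent_le (by norm_num) hkR
    calc 400 * (2521 : ℝ) ^ (C * (5 * (kk : ℝ))) ≤ (2521 : ℝ) ^ (k : ℝ) * (2521 : ℝ) ^ (15 * C * (k : ℝ)) := by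
          apply mul_le_mul h5 h4 (by positivity) (by positivity)
      _ = _ := by
          rw [← Real.rpow_add (by norm_num)]
          ring_nf
  · have h3 : (k : ℝ) ^ (2 : ℝ) ≤ (k : ℝ) ^ (15 * C + 1) :=
      Real.rpow_le_rpow_of_exponent_le hkR (by linarith)
    refine le_trans ?_ h3
    rw [Real.rpow_two]
    push_cast
    have h4 : (6400 * (D₀ : ℝ) * d + 1) ≤ k := by exact_mod_cast g5
    have h5 : (6400 * (D₀ : ℝ) * d + 1) * k ≤ k * k := mul_le_mul_of_nonneg_right h4 (by linarith)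
    nlinarith

end ConstN

end Vale.Agent.P060.HW
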