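import Vale.Agent.P060.HW.ExI2

/-! Existence of event (i), part 3: union bound. -/

open scoped Classical

noncomputable section

set_option linter.unusedSectionVars false

namespace Vale.Agent.P060.HW

open Module

variable {N d : ℕ} {E P Om : Type} [Fintype E] [Fintype P] [Fintype Om] [NeZero N]

lemma extp_congr (fr : Frame N d E Om) {x y : Lin N → (P ⊕ Om) → F} {u : Lin N} (h : x u = y u) :
    extp fr x u = extp fr y u := by
  funext j
  rcases j with (t | i) | w
  · rfl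
  · show x u (Sum.inl i) = y u (Sum.inl i)
    rw [h]
  · show x u (Sum.inr w) = y u (Sum.inr w)
    rw [h]

/-- The probability bound for fixed data. -/
theorem card_data_le (fr : Frame N d E Om) (Z : Finset Om) (a : Ty N d) {R : ℕ}
    (q : Fin R → Option (Dat E P Om N d)) {m : ℕ} (fam : Fin m → Ty N d × Ty N d)
    (hne : ∀ i, (fam i).1 ≠ (fam i).2)
    (hdisj : ∀ i j, i ≠ j → Disjoint (lins2 (fam i)) (lins2 (fam j)))
    (hL0 : ∀ i, Disjoint (lins2 (fam i)) (linQ fr Z a q))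
    (Ef : Submodule F (Matrix (Co E P Om) (Co E P Om) F) → Finset (Fin 2 → Co E P Om → F))
    {κ : ℝ} (hκ : 0 ≤ κ)
    (hEf : ∀ x : Lin N → (P ⊕ Om) → F, ((Ef (LamQ fr (extp fr x) Z a q)).card : ℝ) ≤
      κ * Fintype.card (Fin 2 → P → F)) :
    ((Finset.univ.filter fun x : Lin N → (P ⊕ Om) → F =>
      ∀ i, ExcEv Z (extp fr x) (fam i) (Ef (LamQ fr (extp fr x) Z a q))).card : ℝ) ≤
      κ ^ m * Fintype.card (Lin N → (P ⊕ Om) → F) := by
  have h := card_all_le (V := (P ⊕ Om) → F) (fun i => lins2 (fam i)) (linQ fr Z a q)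
    (fun i x => ExcEv Z (extp fr x) (fam i) (Ef (LamQ fr (extp fr x) Z a q))) hκ Finset.univ
    (fun i _ j _ hij => hdisj i j hij) (fun i _ => hL0 i) ?_ ?_
  · rw [Finset.card_univ, Fintype.card_fin] at h
    refine le_trans (Nat.cast_le.2 (Finset.card_le_card ?_)) h
    intro x hx
    simp only [Finset.mem_filter, Finset.mem_univ, true_and, forall_const] at hx ⊢
    exact hx
  · intro i _ x y hxy
    have h1 : LamQ fr (extp fr x) Z a q = LamQ fr (extp fr y) Z a q :=
      lamQ_congr fr Z a q fun u hu => extp_congr fr (hxy u (Finset.mem_union_right _ hu))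
    have h2 : g2 (extp fr x) (fam i) = g2 (extp fr y) (fam i) :=
      g2_congr fun u hu => extp_congr fr (hxy u (Finset.mem_union_left _ hu))
    unfold ExcEv
    rw [h1, h2]
  · intro i _ x
    have h1 : ∀ y : Lin N → (P ⊕ Om) → F,
        LamQ fr (extp fr ((lins2 (fam i)).piecewise y x)) Z a q = LamQ fr (extp fr x) Z a q := by
      intro y
      refine lamQ_congr fr Z a q fun u hu => extp_congr fr ?_
      rw [Finset.piecewise_eq_of_notMem]
      exact Finset.disjoint_right.1 (hL0 i) hu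
    have h2 := card_exc_le fr Z (fam i) (hne i) x (Ef (LamQ fr (extp fr x) Z a q))
    refine le_trans (b := ((Finset.univ.filter fun y : Lin N → (P ⊕ Om) → F =>
        ExcEv Z (extp fr ((lins2 (fam i)).piecewise y x)) (fam i)
          (Ef (LamQ fr (extp fr x) Z a q))).card : ℝ)) ?_ ?_
    · refine Nat.cast_le.2 (Finset.card_le_card ?_)
      intro y hy
      rw [Finset.mem_filter] at hy ⊢
      obtain ⟨h6, h7⟩ := hy
      rw [h1 y] at h7
      exact ⟨h6, h7⟩
    have hC : (0 : ℝ) < Fintype.card (Fin 2 → P → F) := Nat.cast_pos.2 Fintype.card_pos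
    have h4 : ((Finset.univ.filter fun y : Lin N → (P ⊕ Om) → F =>
        ExcEv Z (extp fr ((lins2 (fam i)).piecewise y x)) (fam i)
          (Ef (LamQ fr (extp fr x) Z a q))).card : ℝ) * Fintype.card (Fin 2 → P → F) ≤
        ((Ef (LamQ fr (extp fr x) Z a q)).card : ℝ) * Fintype.card (Lin N → (P ⊕ Om) → F) := by
      exact_mod_cast h2
    have h5 := le_trans h4 (mul_le_mul_of_nonneg_right (hEf x)
      (Nat.cast_nonneg (Fintype.card (Lin N → (P ⊕ Om) → F))))
    have h6 : κ * (Fintype.card (Fin 2 → P → F) : ℝ) * Fintype.card (Lin N → (P ⊕ Om) → F) =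
        κ * Fintype.card (Lin N → (P ⊕ Om) → F) * Fintype.card (Fin 2 → P → F) := by ring
    rw [h6] at h5
    exact le_of_mul_le_mul_right h5 hC

/-- The data of the union bound. -/
abbrev Dat4 (E P Om : Type) (N d R m : ℕ) : Type :=
  Finset Om × Ty N d × (Fin R → Option (Dat E P Om N d)) × (Fin m → Ty N d × Ty N d)

instance fintypeDat4 (R m : ℕ) : Fintype (Dat4 E P Om N d R m) :=
  @instFintypeProd _ _ inferInstance (@instFintypeProd _ _ inferInstance
    (@instFintypeProd _ _ inferInstance inferInstance))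

/-- The bad event of given data. -/
def BadD (fr : Frame N d E Om)
    (Ef : Submodule F (Matrix (Co E P Om) (Co E P Om) F) → Finset (Fin 2 → Co E P Om → F))
    (t R m : ℕ) (D : Dat4 E P Om N d R m) (x : Lin N → (P ⊕ Om) → F) : Prop :=
  (D.1.card ≤ t ∧ (∀ i, (D.2.2.2 i).1 ≠ (D.2.2.2 i).2) ∧
    (∀ i j, i ≠ j → Disjoint (lins2 (D.2.2.2 i)) (lins2 (D.2.2.2 j))) ∧
    (∀ i, Disjoint (lins2 (D.2.2.2 i)) (linQ fr D.1 D.2.1 D.2.2.1))) ∧
  ∀ i, ExcEv D.1 (extp fr x) (D.2.2.2 i) (Ef (LamQ fr (extp fr x) D.1 D.2.1 D.2.2.1))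

theorem card_badD_le (fr : Frame N d E Om)
    (Ef : Submodule F (Matrix (Co E P Om) (Co E P Om) F) → Finset (Fin 2 → Co E P Om → F))
    (t R m : ℕ) {κ : ℝ} (hκ : 0 ≤ κ)
    (hEf : ∀ (x : Lin N → (P ⊕ Om) → F) (Z : Finset Om) (a : Ty N d)
      (q : Fin R → Option (Dat E P Om N d)), Z.card ≤ t →
      ((Ef (LamQ fr (extp fr x) Z a q)).card : ℝ) ≤ κ * Fintype.card (Fin 2 → P → F)) :
    ((Finset.univ.filter fun x : Lin N → (P ⊕ Om) → F =>
      ∃ D : Dat4 E P Om N d R m, BadD fr Ef t R m D x).card : ℝ) ≤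
      Fintype.card (Dat4 E P Om N d R m) * (κ ^ m * Fintype.card (Lin N → (P ⊕ Om) → F)) := by
  have h1 : (Finset.univ.filter fun x : Lin N → (P ⊕ Om) → F =>
      ∃ D : Dat4 E P Om N d R m, BadD fr Ef t R m D x) ⊆
      Finset.univ.biUnion fun D : Dat4 E P Om N d R m =>
        Finset.univ.filter fun x : Lin N → (P ⊕ Om) → F => BadD fr Ef t R m D x := by
    intro x hx
    obtain ⟨D, hD⟩ := (Finset.mem_filter.1 hx).2
    exact Finset.mem_biUnion.2 ⟨D, Finset.mem_univ _, Finset.mem_filter.2 ⟨Finset.mem_univ _, hD⟩⟩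
  have h2 : ((Finset.univ.filter fun x : Lin N → (P ⊕ Om) → F =>
      ∃ D : Dat4 E P Om N d R m, BadD fr Ef t R m D x).card : ℝ) ≤
      ∑ D : Dat4 E P Om N d R m, ((Finset.univ.filter fun x : Lin N → (P ⊕ Om) → F =>
        BadD fr Ef t R m D x).card : ℝ) := by
    exact_mod_cast le_trans (Finset.card_le_card h1) Finset.card_biUnion_le
  refine le_trans h2 ?_
  have h3 : ∀ D : Dat4 E P Om N d R m, ((Finset.univ.filter fun x : Lin N → (P ⊕ Om) → F =>
        BadD fr Ef t R m D x).card : ℝ) ≤ κ ^ m * Fintype.card (Lin N → (P ⊕ Om) → F) := by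
    intro D
    by_cases hD : D.1.card ≤ t ∧ (∀ i, (D.2.2.2 i).1 ≠ (D.2.2.2 i).2) ∧
      (∀ i j, i ≠ j → Disjoint (lins2 (D.2.2.2 i)) (lins2 (D.2.2.2 j))) ∧
      (∀ i, Disjoint (lins2 (D.2.2.2 i)) (linQ fr D.1 D.2.1 D.2.2.1))
    · refine le_trans ?_ (card_data_le fr D.1 D.2.1 D.2.2.1 D.2.2.2 hD.2.1 hD.2.2.1 hD.2.2.2 Ef hκ
        fun x => hEf x D.1 D.2.1 D.2.2.1 hD.1)
      refine Nat.cast_le.2 (Finset.card_le_card ?_)
      intro x hx
      rw [Finset.mem_filter] at hx ⊢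
      exact ⟨hx.1, hx.2.2⟩
    · have h0 : (Finset.univ.filter fun x : Lin N → (P ⊕ Om) → F =>
          BadD fr Ef t R m D x) = ∅ := by
        rw [Finset.filter_eq_empty_iff]
        intro x _ hx
        exact hD hx.1
      rw [h0, Finset.card_empty, Nat.cast_zero]
      exact mul_nonneg (pow_nonneg hκ _) (Nat.cast_nonneg _)
  refine le_trans (Finset.sum_le_sum fun D _ => h3 D) ?_
  rw [Finset.sum_const, Finset.card_univ, nsmul_eq_mul]

/-- Outside the bad events the event (i) holds. -/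
theorem evI_of_not_bad (fr : Frame N d E Om) (x : Lin N → (P ⊕ Om) → F)
    (Wf : Submodule F (Matrix (Co E P Om) (Co E P Om) F) → Submodule F (Co E P Om → F))
    (Ef : Submodule F (Matrix (Co E P Om) (Co E P Om) F) → Finset (Fin 2 → Co E P Om → F))
    (t R s m : ℕ)
    (hWE : ∀ (Z : Finset Om) (a : Ty N d) (q : Fin R → Option (Dat E P Om N d)), Z.card ≤ t →
      finrank F (Wf (LamQ fr (extp fr x) Z a q)) ≤ s ∧
      ∀ g ∉ Ef (LamQ fr (extp fr x) Z a q), IndMod (Wf (LamQ fr (extp fr x) Z a q)) g ∧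
        ∀ h : Fin 2 → Co E P Om → F, smm h g ∈ LamQ fr (extp fr x) Z a q →
        ∃ w : Fin 2 → Co E P Om → F, (∀ i, w i ∈ Wf (LamQ fr (extp fr x) Z a q)) ∧
          smm w g = smm h g)
    (hx : ∀ D : Dat4 E P Om N d R (m + 1), ¬ BadD fr Ef t R (m + 1) D x) :
    EvI fr (extp fr x) t R s m := by
  intro Z hZ a J H hJ
  obtain ⟨q, hq1, hq2⟩ := exists_q (P := P) fr Z a J H hJ
  obtain ⟨h1, h2⟩ := hWE Z a q hZ
  rw [hq2 (extp fr x)]
  set Λ := LamQ fr (extp fr x) Z a q with hΛ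
  refine ⟨Wf Λ ⊓ LinearMap.ker (rz Z - LinearMap.id),
    le_trans (Submodule.finrank_mono inf_le_left) h1, ?_, ?_⟩
  · intro v hv
    have h3 := (Submodule.mem_inf.1 hv).2
    rw [LinearMap.mem_ker, LinearMap.sub_apply, LinearMap.id_apply, sub_eq_zero] at h3
    exact h3
  · intro 𝓕 hLD hne hda hdJ hdw hbad
    by_contra hcon
    push Not at hcon
    obtain ⟨𝓕', hsub, hcard⟩ := Finset.exists_subset_card_eq (Nat.succ_le_of_lt hcon)
    let e := 𝓕'.equivFinOfCardEq hcard
    refine hx (Z, a, q, fun i => (e.symm i).1) ⟨⟨hZ, ?_, ?_, ?_⟩, ?_⟩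
    · intro i
      exact hne _ (hsub (e.symm i).2)
    · intro i j hij
      refine hLD _ (hsub (e.symm i).2) _ (hsub (e.symm j).2) fun h => hij ?_
      exact e.symm.injective (Subtype.ext h)
    · intro i
      rw [Finset.disjoint_left]
      intro u hu huL
      have hmem := hsub (e.symm i).2
      unfold linQ at huL
      rcases (Finset.mem_filter.1 huL).2 with h | ⟨l, β, h, hl, h'⟩ | ⟨w, hw, h⟩
      · exact Finset.disjoint_left.1 (hda _ hmem) hu h
      · exact Finset.disjoint_left.1 (hdJ _ hmem β (hq1 l β h hl)) hu h'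
      · exact Finset.disjoint_left.1 (hdw _ hmem w hw) hu h
    · intro i
      by_contra hE
      exact not_bad Z (extp fr x) _ Λ (Wf Λ) (h2 _ hE) (hbad _ (hsub (e.symm i).2))

end Vale.Agent.P060.HW
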