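import Vale.Agent.P060.HW.ConstG
import Vale.Agent.P060.HW.Final2

/-!
# Assembly, last layer: the final theorem from the structural statements
-/

open scoped Classical

noncomputable section

set_option linter.unusedSectionVars false

namespace Vale.Agent.P060.HW

open ConstN

lemma outA_inst {X : Type*} (i₁ i₂ : Fintype X) {Adj : X → X → Prop} {K I : ℝ}
    (h : @OutA X i₁ Adj K I) : @OutA X i₂ Adj K I := by
  rw [Subsingleton.elim i₂ i₁]
  exact h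

/-- From a design to a host. -/
theorem host_of {K T : Type} [Fintype K] [Fintype T] [Nonempty T] (δ : Design K T)
    {C I Λ κ J : ℝ} (hA : ∀ inst : Fintype (Design.Vtx K T), ¬ @OutA _ inst δ.Adj C I)
    (hcut : δ.CutIneq (1 / 10 + 1 / 2000)) (hκ : 0 < κ) (hov : δ.OverlapEst Λ (1 / 2000) κ)
    (hIε : Fintype.card T * Real.sqrt J ≤ 1 / 2000)
    (hI : J < κ / 400 * (1 / (400 * (Fintype.card (Design.Lb T) : ℝ) ^ 2)) ^ 2) :
    ∃ (X : Type) (_ : Fintype X) (_ : Nonempty X)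
      (Adj : X → X → Prop), (∀ x y, Adj x y → Adj y x) ∧
      (∀ x y z, Adj x y → Adj y z → Adj x z → False) ∧ ¬ OutA Adj C I ∧
      ¬ OutC Adj Λ (1 / 2000) J :=
  ⟨Design.Vtx K T, inferInstance, ⟨(Classical.arbitrary _, true, 0)⟩, δ.Adj, δ.adj_symm,
    δ.triangle_free, hA _, δ.not_outC le_rfl hcut hκ hov hIε hI⟩

section

variable {N d : ℕ} {E P Om : Type} [Fintype E] [Fintype P] [Fintype Om] [NeZero N]

/-- A good design gives a good host. -/
theorem host_of_good {C ε₀ : ℝ} {c kk n : ℕ} (fr : Frame N d E Om)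
    (p : Lin N → Co E P Om → F) (h : Ext fr p)
    (hov : ∀ (Λ Λ' M' ε : ℝ), 400 * Λ ≤ Λ' → 3200 * ((N : ℝ) * d) ≤ M' →
      (∀ (a a' : Ty N d) (ι ι' : Bool), a ≠ a' → ∀ w, PLaw (dsg fr p h) a a' ι ι' Λ' M' w →
        ∀ ρ, TCoup 8 ρ → ∑ β, (if ε₀ < tdist (dsg fr p h) a a' w β then ρ β else 0) ≤ ε₀) →
      (dsg fr p h).OverlapEst Λ ε ((2521 : ℝ) ^ (4 * Fintype.card (Co E P Om) + c))⁻¹)
    (hkk : kk = Fintype.card (Co E P Om)) (hd : 0 < d)
    (hC : EvC p d (1 / 2000)) (hT : TVLSAt fr p h (15 * C + 1) ε₀)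
    (hA : NotOutAAt fr p h C ((2521 : ℝ) ^ (2 * kk))⁻¹)
    (g1 : C / (n : ℝ) ≤ ((2521 : ℝ) ^ (2 * kk))⁻¹)
    (g2 : ((N * d : ℕ) : ℝ) * Real.sqrt (C * (Real.log n) ^ 2 / n) ≤ 1 / 2000)
    (g3 : C * (Real.log n) ^ 2 / n <
        ((2521 : ℝ) ^ (4 * kk + c))⁻¹ / 400 * (1 / (400 * (((2 * (N * d) : ℕ) : ℝ)) ^ 2)) ^ 2)
    (g4 : 400 * (n : ℝ) ^ C ≤ (2521 : ℝ) ^ ((15 * C + 1) * (Fintype.card P : ℝ)))
    (g5 : 1600 * (((2 * (N * d) : ℕ) : ℝ)) ≤ (Fintype.card P : ℝ) ^ (15 * C + 1)) :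
    ∃ (X : Type) (_ : Fintype X) (_ : Nonempty X)
      (Adj : X → X → Prop), (∀ x y, Adj x y → Adj y x) ∧
      (∀ x y z, Adj x y → Adj y z → Adj x z → False) ∧ ¬ OutA Adj C (C / n) ∧
      ¬ OutC Adj ((n : ℝ) ^ C) (1 / 2000) (C * (Real.log n) ^ 2 / n) := by
  have hne : Nonempty (Ty N d) := ⟨((0 : ZMod N), (⟨0, hd⟩ : Fin d))⟩
  have hcT : Fintype.card (Ty N d) = N * d := by
    rw [Fintype.card_prod, ZMod.card, Fintype.card_fin]
  have hκ : (0 : ℝ) < ((2521 : ℝ) ^ (4 * Fintype.card (Co E P Om) + c))⁻¹ := by positivity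
  refine host_of (dsg fr p h)
    (fun inst hout => hA (outA_inst inst _ (@outA_mono _ inst _ _ _ _ _ le_rfl g1 hout)))
    (cutIneq_of h hC) hκ ?_ ?_ ?_
  · refine hov _ _ _ _ g4 ?_ hT
    refine le_trans (le_of_eq ?_) g5
    push_cast
    ring
  · rw [hcT]
    exact g2
  · rw [show Fintype.card (Design.Lb (Ty N d)) = 2 * (N * d) by
      rw [Fintype.card_prod, hcT, Fintype.card_bool, mul_comm], ← hkk]
    exact g3

end

/-- **Disproof of Hadwiger's conjecture for graphs with independence number two from the structural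
statements on the design.** -/
theorem disproof_of (hF : FrameInst) (h1 : Ex1) (hC : ExC) (hT : TVLS) (hO : Overlap)
    (hA : NotOutA) : ∃ n : ℕ, ∃ G : SimpleGraph (Fin n), G.indepNum ≤ 2 ∧
      (hadwigerNumber G : ℕ∞) < G.chromaticNumber := by
  refine not_hadwiger_of (ε := 1 / 2000) (by norm_num) fun C' n0 => ?_
  obtain ⟨c, ε₁, hε₁, hov⟩ := overlapEst_of hO
  set C : ℝ := max C' 1 with hCdef
  have hC1 : 1 ≤ C := le_max_right _ _
  have hCC : C' ≤ C := le_max_left _ _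
  set ε₀ : ℝ := min ε₁ (1 / 1000) with hε₀
  have hε₀0 : 0 < ε₀ := lt_min hε₁ (by norm_num)
  obtain ⟨E₀, d, N, m, k, κ, kk, hNZ, fr, p, h, hkk, hN, hd, hJ, hEvC, htv, hrows, hnA, hn0, g1,
    g2, g3, g4, g5⟩ := exists_good hF h1 hC hT hA c (εJ := 1 / 64000) (ε := ε₀) (ε₂ := 1 / 2000)
      (by norm_num) hε₀0 (by norm_num) C hC1 n0 192000
  have hN0 : (0 : ℝ) < N := by exact_mod_cast Nat.pos_of_ne_zero (NeZero.ne N)
  have hnum : 2 * ε₀ + 192 / (N : ℝ) + 64 * (1 / 64000 : ℝ) ≤ 1 / 100 := by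
    have e1 : ε₀ ≤ 1 / 1000 := min_le_right _ _
    have e2 : 192 / (N : ℝ) ≤ 1 / 1000 := by
      rw [div_le_iff₀ hN0]
      have : (192000 : ℝ) ≤ N := by exact_mod_cast hN
      linarith
    linarith
  obtain ⟨X, hX1, hX2, Adj, a1, a2, a3, a4⟩ := host_of_good (n := 2521 ^ (5 * kk)) fr p h
    (fun Λ Λ' M' ε e1 e2 e3 => hov N d (Fin E₀) (Fin k) (Fin m) fr p h κ Λ Λ' M' ε ε₀
      (1 / 64000) hrows.1 hrows.2.1 hrows.2.2 hd hJ hε₀0.le (min_le_left _ _) hnum e1 e2 e3)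
    hkk hd hEvC htv hnA g1 g2 g3 (by rw [Fintype.card_fin]; exact g4)
    (by rw [Fintype.card_fin]; exact g5)
  refine ⟨2521 ^ (5 * kk), hn0, X, hX1, hX2, Adj, a1, a2, ?_, ?_⟩
  · intro hout
    refine a3 (outA_mono hCC ?_ hout)
    exact div_le_div_of_nonneg_right hCC (Nat.cast_nonneg _)
  · intro hout
    refine a4 (outC_mono ?_ le_rfl ?_ hout)
    · apply Real.rpow_le_rpow_of_exponent_le _ hCC
      have : 1 ≤ 2521 ^ (5 * kk) := Nat.one_le_pow _ _ (by norm_num)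
      exact_mod_cast this
    · apply div_le_div_of_nonneg_right _ (Nat.cast_nonneg _)
      exact mul_le_mul_of_nonneg_right hCC (sq_nonneg _)

end Vale.Agent.P060.HW
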