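import Vale.Agent.P060.HW.Select
import Vale.Agent.P060.Defs

/-!
# From Hadwiger's conjecture for complements of pulled back triangle-free graphs to disjoint pairs
-/

open scoped Classical

noncomputable section

namespace Vale.Agent.P060.HW

variable {X : Type*} {n : ℕ}

/-- The complement of the pulled back graph. -/
def Gs (Adj : X → X → Prop) (hsym : ∀ x y, Adj x y → Adj y x) (s : Fin n → X) :
    SimpleGraph (Fin n) where
  Adj i j := i ≠ j ∧ ¬ Adj (s i) (s j)
  symm := ⟨fun _ _ h => ⟨h.1.symm, fun h' => h.2 (hsym _ _ h')⟩⟩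
  loopless := ⟨fun _ h => h.1 rfl⟩

lemma Gs_indepNum (Adj : X → X → Prop) (hsym : ∀ x y, Adj x y → Adj y x)
    (htri : ∀ x y z, Adj x y → Adj y z → Adj x z → False) (s : Fin n → X) :
    (Gs Adj hsym s).indepNum ≤ 2 := by
  by_contra hcon
  push Not at hcon
  obtain ⟨t, ht⟩ := (Gs Adj hsym s).exists_isNIndepSet_indepNum
  rw [← ht.card_eq, Finset.two_lt_card] at hcon
  obtain ⟨a, ha, b, hb, c, hc, hab, hac, hbc⟩ := hcon
  have key : ∀ i ∈ t, ∀ j ∈ t, i ≠ j → Adj (s i) (s j) := by
    intro i hi j hj hij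
    have := ht.isIndepSet hi hj hij
    by_contra h
    exact this ⟨hij, h⟩
  exact htri _ _ _ (key a ha b hb hab) (key b hb c hc hbc) (key a ha c hc hac)

lemma card_le_of_colorable (G : SimpleGraph (Fin n)) (hG : G.indepNum ≤ 2) {t : ℕ}
    (hc : G.Colorable t) : n ≤ 2 * t := by
  obtain ⟨C⟩ := hc
  have h1 := Finset.card_le_mul_card_image (f := C) (Finset.univ : Finset (Fin n)) 2 (by
    intro b _
    refine le_trans ?_ hG
    refine SimpleGraph.IsIndepSet.card_le_indepNum (G := G) ?_
    intro i hi j hj _ hadj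
    rw [Finset.mem_coe, Finset.mem_filter] at hi hj
    exact C.valid hadj (hi.2.trans hj.2.symm))
  have h2 : (Finset.univ.image C).card ≤ t := by
    refine (Finset.card_le_univ _).trans ?_
    simp
  simp only [Finset.card_univ, Fintype.card_fin] at h1
  calc n ≤ 2 * (Finset.univ.image C).card := h1
    _ ≤ 2 * t := Nat.mul_le_mul_left _ h2

lemma minor_le_card (G : SimpleGraph (Fin n)) {t : ℕ} (h : HasCliqueMinor G t) : t ≤ n := by
  obtain ⟨B, h1, h2⟩ := h
  choose r hr using fun i => (h1 i).1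
  have hinj : Function.Injective r := by
    intro i j hij
    by_contra hne
    have hd := (h2 i j hne).1
    rw [Set.disjoint_left] at hd
    exact hd (hr i) (hij ▸ hr j)
  simpa using Fintype.card_le_of_injective r hinj

lemma minor_hadwiger (G : SimpleGraph (Fin n)) : HasCliqueMinor G (hadwigerNumber G) := by
  unfold hadwigerNumber
  refine Nat.sSup_mem (s := {t : ℕ | HasCliqueMinor G t}) ?_ ⟨n, fun t ht => minor_le_card G ht⟩
  exact ⟨0, fun i => i.elim0, fun i => i.elim0, fun i => i.elim0⟩

/-- A Hadwiger type bound yields a large clique minor. -/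
lemma exists_minor (Adj : X → X → Prop) (hsym : ∀ x y, Adj x y → Adj y x)
    (htri : ∀ x y z, Adj x y → Adj y z → Adj x z → False) (s : Fin n → X)
    (h : (Gs Adj hsym s).chromaticNumber ≤ (hadwigerNumber (Gs Adj hsym s) : ℕ∞)) :
    ∃ t, n ≤ 2 * t ∧ HasCliqueMinor (Gs Adj hsym s) t := by
  refine ⟨_, ?_, minor_hadwiger _⟩
  exact card_le_of_colorable _ (Gs_indepNum Adj hsym htri s)
    (SimpleGraph.chromaticNumber_le_iff_colorable.1 h)

lemma adj_of_connected_pair (G : SimpleGraph (Fin n)) {x y : Fin n} (hxy : x ≠ y)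
    {B : Set (Fin n)} (hx : x ∈ B) (hy : y ∈ B) (hB : ∀ z ∈ B, z = x ∨ z = y)
    (h : (G.induce B).Connected) : G.Adj x y := by
  obtain ⟨w⟩ := h.preconnected ⟨x, hx⟩ ⟨y, hy⟩
  cases w with
  | nil => exact absurd rfl hxy
  | @cons _ v _ hadj _ =>
    have hadj' : G.Adj x v.1 := hadj
    rcases hB v.1 v.2 with hv | hv
    · rw [hv] at hadj'
      exact absurd hadj' (G.loopless.irrefl x)
    · rwa [hv] at hadj'

/-- Structure of a large clique minor: many singletons or many pairs. -/
lemma families (Adj : X → X → Prop) (hsym : ∀ x y, Adj x y → Adj y x) (s : Fin n → X)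
    {t p m : ℕ} (ht : n ≤ 2 * t) (hB : HasCliqueMinor (Gs Adj hsym s) t)
    (hmp : 2 * m + 4 * p ≤ n) :
    (∃ e : Fin p → Fin 1 → Fin n, (∀ i k i' k', e i k = e i' k' → i = i' ∧ k = k') ∧
      ∀ i j, i ≠ j → ¬ Adj (s (e i 0)) (s (e j 0))) ∨
    (∃ e : Fin m → Fin 2 → Fin n, (∀ i k i' k', e i k = e i' k' → i = i' ∧ k = k') ∧
      (∀ i, ¬ Adj (s (e i 0)) (s (e i 1))) ∧
      ∀ i j, i ≠ j → ¬ ∀ k l, Adj (s (e i k)) (s (e j l))) := by
  obtain ⟨B, h1, h2⟩ := hB
  set F : Fin t → Finset (Fin n) := fun i => (B i).toFinset with hF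
  have hFB : ∀ i x, x ∈ F i ↔ x ∈ B i := fun i x => by simp [hF]
  have hpos : ∀ i, 1 ≤ (F i).card := by
    intro i
    obtain ⟨x, hx⟩ := (h1 i).1
    exact Finset.card_pos.2 ⟨x, (hFB i x).2 hx⟩
  have hdisj : ∀ i j, i ≠ j → Disjoint (F i) (F j) := by
    intro i j hij
    rw [Finset.disjoint_left]
    intro x hx hx'
    exact Set.disjoint_left.1 (h2 i j hij).1 ((hFB i x).1 hx) ((hFB j x).1 hx')
  set S1 := Finset.univ.filter (fun i => (F i).card = 1) with hS1
  set S2 := Finset.univ.filter (fun i => (F i).card = 2) with hS2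
  have hsum : ∑ i, (F i).card ≤ n := by
    rw [← Finset.card_biUnion (fun i _ j _ hij => hdisj i j hij)]
    refine (Finset.card_le_univ _).trans ?_
    simp
  have hcount : 3 * t ≤ ∑ i, (F i).card + 2 * S1.card + S2.card := by
    have e1 : S1.card = ∑ i, if (F i).card = 1 then 1 else 0 := by
      rw [hS1, Finset.card_filter]
    have e2 : S2.card = ∑ i, if (F i).card = 2 then 1 else 0 := by
      rw [hS2, Finset.card_filter]
    have e3 : 3 * t = ∑ _i : Fin t, 3 := by simp [mul_comm]
    rw [e1, e2, e3, Finset.mul_sum, ← Finset.sum_add_distrib, ← Finset.sum_add_distrib]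
    refine Finset.sum_le_sum fun i _ => ?_
    have := hpos i
    split_ifs <;> omega
  by_cases hp : p ≤ S1.card
  · left
    have hemb : ∃ f : Fin p → Fin t, Function.Injective f ∧ ∀ i, f i ∈ S1 := by
      obtain ⟨T, hT, hTc⟩ := Finset.exists_subset_card_eq hp
      refine ⟨fun i => (T.equivFinOfCardEq hTc).symm i, ?_, ?_⟩
      · intro i j hij
        exact (T.equivFinOfCardEq hTc).symm.injective (Subtype.ext hij)
      · intro i
        exact hT ((T.equivFinOfCardEq hTc).symm i).2
    obtain ⟨f, hf, hfS⟩ := hemb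
    have hx : ∀ i, ∃ x, F (f i) = {x} := fun i =>
      Finset.card_eq_one.1 (Finset.mem_filter.1 (hfS i)).2
    choose x hx using hx
    have hxm : ∀ i, x i ∈ F (f i) := fun i => by rw [hx]; simp
    refine ⟨fun i _ => x i, ?_, ?_⟩
    · intro i k i' k' h
      refine ⟨?_, Subsingleton.elim _ _⟩
      have h' : x i = x i' := h
      by_contra hne
      have := Finset.disjoint_left.1 (hdisj (f i) (f i') (fun h' => hne (hf h'))) (hxm i)
      rw [h'] at this
      exact this (hxm i')
    · intro i j hij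
      obtain ⟨a, ha, b, hb, hab⟩ := (h2 (f i) (f j) (fun h' => hij (hf h'))).2
      have ea : a = x i := by
        have := (hFB _ _).2 ha
        rw [hx] at this
        simpa using this
      have eb : b = x j := by
        have := (hFB _ _).2 hb
        rw [hx] at this
        simpa using this
      show ¬ Adj (s (x i)) (s (x j))
      rw [← ea, ← eb]
      exact hab.2
  · right
    have hm : m ≤ S2.card := by omega
    have hemb : ∃ f : Fin m → Fin t, Function.Injective f ∧ ∀ i, f i ∈ S2 := by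
      obtain ⟨T, hT, hTc⟩ := Finset.exists_subset_card_eq hm
      refine ⟨fun i => (T.equivFinOfCardEq hTc).symm i, ?_, ?_⟩
      · intro i j hij
        exact (T.equivFinOfCardEq hTc).symm.injective (Subtype.ext hij)
      · intro i
        exact hT ((T.equivFinOfCardEq hTc).symm i).2
    obtain ⟨f, hf, hfS⟩ := hemb
    have hx : ∀ i, ∃ x y, x ≠ y ∧ F (f i) = {x, y} := fun i =>
      Finset.card_eq_two.1 (Finset.mem_filter.1 (hfS i)).2
    choose x y hxy hx using hx
    have hxm : ∀ i, x i ∈ F (f i) := fun i => by rw [hx]; simp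
    have hym : ∀ i, y i ∈ F (f i) := fun i => by rw [hx]; simp
    set e : Fin m → Fin 2 → Fin n := fun i k => if k = 0 then x i else y i with he
    have hem : ∀ i k, e i k ∈ F (f i) := by
      intro i k
      simp only [he]
      split_ifs
      · exact hxm i
      · exact hym i
    have hall : ∀ i, ∀ z ∈ B (f i), ∃ k, z = e i k := by
      intro i z hz
      have := (hFB _ _).2 hz
      rw [hx, Finset.mem_insert, Finset.mem_singleton] at this
      rcases this with h | h
      · exact ⟨0, by simp [he, h]⟩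
      · exact ⟨1, by simp [he, h]⟩
    refine ⟨e, ?_, ?_, ?_⟩
    · intro i k i' k' h
      have hi : i = i' := by
        by_contra hne
        have := Finset.disjoint_left.1 (hdisj (f i) (f i') (fun h' => hne (hf h'))) (hem i k)
        exact this (h ▸ hem i' k')
      subst hi
      refine ⟨rfl, ?_⟩
      fin_cases k <;> fin_cases k' <;> simp [he] at h ⊢
      · exact hxy i h
      · exact hxy i h.symm
    · intro i
      have := adj_of_connected_pair (Gs Adj hsym s) (hxy i) ((hFB _ _).1 (hxm i))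
        ((hFB _ _).1 (hym i)) (by
          intro z hz
          have := (hFB _ _).2 hz
          rw [hx, Finset.mem_insert, Finset.mem_singleton] at this
          exact this) (h1 (f i)).2
      have h3 := this.2
      simpa [he] using h3
    · intro i j hij hcon
      obtain ⟨a, ha, b, hb, hab⟩ := (h2 (f i) (f j) (fun h' => hij (hf h'))).2
      obtain ⟨k, rfl⟩ := hall i a ha
      obtain ⟨l, rfl⟩ := hall j b hb
      exact hab.2 (hcon k l)

/-- **Finite form of the dichotomy.** -/
theorem exists_samp [Fintype X] [Nonempty X] (Adj : X → X → Prop)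
    (hsym : ∀ x y, Adj x y → Adj y x)
    (htri : ∀ x y z, Adj x y → Adj y z → Adj x z → False) {p m : ℕ}
    (hmp : 2 * m + 4 * p ≤ n)
    (hHad : ∀ G : SimpleGraph (Fin n), G.indepNum ≤ 2 →
      G.chromaticNumber ≤ (hadwigerNumber G : ℕ∞)) :
    (∃ D : Samp X n p 1, Fintype.card X ^ n ≤ 2 * D.S.card ∧
      ∀ s ∈ D.S, ∀ i j, i ≠ j → ¬ Adj (s (D.e s i 0)) (s (D.e s j 0))) ∨
    (∃ D : Samp X n m 2, Fintype.card X ^ n ≤ 2 * D.S.card ∧
      (∀ s ∈ D.S, ∀ i, ¬ Adj (s (D.e s i 0)) (s (D.e s i 1))) ∧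
      ∀ s ∈ D.S, ∀ i j, i ≠ j → ¬ ∀ k l, Adj (s (D.e s i k)) (s (D.e s j l))) := by
  set Q1 : (Fin n → X) → Prop := fun s => ∃ e : Fin p → Fin 1 → Fin n,
    (∀ i k i' k', e i k = e i' k' → i = i' ∧ k = k') ∧
      ∀ i j, i ≠ j → ¬ Adj (s (e i 0)) (s (e j 0)) with hQ1
  set Q2 : (Fin n → X) → Prop := fun s => ∃ e : Fin m → Fin 2 → Fin n,
    (∀ i k i' k', e i k = e i' k' → i = i' ∧ k = k') ∧
      (∀ i, ¬ Adj (s (e i 0)) (s (e i 1))) ∧
      ∀ i j, i ≠ j → ¬ ∀ k l, Adj (s (e i k)) (s (e j l)) with hQ2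
  have hor : ∀ s, Q1 s ∨ Q2 s := by
    intro s
    obtain ⟨t, ht, hB⟩ := exists_minor Adj hsym htri s
      (hHad _ (Gs_indepNum Adj hsym htri s))
    exact families Adj hsym s ht hB hmp
  set S1 := Finset.univ.filter Q1
  set S2 := Finset.univ.filter Q2
  have hcard : Fintype.card X ^ n ≤ S1.card + S2.card := by
    have : (Finset.univ : Finset (Fin n → X)) ⊆ S1 ∪ S2 := by
      intro s _
      rcases hor s with h | h
      · exact Finset.mem_union_left _ (Finset.mem_filter.2 ⟨Finset.mem_univ _, h⟩)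
      · exact Finset.mem_union_right _ (Finset.mem_filter.2 ⟨Finset.mem_univ _, h⟩)
    have h3 := (Finset.card_le_card this).trans (Finset.card_union_le _ _)
    rw [Finset.card_univ, Fintype.card_fun, Fintype.card_fin] at h3
    exact h3
  have hXpos : 0 < Fintype.card X ^ n := pow_pos Fintype.card_pos _
  rcases le_total S2.card S1.card with hle | hle
  · left
    have hS : Fintype.card X ^ n ≤ 2 * S1.card := by omega
    have hne : S1.Nonempty := Finset.card_pos.1 (by omega)
    have hmem : ∀ s ∈ S1, Q1 s := fun s hs => (Finset.mem_filter.1 hs).2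
    refine ⟨⟨S1, hne, fun s => if h : Q1 s then h.choose else
      (hmem hne.choose hne.choose_spec).choose, ?_⟩, hS, ?_⟩
    · intro s hs i k i' k' h
      simp only [hmem s hs, dif_pos] at h
      exact (hmem s hs).choose_spec.1 i k i' k' h
    · intro s hs i j hij
      have hs' : s ∈ S1 := hs
      simp only [hmem s hs', dif_pos]
      exact (hmem s hs').choose_spec.2 i j hij
  · right
    have hS : Fintype.card X ^ n ≤ 2 * S2.card := by omega
    have hne : S2.Nonempty := Finset.card_pos.1 (by omega)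
    have hmem : ∀ s ∈ S2, Q2 s := fun s hs => (Finset.mem_filter.1 hs).2
    refine ⟨⟨S2, hne, fun s => if h : Q2 s then h.choose else
      (hmem hne.choose hne.choose_spec).choose, ?_⟩, hS, ?_, ?_⟩
    · intro s hs i k i' k' h
      simp only [hmem s hs, dif_pos] at h
      exact (hmem s hs).choose_spec.1 i k i' k' h
    · intro s hs i
      have hs' : s ∈ S2 := hs
      simp only [hmem s hs', dif_pos]
      exact (hmem s hs').choose_spec.2.1 i
    · intro s hs i j hij
      have hs' : s ∈ S2 := hs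
      simp only [hmem s hs', dif_pos]
      exact (hmem s hs').choose_spec.2.2 i j hij

end Vale.Agent.P060.HW
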