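import Vale.Agent.P060.HW.LS3
import Vale.Agent.P060.HW.Budget
import Vale.Agent.P060.HW.Rows
import Vale.Agent.P060.HW.Biased

/-! The deterministic core of the block LS. -/

open scoped Classical

noncomputable section

set_option linter.unusedSectionVars false

namespace Vale.Agent.P060.HW

open Module

namespace LSx

section Gen

variable {K T : Type} [Fintype K]

lemma sum_p_cx {Ω α : Type*} [Fintype Ω] [Fintype α] (P : FinProb Ω) (f : Ω → α) (g : α → ℂ) :
    ∑ a, (P.p f a : ℂ) * g a = ∑ ω, (P.w ω : ℂ) * g (f ω) := by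
  unfold FinProb.p
  simp only [Complex.ofReal_sum, Finset.sum_mul]
  rw [Finset.sum_comm]
  refine Finset.sum_congr rfl fun ω _ => ?_
  rw [Finset.sum_eq_single (f ω)]
  · rw [if_pos rfl]
  · intro a _ ha
    rw [if_neg (Ne.symm ha), Complex.ofReal_zero, zero_mul]
  · intro h
    exact absurd (Finset.mem_univ _) h

lemma sum_p_one {Ω α : Type*} [Fintype Ω] [Fintype α] (P : FinProb Ω) (f : Ω → α) :
    ∑ a, P.p f a = 1 := by
  have h := sum_p_cx P f (fun _ => 1)
  simp only [mul_one] at h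
  rw [← Complex.ofReal_sum, ← Complex.ofReal_sum, P.sum_one] at h
  exact_mod_cast h

/-- Trivial tensors do not change the absolute value of a coefficient. -/
theorem norm_coefT_eq {δ : Design K T} {a a' : T} {ι ι' : Bool} {Λ M : ℝ}
    {w : Matrix K K F → Matrix K K F → ℝ} (hw : PLaw δ a a' ι ι' Λ M w) (ψ : AddChar F ℂ)
    (g g' : K → F) (z z' : Fin 4 → K → F)
    (h : smm ![z 0, z 1] ![g, g'] - smm ![z' 0, z' 1] ![g, g'] ∈ δ.Nn a)
    (h' : smm ![z 2, z 3] ![g, g'] - smm ![z' 2, z' 3] ![g, g'] ∈ δ.Nn a') :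
    ‖coefT ψ w g g' z‖ = ‖coefT ψ w g g' z'‖ := by
  rw [Budget.coefT_eq hw, Budget.coefT_eq hw]
  set C : Matrix K K F := if ι then δ.B0 a else 0 with hC
  set C' : Matrix K K F := if ι' then δ.B0 a' else 0 with hC'
  set Q := smm ![z 0, z 1] ![g, g'] - smm ![z' 0, z' 1] ![g, g'] with hQ
  set Q' := smm ![z 2, z 3] ![g, g'] - smm ![z' 2, z' 3] ![g, g'] with hQ'
  set κ : F := 2⁻¹ * (pr Q C + pr Q' C') with hκ
  have key : ∀ ω, ((Budget.prob hw).w ω : ℂ) * ψ (Budget.pair2 K ω (Budget.tz g g' z)) =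
      ((Budget.prob hw).w ω : ℂ) * ψ (Budget.pair2 K ω (Budget.tz g g' z')) * ψ κ := by
    intro ω
    by_cases hω : (Budget.prob hw).w ω = 0
    · rw [hω]
      simp
    · have h1 := hw.supp ω.1 ω.2 hω
      have h2 : pr Q ω.1 = pr Q C := by
        have h3 := annDirect K T δ a Q h _ h1.1
        have h4 : ω.1 = (ω.1 - C) + C := (sub_add_cancel _ _).symm
        rw [h4, ann_pr_add_right, h3, zero_add]
      have h2' : pr Q' ω.2 = pr Q' C' := by
        have h3 := annDirect K T δ a' Q' h' _ h1.2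
        have h4 : ω.2 = (ω.2 - C') + C' := (sub_add_cancel _ _).symm
        rw [h4, ann_pr_add_right, h3, zero_add]
      have h5 : Budget.pair2 K ω (Budget.tz g g' z) =
          Budget.pair2 K ω (Budget.tz g g' z') + κ := by
        rw [← sub_eq_iff_eq_add', ← map_sub]
        have h6 : Budget.tz g g' z - Budget.tz g g' z' = (2⁻¹ : F) • (Q, Q') := by
          unfold Budget.tz
          rw [← smul_sub]
          rfl
        rw [h6, map_smul, Budget.pair2_apply, h2, h2']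
        rfl
      rw [h5, AddChar.map_add_eq_mul]
      ring
  rw [Finset.sum_congr rfl fun ω _ => key ω, ← Finset.sum_mul, norm_mul, AddChar.norm_apply,
    mul_one]

variable (K) in
/-- The instance for pairs of matrices. -/
abbrev MMfin : Fintype (Matrix K K F × Matrix K K F) := inferInstance

/-- The probability of a value of a combination of the two forms. -/
def jp {δ : Design K T} {a a' : T} {ι ι' : Bool} {Λ M : ℝ}
    {w : Matrix K K F → Matrix K K F → ℝ} (hw : PLaw δ a a' ι ι' Λ M w) (h1 h3 y : K → F) : ℝ :=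
  (Budget.prob hw).p (fun ω => ω.1.mulVec h1 + ω.2.mulVec h3) y

lemma jp_swap {δ : Design K T} {a a' : T} {ι ι' : Bool} {Λ M : ℝ}
    {w : Matrix K K F → Matrix K K F → ℝ} (hw : PLaw δ a a' ι ι' Λ M w) (h1 h3 y : K → F) :
    jp hw h1 h3 y = (Budget.prob hw).p (fun ω => ω.2.mulVec h3 + ω.1.mulVec h1) y := by
  unfold jp
  congr 1
  funext ω
  exact add_comm _ _

lemma marg_right {δ : Design K T} {a a' : T} {ι ι' : Bool} {Λ M : ℝ}
    {w : Matrix K K F → Matrix K K F → ℝ} (hw : PLaw δ a a' ι ι' Λ M w) (B : Matrix K K F) :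
    (Budget.prob hw).p (fun ω => ω.2) B * Nat.card (δ.Dir a') ≤ M := by
  refine le_trans (le_of_eq ?_) (hw.right B)
  congr 1
  unfold FinProb.p
  rw [Fintype.sum_prod_type]
  refine Finset.sum_congr rfl fun B1 _ => ?_
  rw [Finset.sum_eq_single B]
  · rw [if_pos rfl]
    rfl
  · intro B' _ hne
    exact if_neg hne
  · intro h
    exact absurd (Finset.mem_univ _) h

lemma marg_left {δ : Design K T} {a a' : T} {ι ι' : Bool} {Λ M : ℝ}
    {w : Matrix K K F → Matrix K K F → ℝ} (hw : PLaw δ a a' ι ι' Λ M w) (B : Matrix K K F) :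
    (Budget.prob hw).p (fun ω => ω.1) B * Nat.card (δ.Dir a) ≤ M := by
  refine le_trans (le_of_eq ?_) (hw.left B)
  congr 1
  unfold FinProb.p
  rw [Fintype.sum_prod_type, Finset.sum_eq_single B]
  · refine Finset.sum_congr rfl fun B1 _ => ?_
    rw [if_pos rfl]
    rfl
  · intro B' _ hne
    exact Finset.sum_eq_zero fun _ _ => if_neg hne
  · intro h
    exact absurd (Finset.mem_univ _) h

lemma row_form {δ : Design K T} {a : T} {ι : Bool} {B : Matrix K K F} (h : B ∈ δ.Form a ι)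
    {x : K} (hx : x ∈ δ.U a) (v : K) : B x v = 0 := by
  have h4 : (B - (if ι then δ.B0 a else 0)) x v = 0 := h.2.1 _ hx v
  have h5 : (if ι then δ.B0 a else 0 : Matrix K K F) x v = 0 := by
    split_ifs
    · exact δ.B0_row a a hx v
    · rfl
  have h6 : B x v = (B - (if ι then δ.B0 a else 0)) x v +
      (if ι then δ.B0 a else 0 : Matrix K K F) x v := by
    rw [Matrix.sub_apply, sub_add_cancel]
  rw [h6, h4, h5, add_zero]

/-- The joint law of the two combinations of the forms has a large atom. -/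
theorem exists_joint_atom {δ : Design K T} {a a' : T} {ι ι' : Bool} {Λ M : ℝ}
    {w : Matrix K K F → Matrix K K F → ℝ} (hw : PLaw δ a a' ι ι' Λ M w) (ψ : AddChar F ℂ)
    (hs hs' : Fin 2 → K → F) {m n : ℕ} (hm : 0 < m) (G : Fin m → Fin 2 → K → F) {η : ℝ}
    (hη : 0 < η)
    (hEB : ∀ y : Fin n → (Fin 2 → K → F), LinearIndependent F y →
      ∃ l, ∑ s, (ψ (∑ i, y l i ⬝ᵥ G s i)).re < η ^ 2 / 2 * m)
    (hbig : ∀ s, η ≤ ‖coefT ψ w (G s 0) (G s 1) ![hs 0, hs 1, hs' 0, hs' 1]‖) :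
    ∃ y : Fin 2 → K → F, ∀ i, η ^ 2 / 2 / 2521 ^ n ≤ jp hw (hs i) (hs' i) (y i) := by
  let X : Matrix K K F × Matrix K K F → (Fin 2 × K → F) := fun ω x =>
    (ω.1.mulVec (hs x.1) + ω.2.mulVec (hs' x.1)) x.2
  let G' : Fin m → (Fin 2 × K) → F := fun s x => G s x.1 x.2
  have hdot : ∀ (y : Fin 2 × K → F) s, y ⬝ᵥ G' s = ∑ i, (fun j => y (i, j)) ⬝ᵥ G s i := by
    intro y s
    unfold dotProduct
    rw [Fintype.sum_prod_type]
  obtain ⟨y, hy⟩ := exists_atom (ψ := ψ) (n := n) (m := m) hm (G := G') (eta := η) (by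
      rintro ⟨z, hz, hzb⟩
      obtain ⟨l, hl⟩ := hEB (fun l => LinearEquiv.curry F F (Fin 2) K (z l))
        (hz.map' (LinearEquiv.curry F F (Fin 2) K).toLinearMap
          (LinearEquiv.ker (LinearEquiv.curry F F (Fin 2) K)))
      have h1 := hzb l
      unfold BiasedAt at h1
      refine absurd h1 (not_le.mpr ?_)
      refine lt_of_eq_of_lt ?_ hl
      refine Finset.sum_congr rfl fun s _ => ?_
      rw [hdot]
      rfl) (P := (Budget.prob hw).p X) (fun y => FinProb.p_nonneg _ _ _) (sum_p_one _ _) hη (by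
      intro s
      refine (hbig s).trans (le_of_eq ?_)
      rw [sum_p_cx (Budget.prob hw) X (fun y => ψ (y ⬝ᵥ G' s))]
      congr 1
      unfold coefT
      rw [Fintype.sum_prod_type]
      refine Finset.sum_congr rfl fun B _ => Finset.sum_congr rfl fun B' _ => ?_
      change (w B B' : ℂ) * _ = (w B B' : ℂ) * _
      by_cases hB : w B B' = 0
      · rw [hB, Complex.ofReal_zero, zero_mul, zero_mul]
      · have h1 := hw.supp B B' hB
        have s1 := Budget.isSymm_of_form h1.1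
        have s2 := Budget.isSymm_of_form h1.2
        congr 2
        rw [hdot, Fin.sum_univ_two, Fin.sum_univ_four]
        change hs 0 ⬝ᵥ B.mulVec (G s 0) + hs 1 ⬝ᵥ B.mulVec (G s 1) +
          hs' 0 ⬝ᵥ B'.mulVec (G s 0) + hs' 1 ⬝ᵥ B'.mulVec (G s 1) =
          (B.mulVec (hs 0) + B'.mulVec (hs' 0)) ⬝ᵥ G s 0 +
          (B.mulVec (hs 1) + B'.mulVec (hs' 1)) ⬝ᵥ G s 1
        rw [add_dotProduct, add_dotProduct, Design.symm_dot s1 (hs 0), Design.symm_dot s1 (hs 1),
          Design.symm_dot s2 (hs' 0), Design.symm_dot s2 (hs' 1), dotProduct_comm (G s 0),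
          dotProduct_comm (G s 1), dotProduct_comm (G s 0), dotProduct_comm (G s 1)]
        ring)
  refine ⟨fun i j => y (i, j), fun i => ?_⟩
  rw [ZMod.card] at hy
  refine hy.trans ?_
  unfold jp FinProb.p
  refine Finset.sum_le_sum fun ω _ => ?_
  by_cases h2 : X ω = y
  · rw [if_pos h2, if_pos]
    funext j
    exact congrFun h2 (i, j)
  · rw [if_neg h2]
    split_ifs
    · exact (Budget.prob hw).nonneg ω
    · exact le_rfl

/-- A maximal independent subfamily spans, in both coordinates. -/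
theorem exists_basis {I : Type*} (𝓕 : Finset I) (Q Q' : I → Matrix K K F)
    (N1 N2 : Submodule F (Matrix K K F)) :
    ∃ J ⊆ 𝓕, LinearIndependent F (fun β : J => (N1.prod N2).mkQ (Q β, Q' β)) ∧
      ∀ β ∈ 𝓕, Q β ∈ Submodule.span F {R | ∃ β ∈ J, R = Q β} ⊔ N1 ∧
        Q' β ∈ Submodule.span F {R | ∃ β ∈ J, R = Q' β} ⊔ N2 := by
  obtain ⟨b, hb, -, hspan, hli⟩ := exists_linearIndepOn_extension (K := F)
    (v := fun β => (N1.prod N2).mkQ (Q β, Q' β)) (linearIndepOn_empty F _)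
    (Set.empty_subset (𝓕 : Set I))
  have hfin : b.Finite := 𝓕.finite_toSet.subset hb
  have hmem : ∀ β, β ∈ hfin.toFinset ↔ β ∈ b := fun β => hfin.mem_toFinset
  refine ⟨hfin.toFinset, fun β hβ => hb (hfin.mem_toFinset.mp hβ), ?_, ?_⟩
  · have h1 : LinearIndependent F (fun β : b => (N1.prod N2).mkQ (Q β, Q' β)) := hli
    refine h1.comp (fun β : hfin.toFinset => (⟨β, (hmem _).mp β.2⟩ : b)) ?_
    intro x y hxy
    exact Subtype.ext (congrArg (fun z : b => (z : I)) hxy)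
  · intro β hβ
    have h1 : (N1.prod N2).mkQ (Q β, Q' β) ∈
        Submodule.span F ((fun β => (N1.prod N2).mkQ (Q β, Q' β)) '' b) := hspan ⟨β, hβ, rfl⟩
    have h2 : Submodule.span F ((fun β => (N1.prod N2).mkQ (Q β, Q' β)) '' b) =
        Submodule.map (N1.prod N2).mkQ (Submodule.span F ((fun β => (Q β, Q' β)) '' b)) := by
      rw [← Submodule.span_image, Set.image_image]
    rw [h2] at h1
    obtain ⟨x, hx, hxe⟩ := Submodule.mem_map.mp h1
    have h3 : (Q β, Q' β) - x ∈ N1.prod N2 := (Submodule.Quotient.eq _).mp hxe.symm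
    have h4 : x.1 ∈ Submodule.span F {R | ∃ β ∈ hfin.toFinset, R = Q β} := by
      have h5 := Submodule.mem_map_of_mem (f := LinearMap.fst F (Matrix K K F) (Matrix K K F)) hx
      rw [← Submodule.span_image, Set.image_image] at h5
      refine Submodule.span_mono ?_ h5
      rintro R ⟨β', hβ', rfl⟩
      exact ⟨β', (hmem _).mpr hβ', rfl⟩
    have h5 : x.2 ∈ Submodule.span F {R | ∃ β ∈ hfin.toFinset, R = Q' β} := by
      have h5 := Submodule.mem_map_of_mem (f := LinearMap.snd F (Matrix K K F) (Matrix K K F)) hx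
      rw [← Submodule.span_image, Set.image_image] at h5
      refine Submodule.span_mono ?_ h5
      rintro R ⟨β', hβ', rfl⟩
      exact ⟨β', (hmem _).mpr hβ', rfl⟩
    exact ⟨Submodule.mem_sup.mpr ⟨x.1, h4, Q β - x.1, h3.1, by abel⟩,
      Submodule.mem_sup.mpr ⟨x.2, h5, Q' β - x.2, h3.2, by abel⟩⟩

end Gen

variable {N d : ℕ} {E P Om : Type} [Fintype E] [Fintype P] [Fintype Om] [NeZero N]

theorem surv_right (fr : Frame N d E Om) (p : Lin N → Co E P Om → F) (hp : Ext fr p)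
    {a a' : Ty N d} (haa : a ≠ a') (hRI : RowInd fr p a') {ι ι' : Bool} {Λ M : ℝ}
    {w : Matrix (Co E P Om) (Co E P Om) F → Matrix (Co E P Om) (Co E P Om) F → ℝ}
    (hw : PLaw (dsg fr p hp) a a' ι ι' Λ M w) (h1 h3 y : Co E P Om → F) {κ : ℝ}
    (hκ : κ ≤ jp hw h1 h3 y)
    (hlarge : M < κ * 2521 ^ (fr.q / 2)) : Surv fr p a a' h3 := by
  let := MMfin (Co E P Om)
  exact surv_of_atom fr p hp haa hRI (Budget.prob hw) (fun ω => ω.1)
    (fun ω => ω.2) (if ι' then (dsg fr p hp).B0 a' else 0)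
    (fun ω hω x hx v => row_form (hw.supp ω.1 ω.2 hω).1 (Finset.mem_image_of_mem _ hx) v)
    (fun ω hω => (hw.supp ω.1 ω.2 hω).2) (fun B => marg_right hw B) h1 h3 y hκ hlarge

theorem surv_left (fr : Frame N d E Om) (p : Lin N → Co E P Om → F) (hp : Ext fr p)
    {a a' : Ty N d} (haa : a ≠ a') (hRI : RowInd fr p a) {ι ι' : Bool} {Λ M : ℝ}
    {w : Matrix (Co E P Om) (Co E P Om) F → Matrix (Co E P Om) (Co E P Om) F → ℝ}
    (hw : PLaw (dsg fr p hp) a a' ι ι' Λ M w) (h1 h3 y : Co E P Om → F) {κ : ℝ}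
    (hκ : κ ≤ jp hw h1 h3 y)
    (hlarge : M < κ * 2521 ^ (fr.q / 2)) : Surv fr p a' a h1 := by
  let := MMfin (Co E P Om)
  exact surv_of_atom fr p hp haa.symm hRI (Budget.prob hw) (fun ω => ω.2)
    (fun ω => ω.1) (if ι then (dsg fr p hp).B0 a else 0)
    (fun ω hω x hx v => row_form (hw.supp ω.1 ω.2 hω).2 (Finset.mem_image_of_mem _ hx) v)
    (fun ω hω => (hw.supp ω.1 ω.2 hω).1) (fun B => marg_left hw B) h3 h1 y
    (hκ.trans (le_of_eq (jp_swap hw h1 h3 y))) hlarge

/-- A surviving vector gives cut functionals and trivial tensors. -/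
theorem surv_triv (fr : Frame N d E Om) (p : Lin N → Co E P Om → F) (hp : Ext fr p)
    {a a' : Ty N d} {h : Co E P Om → F} (hS : Surv fr p a' a h) :
    ∃ c : F, ∀ g : Co E P Om → F, sm h g - c • sm (gv p a') g ∈ (dsg fr p hp).Nn a := by
  obtain ⟨c, c', η, hv, hη, rfl⟩ := hS
  refine ⟨c, fun g => ?_⟩
  have h1 : sm (c • gv p a' + c' • gv p a + η) g - c • sm (gv p a') g =
      c' • sm g (gv p a) + sm η g := by
    ext i j
    simp only [Matrix.sub_apply, Matrix.add_apply, Matrix.smul_apply, sm_apply, smul_eq_mul,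
      Pi.add_apply, Pi.smul_apply]
    ring
  rw [h1]
  refine Submodule.add_mem _ (Submodule.smul_mem _ _ (Submodule.subset_span (Or.inr ⟨g, rfl⟩))) ?_
  have h2 : sm η g = ∑ w, η (Sum.inr w) • sm (Pi.single (Sum.inr w) 1 : Co E P Om → F) g := by
    ext x y
    rw [sm_apply, Matrix.sum_apply]
    simp only [Matrix.smul_apply, sm_apply, smul_eq_mul]
    have h3 : ∀ x : Co E P Om, η x = ∑ w, η (Sum.inr w) *
        (Pi.single (Sum.inr w) 1 : Co E P Om → F) x := by
      intro x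
      rcases x with j | w
      · have h4 : η (Sum.inl j) = 0 := congrFun hv j
        rw [h4]
        symm
        exact Finset.sum_eq_zero fun w _ => by simp
      · rw [Finset.sum_eq_single w]
        · simp
        · intro w' _ hw'
          have : (Sum.inr w : Co E P Om) ≠ Sum.inr w' := fun h => hw' (Sum.inr.inj h).symm
          rw [Pi.single_eq_of_ne this, mul_zero]
        · intro h
          exact absurd (Finset.mem_univ _) h
    rw [h3 x, h3 y, Finset.sum_mul, Finset.mul_sum, ← Finset.sum_add_distrib]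
    exact Finset.sum_congr rfl fun w _ => by ring
  rw [h2]
  refine Submodule.sum_mem _ fun w _ => ?_
  by_cases hw : w ∈ fr.U a
  · refine Submodule.smul_mem _ _ (Submodule.subset_span ?_)
    exact Or.inl (Or.inr ⟨Sum.inr w, Finset.mem_image_of_mem _ hw, g,
      congrArg (fun x => sm x _) (single_eq _ _ _ _)⟩)
  · rw [hη w hw, zero_smul]
    exact Submodule.zero_mem _

lemma rowInd_of_ev1 (fr : Frame N d E Om) (p : Lin N → Co E P Om → F) {κ A : ℕ} (h1 : Ev1 p κ)
    (hA : ∀ w, (Finset.univ.filter fun c : Ty N d => w ∈ fr.U c).card ≤ A)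
    (h6 : 3 + 6 * A ≤ κ) (a' : Ty N d) : RowInd fr p a' := by
  intro w _ w' _
  refine h1 _ ?_
  have e1 := rr_card_lins_le a'
  have e2 := card_rowLines_le fr hA w
  have e3 := card_rowLines_le fr hA w'
  have e4 := Finset.card_union_le (lins a' ∪ rowLines fr w) (rowLines fr w')
  have e5 := Finset.card_union_le (lins a') (rowLines fr w)
  omega

/-- The deterministic core of LS. -/
theorem ls_core (hRL : RankLem) {ψ : AddChar F ℂ} (hψ : ψ ≠ 0) (fr : Frame N d E Om)
    (p : Lin N → Co E P Om → F) (hp : Ext fr p) {a a' : Ty N d} (haa : a ≠ a') {ι ι' : Bool}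
    {κ t R s m A b n₀ : ℕ} (h1 : Ev1 p κ) (hI : EvI fr p t R s m)
    (hκ : 6 * (2 * s + 1) ≤ κ)
    (hA : ∀ w, (Finset.univ.filter fun c : Ty N d => w ∈ fr.U c).card ≤ A)
    {η Λ Md : ℝ} (hη : 0 < η)
    {w : Matrix (Co E P Om) (Co E P Om) F → Matrix (Co E P Om) (Co E P Om) F → ℝ}
    (hw : PLaw (dsg fr p hp) a a' ι ι' Λ Md w)
    {𝓕 : Finset (Ty N d × Ty N d)} (hLD : LD 𝓕) (hne : ∀ β ∈ 𝓕, β.1 ≠ β.2) (h𝓕 : 𝓕.Nonempty)
    (hbad : ∀ β ∈ 𝓕, BadC ψ (dsg fr p hp) a a' w η β)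
    (hR : ∀ j : ℕ, (j : ℝ) ≤ 2 * Real.log Λ / η ^ 2 → j ≤ R)
    (hX : 4 * (2 * (m + (3 + R + t * (3 * A))) + 2 * s) ≤ 𝓕.card)
    {M : ℕ} (hM : M = 2521 ^ (4 * s + 4 * Fintype.card E))
    {κ₀ : ℝ} (hκ₀ : 0 < κ₀) (hκt : 1 < κ₀ * (t + 1))
    (hb : κ₀ * 𝓕.card * (2 * M) ≤ b) (hbκ : 6 * b + 3 * A ≤ κ) (h6 : 3 + 6 * A ≤ κ)
    {m₂ : ℝ} (hm₂ : 0 ≤ m₂)
    (hm₂𝓕 : 2 * M * (m₂ + 2 * (R + 3 * Fintype.card (Co E P Om))) < 𝓕.card)
    (hEB : ∀ m' : ℕ, m₂ ≤ m' → EvB ψ p d m' n₀ (η ^ 2 / 2))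
    (hlarge : Md < η ^ 2 / 2 / 2521 ^ n₀ * 2521 ^ (fr.q / 2)) : False := by
  choose! z hz using hbad
  let H : Ty N d × Ty N d → Fin 2 → Co E P Om → F := fun β => ![z β 0, z β 1]
  let H' : Ty N d × Ty N d → Fin 2 → Co E P Om → F := fun β => ![z β 2, z β 3]
  obtain ⟨J, hJ, hli, hsp⟩ := exists_basis 𝓕 (fun β => smm (H β) (g2 p β))
    (fun β => smm (H' β) (g2 p β)) ((dsg fr p hp).Nn a) ((dsg fr p hp).Nn a')
  have hJR : J.card ≤ R := hR _ (Budget.rank_biased_finset hRL hw ψ hψ hη z J hli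
    fun β hβ => (hz β (hJ hβ)).1)
  obtain ⟨T₂, hs, hs', hT₂, hcard, hT⟩ := class_extract fr p hp a a' h1 hI hκ hA hLD hne hJ hJR
    H H' (fun β hβ => (hsp β hβ).1) (fun β hβ => (hsp β hβ).2) h𝓕 hX hM hκ₀ hκt hb hbκ
  have hMpos : (0 : ℝ) < M := by
    rw [hM]
    positivity
  have hT₂m : m₂ < T₂.card := by
    have h2 : 2 * (M : ℝ) * (m₂ + 2 * (R + 3 * Fintype.card (Co E P Om))) <
        2 * M * (T₂.card + 2 * (R + 3 * Fintype.card (Co E P Om))) := lt_of_lt_of_le hm₂𝓕 hcard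
    have h3 := lt_of_mul_lt_mul_left h2 (by positivity)
    linarith
  have hT₂pos : 0 < T₂.card := by
    have : (0 : ℝ) < T₂.card := lt_of_le_of_lt hm₂ hT₂m
    exact_mod_cast this
  -- the coefficients at the fixed first parts
  have hcoef : ∀ β ∈ T₂, η ≤ ‖coefT ψ w (gv p β.1) (gv p β.2) ![hs 0, hs 1, hs' 0, hs' 1]‖ := by
    intro β hβ
    have h2 := (hz β (hT₂ hβ)).1
    have h3 := norm_coefT_eq hw ψ (gv p β.1) (gv p β.2) (z β) ![hs 0, hs 1, hs' 0, hs' 1] (by
      have h4 := (hT β hβ).1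
      have h5 : hs = ![hs 0, hs 1] := by
        funext i
        fin_cases i <;> rfl
      rw [h5] at h4
      exact h4) (by
      have h4 := (hT β hβ).2
      have h5 : hs' = ![hs' 0, hs' 1] := by
        funext i
        fin_cases i <;> rfl
      rw [h5] at h4
      exact h4)
    rw [← h3]
    exact h2
  -- a large atom
  let fam : Fin T₂.card → Ty N d × Ty N d := fun s => (T₂.equivFin.symm s : Ty N d × Ty N d)
  have hfam : ∀ s, fam s ∈ T₂ := fun s => (T₂.equivFin.symm s).2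
  obtain ⟨y, hy⟩ := exists_joint_atom hw ψ hs hs' (n := n₀) hT₂pos (fun s => g2 p (fam s)) hη
    (fun y hyi => hEB T₂.card hT₂m.le fam (fun s => hne _ (hT₂ (hfam s)))
      (fun s s' hss => hLD _ (hT₂ (hfam s)) _ (hT₂ (hfam s')) fun h =>
        hss (T₂.equivFin.symm.injective (Subtype.ext h))) y hyi)
    (fun s => hcoef _ (hfam s))
  -- only the cut directions survive
  have hl : ∀ i, Surv fr p a' a (hs i) := fun i =>
    surv_left fr p hp haa (rowInd_of_ev1 fr p h1 hA h6 a) hw (hs i) (hs' i) (y i) (hy i) hlarge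
  have hr : ∀ i, Surv fr p a a' (hs' i) := fun i =>
    surv_right fr p hp haa (rowInd_of_ev1 fr p h1 hA h6 a') hw (hs i) (hs' i) (y i) (hy i) hlarge
  choose cl hcl using fun i => surv_triv fr p hp (hl i)
  choose cr hcr using fun i => surv_triv fr p hp (hr i)
  obtain ⟨β, hβ⟩ := Finset.card_pos.mp hT₂pos
  refine (hz β (hT₂ hβ)).2 ⟨⟨cl 0, cl 1, ?_⟩, ⟨cr 0, cr 1, ?_⟩⟩
  · have h2 := (hT β hβ).1
    have h3 : smm hs (g2 p β) = sm (hs 0) (gv p β.1) + sm (hs 1) (gv p β.2) := by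
      unfold smm
      rw [Fin.sum_univ_two]
      rfl
    have h4 : smm (H β) (g2 p β) - cl 0 • sm (gv p a') (gv p β.1) -
        cl 1 • sm (gv p a') (gv p β.2) = (smm (H β) (g2 p β) - smm hs (g2 p β)) +
        (sm (hs 0) (gv p β.1) - cl 0 • sm (gv p a') (gv p β.1)) +
        (sm (hs 1) (gv p β.2) - cl 1 • sm (gv p a') (gv p β.2)) := by
      rw [h3]
      abel
    have h5 := Submodule.add_mem _ (Submodule.add_mem _ h2 (hcl 0 (gv p β.1)))
      (hcl 1 (gv p β.2))
    rw [← h4] at h5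
    exact h5
  · have h2 := (hT β hβ).2
    have h3 : smm hs' (g2 p β) = sm (hs' 0) (gv p β.1) + sm (hs' 1) (gv p β.2) := by
      unfold smm
      rw [Fin.sum_univ_two]
      rfl
    have h4 : smm (H' β) (g2 p β) - cr 0 • sm (gv p a) (gv p β.1) -
        cr 1 • sm (gv p a) (gv p β.2) = (smm (H' β) (g2 p β) - smm hs' (g2 p β)) +
        (sm (hs' 0) (gv p β.1) - cr 0 • sm (gv p a) (gv p β.1)) +
        (sm (hs' 1) (gv p β.2) - cr 1 • sm (gv p a) (gv p β.2)) := by
      rw [h3]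
      abel
    have h5 := Submodule.add_mem _ (Submodule.add_mem _ h2 (hcr 0 (gv p β.1)))
      (hcr 1 (gv p β.2))
    rw [← h4] at h5
    exact h5

end LSx

end Vale.Agent.P060.HW
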