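import Vale.Agent.P060.HW.NOADef
import Vale.Agent.P060.HW.AN
import Vale.Agent.P060.HW.Ann

/-!
# OUT-A: structure of the test values of one form at several line-disjoint types
-/

open scoped Classical

noncomputable section

set_option linter.unusedSectionVars false

namespace Vale.Agent.P060.HW.NOA

open Module

section

variable {K : Type*}

lemma smz_symm (u v : K → F) : (sm u v).IsSymm := by
  show (sm u v).transpose = sm u v
  ext i j
  simp only [sm, Matrix.transpose_apply, Matrix.add_apply, Matrix.vecMulVec_apply]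
  ring

lemma smz_sum {ι : Type*} (S : Finset ι) (z : K → F) (p : ι → K → F) :
    ∑ u ∈ S, sm z (p u) = sm z (∑ u ∈ S, p u) := by
  ext i j
  rw [Matrix.sum_apply]
  simp only [an_sm_apply, Finset.sum_apply, Finset.mul_sum, Finset.sum_mul, Finset.sum_add_distrib]

lemma smz_zero (v : K → F) : sm (0 : K → F) v = 0 := by
  ext i j
  simp [an_sm_apply]

end

variable {N d : ℕ} {E P Om : Type} [Fintype E] [Fintype P] [Fintype Om] [NeZero N]

/-- Independence of the vectors of a set of lines on `P`. -/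
def Ind (p : Lin N → Co E P Om → F) (S : Finset (Lin N)) : Prop :=
  LinearIndependent F (fun u : S => fun j : P => p u (Sum.inl (Sum.inr j)))

lemma Ind.zero {p : Lin N → Co E P Om → F} {S : Finset (Lin N)} (hS : Ind p S) (f : Lin N → F)
    (hf : ∀ j : P, ∑ u ∈ S, f u * p u (Sum.inl (Sum.inr j)) = 0) : ∀ u ∈ S, f u = 0 := by
  intro u hu
  have h1 := Fintype.linearIndependent_iff.1 hS (fun u : S => f u) (by
    funext j
    rw [Finset.sum_apply]
    have h2 := hf j
    rw [← Finset.sum_coe_sort S] at h2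
    exact h2)
  exact h1 ⟨u, hu⟩

lemma lin_inj (c : Ty N d) : Function.Injective (lin c) := fun _ _ h => an_lin_inj h

lemma lin_mem (c : Ty N d) (s : Fin 3) : lin c s ∈ lins c :=
  Finset.mem_image_of_mem _ (Finset.mem_univ _)

lemma card_lins (c : Ty N d) : (lins c).card ≤ 3 :=
  Finset.card_image_le.trans (by simp)

lemma sum_lins {M : Type*} [AddCommMonoid M] (c : Ty N d) (f : Lin N → M) :
    ∑ u ∈ lins c, f u = ∑ s, f (lin c s) := by
  unfold lins
  rw [Finset.sum_image fun _ _ _ _ h => lin_inj c h]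

lemma gv_eq (p : Lin N → Co E P Om → F) (c : Ty N d) : gv p c = ∑ u ∈ lins c, p u := by
  rw [sum_lins]; rfl

/-- three pairwise line-disjoint types -/
structure D3 (a b c : Ty N d) : Prop where
  ab : Disjoint (lins a) (lins b)
  ac : Disjoint (lins a) (lins c)
  bc : Disjoint (lins b) (lins c)

lemma sum_three {M : Type*} [AddCommMonoid M] {a b c : Ty N d} (hd : D3 a b c)
    (f : Lin N → M) : ∑ u ∈ lins a ∪ lins b ∪ lins c, f u
      = ∑ u ∈ lins a, f u + ∑ u ∈ lins b, f u + ∑ u ∈ lins c, f u := by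
  rw [Finset.sum_union (Finset.disjoint_union_left.2 ⟨hd.ac, hd.bc⟩), Finset.sum_union hd.ab]

lemma card_three (a b c : Ty N d) : (lins a ∪ lins b ∪ lins c).card ≤ 9 := by
  have h1 := Finset.card_union_le (lins a ∪ lins b) (lins c)
  have h2 := Finset.card_union_le (lins a) (lins b)
  have := card_lins a
  have := card_lins b
  have := card_lins c
  omega

/-- the vectors of three line-disjoint types are independent on `P` -/
lemma gv_ind {p : Lin N → Co E P Om → F} {a b c : Ty N d} (hd : D3 a b c)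
    (hS : Ind p (lins a ∪ lins b ∪ lins c)) {α β γ : F}
    (h : ∀ j : P, α * gv p a (Sum.inl (Sum.inr j)) + β * gv p b (Sum.inl (Sum.inr j))
      + γ * gv p c (Sum.inl (Sum.inr j)) = 0) : α = 0 ∧ β = 0 ∧ γ = 0 := by
  let f : Lin N → F := fun u => if u ∈ lins a then α else if u ∈ lins b then β else γ
  have hfa : ∀ u ∈ lins a, f u = α := fun u hu => if_pos hu
  have hfb : ∀ u ∈ lins b, f u = β := fun u hu => by
    show (if u ∈ lins a then α else if u ∈ lins b then β else γ) = β
    rw [if_neg (Finset.disjoint_right.1 hd.ab hu), if_pos hu]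
  have hfc : ∀ u ∈ lins c, f u = γ := fun u hu => by
    show (if u ∈ lins a then α else if u ∈ lins b then β else γ) = γ
    rw [if_neg (Finset.disjoint_right.1 hd.ac hu), if_neg (Finset.disjoint_right.1 hd.bc hu)]
  have h0 := hS.zero f (by
    intro j
    rw [sum_three hd, ← h j, gv_eq, gv_eq, gv_eq, Finset.sum_apply, Finset.sum_apply,
      Finset.sum_apply, Finset.mul_sum, Finset.mul_sum, Finset.mul_sum]
    congr 1
    · congr 1
      · exact Finset.sum_congr rfl fun u hu => by rw [hfa u hu]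
      · exact Finset.sum_congr rfl fun u hu => by rw [hfb u hu]
    · exact Finset.sum_congr rfl fun u hu => by rw [hfc u hu])
  refine ⟨?_, ?_, ?_⟩
  · rw [← hfa _ (lin_mem a 0)]
    exact h0 _ (Finset.mem_union_left _ (Finset.mem_union_left _ (lin_mem a 0)))
  · rw [← hfb _ (lin_mem b 0)]
    exact h0 _ (Finset.mem_union_left _ (Finset.mem_union_right _ (lin_mem b 0)))
  · rw [← hfc _ (lin_mem c 0)]
    exact h0 _ (Finset.mem_union_right _ (lin_mem c 0))

lemma F_two_ne : (2 : F) ≠ 0 := by decide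

/-- The structure of trivial tensors on three line-disjoint types. -/
lemma struct (fr : Frame N d E Om) (p : Lin N → Co E P Om → F) (h : Ext fr p) {a b b' : Ty N d}
    (hd : D3 a b b') (hS : Ind p (lins a ∪ lins b ∪ lins b'))
    (hw : ∀ w, Ind p (lins a ∪ lins b ∪ lins b' ∪ rowLines fr w))
    (z z' : Co E P Om → F) (hz : sm z (gv p b) + sm z' (gv p b') ∈ (dsg fr p h).Nn a) :
    ∃ c c' c'' : F,
      (∀ j : E ⊕ P, z (Sum.inl j) = c * gv p a (Sum.inl j) + c' * gv p b' (Sum.inl j)) ∧
      (∀ w, w ∉ fr.U a → w ∉ fr.U b →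
        z (Sum.inr w) = c * gv p a (Sum.inr w) + c' * gv p b' (Sum.inr w)) ∧
      (∀ j : E ⊕ P, z' (Sum.inl j) = c'' * gv p a (Sum.inl j) - c' * gv p b (Sum.inl j)) := by
  set S := lins a ∪ lins b ∪ lins b' with hSdef
  have haS : ∀ u ∈ lins a, u ∈ S := fun u hu =>
    Finset.mem_union_left _ (Finset.mem_union_left _ hu)
  have hbS : ∀ u ∈ lins b, u ∈ S := fun u hu =>
    Finset.mem_union_left _ (Finset.mem_union_right _ hu)
  have hbS' : ∀ u ∈ lins b', u ∈ S := fun u hu => Finset.mem_union_right _ hu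
  let zz : Lin N → Co E P Om → F := fun u => if u ∈ lins b then z else if u ∈ lins b' then z' else 0
  have hza : ∀ u ∈ lins a, zz u = 0 := fun u hu => by
    show (if u ∈ lins b then z else if u ∈ lins b' then z' else 0) = 0
    rw [if_neg (Finset.disjoint_left.1 hd.ab hu), if_neg (Finset.disjoint_left.1 hd.ac hu)]
  have hzb : ∀ u ∈ lins b, zz u = z := fun u hu => if_pos hu
  have hzb' : ∀ u ∈ lins b', zz u = z' := fun u hu => by
    show (if u ∈ lins b then z else if u ∈ lins b' then z' else 0) = z'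
    rw [if_neg (Finset.disjoint_right.1 hd.bc hu), if_pos hu]
  have hsum : ∑ u ∈ S, sm (zz u) (p u) ∈ (dsg fr p h).Nn a := by
    have h1 : ∑ u ∈ S, sm (zz u) (p u) = sm z (gv p b) + sm z' (gv p b') := by
      rw [hSdef, sum_three hd, Finset.sum_congr rfl fun u hu => by rw [hza u hu, smz_zero],
        Finset.sum_const_zero, zero_add,
        Finset.sum_congr rfl fun u (hu : u ∈ lins b) => by rw [hzb u hu],
        Finset.sum_congr rfl fun u (hu : u ∈ lins b') => by rw [hzb' u hu],
        smz_sum, smz_sum, ← gv_eq, ← gv_eq]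
    rw [h1]; exact hz
  obtain ⟨y, c, x, hc1, hc2, hx, hE, hR⟩ := an N d E P Om fr p h a S
    (fun s => haS _ (lin_mem a s)) hS (fun w _ => hw w) zz hsum
  -- blocks
  have hblk : ∀ t : Ty N d, (∀ u ∈ lins t, u ∈ S) →
      (∀ u ∈ lins t, ∀ u' ∈ lins t, zz u = zz u') → (∀ u ∈ lins t, ∀ u' ∈ lins t,
        (u ∈ lins a ↔ u' ∈ lins a)) → ∀ u ∈ lins t, ∀ u' ∈ lins t, ∀ v ∈ S, c u v = c u' v := by
    intro t htS hzt hta u hu u' hu' v hv
    have h1 := hS.zero (fun v => c u v - c u' v) (by
      intro j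
      have h2 := hE u (htS u hu) (Sum.inr j)
      have h3 := hE u' (htS u' hu') (Sum.inr j)
      have h4 : (if u ∈ lins a then y (Sum.inl (Sum.inr j)) else 0)
          = if u' ∈ lins a then y (Sum.inl (Sum.inr j)) else 0 := by
        simp only [hta u hu u' hu']
      rw [hzt u hu u' hu', h3, h4] at h2
      have h5 := add_left_cancel h2
      simp only [sub_mul, Finset.sum_sub_distrib]
      rw [h5, sub_self]) v hv
    exact sub_eq_zero.1 h1
  have hA := hblk a haS (fun u hu u' hu' => by rw [hza u hu, hza u' hu'])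
    (fun u hu u' hu' => by simp only [hu, hu'])
  have hB := hblk b hbS (fun u hu u' hu' => by rw [hzb u hu, hzb u' hu'])
    (fun u hu u' hu' => by
      simp only [Finset.disjoint_right.1 hd.ab hu, Finset.disjoint_right.1 hd.ab hu'])
  have hB' := hblk b' hbS' (fun u hu u' hu' => by rw [hzb' u hu, hzb' u' hu'])
    (fun u hu u' hu' => by
      simp only [Finset.disjoint_right.1 hd.ac hu, Finset.disjoint_right.1 hd.ac hu'])
  have hdiag : ∀ v, c v v = 0 := by
    intro v
    have h1 := hc1 v v
    have h2 : 2 * c v v = 0 := by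
      rw [two_mul]
      nth_rewrite 1 [h1]
      ring
    exact (mul_eq_zero.1 h2).resolve_left F_two_ne
  -- columns
  have hcol : ∀ (t : Ty N d), (∀ u ∈ lins t, u ∈ S) →
      (∀ u ∈ lins t, ∀ u' ∈ lins t, ∀ v ∈ S, c u v = c u' v) →
      ∀ v ∈ S, ∀ i, ∑ u ∈ lins t, c v u * p u i = c v (lin t 0) * gv p t i := by
    intro t htS ht v hv i
    rw [gv_eq, Finset.sum_apply, Finset.mul_sum]
    refine Finset.sum_congr rfl fun u hu => ?_
    rw [hc1 v u, ht u hu (lin t 0) (lin_mem t 0) v hv, ← hc1 v (lin t 0)]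
  have hsumS : ∀ v ∈ S, ∀ i, ∑ u ∈ S, c v u * p u i = c v (lin a 0) * gv p a i
      + c v (lin b 0) * gv p b i + c v (lin b' 0) * gv p b' i := by
    intro v hv i
    rw [hSdef, sum_three hd, hcol a haS hA v hv i, hcol b hbS hB v hv i, hcol b' hbS' hB' v hv i]
  have hb0 := hbS _ (lin_mem b 0)
  have hb0' := hbS' _ (lin_mem b' 0)
  refine ⟨c (lin b 0) (lin a 0), c (lin b 0) (lin b' 0), c (lin b' 0) (lin a 0), ?_, ?_, ?_⟩
  · intro j
    have h1 := hE _ hb0 j
    rw [hzb _ (lin_mem b 0), if_neg (Finset.disjoint_right.1 hd.ab (lin_mem b 0)), zero_add,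
      hsumS _ hb0, hdiag, zero_mul, add_zero] at h1
    exact h1
  · intro w hwa hwb
    have hX : ∀ s, z (Sum.inr w) = (c (lin b 0) (lin a 0) * gv p a (Sum.inr w)
        + c (lin b 0) (lin b' 0) * gv p b' (Sum.inr w))
        + ∑ t, x w t * (if lin b s ∈ lins t then 1 else 0) := by
      intro s
      have h1 := hR _ (hbS _ (lin_mem b s)) w hwa
      rw [hzb _ (lin_mem b s), if_neg (Finset.disjoint_right.1 hd.ab (lin_mem b s)), zero_add,
        hsumS _ (hbS _ (lin_mem b s)), hB _ (lin_mem b s) _ (lin_mem b 0) _ (haS _ (lin_mem a 0)),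
        hB _ (lin_mem b s) _ (lin_mem b 0) _ hb0, hB _ (lin_mem b s) _ (lin_mem b 0) _ hb0',
        hdiag, zero_mul, add_zero] at h1
      exact h1
    have hX01 := (hX 0).symm.trans (hX 1)
    have hX01' := add_left_cancel hX01
    have h0 : ∑ t, x w t * (if lin b 0 ∈ lins t then (1 : F) else 0) = 0 := by
      by_contra hne
      have hne1 : ∑ t, x w t * (if lin b 1 ∈ lins t then (1 : F) else 0) ≠ 0 := by
        rw [← hX01']; exact hne
      obtain ⟨t0, -, ht0⟩ := Finset.exists_ne_zero_of_sum_ne_zero hne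
      obtain ⟨t1, -, ht1⟩ := Finset.exists_ne_zero_of_sum_ne_zero hne1
      have hx0 : x w t0 ≠ 0 := left_ne_zero_of_mul ht0
      have hx1 : x w t1 ≠ 0 := left_ne_zero_of_mul ht1
      have hl0 : lin b 0 ∈ lins t0 := by
        by_contra hh
        rw [if_neg hh, mul_zero] at ht0
        exact ht0 rfl
      have hl1 : lin b 1 ∈ lins t1 := by
        by_contra hh
        rw [if_neg hh, mul_zero] at ht1
        exact ht1 rfl
      have e0 : ln b 0 = ln t0 0 := by
        obtain ⟨s, hs⟩ := an_mem_lins.1 hl0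
        have h1 : s = 0 := congrArg Prod.fst hs
        subst h1
        exact (congrArg Prod.snd hs).symm
      have e1 : ln b 1 = ln t1 1 := by
        obtain ⟨s, hs⟩ := an_mem_lins.1 hl1
        have h1 : s = 1 := congrArg Prod.fst hs
        subst h1
        exact (congrArg Prod.snd hs).symm
      have hU0 := (hx w t0 hx0).1
      have hU1 := (hx w t1 hx1).1
      by_cases htt : t0 = t1
      · subst htt
        have := fr.share_two b t0 0 1 (by decide) e0 e1
        exact hwb (this ▸ hU0)
      · exact Finset.disjoint_left.1 (fr.star_disj b t0 t1 0 1 htt e0 e1) hU0 hU1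
    rw [hX 0, h0, add_zero]
  · intro j
    have h1 := hE _ hb0' j
    rw [hzb' _ (lin_mem b' 0), if_neg (Finset.disjoint_right.1 hd.ac (lin_mem b' 0)), zero_add,
      hsumS _ hb0', hdiag, zero_mul, add_zero, hc1 (lin b' 0) (lin b 0), neg_mul,
      ← sub_eq_add_neg] at h1
    exact h1

end Vale.Agent.P060.HW.NOA
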