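import Vale.Agent.P060.HW.NOA1

/-!
# OUT-A: the test maps of one type, their ranges and common functionals
-/

open scoped Classical

noncomputable section

set_option linter.unusedSectionVars false

namespace Vale.Agent.P060.HW.NOA

open Module

variable {N d : ℕ} {E P Om : Type} [Fintype E] [Fintype P] [Fintype Om] [NeZero N]

/-- The independence used here. -/
structure HI (fr : Frame N d E Om) (p : Lin N → Co E P Om → F) : Prop where
  one : ∀ S : Finset (Lin N), S.card ≤ 9 → Ind p S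
  row : ∀ S : Finset (Lin N), S.card ≤ 9 → ∀ w, Ind p (S ∪ rowLines fr w)

lemma HI.of_ev {fr : Frame N d E Om} {p : Lin N → Co E P Om → F} {κ : ℕ} (h12 : 12 ≤ κ)
    (hr : ∀ w, 12 + (rowLines fr w).card ≤ κ) (h1 : Ev1 p κ) : HI fr p where
  one := fun S hS => h1 S (by omega)
  row := fun S hS w => h1 _ ((Finset.card_union_le _ _).trans (by
    have := hr w
    omega))

lemma D3.symm {a b c : Ty N d} (h : D3 a b c) : D3 a c b := ⟨h.ac, h.ab, h.bc.symm⟩

/-- The dot product only sees the coordinates where the second vector can be nonzero. -/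
lemma dot_good {a b : Ty N d} {fr : Frame N d E Om} {z z2 v : Co E P Om → F}
    (h1 : ∀ j : E ⊕ P, z (Sum.inl j) = z2 (Sum.inl j))
    (h2 : ∀ w, w ∉ fr.U a → w ∉ fr.U b → z (Sum.inr w) = z2 (Sum.inr w))
    (hv : ∀ w, w ∈ fr.U a ∨ w ∈ fr.U b → v (Sum.inr w) = 0) : z ⬝ᵥ v = z2 ⬝ᵥ v := by
  unfold dotProduct
  refine Finset.sum_congr rfl fun j _ => ?_
  rcases j with j | w
  · rw [h1]
  · by_cases h3 : w ∈ fr.U a ∨ w ∈ fr.U b
    · rw [hv w h3, mul_zero, mul_zero]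
    · rw [h2 w (fun h4 => h3 (Or.inl h4)) (fun h4 => h3 (Or.inr h4))]

variable (fr : Frame N d E Om) (p : Lin N → Co E P Om → F) (h : Ext fr p)

/-- The test map of type `a` at the type `b`. -/
def Lm (a b : Ty N d) : Matrix (Co E P Om) (Co E P Om) F →ₗ[F] (Co E P Om → F) where
  toFun Q := ((dsg fr p h).proj a Q : Matrix (Co E P Om) (Co E P Om) F).mulVec (gv p b)
  map_add' Q Q' := by
    rw [map_add, Submodule.coe_add, Matrix.add_mulVec]
  map_smul' c Q := by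
    rw [map_smul, Submodule.coe_smul, Matrix.smul_mulVec, RingHom.id_apply]

lemma Lm_apply (a b : Ty N d) (Q : Matrix (Co E P Om) (Co E P Om) F) :
    Lm fr p h a b Q = ((dsg fr p h).proj a Q : Matrix (Co E P Om) (Co E P Om) F).mulVec (gv p b) :=
  rfl

/-- The range of the test map. -/
def Wab (a b : Ty N d) : Submodule F (Co E P Om → F) where
  carrier := {v | gv p a ⬝ᵥ v = 0 ∧ ∀ w, w ∈ fr.U a ∨ w ∈ fr.U b → v (Sum.inr w) = 0}
  zero_mem' := ⟨dotProduct_zero _, fun _ _ => rfl⟩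
  add_mem' := by
    rintro u v ⟨h1, h2⟩ ⟨h3, h4⟩
    refine ⟨by rw [dotProduct_add, h1, h3, add_zero], fun w hw => ?_⟩
    rw [Pi.add_apply, h2 w hw, h4 w hw, add_zero]
  smul_mem' := by
    rintro c v ⟨h1, h2⟩
    refine ⟨by rw [dotProduct_smul, h1, smul_zero], fun w hw => ?_⟩
    rw [Pi.smul_apply, h2 w hw, smul_zero]

variable {fr p}

lemma mem_Wab {a b : Ty N d} {v : Co E P Om → F} : v ∈ Wab fr p a b ↔
    gv p a ⬝ᵥ v = 0 ∧ ∀ w, w ∈ fr.U a ∨ w ∈ fr.U b → v (Sum.inr w) = 0 := Iff.rfl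

lemma mem_U_dsg {a : Ty N d} {w : Om} (hw : w ∈ fr.U a) : Sum.inr w ∈ (dsg fr p h).U a :=
  Finset.mem_image_of_mem _ hw

lemma mulVec_mem_Wab {a b : Ty N d} {B : Matrix (Co E P Om) (Co E P Om) F}
    (hB : B ∈ (dsg fr p h).Dir a) : B.mulVec (gv p b) ∈ Wab fr p a b := by
  refine ⟨?_, fun w hw => ?_⟩
  · rw [Design.symm_dot hB.1.1]
    have h1 : B.mulVec (gv p a) = 0 := hB.2.2
    rw [h1, dotProduct_zero]
  · rcases hw with hw | hw
    · unfold Matrix.mulVec dotProduct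
      refine Finset.sum_eq_zero fun j _ => ?_
      show B (Sum.inr w) j * gv p b j = 0
      rw [hB.2.1 _ (mem_U_dsg h hw) j, zero_mul]
    · exact hB.1.2 b _ (mem_U_dsg h hw)

lemma Lm_mem (a b : Ty N d) (Q : Matrix (Co E P Om) (Co E P Om) F) :
    Lm fr p h a b Q ∈ Wab fr p a b := mulVec_mem_Wab h ((dsg fr p h).proj a Q).2

lemma Lm_of_dir {a b : Ty N d} {B : Matrix (Co E P Om) (Co E P Om) F}
    (hB : B ∈ (dsg fr p h).Dir a) : Lm fr p h a b B = B.mulVec (gv p b) := by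
  rw [Lm_apply]
  have h1 := (dsg fr p h).proj_apply a ⟨B, hB⟩
  rw [h1]

/-- A symmetric tensor killing all directions is trivial. -/
lemma mem_Nn {a b b' : Ty N d} {z z' : Co E P Om → F}
    (hz : ∀ Q, z ⬝ᵥ Lm fr p h a b Q + z' ⬝ᵥ Lm fr p h a b' Q = 0) :
    sm z (gv p b) + sm z' (gv p b') ∈ (dsg fr p h).Nn a := by
  refine annConverse _ _ (dsg fr p h) a _ ?_ fun B hB => ?_
  · exact (smz_symm _ _).add (smz_symm _ _)
  · rw [ann_pr_add, ann_pr_sm hB.1.1, ann_pr_sm hB.1.1, ← mul_add]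
    have h1 := hz B
    rw [Lm_of_dir h hB, Lm_of_dir h hB] at h1
    rw [h1, mul_zero]

/-- every functional is a dot product -/
lemma exists_dot {K : Type*} [Fintype K] (f : (K → F) →ₗ[F] F) : ∃ z : K → F, ∀ v, f v = z ⬝ᵥ v := by
  refine ⟨fun j => f (Pi.single j 1), fun v => ?_⟩
  unfold dotProduct
  rw [LinearMap.pi_apply_eq_sum_univ f v]
  refine Finset.sum_congr rfl fun j _ => ?_
  rw [smul_eq_mul, mul_comm]
  congr 2
  funext i
  rw [Pi.single_apply]
  by_cases hij : i = j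
  · rw [if_pos hij, if_pos hij.symm]
  · rw [if_neg hij, if_neg (Ne.symm hij)]

/-- one common form of the structure lemma -/
lemma struct' (hI : HI fr p) {a b b' : Ty N d} (hd : D3 a b b') {z z' : Co E P Om → F}
    (hz : ∀ Q, z ⬝ᵥ Lm fr p h a b Q + z' ⬝ᵥ Lm fr p h a b' Q = 0) :
    ∃ c c' c'' : F,
      (∀ j : E ⊕ P, z (Sum.inl j) = c * gv p a (Sum.inl j) + c' * gv p b' (Sum.inl j)) ∧
      (∀ w, w ∉ fr.U a → w ∉ fr.U b →
        z (Sum.inr w) = c * gv p a (Sum.inr w) + c' * gv p b' (Sum.inr w)) ∧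
      (∀ j : E ⊕ P, z' (Sum.inl j) = c'' * gv p a (Sum.inl j) - c' * gv p b (Sum.inl j)) :=
  struct fr p h hd (hI.one _ (card_three a b b')) (hI.row _ (card_three a b b')) z z' (mem_Nn h hz)

lemma range_Lm (hI : HI fr p) {a b b' : Ty N d} (hd : D3 a b b') :
    LinearMap.range (Lm fr p h a b) = Wab fr p a b := by
  refine le_antisymm ?_ ?_
  · rintro _ ⟨Q, rfl⟩
    exact Lm_mem h a b Q
  · intro v hv
    by_contra hcon
    obtain ⟨f, hf, hle⟩ := Submodule.exists_le_ker_of_notMem hcon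
    obtain ⟨z, hz⟩ := exists_dot f
    have h1 : ∀ Q, z ⬝ᵥ Lm fr p h a b Q + (0 : Co E P Om → F) ⬝ᵥ Lm fr p h a b' Q = 0 := by
      intro Q
      rw [zero_dotProduct, add_zero, ← hz]
      exact hle ⟨Q, rfl⟩
    obtain ⟨c, c', c'', e1, e2, e3⟩ := struct' h hI hd h1
    have h2 : c' = 0 := by
      have h3 := gv_ind hd (hI.one _ (card_three a b b')) (α := c'') (β := -c') (γ := 0) (by
        intro j
        have := e3 (Sum.inr j)
        rw [Pi.zero_apply] at this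
        rw [zero_mul, add_zero, neg_mul, ← sub_eq_add_neg]
        exact this.symm)
      exact neg_eq_zero.1 h3.2.1
    have h4 : z ⬝ᵥ v = (c • gv p a) ⬝ᵥ v := by
      refine dot_good (fr := fr) (a := a) (b := b) ?_ ?_ hv.2
      · intro j
        rw [e1, h2, zero_mul, add_zero]; rfl
      · intro w hwa hwb
        rw [e2 w hwa hwb, h2, zero_mul, add_zero]; rfl
    apply hf
    rw [hz, h4, smul_dotProduct, hv.1, smul_zero]

/-- A functional which comes from three different test maps is zero. -/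
lemma triple (hI : HI fr p) {a b₁ b₂ b₃ : Ty N d} (h12 : D3 a b₁ b₂) (h13 : D3 a b₁ b₃)
    (h23 : D3 a b₂ b₃) {z₁ z₂ z₃ : Co E P Om → F}
    (e2 : ∀ Q, z₁ ⬝ᵥ Lm fr p h a b₁ Q = z₂ ⬝ᵥ Lm fr p h a b₂ Q)
    (e3 : ∀ Q, z₁ ⬝ᵥ Lm fr p h a b₁ Q = z₃ ⬝ᵥ Lm fr p h a b₃ Q) :
    ∀ Q, z₁ ⬝ᵥ Lm fr p h a b₁ Q = 0 := by
  obtain ⟨c, c', -, f1, f2, -⟩ := struct' h hI h12 (z := z₁) (z' := -z₂) (by
    intro Q
    rw [neg_dotProduct, e2, add_neg_cancel])
  obtain ⟨k, k', -, g1, -, -⟩ := struct' h hI h13 (z := z₁) (z' := -z₃) (by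
    intro Q
    rw [neg_dotProduct, e3, add_neg_cancel])
  have h3 := gv_ind h23 (hI.one _ (card_three a b₂ b₃)) (α := c - k) (β := c') (γ := -k') (by
    intro j
    have h4 := f1 (Sum.inr j)
    have h5 := g1 (Sum.inr j)
    rw [h4] at h5
    linear_combination h5)
  intro Q
  have hv := Lm_mem h a b₁ Q
  have h4 : z₁ ⬝ᵥ Lm fr p h a b₁ Q = (c • gv p a) ⬝ᵥ Lm fr p h a b₁ Q := by
    refine dot_good (fr := fr) (a := a) (b := b₁) ?_ ?_ hv.2
    · intro j
      rw [f1, h3.2.1, zero_mul, add_zero]; rfl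
    · intro w hwa hwb
      rw [f2 w hwa hwb, h3.2.1, zero_mul, add_zero]; rfl
  rw [h4, smul_dotProduct, hv.1, smul_zero]

end Vale.Agent.P060.HW.NOA
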