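import Mathlib

/-!
# OUT-A: counting lemmas (second moments, overlap of two near uniform functions, choice of a pair)
-/

open scoped Classical

noncomputable section

set_option linter.unusedSectionVars false

namespace Vale.Agent.P060.HW.NOA

open Module

/-- Two functions which are near constant in mean square have a large overlap. -/
theorem l2_overlap {V : Type*} (R : Finset V) (f g : V → ℝ) {α β : ℝ} (hf : ∀ v, 0 ≤ f v)
    (hg : ∀ v, 0 ≤ g v) (hα : 0 < α) (hβ : 0 < β)
    (h1 : 16 * ∑ v ∈ R, (f v - α) ^ 2 ≤ α ^ 2 * R.card)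
    (h2 : 16 * ∑ v ∈ R, (g v - β) ^ 2 ≤ β ^ 2 * R.card) :
    α * β * R.card ≤ 8 * ∑ v ∈ R, f v * g v := by
  have hpt : ∀ v, α * β / 4 - β / α * (f v - α) ^ 2 - α / β * (g v - β) ^ 2 ≤ f v * g v := by
    intro v
    have h3 : 0 ≤ β / α * (f v - α) ^ 2 := by positivity
    have h4 : 0 ≤ α / β * (g v - β) ^ 2 := by positivity
    have h5 := mul_nonneg (hf v) (hg v)
    rcases lt_or_ge (f v) (α / 2) with h6 | h6
    · have h7 : α ^ 2 / 4 ≤ (f v - α) ^ 2 := by nlinarith [hf v]
      have h8 : α * β / 4 ≤ β / α * (f v - α) ^ 2 := by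
        calc α * β / 4 = β / α * (α ^ 2 / 4) := by field_simp
          _ ≤ _ := mul_le_mul_of_nonneg_left h7 (by positivity)
      linarith
    · rcases lt_or_ge (g v) (β / 2) with h7 | h7
      · have h8 : β ^ 2 / 4 ≤ (g v - β) ^ 2 := by nlinarith [hg v]
        have h9 : α * β / 4 ≤ α / β * (g v - β) ^ 2 := by
          calc α * β / 4 = α / β * (β ^ 2 / 4) := by field_simp
            _ ≤ _ := mul_le_mul_of_nonneg_left h8 (by positivity)
        linarith
      · have h8 : α / 2 * (β / 2) ≤ f v * g v :=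
          mul_le_mul h6 h7 (by positivity) (hf v)
        linarith
  have hs := Finset.sum_le_sum fun v (_ : v ∈ R) => hpt v
  rw [Finset.sum_sub_distrib, Finset.sum_sub_distrib, Finset.sum_const, nsmul_eq_mul,
    ← Finset.mul_sum, ← Finset.mul_sum] at hs
  have h3 : β / α * ∑ v ∈ R, (f v - α) ^ 2 ≤ α * β * R.card / 16 := by
    calc β / α * ∑ v ∈ R, (f v - α) ^ 2 ≤ β / α * (α ^ 2 * R.card / 16) :=
          mul_le_mul_of_nonneg_left (by linarith) (by positivity)
      _ = α * β * R.card / 16 := by field_simp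
  have h4 : α / β * ∑ v ∈ R, (g v - β) ^ 2 ≤ α * β * R.card / 16 := by
    calc α / β * ∑ v ∈ R, (g v - β) ^ 2 ≤ α / β * (β ^ 2 * R.card / 16) :=
          mul_le_mul_of_nonneg_left (by linarith) (by positivity)
      _ = α * β * R.card / 16 := by field_simp
  have h5 : (R.card : ℝ) * (α * β / 4) = α * β * R.card / 4 := by ring
  rw [h5] at hs
  linarith

section cnt

variable {V W : Type*} [Fintype V] [Fintype W]

/-- number of elements of `A` with value `v` -/
def cnt (L : V → W) (A : Finset V) (v : W) : ℝ := ((A.filter fun Q => L Q = v).card : ℝ)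

lemma cnt_nonneg (L : V → W) (A : Finset V) (v : W) : 0 ≤ cnt L A v := Nat.cast_nonneg _

lemma cnt_eq_sum (L : V → W) (A : Finset V) (v : W) :
    cnt L A v = ∑ Q ∈ A, if L Q = v then (1 : ℝ) else 0 := by
  unfold cnt
  rw [Finset.card_filter, Nat.cast_sum]
  exact Finset.sum_congr rfl fun Q _ => by split_ifs <;> simp

lemma sum_cnt (L : V → W) (A : Finset V) : ∑ v, cnt L A v = A.card := by
  simp_rw [cnt_eq_sum]
  rw [Finset.sum_comm]
  simp

/-- the number of pairs with equal values -/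
def prs (L : V → W) (A : Finset V) : ℝ := (((A ×ˢ A).filter fun x => L x.1 = L x.2).card : ℝ)

lemma prs_eq (L : V → W) (A : Finset V) (inst : DecidablePred fun x : V × V => L x.1 = L x.2) :
    (((@Finset.filter _ (fun x : V × V => L x.1 = L x.2) inst (A ×ˢ A)).card : ℕ) : ℝ)
      = prs L A := by
  unfold prs
  rw [Subsingleton.elim inst (fun x => Classical.propDecidable _)]

lemma sum_cnt_sq (L : V → W) (A : Finset V) : ∑ v, cnt L A v ^ 2 = prs L A := by
  have h1 : prs L A = ∑ x ∈ A, ∑ y ∈ A, if L x = L y then (1 : ℝ) else 0 := by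
    unfold prs
    rw [Finset.card_filter, Nat.cast_sum, Finset.sum_product]
    exact Finset.sum_congr rfl fun x _ => Finset.sum_congr rfl fun y _ => by
      split_ifs <;> simp
  rw [h1]
  have h2 : ∀ v, cnt L A v ^ 2 = ∑ x ∈ A, ∑ y ∈ A,
      if L x = v then (if L y = v then (1 : ℝ) else 0) else 0 := by
    intro v
    rw [sq, cnt_eq_sum, Finset.sum_mul]
    refine Finset.sum_congr rfl fun x _ => ?_
    rw [Finset.mul_sum]
    refine Finset.sum_congr rfl fun y _ => ?_
    split_ifs <;> simp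
  simp_rw [h2]
  rw [Finset.sum_comm]
  refine Finset.sum_congr rfl fun x _ => ?_
  rw [Finset.sum_comm]
  refine Finset.sum_congr rfl fun y _ => ?_
  rw [Finset.sum_ite_eq Finset.univ (L x) (fun v => if L y = v then (1 : ℝ) else 0)]
  rw [if_pos (Finset.mem_univ _)]
  simp only [eq_comm]

/-- second moment on a finite set containing the range -/
lemma l2_dev (L : V → W) (A : Finset V) (Rg : Finset W) (hRg : ∀ Q, L Q ∈ Rg)
    (h0 : 0 < Rg.card) :
    (Rg.card : ℝ) * ∑ v ∈ Rg, (cnt L A v - A.card / Rg.card) ^ 2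
      = Rg.card * prs L A - (A.card : ℝ) ^ 2 := by
  have hw : (Rg.card : ℝ) ≠ 0 := by positivity
  have hout : ∀ v, v ∉ Rg → cnt L A v = 0 := by
    intro v hv
    unfold cnt
    rw [Finset.card_eq_zero.2, Nat.cast_zero]
    refine Finset.filter_eq_empty_iff.2 fun Q _ hQ => hv (hQ ▸ hRg Q)
  have h1 : ∑ v ∈ Rg, cnt L A v = A.card := by
    rw [← sum_cnt L A]
    exact Finset.sum_subset (Finset.subset_univ _) fun v _ hv => hout v hv
  have h2 : ∑ v ∈ Rg, cnt L A v ^ 2 = prs L A := by
    rw [← sum_cnt_sq L A]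
    exact Finset.sum_subset (Finset.subset_univ _) fun v _ hv => by rw [hout v hv]; ring
  have h3 : ∑ v ∈ Rg, (cnt L A v - A.card / Rg.card) ^ 2 = ∑ v ∈ Rg, cnt L A v ^ 2
      - 2 * (A.card / Rg.card) * ∑ v ∈ Rg, cnt L A v + Rg.card * (A.card / Rg.card : ℝ) ^ 2 := by
    rw [Finset.mul_sum, ← Finset.sum_sub_distrib, ← nsmul_eq_mul, ← Finset.sum_const,
      ← Finset.sum_add_distrib]
    exact Finset.sum_congr rfl fun v _ => by ring
  rw [h3, h1, h2]
  field_simp
  ring

lemma sum_shift_le [AddCommGroup W] (f : W → ℝ) (hf : ∀ v, 0 ≤ f v) (R Rg : Finset W) (v₁ : W)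
    (hR : ∀ v ∈ R, v - v₁ ∈ Rg) : ∑ v ∈ R, f (v - v₁) ≤ ∑ v ∈ Rg, f v := by
  have h1 : ∑ v ∈ R, f (v - v₁) = ∑ u ∈ R.image (fun v => v - v₁), f u := by
    rw [Finset.sum_image]
    intro x _ y _ hxy
    exact sub_left_injective hxy
  rw [h1]
  refine Finset.sum_le_sum_of_subset_of_nonneg ?_ fun v _ _ => hf v
  intro u hu
  obtain ⟨v, hv, rfl⟩ := Finset.mem_image.1 hu
  exact hR v hv

end cnt

/-- A directed graph with small out-degrees on many vertices has a pair without edges. -/
theorem exists_pair {T : Type*} [DecidableEq T] (S : Finset T) (bad : T → T → Prop) (m : ℕ)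
    (hm : ∀ a ∈ S, ((S.erase a).filter fun b => bad a b).card ≤ m) (hS : 2 * m + 2 ≤ S.card) :
    ∃ a ∈ S, ∃ b ∈ S, a ≠ b ∧ ¬ bad a b ∧ ¬ bad b a := by
  by_contra hcon
  push Not at hcon
  have h1 : S.offDiag ⊆ (S.sigma fun a => (S.erase a).filter fun b => bad a b).image
      (fun x => (x.1, x.2)) ∪ (S.sigma fun a => (S.erase a).filter fun b => bad a b).image
      (fun x => (x.2, x.1)) := by
    rintro ⟨a, b⟩ hab
    rw [Finset.mem_offDiag] at hab
    obtain ⟨ha, hb, hne⟩ := hab
    rw [Finset.mem_union, Finset.mem_image, Finset.mem_image]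
    by_cases hb1 : bad a b
    · left
      exact ⟨⟨a, b⟩, Finset.mem_sigma.2 ⟨ha, Finset.mem_filter.2
        ⟨Finset.mem_erase.2 ⟨fun h => hne h.symm, hb⟩, hb1⟩⟩, rfl⟩
    · right
      exact ⟨⟨b, a⟩, Finset.mem_sigma.2 ⟨hb, Finset.mem_filter.2
        ⟨Finset.mem_erase.2 ⟨hne, ha⟩, hcon a ha b hb hne hb1⟩⟩, rfl⟩
  have h2 : (S.sigma fun a => (S.erase a).filter fun b => bad a b).card ≤ S.card * m := by
    rw [Finset.card_sigma]
    refine (Finset.sum_le_sum hm).trans ?_
    rw [Finset.sum_const, smul_eq_mul]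
  have h3 := (Finset.card_le_card h1).trans (Finset.card_union_le _ _)
  have h4 := h3.trans (Nat.add_le_add (Finset.card_image_le.trans h2)
    (Finset.card_image_le.trans h2))
  rw [Finset.offDiag_card] at h4
  have h5 : 0 < S.card := by omega
  have h6 : S.card * S.card ≤ S.card * (2 * m + 1) := by
    have h7 : S.card * S.card ≤ S.card * m + S.card * m + S.card := by omega
    calc S.card * S.card ≤ S.card * m + S.card * m + S.card := h7
      _ = S.card * (2 * m + 1) := by ring
  have h8 := Nat.le_of_mul_le_mul_left h6 h5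
  omega

end Vale.Agent.P060.HW.NOA
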