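import Vale.Agent.P060.HW.NOA2
import Vale.Agent.P060.HW.AtomCut

/-!
# OUT-A: the overlap of two cosets of ranges
-/

open scoped Classical

noncomputable section

set_option linter.unusedSectionVars false

namespace Vale.Agent.P060.HW.NOA

open Module

namespace NOAImg

variable {N d : ℕ} {E P Om : Type} [Fintype E] [Fintype P] [Fintype Om] [NeZero N]

/-- Vectors vanishing on the zero rows of `a` and `b`. -/
def WW (fr : Frame N d E Om) (P : Type) (a b : Ty N d) : Submodule F (Co E P Om → F) where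
  carrier := {m | ∀ w, w ∈ fr.U a ∨ w ∈ fr.U b → m (Sum.inr w) = 0}
  zero_mem' := fun _ _ => rfl
  add_mem' := fun {m m'} h h' w hw => by
    rw [Pi.add_apply, h w hw, h' w hw, add_zero]
  smul_mem' := fun c m h w hw => by
    rw [Pi.smul_apply, h w hw, smul_zero]

variable {fr : Frame N d E Om} {p : Lin N → Co E P Om → F}

/-- Dual vectors of `g_a`, `g_b` on `P`. -/
lemma exists_dual (hI : HI fr p) {a b b2 : Ty N d} (hd : D3 a b b2)
    (s t : F) : ∃ α : P → F, (∑ j, α j * gv p a (Sum.inl (Sum.inr j)) = s) ∧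
      (∑ j, α j * gv p b (Sum.inl (Sum.inr j)) = t) := by
  set g : Fin 2 → P → F := ![fun j => gv p a (Sum.inl (Sum.inr j)),
    fun j => gv p b (Sum.inl (Sum.inr j))] with hg
  have hM : IndMod ⊥ g := by
    intro c hc
    rw [Submodule.mem_bot, Fin.sum_univ_two] at hc
    have key := gv_ind hd (hI.one _ (card_three a b b2)) (α := c 0) (β := c 1) (γ := 0) (by
      intro j
      rw [zero_mul, add_zero]
      exact congrFun hc j)
    funext i
    fin_cases i
    · exact key.1
    · exact key.2.1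
  obtain ⟨α, -, hα⟩ := exists_vals hM ![s, t]
  refine ⟨α, ?_, ?_⟩
  · have := hα 0
    rw [dotProduct_comm] at this
    exact this
  · have := hα 1
    rw [dotProduct_comm] at this
    exact this

/-- The two products with `g_a`, `g_b`. -/
def Ph (fr : Frame N d E Om) (p : Lin N → Co E P Om → F) (a b : Ty N d) :
    WW fr P a b →ₗ[F] F × F where
  toFun m := (gv p a ⬝ᵥ (m : Co E P Om → F), gv p b ⬝ᵥ (m : Co E P Om → F))
  map_add' m m' := by
    rw [Submodule.coe_add, dotProduct_add, dotProduct_add, Prod.mk_add_mk]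
  map_smul' c m := by
    rw [Submodule.coe_smul, dotProduct_smul, dotProduct_smul, RingHom.id_apply, Prod.smul_mk]

/-- The product with `g_a`. -/
def Pa (fr : Frame N d E Om) (p : Lin N → Co E P Om → F) (a b : Ty N d) :
    WW fr P a b →ₗ[F] F where
  toFun m := gv p a ⬝ᵥ (m : Co E P Om → F)
  map_add' m m' := by
    rw [Submodule.coe_add, dotProduct_add]
  map_smul' c m := by
    rw [Submodule.coe_smul, dotProduct_smul, RingHom.id_apply]

lemma dot_elim (α : P → F) (v : Co E P Om → F) :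
    v ⬝ᵥ (Sum.elim (Sum.elim (fun _ => 0) α) (fun _ => 0) : Co E P Om → F) =
      ∑ j, α j * v (Sum.inl (Sum.inr j)) := by
  unfold dotProduct
  rw [Fintype.sum_sum_type, Fintype.sum_sum_type]
  simp only [Sum.elim_inl, Sum.elim_inr, mul_zero, Finset.sum_const_zero, zero_add, add_zero]
  exact Finset.sum_congr rfl fun j _ => mul_comm _ _

lemma Ph_surj (hI : HI fr p) {a b b2 : Ty N d} (hd : D3 a b b2) :
    Function.Surjective (Ph fr p a b) := by
  rintro ⟨s, t⟩
  obtain ⟨α, h1, h2⟩ := exists_dual hI hd s t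
  refine ⟨⟨Sum.elim (Sum.elim (fun _ => 0) α) (fun _ => 0), fun w _ => rfl⟩, ?_⟩
  show (_, _) = _
  rw [dot_elim, dot_elim, h1, h2]

lemma Pa_surj (hI : HI fr p) {a b b2 : Ty N d} (hd : D3 a b b2) :
    Function.Surjective (Pa fr p a b) := by
  intro s
  obtain ⟨m, hm⟩ := Ph_surj hI hd (s, 0)
  exact ⟨m, congrArg Prod.fst hm⟩

lemma card_Wab (a b : Ty N d) : Nat.card (Wab fr p a b) =
    (Finset.univ.filter fun m => Pa fr p a b m = 0).card := by
  rw [Nat.card_eq_fintype_card, ← Fintype.card_coe]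
  refine Fintype.card_congr ?_
  exact {
    toFun := fun v => ⟨⟨v.1, v.2.2⟩, Finset.mem_filter.2 ⟨Finset.mem_univ _, v.2.1⟩⟩
    invFun := fun m => ⟨m.1.1, (Finset.mem_filter.1 m.2).2, m.1.2⟩
    left_inv := fun _ => rfl
    right_inv := fun _ => rfl }

end NOAImg

open NOAImg

variable {N d : ℕ} {E P Om : Type} [Fintype E] [Fintype P] [Fintype Om] [NeZero N]
variable {fr : Frame N d E Om} {p : Lin N → Co E P Om → F}

/-- The final arithmetic. -/
lemma NOAImg.arith {q k r w f : ℕ} (hq : q = 2521) (e1 : q * q * f = w) (e2 : q * k = w)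
    (hr : r = f) : k = 2521 * r := by
  have h0 : 0 < q := by rw [hq]; exact Nat.succ_pos _
  have h3 : k = q * f := Nat.eq_of_mul_eq_mul_left h0 (by rw [e2, ← e1, mul_assoc])
  rw [h3, hr, hq]

theorem card_R (hI : HI fr p) {a b b2 : Ty N d} (hd : D3 a b b2) (v1 v2 : Co E P Om → F)
    (h1 : ∀ w, w ∈ fr.U a ∨ w ∈ fr.U b → v1 (Sum.inr w) = 0)
    (h2 : ∀ w, w ∈ fr.U a ∨ w ∈ fr.U b → v2 (Sum.inr w) = 0) :
    Nat.card (Wab fr p a b) = 2521 * (Finset.univ.filter fun v : Co E P Om → F =>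
      v - v1 ∈ Wab fr p a b ∧ v - v2 ∈ Wab fr p b a).card := by
  have e1 := card_fibre (Ph fr p a b) (Ph_surj hI hd) (gv p a ⬝ᵥ v1, gv p b ⬝ᵥ v2)
  have e2 := card_fibre (Pa fr p a b) (Pa_surj hI hd) 0
  have e3 : (Finset.univ.filter fun v : Co E P Om → F =>
      v - v1 ∈ Wab fr p a b ∧ v - v2 ∈ Wab fr p b a).card =
      (Finset.univ.filter fun m => Ph fr p a b m = (gv p a ⬝ᵥ v1, gv p b ⬝ᵥ v2)).card := by
    symm
    refine Finset.card_bij (fun m _ => (m : Co E P Om → F)) ?_ ?_ ?_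
    · intro m hm
      have hm := (Finset.mem_filter.1 hm).2
      have hma : gv p a ⬝ᵥ (m : Co E P Om → F) = gv p a ⬝ᵥ v1 := congrArg Prod.fst hm
      have hmb : gv p b ⬝ᵥ (m : Co E P Om → F) = gv p b ⬝ᵥ v2 := congrArg Prod.snd hm
      refine Finset.mem_filter.2 ⟨Finset.mem_univ _, ⟨?_, fun w hw => ?_⟩, ⟨?_, fun w hw => ?_⟩⟩
      · rw [dotProduct_sub, hma, sub_self]
      · rw [Pi.sub_apply, h1 w hw, m.2 w hw, sub_self]
      · rw [dotProduct_sub, hmb, sub_self]
      · rw [Pi.sub_apply, h2 w hw.symm, m.2 w hw.symm, sub_self]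
    · intro m _ m' _ h
      exact Subtype.ext h
    · intro v hv
      obtain ⟨⟨g1, g2⟩, ⟨g3, g4⟩⟩ := (Finset.mem_filter.1 hv).2
      refine ⟨⟨v, fun w hw => ?_⟩, Finset.mem_filter.2 ⟨Finset.mem_univ _, ?_⟩, rfl⟩
      · have := g2 w hw
        rw [Pi.sub_apply, h1 w hw, sub_zero] at this
        exact this
      · show (_, _) = _
        rw [dotProduct_sub, sub_eq_zero] at g1 g3
        rw [g1, g3]
  rw [card_Wab]
  rw [Fintype.card_prod] at e1
  have hF : Fintype.card F = 2521 := ZMod.card 2521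
  generalize Fintype.card F = q at hF e1 e2
  exact NOAImg.arith hF e1 (by convert e2) (by convert e3)

end Vale.Agent.P060.HW.NOA
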