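import Vale.Agent.P060.HW.Pasts3
import Vale.Agent.P060.HW.Field

/-!
# OUT-A: Parseval and near uniformity for most types
-/

open scoped Classical
open Finset Module

noncomputable section

set_option linter.unusedSectionVars false

namespace Vale.Agent.P060.HW

namespace NOAP

lemma exists_psi : ∃ ψ : AddChar F ℂ, ψ ≠ 0 := by
  refine ⟨ZMod.stdAddChar, fun h => ?_⟩
  have h1 := ZMod.isPrimitive_stdAddChar 2521
  have h2 := h1 (a := 1) one_ne_zero
  rw [h] at h2
  apply h2
  ext x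
  simp

section Abstract

variable {V W : Type*} [AddCommGroup V] [Module F V] [Fintype V] [AddCommGroup W] [Module F W]
  [Fintype W]

/-- the functionals which kill `U` -/
def dann (U : Submodule F V) [Fintype (Dual F V)] : Finset (Dual F V) :=
  Finset.univ.filter fun ξ => ξ ∈ U.dualAnnihilator

lemma mem_dann [Fintype (Dual F V)] (U : Submodule F V) (ξ : Dual F V) :
    ξ ∈ dann U ↔ ξ ∈ U.dualAnnihilator := by simp [dann]

/-- Parseval for the functionals which kill `U`. -/
lemma parseval {ψ : AddChar F ℂ} (hψ : ψ ≠ 0) [Fintype (Dual F V)] (U : Submodule F V)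
    (f : V → ℝ) :
    ∑ ξ ∈ dann U, ‖fc ψ f ξ‖ ^ 2
      = ((dann U).card : ℝ) * ∑ x, ∑ y, (if x - y ∈ U then f x * f y else 0) := by
  have h1 : ∀ ξ : Dual F V, ((‖fc ψ f ξ‖ ^ 2 : ℝ) : ℂ)
      = ∑ x, ∑ y, ((f x * f y : ℝ) : ℂ) * ψ (ξ (x - y)) := by
    intro ξ
    have h2 : ((‖fc ψ f ξ‖ ^ 2 : ℝ) : ℂ) = fc ψ f ξ * (starRingEnd ℂ) (fc ψ f ξ) := by
      rw [Complex.mul_conj, Complex.normSq_eq_norm_sq]
    rw [h2]
    unfold fc
    rw [map_sum, Finset.sum_mul_sum]
    refine Finset.sum_congr rfl fun x _ => Finset.sum_congr rfl fun y _ => ?_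
    rw [map_mul, Complex.conj_ofReal, ← AddChar.map_neg_eq_conj, map_sub, sub_eq_add_neg,
      AddChar.map_add_eq_mul, Complex.ofReal_mul]
    ring
  have h3 : ((∑ ξ ∈ dann U, ‖fc ψ f ξ‖ ^ 2 : ℝ) : ℂ)
      = (((dann U).card : ℝ) * ∑ x, ∑ y, (if x - y ∈ U then f x * f y else 0) : ℝ) := by
    rw [Complex.ofReal_sum, Finset.sum_congr rfl fun ξ _ => h1 ξ, Finset.sum_comm]
    rw [Complex.ofReal_mul, Complex.ofReal_sum, Finset.mul_sum]
    refine Finset.sum_congr rfl fun x _ => ?_
    rw [Finset.sum_comm, Complex.ofReal_sum, Finset.mul_sum]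
    refine Finset.sum_congr rfl fun y _ => ?_
    rw [← Finset.mul_sum, sum_ann hψ U (x - y) (dann U) (mem_dann U)]
    split_ifs
    · rw [Complex.ofReal_natCast]; ring
    · simp
  exact_mod_cast h3

/-- the push-forward -/
def push (T : V →ₗ[F] W) (f : V → ℝ) (w : W) : ℝ := ∑ x, if T x = w then f x else 0

lemma sum_push (T : V →ₗ[F] W) (f : V → ℝ) : ∑ w, push T f w = ∑ x, f x := by
  unfold push
  rw [Finset.sum_comm]
  refine Finset.sum_congr rfl fun x _ => ?_
  rw [Finset.sum_ite_eq]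
  simp

lemma sum_push_sq (T : V →ₗ[F] W) (f : V → ℝ) :
    ∑ w, push T f w ^ 2 = ∑ x, ∑ y, (if x - y ∈ LinearMap.ker T then f x * f y else 0) := by
  have h1 : ∀ w, push T f w ^ 2 = ∑ x, ∑ y, if T x = w ∧ T y = w then f x * f y else 0 := by
    intro w
    unfold push
    rw [sq, Finset.sum_mul_sum]
    refine Finset.sum_congr rfl fun x _ => Finset.sum_congr rfl fun y _ => ?_
    by_cases hx : T x = w <;> by_cases hy : T y = w <;> simp [hx, hy]
  rw [Finset.sum_congr rfl fun w _ => h1 w, Finset.sum_comm]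
  refine Finset.sum_congr rfl fun x _ => ?_
  rw [Finset.sum_comm]
  refine Finset.sum_congr rfl fun y _ => ?_
  by_cases h : x - y ∈ LinearMap.ker T
  · have h' : T y = T x := by
      rw [LinearMap.mem_ker, map_sub, sub_eq_zero] at h
      exact h.symm
    rw [if_pos h]
    simp [h']
  · have h' : ¬ T y = T x := by
      rw [LinearMap.mem_ker, map_sub, sub_eq_zero] at h
      exact fun h'' => h h''.symm
    rw [if_neg h]
    refine Finset.sum_eq_zero fun w _ => ?_
    rw [if_neg]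
    rintro ⟨rfl, h2⟩
    exact h' h2

lemma card_dann_ker [Fintype (Dual F V)] (T : V →ₗ[F] W) :
    ((dann (LinearMap.ker T)).card : ℝ) = Nat.card (LinearMap.range T) := by
  have hfin : FiniteDimensional F V := Module.Finite.of_finite
  have h1 := card_ann (LinearMap.ker T) (dann (LinearMap.ker T)) (mem_dann _)
  have h2 : Nat.card (LinearMap.range T) * (carr (LinearMap.ker T)).card = Fintype.card V := by
    rw [card_carr, Module.natCard_eq_pow_finrank (K := F), Module.card_eq_pow_finrank (K := F)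
      (V := V), Nat.card_eq_fintype_card, ← pow_add, LinearMap.finrank_range_add_finrank_ker]
  have h3 : 0 < (carr (LinearMap.ker T)).card := by exact_mod_cast carr_card_pos (LinearMap.ker T)
  have h4 := Nat.eq_of_mul_eq_mul_right h3 (h1.trans h2.symm)
  rw [h4]

/-- **Parseval.**  For a density of mean one bounded by `1 / δ`, the push-forwards under linear maps
whose dual ranges have trivial triple intersections are uniform up to `ε` in chi square, with at
most `2 / (δ ε²)` exceptions. -/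
theorem card_far_le {I : Type*} (s : Finset I) (T : I → V →ₗ[F] W) (f : V → ℝ) {δ ε : ℝ}
    (hδ : 0 < δ) (hf0 : ∀ x, 0 ≤ f x) (hf1 : ∑ x, f x = 1)
    (hf : ∀ x, f x * (δ * Fintype.card V) ≤ 1)
    (h3 : ∀ i ∈ s, ∀ j ∈ s, ∀ k ∈ s, i ≠ j → i ≠ k → j ≠ k → ∀ ξ : Dual F V,
      ξ ∈ (LinearMap.ker (T i)).dualAnnihilator → ξ ∈ (LinearMap.ker (T j)).dualAnnihilator →
      ξ ∈ (LinearMap.ker (T k)).dualAnnihilator → ξ = 0) :
    ((s.filter fun i => ε < (Nat.card (LinearMap.range (T i)) : ℝ) * ∑ w, push (T i) f w ^ 2 - 1).card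
      : ℝ) * ε * δ ≤ 2 := by
  have hfd : Finite (Dual F V) := Module.finite_of_finite F
  have : Fintype (Dual F V) := Fintype.ofFinite _
  obtain ⟨ψ, hψ⟩ := exists_psi
  -- the chi square as a sum over nonzero functionals
  have hchi : ∀ i, (Nat.card (LinearMap.range (T i)) : ℝ) * ∑ w, push (T i) f w ^ 2 - 1
      = ∑ ξ ∈ (dann (LinearMap.ker (T i))).erase 0, ‖fc ψ f ξ‖ ^ 2 := by
    intro i
    have h0 : (0 : Dual F V) ∈ dann (LinearMap.ker (T i)) := by
      rw [mem_dann]; exact Submodule.zero_mem _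
    have h1 := Finset.add_sum_erase (dann (LinearMap.ker (T i))) (fun ξ => ‖fc ψ f ξ‖ ^ 2) h0
    have h2 : fc ψ f 0 = 1 := by
      unfold fc
      simp only [LinearMap.zero_apply, AddChar.map_zero_eq_one, mul_one]
      rw [← Complex.ofReal_sum, hf1, Complex.ofReal_one]
    rw [parseval hψ, ← sum_push_sq, card_dann_ker] at h1
    simp only [h2, norm_one, one_pow] at h1
    linarith
  -- the total
  have htot : ∑ ξ : Dual F V, ‖fc ψ f ξ‖ ^ 2 ≤ 1 / δ := by
    have h1 := parseval hψ (⊥ : Submodule F V) f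
    have h2 : dann (⊥ : Submodule F V) = Finset.univ := by
      ext ξ
      simp [mem_dann]
    have h4 := card_ann (⊥ : Submodule F V) (dann ⊥) (mem_dann _)
    have h5 : (carr (⊥ : Submodule F V)).card = 1 := by
      rw [card_carr, finrank_bot, pow_zero]
    rw [h5, mul_one] at h4
    rw [h4, h2] at h1
    rw [h1]
    have h6 : ∀ x, (∑ y, if x - y ∈ (⊥ : Submodule F V) then f x * f y else 0) = f x * f x := by
      intro x
      rw [Finset.sum_eq_single x]
      · rw [if_pos (by rw [sub_self]; exact Submodule.zero_mem _)]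
      · intro y _ hy
        rw [if_neg]
        rw [Submodule.mem_bot, sub_eq_zero]
        exact fun h => hy h.symm
      · intro h; exact absurd (Finset.mem_univ _) h
    rw [Finset.sum_congr rfl fun x _ => h6 x, le_div_iff₀ hδ, Finset.mul_sum, Finset.sum_mul]
    rw [← hf1]
    refine Finset.sum_le_sum fun x _ => ?_
    nlinarith [hf x, hf0 x]
  -- the number of spaces containing a nonzero functional
  set B := s.filter fun i => ε < (Nat.card (LinearMap.range (T i)) : ℝ) * ∑ w, push (T i) f w ^ 2 - 1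
    with hB
  have hdeg : ∀ ξ : Dual F V, ξ ≠ 0 →
      ((s.filter fun i => ξ ∈ dann (LinearMap.ker (T i))).card : ℝ) ≤ 2 := by
    intro ξ hξ
    by_contra hcon
    push Not at hcon
    have h2 : 2 < (s.filter fun i => ξ ∈ dann (LinearMap.ker (T i))).card := by exact_mod_cast hcon
    obtain ⟨i, j, k, hi, hj, hk, hij, hik, hjk⟩ := Finset.two_lt_card_iff.1 h2
    rw [Finset.mem_filter, mem_dann] at hi hj hk
    exact hξ (h3 i hi.1 j hj.1 k hk.1 hij hik hjk ξ hi.2 hj.2 hk.2)
  have h1 : (B.card : ℝ) * ε ≤ ∑ i ∈ s, ∑ ξ ∈ (dann (LinearMap.ker (T i))).erase 0,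
      ‖fc ψ f ξ‖ ^ 2 := by
    have h2 : (B.card : ℝ) * ε ≤ ∑ i ∈ B, ∑ ξ ∈ (dann (LinearMap.ker (T i))).erase 0,
        ‖fc ψ f ξ‖ ^ 2 := by
      rw [← nsmul_eq_mul, ← Finset.sum_const]
      refine Finset.sum_le_sum fun i hi => ?_
      rw [← hchi]
      exact (Finset.mem_filter.1 hi).2.le
    refine h2.trans (Finset.sum_le_sum_of_subset_of_nonneg (Finset.filter_subset _ _)
      fun i _ _ => Finset.sum_nonneg fun ξ _ => by positivity)
  have h2 : ∑ i ∈ s, ∑ ξ ∈ (dann (LinearMap.ker (T i))).erase 0, ‖fc ψ f ξ‖ ^ 2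
      ≤ ∑ ξ : Dual F V, 2 * ‖fc ψ f ξ‖ ^ 2 := by
    have e1 : ∀ i, ∑ ξ ∈ (dann (LinearMap.ker (T i))).erase 0, ‖fc ψ f ξ‖ ^ 2
        = ∑ ξ : Dual F V, if ξ ≠ 0 ∧ ξ ∈ dann (LinearMap.ker (T i)) then ‖fc ψ f ξ‖ ^ 2 else 0 := by
      intro i
      rw [← Finset.sum_filter]
      refine Finset.sum_congr ?_ fun _ _ => rfl
      ext ξ
      simp [Finset.mem_erase]
    rw [Finset.sum_congr rfl fun i _ => e1 i, Finset.sum_comm]
    refine Finset.sum_le_sum fun ξ _ => ?_
    by_cases hξ : ξ = 0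
    · have : ∀ i ∈ s, (if ξ ≠ 0 ∧ ξ ∈ dann (LinearMap.ker (T i)) then ‖fc ψ f ξ‖ ^ 2 else 0)
          = (0 : ℝ) := by
        intro i _
        rw [if_neg]
        rintro ⟨h, -⟩
        exact h hξ
      rw [Finset.sum_congr rfl this, Finset.sum_const_zero]
      positivity
    · rw [← Finset.sum_filter, Finset.sum_const, nsmul_eq_mul]
      refine mul_le_mul_of_nonneg_right ?_ (by positivity)
      refine le_trans ?_ (hdeg ξ hξ)
      have : (s.filter fun i => ξ ≠ 0 ∧ ξ ∈ dann (LinearMap.ker (T i)))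
          ⊆ s.filter fun i => ξ ∈ dann (LinearMap.ker (T i)) := by
        intro i hi
        rw [Finset.mem_filter] at hi ⊢
        exact ⟨hi.1, hi.2.2⟩
      exact_mod_cast Finset.card_le_card this
  rw [← Finset.mul_sum] at h2
  have h4 : (B.card : ℝ) * ε ≤ 2 * (1 / δ) := by linarith
  calc (B.card : ℝ) * ε * δ ≤ 2 * (1 / δ) * δ := mul_le_mul_of_nonneg_right h4 hδ.le
    _ = 2 := by field_simp

end Abstract

section Dev

variable {V W : Type*} [AddCommGroup V] [Module F V] [Fintype V] [AddCommGroup W] [Module F W]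

/-- the number of pairs with the same image, by Parseval -/
lemma dev_eq {ψ : AddChar F ℂ} (hψ : ψ ≠ 0) [Fintype (Dual F V)] [Finite W] (L : V →ₗ[F] W)
    (A : Finset V) :
    (Nat.card (LinearMap.range L) : ℝ) * (((A ×ˢ A).filter fun x => L x.1 = L x.2).card : ℝ)
      - (A.card : ℝ) ^ 2
      = ∑ ξ ∈ (dann (LinearMap.ker L)).erase 0, ‖fc ψ (fun x => if x ∈ A then 1 else 0) ξ‖ ^ 2 := by
  have : Fintype W := Fintype.ofFinite _
  have h0 : (0 : Dual F V) ∈ dann (LinearMap.ker L) := by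
    rw [mem_dann]; exact Submodule.zero_mem _
  have h1 := Finset.add_sum_erase (dann (LinearMap.ker L))
    (fun ξ => ‖fc ψ (fun x => if x ∈ A then 1 else 0) ξ‖ ^ 2) h0
  have h2 : fc ψ (fun x => if x ∈ A then 1 else 0) 0 = (A.card : ℂ) := by
    unfold fc
    simp only [LinearMap.zero_apply, AddChar.map_zero_eq_one, mul_one]
    rw [← Complex.ofReal_sum, Finset.sum_ite_mem, Finset.univ_inter, Finset.sum_const,
      nsmul_eq_mul, mul_one, Complex.ofReal_natCast]
  have h3 : ∑ x, ∑ y, (if x - y ∈ LinearMap.ker L then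
      (if x ∈ A then (1 : ℝ) else 0) * (if y ∈ A then 1 else 0) else 0)
      = (((A ×ˢ A).filter fun x => L x.1 = L x.2).card : ℝ) := by
    rw [← Fintype.sum_prod_type' (fun x y : V => if x - y ∈ LinearMap.ker L then
      (if x ∈ A then (1 : ℝ) else 0) * (if y ∈ A then 1 else 0) else 0)]
    have h4 : ∀ x : V × V, (if x.1 - x.2 ∈ LinearMap.ker L then
        (if x.1 ∈ A then (1 : ℝ) else 0) * (if x.2 ∈ A then 1 else 0) else 0)
        = if x ∈ (A ×ˢ A).filter (fun x => L x.1 = L x.2) then 1 else 0 := by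
      intro x
      have h5 : x.1 - x.2 ∈ LinearMap.ker L ↔ L x.1 = L x.2 := by
        rw [LinearMap.mem_ker, map_sub, sub_eq_zero]
      simp only [Finset.mem_filter, Finset.mem_product, h5]
      by_cases a1 : L x.1 = L x.2 <;> by_cases a2 : x.1 ∈ A <;> by_cases a3 : x.2 ∈ A <;>
        simp [a1, a2, a3]
    rw [Finset.sum_congr rfl fun x _ => h4 x, Finset.sum_ite_mem, Finset.univ_inter,
      Finset.sum_const, nsmul_eq_mul, mul_one]
  rw [parseval hψ, card_dann_ker, h3] at h1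
  simp only [h2, Complex.norm_natCast] at h1
  linarith

/-- **Parseval for a set.** -/
theorem dev_sum [Finite W] {I : Type*} (J : Finset I) (L : I → V →ₗ[F] W)
    (hm : ∀ i ∈ J, ∀ j ∈ J, ∀ k ∈ J, i ≠ j → i ≠ k → j ≠ k → ∀ f1 f2 f3 : Dual F W,
      f1.comp (L i) = f2.comp (L j) → f1.comp (L i) = f3.comp (L k) → f1.comp (L i) = 0)
    (A : Finset V) :
    ∑ i ∈ J, ((Nat.card (LinearMap.range (L i)) : ℝ) *
      (((A ×ˢ A).filter fun x => L i x.1 = L i x.2).card : ℝ) - (A.card : ℝ) ^ 2)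
      ≤ 2 * Fintype.card V * A.card := by
  have hfd : Finite (Dual F V) := Module.finite_of_finite F
  have : Fintype (Dual F V) := Fintype.ofFinite _
  obtain ⟨ψ, hψ⟩ := exists_psi
  set f : V → ℝ := fun x => if x ∈ A then 1 else 0 with hf
  rw [Finset.sum_congr rfl fun i _ => dev_eq hψ (L i) A]
  -- the total
  have htot : ∑ ξ : Dual F V, ‖fc ψ f ξ‖ ^ 2 = Fintype.card V * A.card := by
    have h1 := parseval hψ (⊥ : Submodule F V) f
    have h2 : dann (⊥ : Submodule F V) = Finset.univ := by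
      ext ξ
      simp [mem_dann]
    have h4 := card_ann (⊥ : Submodule F V) (dann ⊥) (mem_dann _)
    have h5 : (carr (⊥ : Submodule F V)).card = 1 := by
      rw [card_carr, finrank_bot, pow_zero]
    rw [h5, mul_one] at h4
    rw [h4, h2] at h1
    rw [h1]
    have h6 : ∀ x, (∑ y, if x - y ∈ (⊥ : Submodule F V) then f x * f y else 0) = f x := by
      intro x
      rw [Finset.sum_eq_single x]
      · rw [if_pos (by rw [sub_self]; exact Submodule.zero_mem _), hf]
        simp only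
        split_ifs <;> simp
      · intro y _ hy
        rw [if_neg]
        rw [Submodule.mem_bot, sub_eq_zero]
        exact fun h => hy h.symm
      · intro h; exact absurd (Finset.mem_univ _) h
    rw [Finset.sum_congr rfl fun x _ => h6 x, hf]
    rw [Finset.sum_ite_mem, Finset.univ_inter, Finset.sum_const, nsmul_eq_mul, mul_one]
  have hdeg : ∀ ξ : Dual F V, ξ ≠ 0 →
      ((J.filter fun i => ξ ∈ dann (LinearMap.ker (L i))).card : ℝ) ≤ 2 := by
    intro ξ hξ
    by_contra hcon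
    push Not at hcon
    have h2 : 2 < (J.filter fun i => ξ ∈ dann (LinearMap.ker (L i))).card := by exact_mod_cast hcon
    obtain ⟨i, j, k, hi, hj, hk, hij, hik, hjk⟩ := Finset.two_lt_card_iff.1 h2
    rw [Finset.mem_filter, mem_dann, ← LinearMap.range_dualMap_eq_dualAnnihilator_ker] at hi hj hk
    obtain ⟨hi1, f1, e1⟩ := hi
    obtain ⟨hj1, f2, e2⟩ := hj
    obtain ⟨hk1, f3, e3⟩ := hk
    rw [LinearMap.dualMap_apply'] at e1 e2 e3
    apply hξ
    rw [← e1]
    exact hm i hi1 j hj1 k hk1 hij hik hjk f1 f2 f3 (e1.trans e2.symm) (e1.trans e3.symm)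
  have h2 : ∑ i ∈ J, ∑ ξ ∈ (dann (LinearMap.ker (L i))).erase 0, ‖fc ψ f ξ‖ ^ 2
      ≤ ∑ ξ : Dual F V, 2 * ‖fc ψ f ξ‖ ^ 2 := by
    have e1 : ∀ i, ∑ ξ ∈ (dann (LinearMap.ker (L i))).erase 0, ‖fc ψ f ξ‖ ^ 2
        = ∑ ξ : Dual F V, if ξ ≠ 0 ∧ ξ ∈ dann (LinearMap.ker (L i)) then ‖fc ψ f ξ‖ ^ 2 else 0 := by
      intro i
      rw [← Finset.sum_filter]
      refine Finset.sum_congr ?_ fun _ _ => rfl
      ext ξ
      simp [Finset.mem_erase]
    rw [Finset.sum_congr rfl fun i _ => e1 i, Finset.sum_comm]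
    refine Finset.sum_le_sum fun ξ _ => ?_
    by_cases hξ : ξ = 0
    · have : ∀ i ∈ J, (if ξ ≠ 0 ∧ ξ ∈ dann (LinearMap.ker (L i)) then ‖fc ψ f ξ‖ ^ 2 else 0)
          = (0 : ℝ) := by
        intro i _
        rw [if_neg]
        rintro ⟨h, -⟩
        exact h hξ
      rw [Finset.sum_congr rfl this, Finset.sum_const_zero]
      positivity
    · rw [← Finset.sum_filter, Finset.sum_const, nsmul_eq_mul]
      refine mul_le_mul_of_nonneg_right ?_ (by positivity)
      refine le_trans ?_ (hdeg ξ hξ)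
      have : (J.filter fun i => ξ ≠ 0 ∧ ξ ∈ dann (LinearMap.ker (L i)))
          ⊆ J.filter fun i => ξ ∈ dann (LinearMap.ker (L i)) := by
        intro i hi
        rw [Finset.mem_filter] at hi ⊢
        exact ⟨hi.1, hi.2.2⟩
      exact_mod_cast Finset.card_le_card this
  rw [← Finset.mul_sum, htot] at h2
  linarith

/-- each deviation is nonnegative -/
theorem dev_nonneg [Finite W] (L : V →ₗ[F] W) (A : Finset V) :
    0 ≤ (Nat.card (LinearMap.range L) : ℝ) *
      (((A ×ˢ A).filter fun x => L x.1 = L x.2).card : ℝ) - (A.card : ℝ) ^ 2 := by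
  have hfd : Finite (Dual F V) := Module.finite_of_finite F
  have : Fintype (Dual F V) := Fintype.ofFinite _
  obtain ⟨ψ, hψ⟩ := exists_psi
  rw [dev_eq hψ]
  exact Finset.sum_nonneg fun ξ _ => by positivity

end Dev

end NOAP

end Vale.Agent.P060.HW
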