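import Vale.Agent.P060.HW.NOA2
import Vale.Agent.P060.HW.NOA3
import Vale.Agent.P060.HW.NOAPars
import Vale.Agent.P060.HW.NOAImg

/-!
# OUT-A: the core statement
-/

open scoped Classical

noncomputable section

set_option linter.unusedSectionVars false

namespace Vale.Agent.P060.HW.NOA

open Module

variable {N d : ℕ} {E P Om : Type} [Fintype E] [Fintype P] [Fintype Om] [NeZero N]
variable {fr : Frame N d E Om} {p : Lin N → Co E P Om → F} (h : Ext fr p)

/-- The constant part of the form applied to the vector of `b`. -/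
def cst (a b : Ty N d) (i : Bool) : Co E P Om → F :=
  (if i then (dsg fr p h).B0 a else 0).mulVec (gv p b)

lemma cst_row (a b : Ty N d) (i : Bool) (w : Om) : cst h a b i (Sum.inr w) = 0 := by
  unfold cst
  split_ifs
  · have h1 := (dsg fr p h).B0_mulVec a (gv p b) (Sum.inr w)
    rw [h1, if_neg]
    exact Sum.inr_ne_inl
  · rw [Matrix.zero_mulVec]; rfl

/-- The unit vector of the distinguished coordinate. -/
def ev (fr : Frame N d E Om) : Co E P Om → F :=
  @Pi.single (Co E P Om) (fun _ => F) _ (fun a b => Classical.propDecidable (a = b))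
    (Sum.inl (Sum.inl fr.e0)) 1

lemma ev_row (w : Om) : ev (P := P) fr (Sum.inr w) = 0 := by
  unfold ev
  exact an_sgl_ne _ Sum.inr_ne_inl

lemma adj_of {a b : Ty N d} {i i' : Bool} {Q Q' : Matrix (Co E P Om) (Co E P Om) F}
    {v : Co E P Om → F} (h1 : Lm fr p h a b Q = v - cst h a b i)
    (h2 : Lm fr p h b a Q' = v - (ev fr + cst h b a i')) :
    (dsg fr p h).Adj (a, i, Q) (b, i', Q') := by
  refine ⟨(dsg fr p h).e0, (dsg fr p h).he0, 1, one_mem_Y, ?_⟩
  have e1 : ((dsg fr p h).frm (a, i, Q)).mulVec (gv p b) = v := by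
    unfold Design.frm
    rw [Matrix.add_mulVec]
    have h3 : ((dsg fr p h).proj a Q : Matrix (Co E P Om) (Co E P Om) F).mulVec (gv p b)
      = v - cst h a b i := h1
    show (if i then (dsg fr p h).B0 a else 0).mulVec (gv p b)
      + ((dsg fr p h).proj a Q : Matrix (Co E P Om) (Co E P Om) F).mulVec (gv p b) = v
    rw [h3]
    unfold cst
    abel
  have e2 : ((dsg fr p h).frm (b, i', Q')).mulVec (gv p a)
      = v - ev fr := by
    unfold Design.frm
    rw [Matrix.add_mulVec]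
    have h3 : ((dsg fr p h).proj b Q' : Matrix (Co E P Om) (Co E P Om) F).mulVec (gv p a)
      = v - (ev fr + cst h b a i') := h2
    show (if i' then (dsg fr p h).B0 b else 0).mulVec (gv p a)
      + ((dsg fr p h).proj b Q' : Matrix (Co E P Om) (Co E P Om) F).mulVec (gv p a) = _
    rw [h3]
    unfold cst
    abel
  show ((dsg fr p h).frm (a, i, Q)).mulVec (gv p b)
    - ((dsg fr p h).frm (b, i', Q')).mulVec (gv p a) = ev fr
  rw [e1, e2]
  abel

/-- pairs of values in a finite set give adjacent pairs -/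
lemma sum_le_adj (a b : Ty N d) (i i' : Bool)
    (A B : Finset (Matrix (Co E P Om) (Co E P Om) F)) (R : Finset (Co E P Om → F)) :
    ∑ v ∈ R, cnt (Lm fr p h a b) A (v - cst h a b i)
        * cnt (Lm fr p h b a) B (v - (ev fr + cst h b a i'))
      ≤ (((A ×ˢ B).filter fun x =>
            (dsg fr p h).Adj (a, i, x.1) (b, i', x.2)).card : ℝ) := by
  set X := (A ×ˢ B).filter fun x => (dsg fr p h).Adj (a, i, x.1) (b, i', x.2)
  have h1 : X.card = ∑ v, (X.filter fun x => Lm fr p h a b x.1 + cst h a b i = v).card :=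
    Finset.card_eq_sum_card_fiberwise (f := fun x : Matrix (Co E P Om) (Co E P Om) F
      × Matrix (Co E P Om) (Co E P Om) F => Lm fr p h a b x.1 + cst h a b i)
      (t := Finset.univ) (fun x _ => by simp)
  rw [h1, Nat.cast_sum]
  refine le_trans ?_ (Finset.sum_le_sum_of_subset_of_nonneg (Finset.subset_univ R)
    fun v _ _ => Nat.cast_nonneg _)
  refine Finset.sum_le_sum fun v _ => ?_
  unfold cnt
  rw [← Nat.cast_mul, ← Finset.card_product]
  refine Nat.cast_le.2 (Finset.card_le_card ?_)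
  rintro ⟨Q, Q'⟩ hQ
  simp only [Finset.mem_product, Finset.mem_filter] at hQ
  obtain ⟨⟨hQA, hQ1⟩, hQB, hQ2⟩ := hQ
  rw [Finset.mem_filter, Finset.mem_filter, Finset.mem_product]
  refine ⟨⟨⟨hQA, hQB⟩, adj_of h hQ1 hQ2⟩, ?_⟩
  show Lm fr p h a b Q + cst h a b i = v
  have hQ1' : Lm fr p h a b Q = v - cst h a b i := hQ1
  rw [hQ1']
  abel

/-- The set of possible values as a finite set. -/
def Rg (fr : Frame N d E Om) (p : Lin N → Co E P Om → F) (a b : Ty N d) :
    Finset (Co E P Om → F) := Finset.univ.filter fun v => v ∈ Wab fr p a b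

lemma card_Rg (a b : Ty N d) : (Rg fr p a b).card = Nat.card (Wab fr p a b) := by
  unfold Rg
  rw [Nat.card_eq_fintype_card, ← Fintype.card_subtype]

lemma card_Rg_pos (a b : Ty N d) : 0 < (Rg fr p a b).card :=
  Finset.card_pos.2 ⟨0, Finset.mem_filter.2 ⟨Finset.mem_univ _, Submodule.zero_mem _⟩⟩

/-- The direction from `a` to `b` is bad: the values at `b` of the parameters in `A` are far from
uniform. -/
def bad (A : Finset (Matrix (Co E P Om) (Co E P Om) F)) (a b : Ty N d) : Prop :=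
  (A.card : ℝ) ^ 2 < 40336 * ((Rg fr p a b).card * prs (Lm fr p h a b) A - (A.card : ℝ) ^ 2)

lemma not_bad {A : Finset (Matrix (Co E P Om) (Co E P Om) F)} {a b : Ty N d}
    (hb : ¬ bad h A a b) (v₁ : Co E P Om → F) (R : Finset (Co E P Om → F))
    (hR : ∀ v ∈ R, v - v₁ ∈ Wab fr p a b)
    (hc : (Rg fr p a b).card ≤ 2521 * R.card) :
    16 * ∑ v ∈ R, (cnt (Lm fr p h a b) A (v - v₁) - A.card / (Rg fr p a b).card) ^ 2
      ≤ ((A.card : ℝ) / (Rg fr p a b).card) ^ 2 * R.card := by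
  unfold bad at hb
  rw [not_lt] at hb
  have hw : (0 : ℝ) < (Rg fr p a b).card := by exact_mod_cast card_Rg_pos a b
  have h1 := l2_dev (Lm fr p h a b) A (Rg fr p a b)
    (fun Q => Finset.mem_filter.2 ⟨Finset.mem_univ _, Lm_mem h a b Q⟩) (card_Rg_pos a b)
  have h2 := sum_shift_le (fun v => (cnt (Lm fr p h a b) A v - A.card / (Rg fr p a b).card) ^ 2)
    (fun v => sq_nonneg _) R (Rg fr p a b) v₁
    (fun v hv => Finset.mem_filter.2 ⟨Finset.mem_univ _, hR v hv⟩)
  have hc' : ((Rg fr p a b).card : ℝ) ≤ 2521 * R.card := by exact_mod_cast hc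
  set w : ℝ := ((Rg fr p a b).card : ℝ)
  set s : ℝ := (A.card : ℝ)
  set T₀ := ∑ v ∈ Rg fr p a b, (cnt (Lm fr p h a b) A v - s / w) ^ 2
  have h3 : 40336 * (w * T₀) ≤ s ^ 2 := by rw [h1]; exact hb
  have h4 : w ≤ 2521 * R.card := hc'
  have h5 : 40336 * T₀ ≤ (s / w) ^ 2 * w := by
    have h6 : 40336 * T₀ * w ≤ (s / w) ^ 2 * w * w := by
      have h7 : (s / w) ^ 2 * w * w = s ^ 2 := by field_simp
      rw [h7]; linarith
    exact le_of_mul_le_mul_right h6 hw
  have h6 : (s / w) ^ 2 * w ≤ (s / w) ^ 2 * (2521 * R.card) :=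
    mul_le_mul_of_nonneg_left h4 (sq_nonneg _)
  have h7 : 40336 * T₀ ≤ (s / w) ^ 2 * (2521 * R.card) := h5.trans h6
  nlinarith [h2, h7]

/-- For two directions which are not bad there are many adjacent pairs. -/
lemma adj_of_not_bad (hI : HI fr p) {a b b' : Ty N d} (hd : D3 a b b') (i i' : Bool)
    {A B : Finset (Matrix (Co E P Om) (Co E P Om) F)} (hA : 0 < A.card) (hB : 0 < B.card)
    (hab : ¬ bad h A a b) (hba : ¬ bad h B b a) :
    (A.card : ℝ) * B.card ≤ 20168 * (2521 : ℝ) ^ Fintype.card (Co E P Om) *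
      (((A ×ˢ B).filter fun x => (dsg fr p h).Adj (a, i, x.1) (b, i', x.2)).card : ℝ) := by
  set v₁ := cst h a b i with hv1
  set v₂ := ev fr + cst h b a i' with hv2
  set R := Finset.univ.filter fun v : Co E P Om → F =>
    v - v₁ ∈ Wab fr p a b ∧ v - v₂ ∈ Wab fr p b a with hR
  have hz1 : ∀ w, v₁ (Sum.inr w) = 0 := fun w => cst_row h a b i w
  have hz2 : ∀ w, v₂ (Sum.inr w) = 0 := fun w => by
    rw [hv2, Pi.add_apply, cst_row, ev_row, add_zero]
  have c1 : (Rg fr p a b).card ≤ 2521 * R.card := by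
    rw [card_Rg]
    exact (card_R hI hd v₁ v₂ (fun w _ => hz1 w) (fun w _ => hz2 w)).le
  have c2 : (Rg fr p b a).card ≤ 2521 * R.card := by
    rw [card_Rg]
    have h1 := (card_R hI ⟨hd.ab.symm, hd.bc, hd.ac⟩ v₂ v₁ (fun w _ => hz2 w)
      (fun w _ => hz1 w)).le
    refine h1.trans (Nat.mul_le_mul_left _ (Finset.card_le_card ?_))
    intro v hv
    rw [Finset.mem_filter] at hv
    exact Finset.mem_filter.2 ⟨hv.1, hv.2.2, hv.2.1⟩
  have n1 := not_bad h hab v₁ R (fun v hv => (Finset.mem_filter.1 hv).2.1) c1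
  have n2 := not_bad h hba v₂ R (fun v hv => (Finset.mem_filter.1 hv).2.2) c2
  have hw1 : (0 : ℝ) < (Rg fr p a b).card := by exact_mod_cast card_Rg_pos a b
  have hw2 : (0 : ℝ) < (Rg fr p b a).card := by exact_mod_cast card_Rg_pos b a
  have hA' : (0 : ℝ) < A.card := by exact_mod_cast hA
  have hB' : (0 : ℝ) < B.card := by exact_mod_cast hB
  have h3 := l2_overlap R (fun v => cnt (Lm fr p h a b) A (v - v₁))
    (fun v => cnt (Lm fr p h b a) B (v - v₂)) (fun v => cnt_nonneg _ _ _)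
    (fun v => cnt_nonneg _ _ _) (div_pos hA' hw1) (div_pos hB' hw2) n1 n2
  have h4 := sum_le_adj h a b i i' A B R
  have h5 := h3.trans (mul_le_mul_of_nonneg_left h4 (by norm_num))
  set X : ℝ := (((A ×ˢ B).filter fun x =>
    (dsg fr p h).Adj (a, i, x.1) (b, i', x.2)).card : ℝ) with hX
  have hX0 : 0 ≤ X := Nat.cast_nonneg _
  have c1' : ((Rg fr p a b).card : ℝ) ≤ 2521 * R.card := by exact_mod_cast c1
  have c3 : ((Rg fr p b a).card : ℝ) ≤ (2521 : ℝ) ^ Fintype.card (Co E P Om) := by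
    have h6 : (Rg fr p b a).card ≤ Fintype.card (Co E P Om → F) := Finset.card_le_univ _
    rw [Fintype.card_fun, ZMod.card] at h6
    exact_mod_cast h6
  set w₁ : ℝ := ((Rg fr p a b).card : ℝ)
  set w₂ : ℝ := ((Rg fr p b a).card : ℝ)
  calc (A.card : ℝ) * B.card = (A.card / w₁) * (B.card / w₂) * w₁ * w₂ := by field_simp
    _ ≤ (A.card / w₁) * (B.card / w₂) * (2521 * R.card) * w₂ := by
        refine mul_le_mul_of_nonneg_right (mul_le_mul_of_nonneg_left c1' ?_) hw2.le
        positivity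
    _ = 2521 * ((A.card / w₁) * (B.card / w₂) * R.card) * w₂ := by ring
    _ ≤ 2521 * (8 * X) * w₂ := by
        refine mul_le_mul_of_nonneg_right (mul_le_mul_of_nonneg_left h5 (by norm_num)) hw2.le
    _ ≤ 2521 * (8 * X) * (2521 : ℝ) ^ Fintype.card (Co E P Om) :=
        mul_le_mul_of_nonneg_left c3 (by positivity)
    _ = 20168 * (2521 : ℝ) ^ Fintype.card (Co E P Om) * X := by ring

/-- Few directions are bad. -/
lemma card_bad (hI : HI fr p) {δ : ℝ} (hδ : 0 < δ) (S : Finset (Ty N d)) (hS : 3 ≤ S.card)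
    (hdis : ∀ a ∈ S, ∀ b ∈ S, a ≠ b → Disjoint (lins a) (lins b)) {a : Ty N d} (ha : a ∈ S)
    (A : Finset (Matrix (Co E P Om) (Co E P Om) F))
    (hA : δ * Fintype.card (Matrix (Co E P Om) (Co E P Om) F) ≤ (A.card : ℝ)) :
    ((S.erase a).filter fun b => bad h A a b).card ≤ ⌊80672 / δ⌋₊ := by
  have hMat : (0 : ℝ) < Fintype.card (Matrix (Co E P Om) (Co E P Om) F) := by
    exact_mod_cast Fintype.card_pos
  have hs : (0 : ℝ) < A.card := lt_of_lt_of_le (by positivity) hA
  have hD : ∀ b ∈ S.erase a, ∀ c ∈ S.erase a, b ≠ c → D3 a b c := by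
    intro b hb c hc hbc
    rw [Finset.mem_erase] at hb hc
    exact ⟨hdis a ha b hb.2 hb.1.symm, hdis a ha c hc.2 hc.1.symm, hdis b hb.2 c hc.2 hbc⟩
  have hthird : ∀ b ∈ S.erase a, ∃ c ∈ S.erase a, b ≠ c := by
    intro b hb
    have h1 : ((S.erase a).erase b).Nonempty := by
      rw [← Finset.card_pos, Finset.card_erase_of_mem hb, Finset.card_erase_of_mem ha]
      omega
    obtain ⟨c, hc⟩ := h1
    rw [Finset.mem_erase] at hc
    exact ⟨c, hc.2, hc.1.symm⟩
  have h1 := NOAP.dev_sum (S.erase a) (fun b => Lm fr p h a b) (by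
    intro b₁ h1 b₂ h2 b₃ h3 h12 h13 h23 f₁ f₂ f₃ e2 e3
    obtain ⟨z₁, hz1⟩ := exists_dot f₁
    obtain ⟨z₂, hz2⟩ := exists_dot f₂
    obtain ⟨z₃, hz3⟩ := exists_dot f₃
    have h4 := triple h hI (hD b₁ h1 b₂ h2 h12) (hD b₁ h1 b₃ h3 h13) (hD b₂ h2 b₃ h3 h23)
      (z₁ := z₁) (z₂ := z₂) (z₃ := z₃)
      (fun Q => by rw [← hz1, ← hz2]; exact LinearMap.congr_fun e2 Q)
      (fun Q => by rw [← hz1, ← hz3]; exact LinearMap.congr_fun e3 Q)
    refine LinearMap.ext fun Q => ?_
    show f₁ (Lm fr p h a b₁ Q) = 0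
    rw [hz1, h4]) A
  have h2 : ∑ b ∈ S.erase a, ((Rg fr p a b).card * prs (Lm fr p h a b) A - (A.card : ℝ) ^ 2)
      ≤ 2 * Fintype.card (Matrix (Co E P Om) (Co E P Om) F) * A.card := by
    refine le_trans (le_of_eq (Finset.sum_congr rfl fun b hb => ?_)) h1
    obtain ⟨c, hc, hbc⟩ := hthird b hb
    rw [range_Lm h hI (hD b hb c hc hbc), card_Rg]
    exact congrArg (fun t : ℝ => (Nat.card (Wab fr p a b) : ℝ) * t - (A.card : ℝ) ^ 2)
      (prs_eq (Lm fr p h a b) A _).symm
  have h3 : ∀ b, 0 ≤ (Rg fr p a b).card * prs (Lm fr p h a b) A - (A.card : ℝ) ^ 2 := by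
    intro b
    rw [← l2_dev (Lm fr p h a b) A (Rg fr p a b)
      (fun Q => Finset.mem_filter.2 ⟨Finset.mem_univ _, Lm_mem h a b Q⟩) (card_Rg_pos a b)]
    exact mul_nonneg (Nat.cast_nonneg _) (Finset.sum_nonneg fun v _ => sq_nonneg _)
  set J := (S.erase a).filter fun b => bad h A a b with hJ
  have h4 : (J.card : ℝ) * ((A.card : ℝ) ^ 2 / 40336) ≤ 2
      * Fintype.card (Matrix (Co E P Om) (Co E P Om) F) * A.card := by
    refine le_trans ?_ h2
    rw [← nsmul_eq_mul, ← Finset.sum_const]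
    refine le_trans ?_ (Finset.sum_le_sum_of_subset_of_nonneg
      (Finset.filter_subset (fun b => bad h A a b) (S.erase a))
      fun b _ _ => h3 b)
    refine Finset.sum_le_sum fun b hb => ?_
    have h5 := (Finset.mem_filter.1 hb).2
    unfold bad at h5
    linarith
  refine Nat.le_floor ?_
  rw [le_div_iff₀ hδ]
  have h5 : (J.card : ℝ) * δ * (A.card : ℝ) ^ 2 ≤ 80672 * (A.card : ℝ) ^ 2 := by
    have h6 : δ * ((J.card : ℝ) * ((A.card : ℝ) ^ 2 / 40336)) ≤ δ * (2
      * Fintype.card (Matrix (Co E P Om) (Co E P Om) F) * A.card) :=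
      mul_le_mul_of_nonneg_left h4 hδ.le
    have h7 : δ * (2 * Fintype.card (Matrix (Co E P Om) (Co E P Om) F) * A.card)
        ≤ 2 * (A.card : ℝ) ^ 2 := by
      calc δ * (2 * Fintype.card (Matrix (Co E P Om) (Co E P Om) F) * A.card)
          = 2 * ((δ * Fintype.card (Matrix (Co E P Om) (Co E P Om) F)) * A.card) := by ring
        _ ≤ 2 * ((A.card : ℝ) * A.card) :=
          mul_le_mul_of_nonneg_left (mul_le_mul_of_nonneg_right hA hs.le) (by norm_num)
        _ = 2 * (A.card : ℝ) ^ 2 := by ring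
    nlinarith
  exact le_of_mul_le_mul_right h5 (by positivity)

end Vale.Agent.P060.HW.NOA

namespace Vale.Agent.P060.HW

open NOA

theorem noaCore : NOACore := by
  intro δ hδ
  refine ⟨2 * ⌊80672 / δ⌋₊ + 3, ?_⟩
  intro N d E P Om _ _ _ _ fr p h κ h12 hrow hev S hS hdis A ι hA
  have hI := HI.of_ev h12 hrow hev
  have hMat : (0 : ℝ) < Fintype.card (Matrix (Co E P Om) (Co E P Om) F) := by
    exact_mod_cast Fintype.card_pos
  have hpos : ∀ a ∈ S, 0 < (A a).card := by
    intro a ha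
    have h1 : (0 : ℝ) < (A a).card := lt_of_lt_of_le (by positivity) (hA a ha)
    exact_mod_cast h1
  obtain ⟨a, ha, b, hb, hab, n1, n2⟩ := exists_pair S (fun a b => bad h (A a) a b)
    ⌊80672 / δ⌋₊ (fun a ha => card_bad h hI hδ S (by omega) hdis ha (A a) (hA a ha)) (by omega)
  refine ⟨a, ha, b, hb, hab, ?_⟩
  have h1 : ((S.erase a).erase b).Nonempty := by
    rw [← Finset.card_pos, Finset.card_erase_of_mem (Finset.mem_erase.2 ⟨hab.symm, hb⟩),
      Finset.card_erase_of_mem ha]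
    omega
  obtain ⟨c, hc⟩ := h1
  rw [Finset.mem_erase, Finset.mem_erase] at hc
  have h2 := adj_of_not_bad h hI (b' := c) ⟨hdis a ha b hb hab, hdis a ha c hc.2.2 hc.2.1.symm,
    hdis b hb c hc.2.2 hc.1.symm⟩ (ι a) (ι b) (hpos a ha) (hpos b hb) n1 n2
  refine le_trans ?_ h2
  calc δ ^ 2 * (Fintype.card (Matrix (Co E P Om) (Co E P Om) F) : ℝ) ^ 2
      = (δ * Fintype.card (Matrix (Co E P Om) (Co E P Om) F))
        * (δ * Fintype.card (Matrix (Co E P Om) (Co E P Om) F)) := by ring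
    _ ≤ (A a).card * (A b).card := mul_le_mul (hA a ha) (hA b hb) (by positivity)
        (Nat.cast_nonneg _)

end Vale.Agent.P060.HW
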