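import Vale.Agent.P060.HW.Blocks
import Vale.Agent.P060.HW.Overlap
import Vale.Agent.P060.HW.Field3

/-!
# The overlap lemma in the form of `Blocks.lean`, for a general design
-/

open scoped Classical

noncomputable section

set_option linter.unusedSectionVars false
set_option linter.constructorNameAsVariable false

namespace Vale.Agent.P060.HW

open Finset Module

/-- Four test values. -/
abbrev V4 (K : Type*) : Type _ := Fin 4 → K → F

/-- Exchanging the two middle slots. -/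
def sw4 (K : Type*) : V4 K ≃ₗ[F] V4 K where
  toFun v := ![v 0, v 2, v 1, v 3]
  invFun v := ![v 0, v 2, v 1, v 3]
  map_add' u v := by
    funext i
    fin_cases i <;> rfl
  map_smul' r v := by
    funext i
    fin_cases i <;> rfl
  left_inv v := by
    funext i
    fin_cases i <;> rfl
  right_inv v := by
    funext i
    fin_cases i <;> rfl

lemma sw4_apply {K : Type*} (v : V4 K) : sw4 K v = ![v 0, v 2, v 1, v 3] := rfl
lemma sw4_zero {K : Type*} (v : V4 K) : sw4 K v 0 = v 0 := rfl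
lemma sw4_one {K : Type*} (v : V4 K) : sw4 K v 1 = v 2 := rfl
lemma sw4_two {K : Type*} (v : V4 K) : sw4 K v 2 = v 1 := rfl
lemma sw4_three {K : Type*} (v : V4 K) : sw4 K v 3 = v 3 := rfl
lemma sw4_sw4 {K : Type*} (v : V4 K) : sw4 K (sw4 K v) = v := (sw4 K).left_inv v

section Comap

variable {V W : Type*} [AddCommGroup V] [Module F V] [Fintype V] [AddCommGroup W] [Module F W]
  [Fintype W]

lemma mem_carr_comap' (e : V ≃ₗ[F] W) (U : Submodule F W) (x : V) :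
    x ∈ carr (U.comap (e : V →ₗ[F] W)) ↔ e x ∈ carr U := by
  rw [mem_carr, mem_carr]; rfl

lemma card_carr_comap' (e : V ≃ₗ[F] W) (U : Submodule F W) :
    (carr (U.comap (e : V →ₗ[F] W))).card = (carr U).card := by
  refine Finset.card_bij (fun x _ => e x) (fun x hx => (mem_carr_comap' e U x).1 hx)
    (fun x _ y _ h => e.injective h) (fun y hy => ⟨e.symm y, ?_, e.apply_symm_apply y⟩)
  rw [mem_carr_comap', e.apply_symm_apply]
  exact hy

lemma avg_comap' (e : V ≃ₗ[F] W) (U : Submodule F W) (f : W → ℝ) (x : V) :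
    avg (U.comap (e : V →ₗ[F] W)) (fun v => f (e v)) x = avg U f (e x) := by
  rw [avg, avg, card_carr_comap']
  congr 1
  refine Finset.sum_bij (fun x _ => e x) (fun x hx => (mem_carr_comap' e U x).1 hx)
    (fun x _ y _ h => e.injective h) (fun y hy => ⟨e.symm y, ?_, e.apply_symm_apply y⟩)
    (fun u _ => ?_)
  · rw [mem_carr_comap', e.apply_symm_apply]
    exact hy
  · rw [map_add]

end Comap

/-- A form of the abstract lemma without decidability instances. -/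
theorem overlap_abs' {V : Type*} [AddCommGroup V] [Module F V] [Fintype V]
    (U W A : Submodule F V) (hUA : U ≤ A) (hWA : W ≤ A) {P Q : V → ℝ}
    (hP : ∀ v, 0 ≤ P v) (hQ : ∀ v, 0 ≤ Q v)
    {eP eQ p q R : ℝ} (hp : ∑ v, P v ≤ p) (hq : ∑ v, Q v ≤ q)
    (heP : ∑ v, |P v - avg U P v| ≤ eP) (heQ : ∑ v, |Q v - avg W Q v| ≤ eQ)
    (hRU : ((carr A).card : ℝ) ≤ R * (carr U).card) (hRW : ((carr A).card : ℝ) ≤ R * (carr W).card)
    (D : Finset V) (fL fR : V → V → ℝ) (hL : ∀ m n, fL m n ≤ P m * Q n)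
    (hL' : ∀ m n, fL m n ≤ 0 ∨ ∃ d ∈ D, m - n - d ∈ U ⊔ W) (hR : ∀ m n, 0 ≤ fR m n)
    (hR' : ∀ m n, m - n ∈ D → P m * Q n ≤ fR m n) :
    ((∑ m, ∑ n, fL m n) / 4 - D.card * R * (eP * q + eQ * p) / 2) / (carr A).card ≤
      ∑ m, ∑ n, fR m n := by
  have key := overlap_abs U W A hUA hWA hP hQ hp hq heP heQ hRU hRW D
  have hA := carr_card_pos A
  refine le_trans (div_le_div_of_nonneg_right (sub_le_sub_right
    (div_le_div_of_nonneg_right ?_ (by norm_num)) _) hA.le) (key.trans ?_)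
  · refine Finset.sum_le_sum fun m _ => Finset.sum_le_sum fun n _ => ?_
    split_ifs with h
    · exact hL m n
    · rcases hL' m n with h' | h'
      · exact h'
      · exact absurd h' h
  · refine Finset.sum_le_sum fun m _ => Finset.sum_le_sum fun n _ => ?_
    split_ifs with h
    · exact hR' m n h
    · exact hR m n

namespace Design

variable {K T : Type*} [Fintype K] (δ : Design K T)

/-- Test values with the prescribed zero coordinates. -/
def W4 (a a' b b' : T) : Submodule F (V4 K) where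
  carrier := {v | (∀ w, (w ∈ δ.U a ∨ w ∈ δ.U b) → v 0 w = 0) ∧
    (∀ w, (w ∈ δ.U a ∨ w ∈ δ.U b') → v 1 w = 0) ∧
    (∀ w, (w ∈ δ.U a' ∨ w ∈ δ.U b) → v 2 w = 0) ∧
    (∀ w, (w ∈ δ.U a' ∨ w ∈ δ.U b') → v 3 w = 0)}
  zero_mem' := ⟨fun _ _ => rfl, fun _ _ => rfl, fun _ _ => rfl, fun _ _ => rfl⟩
  add_mem' := by
    rintro u v ⟨h0, h1, h2, h3⟩ ⟨k0, k1, k2, k3⟩
    exact ⟨fun w hw => by rw [Pi.add_apply, Pi.add_apply, h0 w hw, k0 w hw, add_zero],
      fun w hw => by rw [Pi.add_apply, Pi.add_apply, h1 w hw, k1 w hw, add_zero],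
      fun w hw => by rw [Pi.add_apply, Pi.add_apply, h2 w hw, k2 w hw, add_zero],
      fun w hw => by rw [Pi.add_apply, Pi.add_apply, h3 w hw, k3 w hw, add_zero]⟩
  smul_mem' := by
    rintro r u ⟨h0, h1, h2, h3⟩
    exact ⟨fun w hw => by rw [Pi.smul_apply, Pi.smul_apply, h0 w hw, smul_zero],
      fun w hw => by rw [Pi.smul_apply, Pi.smul_apply, h1 w hw, smul_zero],
      fun w hw => by rw [Pi.smul_apply, Pi.smul_apply, h2 w hw, smul_zero],
      fun w hw => by rw [Pi.smul_apply, Pi.smul_apply, h3 w hw, smul_zero]⟩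

lemma mem_W4 {a a' b b' : T} {v : V4 K} : v ∈ δ.W4 a a' b b' ↔
    (∀ w, (w ∈ δ.U a ∨ w ∈ δ.U b) → v 0 w = 0) ∧
    (∀ w, (w ∈ δ.U a ∨ w ∈ δ.U b') → v 1 w = 0) ∧
    (∀ w, (w ∈ δ.U a' ∨ w ∈ δ.U b) → v 2 w = 0) ∧
    (∀ w, (w ∈ δ.U a' ∨ w ∈ δ.U b') → v 3 w = 0) := Iff.rfl

/-- The ten functionals. -/
def phi4 (a a' b b' : T) : V4 K →ₗ[F] (Fin 4 → F) × (Fin 4 → F) × (Fin 2 → F) where
  toFun v := (fun i => δ.g a ⬝ᵥ v i, fun i => δ.g a' ⬝ᵥ v i,
    ![δ.g b' ⬝ᵥ v 0 - δ.g b ⬝ᵥ v 1, δ.g b' ⬝ᵥ v 2 - δ.g b ⬝ᵥ v 3])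
  map_add' u v := by
    refine Prod.ext ?_ (Prod.ext ?_ ?_)
    · funext i
      simp [dotProduct_add]
    · funext i
      simp [dotProduct_add]
    · funext i
      fin_cases i
      · simp [dotProduct_add]; ring
      · simp [dotProduct_add]; ring
  map_smul' r v := by
    refine Prod.ext ?_ (Prod.ext ?_ ?_)
    · funext i
      simp [dotProduct_smul]
    · funext i
      simp [dotProduct_smul]
    · funext i
      fin_cases i
      · simp [dotProduct_smul]; ring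
      · simp [dotProduct_smul]; ring

/-- The explicit form of the directions killed by trivial and cut functionals. -/
def Z4 (a a' b b' : T) : Submodule F (V4 K) :=
  δ.W4 a a' b b' ⊓ LinearMap.ker (δ.phi4 a a' b b')

lemma mem_Z4 {a a' b b' : T} {v : V4 K} : v ∈ δ.Z4 a a' b b' ↔ v ∈ δ.W4 a a' b b' ∧
    (∀ i, δ.g a ⬝ᵥ v i = 0) ∧ (∀ i, δ.g a' ⬝ᵥ v i = 0) ∧
    δ.g b' ⬝ᵥ v 0 = δ.g b ⬝ᵥ v 1 ∧ δ.g b' ⬝ᵥ v 2 = δ.g b ⬝ᵥ v 3 := by
  unfold Z4
  rw [Submodule.mem_inf, LinearMap.mem_ker]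
  refine and_congr_right fun _ => ?_
  unfold phi4
  simp only [LinearMap.coe_mk, AddHom.coe_mk, Prod.mk_eq_zero, funext_iff, Pi.zero_apply,
    Fin.forall_fin_two, Matrix.cons_val_zero, Matrix.cons_val_one, sub_eq_zero]

lemma card_W4_le (a a' b b' : T) :
    ((carr (δ.W4 a a' b b')).card : ℝ) ≤ 2521 ^ 10 * (carr (δ.Z4 a a' b b')).card := by
  have h := card_le_inf_ker (δ.W4 a a' b b') (δ.phi4 a a' b b')
  have e : Fintype.card ((Fin 4 → F) × (Fin 4 → F) × (Fin 2 → F)) = 2521 ^ 10 := by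
    rw [Fintype.card_prod, Fintype.card_prod, Fintype.card_fun, Fintype.card_fun, ZMod.card]
    simp only [Fintype.card_fin]
    norm_num
  rw [e] at h
  exact_mod_cast h

lemma card_W4_univ (a a' b b' : T) :
    ((carr (δ.W4 a a' b b')).card : ℝ) ≤ 2521 ^ (4 * Fintype.card K) := by
  have h : (carr (δ.W4 a a' b b')).card ≤ Fintype.card (V4 K) := Finset.card_le_univ _
  have e : Fintype.card (V4 K) = 2521 ^ (4 * Fintype.card K) := by
    rw [Fintype.card_fun, Fintype.card_fun, ZMod.card, Fintype.card_fin, ← pow_mul]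
    congr 1
    ring
  rw [e] at h
  exact_mod_cast h

lemma W4_swap (a a' b b' : T) :
    (δ.W4 b b' a a').comap (sw4 K : V4 K →ₗ[F] V4 K) = δ.W4 a a' b b' := by
  ext v
  rw [Submodule.mem_comap]
  change sw4 K v ∈ δ.W4 b b' a a' ↔ _
  rw [mem_W4, mem_W4, sw4_zero, sw4_one, sw4_two, sw4_three]
  simp only [or_comm (a := _ ∈ δ.U b), or_comm (a := _ ∈ δ.U b')]
  tauto

/-- The four type vectors are independent off the zero rows (in the form needed). -/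
def Ind4 (a a' b b' : T) : Prop := ∀ s s' : F, ∃ z : K → F,
  (∀ c w, w ∈ δ.U c → z w = 0) ∧ δ.g a ⬝ᵥ z = 0 ∧ δ.g a' ⬝ᵥ z = 0 ∧
    δ.g b ⬝ᵥ z = s ∧ δ.g b' ⬝ᵥ z = s'

lemma mem_sup4 {a a' b b' : T} (hI : δ.Ind4 a a' b b') {v : V4 K} (h1 : v ∈ δ.W4 a a' b b')
    (h2 : δ.g b' ⬝ᵥ v 0 = δ.g b ⬝ᵥ v 1) (h3 : δ.g b' ⬝ᵥ v 2 = δ.g b ⬝ᵥ v 3)
    (h4 : δ.g a' ⬝ᵥ v 0 = δ.g a ⬝ᵥ v 2) (h5 : δ.g a' ⬝ᵥ v 1 = δ.g a ⬝ᵥ v 3) :
    v ∈ δ.Z4 a a' b b' ⊔ (δ.Z4 b b' a a').comap (sw4 K : V4 K →ₗ[F] V4 K) := by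
  choose z hz0 hz1 hz2 hz3 hz4 using fun i => hI (δ.g b ⬝ᵥ v i) (δ.g b' ⬝ᵥ v i)
  rw [Submodule.mem_sup]
  refine ⟨z, ?_, v - z, ?_, by abel⟩
  · rw [mem_Z4, mem_W4]
    refine ⟨⟨?_, ?_, ?_, ?_⟩, hz1, hz2, ?_, ?_⟩
    · rintro w (hw | hw) <;> exact hz0 _ _ _ hw
    · rintro w (hw | hw) <;> exact hz0 _ _ _ hw
    · rintro w (hw | hw) <;> exact hz0 _ _ _ hw
    · rintro w (hw | hw) <;> exact hz0 _ _ _ hw
    · rw [hz4, hz3, h2]
    · rw [hz4, hz3, h3]
  · rw [Submodule.mem_comap]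
    change sw4 K (v - z) ∈ _
    rw [mem_Z4]
    refine ⟨?_, fun i => ?_, fun i => ?_, ?_, ?_⟩
    · have : v - z ∈ δ.W4 a a' b b' := by
        refine Submodule.sub_mem _ h1 ?_
        rw [mem_W4]
        refine ⟨?_, ?_, ?_, ?_⟩ <;> rintro w (hw | hw) <;> exact hz0 _ _ _ hw
      rw [← W4_swap, Submodule.mem_comap] at this
      exact this
    · fin_cases i
      · change δ.g b ⬝ᵥ (v - z) 0 = 0
        rw [Pi.sub_apply, dotProduct_sub, hz3, sub_self]
      · change δ.g b ⬝ᵥ (v - z) 2 = 0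
        rw [Pi.sub_apply, dotProduct_sub, hz3, sub_self]
      · change δ.g b ⬝ᵥ (v - z) 1 = 0
        rw [Pi.sub_apply, dotProduct_sub, hz3, sub_self]
      · change δ.g b ⬝ᵥ (v - z) 3 = 0
        rw [Pi.sub_apply, dotProduct_sub, hz3, sub_self]
    · fin_cases i
      · change δ.g b' ⬝ᵥ (v - z) 0 = 0
        rw [Pi.sub_apply, dotProduct_sub, hz4, sub_self]
      · change δ.g b' ⬝ᵥ (v - z) 2 = 0
        rw [Pi.sub_apply, dotProduct_sub, hz4, sub_self]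
      · change δ.g b' ⬝ᵥ (v - z) 1 = 0
        rw [Pi.sub_apply, dotProduct_sub, hz4, sub_self]
      · change δ.g b' ⬝ᵥ (v - z) 3 = 0
        rw [Pi.sub_apply, dotProduct_sub, hz4, sub_self]
    · change δ.g a' ⬝ᵥ (v - z) 0 = δ.g a ⬝ᵥ (v - z) 2
      rw [Pi.sub_apply, Pi.sub_apply, dotProduct_sub, dotProduct_sub, hz1, hz2, h4]
    · change δ.g a' ⬝ᵥ (v - z) 1 = δ.g a ⬝ᵥ (v - z) 3
      rw [Pi.sub_apply, Pi.sub_apply, dotProduct_sub, dotProduct_sub, hz1, hz2, h5]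

/-- Coordinate functionals at zero rows are trivial. -/
lemma Zab_le_W4 (a a' b b' : T) : δ.Zab a a' b b' ≤ δ.W4 a a' b b' := by
  intro m hm
  have hz : ∀ z, TrivPsi δ a a' b b' z → ∑ i, z i ⬝ᵥ m i = 0 := hm
  have hU : ∀ (c : T) (v : K → F) (w : K), (w ∈ δ.U c ∨ w ∈ δ.U b ∨ w ∈ δ.U b') →
      w ∈ δ.U c → sm (Pi.single w 1) v ∈ δ.Nn c := fun c v w _ hw =>
    Submodule.subset_span (Or.inl (Or.inr ⟨w, hw, v, rfl⟩))
  have hC : ∀ (c b : T) (w : K), w ∈ δ.U b → sm (Pi.single w 1) (δ.g b) ∈ δ.Nn c :=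
    fun c b w hw => Submodule.subset_span (Or.inl (Or.inl ⟨b, w, hw, rfl⟩))
  have hN : ∀ (c b : T) (w : K), (w ∈ δ.U c ∨ w ∈ δ.U b) →
      sm (Pi.single w 1) (δ.g b) ∈ δ.Nn c := by
    rintro c b w (hw | hw)
    · exact Submodule.subset_span (Or.inl (Or.inr ⟨w, hw, _, rfl⟩))
    · exact hC c b w hw
  have h0 : ∀ u : K → F, sm (0 : K → F) u = 0 := fun u => by
    unfold sm; simp [Matrix.zero_vecMulVec, Matrix.vecMulVec_zero]
  have e1 : ∀ (z : V4 K), (smm ![z 0, z 1] ![δ.g b, δ.g b'] ∈ δ.Nn a) →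
      (smm ![z 2, z 3] ![δ.g b, δ.g b'] ∈ δ.Nn a') → TrivPsi δ a a' b b' z := by
    intro z h h'
    exact ⟨⟨0, 0, by simpa using h⟩, ⟨0, 0, by simpa using h'⟩⟩
  have e2 : ∀ (u v : K → F), smm ![u, v] ![δ.g b, δ.g b'] = sm u (δ.g b) + sm v (δ.g b') := by
    intro u v
    unfold smm
    rw [Fin.sum_univ_two]
    rfl
  rw [mem_W4]
  refine ⟨fun w hw => ?_, fun w hw => ?_, fun w hw => ?_, fun w hw => ?_⟩
  · have := hz ![Pi.single w 1, 0, 0, 0] (e1 _ (by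
      change smm ![Pi.single w 1, 0] ![δ.g b, δ.g b'] ∈ _
      rw [e2, h0, add_zero]; exact hN a b w hw) (by
      change smm ![0, 0] ![δ.g b, δ.g b'] ∈ _
      rw [e2, h0, h0, add_zero]; exact Submodule.zero_mem _))
    simpa [Fin.sum_univ_four, single_dotProduct] using this
  · have := hz ![0, Pi.single w 1, 0, 0] (e1 _ (by
      change smm ![0, Pi.single w 1] ![δ.g b, δ.g b'] ∈ _
      rw [e2, h0, zero_add]; exact hN a b' w hw) (by
      change smm ![0, 0] ![δ.g b, δ.g b'] ∈ _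
      rw [e2, h0, h0, add_zero]; exact Submodule.zero_mem _))
    simpa [Fin.sum_univ_four, single_dotProduct] using this
  · have := hz ![0, 0, Pi.single w 1, 0] (e1 _ (by
      change smm ![0, 0] ![δ.g b, δ.g b'] ∈ _
      rw [e2, h0, h0, add_zero]; exact Submodule.zero_mem _) (by
      change smm ![Pi.single w 1, 0] ![δ.g b, δ.g b'] ∈ _
      rw [e2, h0, add_zero]; exact hN a' b w hw))
    simpa [Fin.sum_univ_four, single_dotProduct] using this
  · have := hz ![0, 0, 0, Pi.single w 1] (e1 _ (by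
      change smm ![0, 0] ![δ.g b, δ.g b'] ∈ _
      rw [e2, h0, h0, add_zero]; exact Submodule.zero_mem _) (by
      change smm ![0, Pi.single w 1] ![δ.g b, δ.g b'] ∈ _
      rw [e2, h0, zero_add]; exact hN a' b' w hw))
    simpa [Fin.sum_univ_four, single_dotProduct] using this

variable {δ}

lemma Form.mem_Com {a : T} {ι : Bool} {B : Matrix K K F} (hB : B ∈ δ.Form a ι) : B ∈ δ.Com := by
  have h1 : B - (if ι then δ.B0 a else 0) ∈ δ.Dir a := hB
  have h2 : (if ι then δ.B0 a else 0) ∈ δ.Com := by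
    split_ifs
    · exact δ.B0_mem_Com a
    · exact Submodule.zero_mem _
  have h3 := Submodule.add_mem _ h1.1 h2
  rwa [sub_add_cancel] at h3

lemma Form.row {a : T} {ι : Bool} {B : Matrix K K F} (hB : B ∈ δ.Form a ι) {w : K}
    (hw : w ∈ δ.U a) (v : K) : B w v = 0 := by
  have h1 : B - (if ι then δ.B0 a else 0) ∈ δ.Dir a := hB
  have h2 := h1.2.1 w hw v
  rw [Matrix.sub_apply, sub_eq_zero] at h2
  rw [h2]
  split_ifs
  · exact δ.B0_row a a hw v
  · rfl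

lemma Form.row_mulVec {a : T} {ι : Bool} {B : Matrix K K F} (hB : B ∈ δ.Form a ι) {w : K}
    (hw : w ∈ δ.U a) (v : K → F) : (B.mulVec v) w = 0 := by
  unfold Matrix.mulVec dotProduct
  refine Finset.sum_eq_zero fun j _ => ?_
  change B w j * v j = 0
  rw [Form.row hB hw, zero_mul]

/-- The structure of test values. -/
lemma tv_struct {a a' : T} {ι ι' : Bool} {B B' : Matrix K K F} (hB : B ∈ δ.Form a ι)
    (hB' : B' ∈ δ.Form a' ι') (b b' : T) : tv (δ.g b) (δ.g b') B B' ∈ δ.W4 a a' b b' ∧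
      δ.g b' ⬝ᵥ tv (δ.g b) (δ.g b') B B' 0 = δ.g b ⬝ᵥ tv (δ.g b) (δ.g b') B B' 1 ∧
      δ.g b' ⬝ᵥ tv (δ.g b) (δ.g b') B B' 2 = δ.g b ⬝ᵥ tv (δ.g b) (δ.g b') B B' 3 := by
  refine ⟨?_, ?_, ?_⟩
  · rw [mem_W4]
    refine ⟨?_, ?_, ?_, ?_⟩
    · rintro w (hw | hw)
      · exact Form.row_mulVec hB hw _
      · exact (Form.mem_Com hB).2 b w hw
    · rintro w (hw | hw)
      · exact Form.row_mulVec hB hw _
      · exact (Form.mem_Com hB).2 b' w hw
    · rintro w (hw | hw)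
      · exact Form.row_mulVec hB' hw _
      · exact (Form.mem_Com hB').2 b w hw
    · rintro w (hw | hw)
      · exact Form.row_mulVec hB' hw _
      · exact (Form.mem_Com hB').2 b' w hw
  · exact symm_dot (Form.mem_Com hB).1 _ _
  · exact symm_dot (Form.mem_Com hB').1 _ _

lemma tlaw_nonneg {w : Matrix K K F → Matrix K K F → ℝ} (hw : ∀ B B', 0 ≤ w B B') (g g' : K → F)
    (m : V4 K) : 0 ≤ tlaw w g g' m :=
  Finset.sum_nonneg fun B _ => Finset.sum_nonneg fun B' _ => by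
    split_ifs; exacts [hw _ _, le_rfl]

lemma sum_tlaw (w : Matrix K K F → Matrix K K F → ℝ) (g g' : K → F) :
    ∑ m, tlaw w g g' m = ∑ B, ∑ B', w B B' := by
  unfold tlaw
  rw [Finset.sum_comm]
  refine Finset.sum_congr rfl fun B _ => ?_
  rw [Finset.sum_comm]
  refine Finset.sum_congr rfl fun B' _ => ?_
  rw [Finset.sum_ite_eq Finset.univ (tv g g' B B') fun _ => w B B', if_pos (Finset.mem_univ _)]

lemma exists_of_tlaw {w : Matrix K K F → Matrix K K F → ℝ} {g g' : K → F} {m : V4 K}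
    (h : tlaw w g g' m ≠ 0) : ∃ B B', w B B' ≠ 0 ∧ tv g g' B B' = m := by
  obtain ⟨B, -, hB⟩ := Finset.exists_ne_zero_of_sum_ne_zero h
  obtain ⟨B', -, hB'⟩ := Finset.exists_ne_zero_of_sum_ne_zero hB
  by_cases h1 : tv g g' B B' = m
  · rw [if_pos h1] at hB'
    exact ⟨B, B', hB', h1⟩
  · rw [if_neg h1] at hB'
    exact absurd rfl hB'

variable (δ)

/-- Joint values onto `Y × Y`. -/
def JO (a b : T) : Prop := ∀ u ∈ Y, ∀ v ∈ Y, ∃ t ∈ δ.E, δ.g a t = u ∧ δ.g b t = v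

lemma exists_dsel {a a' b b' : T} (h1 : δ.JO a' b') (h2 : δ.JO a' b) (h3 : δ.JO a b')
    (h4 : δ.JO a b) (s : Fin 4 → F) (hs : ∀ i, s i ∉ Y) :
    ∃ d : V4 K, (∀ i, ∃ t ∈ δ.E, ∃ u ∈ Y, d i = Pi.single t u) ∧
      δ.g a' ⬝ᵥ d 0 - δ.g a ⬝ᵥ d 2 = s 0 ∧ δ.g a' ⬝ᵥ d 1 - δ.g a ⬝ᵥ d 3 = s 1 ∧
      δ.g b ⬝ᵥ d 1 - δ.g b' ⬝ᵥ d 0 = s 2 ∧ δ.g b ⬝ᵥ d 3 - δ.g b' ⬝ᵥ d 2 = s 3 := by
  obtain ⟨t1, t2, t3, t4, e1, e2, e3, e4⟩ := solve4 (κ := δ.E) (fun t => δ.g a t)
    (fun t => δ.g a' t) (fun t => δ.g b t) (fun t => δ.g b' t)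
    (fun u hu w hw => by
      obtain ⟨t, ht, h⟩ := h1 u hu w hw
      exact ⟨⟨t, ht⟩, h⟩)
    (fun u hu w hw => by
      obtain ⟨t, ht, h⟩ := h2 u hu w hw
      exact ⟨⟨t, ht⟩, h⟩)
    (fun u hu w hw => by
      obtain ⟨t, ht, h⟩ := h3 u hu w hw
      exact ⟨⟨t, ht⟩, h⟩)
    (fun u hu w hw => by
      obtain ⟨t, ht, h⟩ := h4 u hu w hw
      exact ⟨⟨t, ht⟩, h⟩) (hs 0) (hs 1) (hs 2) (hs 3)
  refine ⟨![Pi.single (t1 : K) 1, Pi.single (t2 : K) 1, Pi.single (t3 : K) 1,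
    Pi.single (t4 : K) 1], ?_, ?_, ?_, ?_, ?_⟩
  · intro i
    fin_cases i
    · exact ⟨t1, t1.2, 1, one_mem_Y, rfl⟩
    · exact ⟨t2, t2.2, 1, one_mem_Y, rfl⟩
    · exact ⟨t3, t3.2, 1, one_mem_Y, rfl⟩
    · exact ⟨t4, t4.2, 1, one_mem_Y, rfl⟩
  · simpa using e1
  · simpa using e2
  · simpa using e3
  · simpa using e4

/-- **Overlap for a general design.** -/
theorem overlap4 {a a' b b' : T} (hI : δ.Ind4 a a' b b')
    (h1 : δ.JO a' b') (h2 : δ.JO a' b) (h3 : δ.JO a b') (h4 : δ.JO a b)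
    (hZ : δ.Z4 a a' b b' ≤ δ.Zab a a' b b') (hZ' : δ.Z4 b b' a a' ≤ δ.Zab b b' a a')
    {ι₁ ι₁' ι₂ ι₂' : Bool} {Λ M : ℝ} {w w' : Matrix K K F → Matrix K K F → ℝ}
    (hw : PLaw δ a a' ι₁ ι₁' Λ M w) (hw' : PLaw δ b b' ι₂ ι₂' Λ M w') {ε s s' : ℝ}
    (ht : tdist δ a a' w (b, b') ≤ ε) (ht' : tdist δ b b' w' (a, a') ≤ ε) (hs' : 0 ≤ s')
    (hu : s ≤ ∑ m, (if UncutT (δ.g a) (δ.g a') m then tlaw w (δ.g b) (δ.g b') m else 0))
    (hu' : s' ≤ ∑ n, (if UncutT (δ.g b) (δ.g b') n then tlaw w' (δ.g a) (δ.g a') n else 0)) :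
    (s * s' / 4 - 2521 ^ 14 * ε) / 2521 ^ (4 * Fintype.card K) ≤
      ∑ m, ∑ n, (if ConfT δ m n then tlaw w (δ.g b) (δ.g b') m * tlaw w' (δ.g a) (δ.g a') n
        else 0) := by
  set P : V4 K → ℝ := tlaw w (δ.g b) (δ.g b') with hP
  set Q' : V4 K → ℝ := tlaw w' (δ.g a) (δ.g a') with hQ'
  set Q : V4 K → ℝ := fun v => Q' (sw4 K v) with hQ
  have hP0 : ∀ m, 0 ≤ P m := fun m => tlaw_nonneg hw.nonneg _ _ m
  have hQ'0 : ∀ m, 0 ≤ Q' m := fun m => tlaw_nonneg hw'.nonneg _ _ m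
  have hQ0 : ∀ m, 0 ≤ Q m := fun m => hQ'0 _
  have hre : ∀ f : V4 K → ℝ, ∑ v, f (sw4 K v) = ∑ v, f v := fun f =>
    Fintype.sum_equiv (sw4 K).toEquiv _ _ fun v => rfl
  have hPs : ∑ m, P m = 1 := (sum_tlaw _ _ _).trans hw.sum_one
  have hQs : ∑ m, Q m = 1 := (hre Q').trans ((sum_tlaw _ _ _).trans hw'.sum_one)
  have hUA : δ.Zab a a' b b' ≤ δ.W4 a a' b b' := δ.Zab_le_W4 a a' b b'
  have hWA : (δ.Zab b b' a a').comap (sw4 K : V4 K →ₗ[F] V4 K) ≤ δ.W4 a a' b b' := by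
    rw [← W4_swap]
    exact Submodule.comap_mono (δ.Zab_le_W4 b b' a a')
  have hRU : ((carr (δ.W4 a a' b b')).card : ℝ) ≤ 2521 ^ 10 * (carr (δ.Zab a a' b b')).card := by
    refine (δ.card_W4_le a a' b b').trans ?_
    have : (carr (δ.Z4 a a' b b')).card ≤ (carr (δ.Zab a a' b b')).card :=
      Finset.card_le_card fun x hx => mem_carr.mpr (hZ (mem_carr.mp hx))
    exact mul_le_mul_of_nonneg_left (by exact_mod_cast this) (by positivity)
  have hRW : ((carr (δ.W4 a a' b b')).card : ℝ) ≤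
      2521 ^ 10 * (carr ((δ.Zab b b' a a').comap (sw4 K : V4 K →ₗ[F] V4 K))).card := by
    rw [← W4_swap, card_carr_comap', card_carr_comap']
    refine (δ.card_W4_le b b' a a').trans ?_
    have : (carr (δ.Z4 b b' a a')).card ≤ (carr (δ.Zab b b' a a')).card :=
      Finset.card_le_card fun x hx => mem_carr.mpr (hZ' (mem_carr.mp hx))
    exact mul_le_mul_of_nonneg_left (by exact_mod_cast this) (by positivity)
  have heP : ∑ v, |P v - avg (δ.Zab a a' b b') P v| ≤ ε := ht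
  have heQ : ∑ v, |Q v - avg ((δ.Zab b b' a a').comap (sw4 K : V4 K →ₗ[F] V4 K)) Q v| ≤ ε := by
    refine le_trans (le_of_eq ?_) ht'
    unfold tdist
    rw [← hre fun v => |tlaw w' (δ.g a) (δ.g a') v -
      avg (δ.Zab b b' a a') (tlaw w' (δ.g a) (δ.g a')) v|]
    refine Finset.sum_congr rfl fun v _ => ?_
    rw [hQ, avg_comap']
  -- the selected differences
  choose! sel hsel hsel0 hsel1 hsel2 hsel3 using δ.exists_dsel h1 h2 h3 h4
  obtain ⟨D, hD⟩ : ∃ D : Finset (V4 K), D = (Finset.univ.filter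
    fun s : Fin 4 → F => ∀ i, s i ∉ Y).image sel := ⟨_, rfl⟩
  have hDcard : (D.card : ℝ) ≤ 2521 ^ 4 := by
    have h : D.card ≤ Fintype.card (Fin 4 → F) := by
      rw [hD]
      exact Finset.card_image_le.trans (Finset.card_le_univ _)
    have e : Fintype.card (Fin 4 → F) = 2521 ^ 4 := by
      rw [Fintype.card_fun, ZMod.card, Fintype.card_fin]
    rw [e] at h
    exact_mod_cast h
  have hε : 0 ≤ ε := (Finset.sum_nonneg fun v _ => abs_nonneg _).trans heP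
  obtain ⟨fL, hfL⟩ : ∃ fL : V4 K → V4 K → ℝ, ∀ m n, fL m n =
      (if UncutT (δ.g a) (δ.g a') m then P m else 0) *
        (if UncutT (δ.g b) (δ.g b') (sw4 K n) then Q n else 0) := ⟨_, fun _ _ => rfl⟩
  obtain ⟨fR, hfR⟩ : ∃ fR : V4 K → V4 K → ℝ, ∀ m n, fR m n =
      if ConfT δ m (sw4 K n) then P m * Q n else 0 := ⟨_, fun _ _ => rfl⟩
  have key := overlap_abs' (δ.Zab a a' b b') ((δ.Zab b b' a a').comap (sw4 K : V4 K →ₗ[F] V4 K))
    (δ.W4 a a' b b') hUA hWA hP0 hQ0 hPs.le hQs.le heP heQ hRU hRW D fL fR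
    (fun m n => by
      rw [hfL]
      refine mul_le_mul ?_ ?_ ?_ (hP0 m)
      · split_ifs
        exacts [le_rfl, hP0 m]
      · split_ifs
        exacts [le_rfl, hQ0 n]
      · split_ifs
        exacts [hQ0 n, le_rfl])
    (fun m n => by
      rw [hfL]
      by_cases hz : P m * Q n = 0
      · left
        rcases mul_eq_zero.1 hz with h | h
        · rw [h, ite_self, zero_mul]
        · rw [h, ite_self, mul_zero]
      by_cases hcu1 : UncutT (δ.g a) (δ.g a') m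
      swap
      · left
        rw [if_neg hcu1, zero_mul]
      by_cases hcu2 : UncutT (δ.g b) (δ.g b') (sw4 K n)
      swap
      · left
        rw [if_neg hcu2, mul_zero]
      right
      have hPm : P m ≠ 0 := left_ne_zero_of_mul hz
      have hQn : Q' (sw4 K n) ≠ 0 := right_ne_zero_of_mul hz
      obtain ⟨B, B', hB, hBm⟩ := exists_of_tlaw hPm
      obtain ⟨C, C', hC, hCn⟩ := exists_of_tlaw hQn
      obtain ⟨k1, k2, k3⟩ := tv_struct (hw.supp B B' hB).1 (hw.supp B B' hB).2 b b'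
      obtain ⟨l1, l2, l3⟩ := tv_struct (hw'.supp C C' hC).1 (hw'.supp C C' hC).2 a a'
      rw [hBm] at k1 k2 k3
      rw [hCn] at l1 l2 l3
      rw [sw4_zero, sw4_one] at l2
      rw [sw4_two, sw4_three] at l3
      obtain ⟨c1, c2⟩ := hcu1
      obtain ⟨c3, c4⟩ := hcu2
      rw [sw4_zero, sw4_two] at c3
      rw [sw4_one, sw4_three] at c4
      obtain ⟨t, ht⟩ : ∃ t : Fin 4 → F, t = ![δ.g a' ⬝ᵥ m 0 - δ.g a ⬝ᵥ m 2,
        δ.g a' ⬝ᵥ m 1 - δ.g a ⬝ᵥ m 3, δ.g b' ⬝ᵥ n 0 - δ.g b ⬝ᵥ n 1,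
        δ.g b' ⬝ᵥ n 2 - δ.g b ⬝ᵥ n 3] := ⟨_, rfl⟩
      have t0 : t 0 = δ.g a' ⬝ᵥ m 0 - δ.g a ⬝ᵥ m 2 := by rw [ht]; rfl
      have t1 : t 1 = δ.g a' ⬝ᵥ m 1 - δ.g a ⬝ᵥ m 3 := by rw [ht]; rfl
      have t2 : t 2 = δ.g b' ⬝ᵥ n 0 - δ.g b ⬝ᵥ n 1 := by rw [ht]; rfl
      have t3 : t 3 = δ.g b' ⬝ᵥ n 2 - δ.g b ⬝ᵥ n 3 := by rw [ht]; rfl
      have htY : ∀ i, t i ∉ Y := by
        intro i
        fin_cases i
        · exact t0 ▸ c1
        · exact t1 ▸ c2
        · exact t2 ▸ c3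
        · exact t3 ▸ c4
      have hst : sel t ∈ D := by
        rw [hD, Finset.mem_image]
        refine ⟨t, ?_, rfl⟩
        simp only [Finset.mem_filter, Finset.mem_univ, true_and]
        exact htY
      refine ⟨sel t, hst, ?_⟩
      have q0 := hsel0 t htY
      have q1 := hsel1 t htY
      have q2 := hsel2 t htY
      have q3 := hsel3 t htY
      rw [t0] at q0
      rw [t1] at q1
      rw [t2] at q2
      rw [t3] at q3
      have hmem : m - n - sel t ∈ δ.Z4 a a' b b' ⊔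
          (δ.Z4 b b' a a').comap (sw4 K : V4 K →ₗ[F] V4 K) := by
        refine δ.mem_sup4 hI ?_ ?_ ?_ ?_ ?_
        · refine Submodule.sub_mem _ (Submodule.sub_mem _ k1 ?_) ?_
          · rw [← W4_swap, Submodule.mem_comap]
            exact l1
          · have hz0 : ∀ i (c : T) (u : K), u ∈ δ.U c → sel t i u = 0 := by
              intro i c u hu
              obtain ⟨e, he, y, -, hy⟩ := hsel t htY i
              rw [hy, Pi.single_apply, if_neg]
              rintro rfl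
              exact δ.hU c _ hu he
            rw [mem_W4]
            refine ⟨?_, ?_, ?_, ?_⟩ <;> rintro u (hu | hu) <;> exact hz0 _ _ _ hu
        · simp only [Pi.sub_apply, dotProduct_sub]
          linear_combination k2 + q2
        · simp only [Pi.sub_apply, dotProduct_sub]
          linear_combination k3 + q3
        · simp only [Pi.sub_apply, dotProduct_sub]
          linear_combination -l2 - q0
        · simp only [Pi.sub_apply, dotProduct_sub]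
          linear_combination -l3 - q1
      exact (sup_le_sup hZ (Submodule.comap_mono hZ')) hmem)
    (fun m n => by
      rw [hfR]
      split_ifs
      exacts [mul_nonneg (hP0 m) (hQ0 n), le_rfl])
    (fun m n hmn => by
      rw [hfR]
      have hc : ConfT δ m (sw4 K n) := by
        rw [hD, Finset.mem_image] at hmn
        obtain ⟨t, ht, hmn⟩ := hmn
        rw [Finset.mem_filter] at ht
        have hd := hsel t ht.2
        rw [hmn] at hd
        exact ⟨hd 0, hd 1, hd 2, hd 3⟩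
      exact (if_pos hc).ge)
  -- identification of both sides
  have eL : s * s' ≤ ∑ m, ∑ n, fL m n := by
    have e1 : ∑ m, ∑ n, fL m n = (∑ m, (if UncutT (δ.g a) (δ.g a') m then P m else 0)) *
        ∑ n, (if UncutT (δ.g b) (δ.g b') (sw4 K n) then Q n else 0) := by
      rw [Finset.sum_mul_sum]
      exact Finset.sum_congr rfl fun m _ => Finset.sum_congr rfl fun n _ => hfL m n
    have e2 : ∑ n, (if UncutT (δ.g b) (δ.g b') (sw4 K n) then Q n else 0) =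
        ∑ n, (if UncutT (δ.g b) (δ.g b') n then Q' n else 0) :=
      hre fun n => if UncutT (δ.g b) (δ.g b') n then Q' n else 0
    rw [e1, e2]
    refine mul_le_mul hu hu' hs' (Finset.sum_nonneg fun m _ => ?_)
    split_ifs
    exacts [hP0 _, le_rfl]
  have eR : ∑ m, ∑ n, fR m n = ∑ m, ∑ n, (if ConfT δ m n then P m * Q' n else 0) := by
    refine Finset.sum_congr rfl fun m _ => ?_
    rw [← hre fun n => if ConfT δ m n then P m * Q' n else 0]
    exact Finset.sum_congr rfl fun n _ => hfR m n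
  rw [eR] at key
  -- conclusion
  have hA := carr_card_pos (δ.W4 a a' b b')
  have hAu := δ.card_W4_univ a a' b b'
  have hR0 : 0 ≤ ∑ m, ∑ n, (if ConfT δ m n then P m * Q' n else 0) :=
    Finset.sum_nonneg fun m _ => Finset.sum_nonneg fun n _ => by
      split_ifs; exacts [mul_nonneg (hP0 _) (hQ'0 _), le_rfl]
  have hpow : (0 : ℝ) < 2521 ^ (4 * Fintype.card K) := by positivity
  by_cases hneg : s * s' / 4 - 2521 ^ 14 * ε ≤ 0
  · exact (div_nonpos_of_nonpos_of_nonneg hneg hpow.le).trans hR0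
  · push Not at hneg
    refine le_trans ?_ key
    have herr : (D.card : ℝ) * 2521 ^ 10 * (ε * 1 + ε * 1) / 2 ≤ 2521 ^ 14 * ε := by
      have h10 : (0 : ℝ) ≤ 2521 ^ 10 * ε := mul_nonneg (by positivity) hε
      have := mul_le_mul_of_nonneg_right hDcard h10
      calc (D.card : ℝ) * 2521 ^ 10 * (ε * 1 + ε * 1) / 2 = D.card * (2521 ^ 10 * ε) := by ring
        _ ≤ 2521 ^ 4 * (2521 ^ 10 * ε) := this
        _ = 2521 ^ 14 * ε := by ring
    have h3 : s * s' / 4 - 2521 ^ 14 * ε ≤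
        (∑ m, ∑ n, fL m n) / 4 - (D.card : ℝ) * 2521 ^ 10 * (ε * 1 + ε * 1) / 2 := by
      linarith
    exact div_le_div₀ (hneg.le.trans h3) h3 hA hAu

end Design

end Vale.Agent.P060.HW
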