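import Vale.Agent.P060.HW.TVIface
import Vale.Agent.P060.HW.T3Frame
import Vale.Agent.P060.HW.TVB
import Vale.Agent.P060.HW.Ann

/-!
# P060/HW: the TV theorem for one pair of types

`tv_frame` : the bridge `tv_bridge` for a frame, with the linear algebra of the known functionals
of the three pasts (from `AN`).
-/

open scoped Classical

noncomputable section

set_option linter.unusedSectionVars false

namespace Vale.Agent.P060.HW

namespace TVF

open Module

section Coord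

variable {K : Type} [Fintype K]

/-- The coordinates of a functional on four slots. -/
def zc : Dual F (Fin 4 → K → F) →ₗ[F] (Fin 4 → K → F) where
  toFun ξ := fun i j => ξ (Pi.single i (Pi.single j 1))
  map_add' _ _ := rfl
  map_smul' _ _ := rfl

lemma zc_spec (ξ : Dual F (Fin 4 → K → F)) (m : Fin 4 → K → F) :
    ξ m = ∑ i, zc ξ i ⬝ᵥ m i := by
  have h1 : m = ∑ i, ∑ j, m i j • (Pi.single i (Pi.single j 1) : Fin 4 → K → F) := by
    funext i j
    rw [Finset.sum_apply, Finset.sum_apply, Finset.sum_eq_single i]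
    · rw [Finset.sum_apply, Finset.sum_apply, Finset.sum_eq_single j]
      · rw [Pi.smul_apply, Pi.smul_apply, Pi.single_eq_same, Pi.single_eq_same, smul_eq_mul,
          mul_one]
      · intro j' _ hj
        rw [Pi.smul_apply, Pi.smul_apply, Pi.single_eq_same, Pi.single_eq_of_ne (Ne.symm hj),
          smul_zero]
      · intro h; exact absurd (Finset.mem_univ _) h
    · intro i' _ hi
      rw [Finset.sum_apply, Finset.sum_apply]
      refine Finset.sum_eq_zero fun j' _ => ?_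
      rw [Pi.smul_apply, Pi.smul_apply, Pi.single_eq_of_ne (Ne.symm hi), Pi.zero_apply, smul_zero]
    · intro h; exact absurd (Finset.mem_univ _) h
  conv_lhs => rw [h1]
  rw [map_sum]
  refine Finset.sum_congr rfl fun i _ => ?_
  rw [map_sum]
  unfold dotProduct
  refine Finset.sum_congr rfl fun j _ => ?_
  rw [map_smul, smul_eq_mul, mul_comm]
  rfl

lemma zc_injective : Function.Injective (zc (K := K)) := by
  intro ξ ξ' h
  refine LinearMap.ext fun m => ?_
  rw [zc_spec, zc_spec, h]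

/-- The tensors of a functional on the values at two vectors. -/
def tm (x y : K → F) : (Fin 4 → K → F) →ₗ[F] MM K where
  toFun z := ((2 : F)⁻¹ • (smB (z 0) x + smB (z 1) y), (2 : F)⁻¹ • (smB (z 2) x + smB (z 3) y))
  map_add' z z' := by
    simp only [Pi.add_apply, map_add, LinearMap.add_apply, smul_add, Prod.mk_add_mk]
    congr 1 <;> abel
  map_smul' c z := by
    simp only [Pi.smul_apply, map_smul, LinearMap.smul_apply, RingHom.id_apply, Prod.smul_mk,
      ← smul_add]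
    exact Prod.ext (smul_comm _ _ _) (smul_comm _ _ _)

lemma tm_add (x x' y y' : K → F) (z : Fin 4 → K → F) :
    tm (x + x') (y + y') z = tm x y z + tm x' y' z := by
  simp only [tm, LinearMap.coe_mk, AddHom.coe_mk, map_add, Prod.mk_add_mk, ← smul_add]
  congr 2 <;> abel

lemma pr_zero_left (B : Matrix K K F) : pr 0 B = 0 := ann_pr_zero B

lemma tm_pr {B B' : Matrix K K F} (hB : B.IsSymm) (hB' : B'.IsSymm) (x y : K → F)
    (z : Fin 4 → K → F) :
    XX (B, B') (tm x y z) = ∑ i, z i ⬝ᵥ tv x y B B' i := by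
  rw [XX_apply]
  simp only [tm, LinearMap.coe_mk, AddHom.coe_mk, pr_smul, pr_add, smB_apply]
  rw [ann_pr_sm hB, ann_pr_sm hB, ann_pr_sm hB', ann_pr_sm hB', Fin.sum_univ_four]
  have h2 : (2 : F)⁻¹ * 2 = 1 := inv_mul_cancel₀ ann_two_ne
  have e : ∀ x y : F, (2 : F)⁻¹ * (2 * x + 2 * y) = x + y := by
    intro x y
    rw [← mul_add, ← mul_assoc, h2, one_mul]
  rw [e, e]
  simp only [tv, Matrix.cons_val_zero, Matrix.cons_val_one, Matrix.cons_val]
  ring

end Coord

section Slots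

variable {N : ℕ} {E P Om : Type} [Fintype E] [Fintype P] [Fintype Om] [NeZero N]

/-- The span of the lines in `S`. -/
def linsp (p : Lin N → Co E P Om → F) (S : Finset (Lin N)) : Submodule F (Co E P Om → F) :=
  Submodule.span F (p '' S)

/-- The vectors supported on the rows in `R`. -/
def rowsp (R : Finset Om) : Submodule F (Co E P Om → F) where
  carrier := {z | (∀ j, z (Sum.inl j) = 0) ∧ ∀ w ∉ R, z (Sum.inr w) = 0}
  zero_mem' := ⟨fun _ => rfl, fun _ _ => rfl⟩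
  add_mem' := fun h h' => ⟨fun j => by rw [Pi.add_apply, h.1, h'.1, add_zero],
    fun w hw => by rw [Pi.add_apply, h.2 w hw, h'.2 w hw, add_zero]⟩
  smul_mem' := fun c _ h => ⟨fun j => by rw [Pi.smul_apply, h.1, smul_zero],
    fun w hw => by rw [Pi.smul_apply, h.2 w hw, smul_zero]⟩

lemma mem_linsp {p : Lin N → Co E P Om → F} {S : Finset (Lin N)} {z : Co E P Om → F} :
    z ∈ linsp p S ↔ ∃ c : Lin N → F, (∀ v, v ∉ S → c v = 0) ∧ z = ∑ v, c v • p v := by
  constructor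
  · intro h
    obtain ⟨c, rfl⟩ := (Submodule.mem_span_image_finset_iff_exists_fun F).1 h
    refine ⟨fun v => if hv : v ∈ S then c ⟨v, hv⟩ else 0, fun v hv => dif_neg hv, ?_⟩
    have h1 : ∑ v, (if hv : v ∈ S then c ⟨v, hv⟩ else 0) • p v
        = ∑ v ∈ S, (if hv : v ∈ S then c ⟨v, hv⟩ else 0) • p v := by
      refine (Finset.sum_subset (Finset.subset_univ _) fun v _ hv => ?_).symm
      rw [dif_neg hv, zero_smul]
    have h2 := Finset.sum_coe_sort S (fun v => (if hv : v ∈ S then c ⟨v, hv⟩ else 0) • p v)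
    rw [h1, ← h2]
    refine Fintype.sum_congr _ _ fun v => ?_
    rw [dif_pos v.2]
  · rintro ⟨c, hc, rfl⟩
    refine Submodule.sum_mem _ fun v _ => ?_
    by_cases hv : v ∈ S
    · exact Submodule.smul_mem _ _ (Submodule.subset_span ⟨v, hv, rfl⟩)
    · rw [hc v hv, zero_smul]; exact Submodule.zero_mem _

lemma mem_slot {p : Lin N → Co E P Om → F} {S : Finset (Lin N)} {R : Finset Om}
    {z : Co E P Om → F} : z ∈ linsp p S ⊔ rowsp R ↔ ∃ c : Lin N → F, (∀ v, v ∉ S → c v = 0) ∧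
      (∀ j, z (Sum.inl j) = ∑ v, c v * p v (Sum.inl j)) ∧
      ∀ w ∉ R, z (Sum.inr w) = ∑ v, c v * p v (Sum.inr w) := by
  constructor
  · intro h
    obtain ⟨x, hx, y, hy, rfl⟩ := Submodule.mem_sup.1 h
    obtain ⟨c, hc, rfl⟩ := mem_linsp.1 hx
    refine ⟨c, hc, fun j => ?_, fun w hw => ?_⟩
    · rw [Pi.add_apply, hy.1, add_zero, Finset.sum_apply]; rfl
    · rw [Pi.add_apply, hy.2 w hw, add_zero, Finset.sum_apply]; rfl
  · rintro ⟨c, hc, h1, h2⟩
    refine Submodule.mem_sup.2 ⟨∑ v, c v • p v, mem_linsp.2 ⟨c, hc, rfl⟩,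
      z - ∑ v, c v • p v, ⟨fun j => ?_, fun w hw => ?_⟩, by abel⟩
    · rw [Pi.sub_apply, h1, Finset.sum_apply]
      exact sub_self _
    · rw [Pi.sub_apply, h2 w hw, Finset.sum_apply]
      exact sub_self _

lemma slot_mono {p : Lin N → Co E P Om → F} {S S' : Finset (Lin N)} {R R' : Finset Om}
    (hS : S ⊆ S') (hR : R ⊆ R') : linsp p S ⊔ rowsp (E := E) (P := P) R ≤ linsp p S' ⊔ rowsp R' := by
  intro z hz
  obtain ⟨c, h0, h1, h2⟩ := mem_slot.1 hz
  exact mem_slot.2 ⟨c, fun v hv => h0 v fun h => hv (hS h), h1, fun w hw => h2 w fun h => hw (hR h)⟩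

lemma slot_sup {p : Lin N → Co E P Om → F} {S S' : Finset (Lin N)} {R R' : Finset Om} :
    (linsp p S ⊔ rowsp R) ⊔ (linsp p S' ⊔ rowsp R') ≤
      linsp p (S ∪ S') ⊔ rowsp (E := E) (P := P) (R ∪ R') :=
  sup_le (slot_mono Finset.subset_union_left Finset.subset_union_left)
    (slot_mono Finset.subset_union_right Finset.subset_union_right)

/-- Independence on `P` for total families of coefficients. -/
lemma li_total {p : Lin N → Co E P Om → F} {S : Finset (Lin N)}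
    (hS : LinearIndependent F (fun u : S => fun j : P => p u (Sum.inl (Sum.inr j))))
    {c : Lin N → F} (hc : ∀ v, v ∉ S → c v = 0)
    (h : ∀ j : P, ∑ v, c v * p v (Sum.inl (Sum.inr j)) = 0) : c = 0 := by
  funext v
  by_cases hv : v ∈ S
  · refine li_zero hS c (fun j => ?_) v hv
    rw [← h j]
    exact Finset.sum_subset (Finset.subset_univ _) fun v _ hv => by rw [hc v hv, zero_mul]
  · exact hc v hv

/-- The slot lemma for the three pasts. -/
lemma slot_three {p : Lin N → Co E P Om → F} {S : Fin 3 → Finset (Lin N)} {D₀ : Finset (Lin N)}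
    {R : Fin 3 → Finset Om} {R₀ : Finset Om}
    (hd : ∀ l m, l ≠ m → Disjoint (S l) (S m))
    (hli : LinearIndependent F
      (fun u : (S 0 ∪ S 1 ∪ S 2 ∪ D₀ : Finset (Lin N)) => fun j : P => p u (Sum.inl (Sum.inr j))))
    (hR : ∀ l m, l ≠ m → R l ∩ R m ⊆ R₀) :
    ((linsp p (S 0 ∪ D₀) ⊔ rowsp (R 0)) ⊔ (linsp p (S 1 ∪ D₀) ⊔ rowsp (R 1))) ⊓
      (((linsp p (S 0 ∪ D₀) ⊔ rowsp (R 0)) ⊔ (linsp p (S 2 ∪ D₀) ⊔ rowsp (R 2))) ⊓
        ((linsp p (S 1 ∪ D₀) ⊔ rowsp (R 1)) ⊔ (linsp p (S 2 ∪ D₀) ⊔ rowsp (R 2)))) ≤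
      linsp p D₀ ⊔ rowsp (E := E) (P := P) R₀ := by
  rintro z ⟨h01, h02, h12⟩
  obtain ⟨c01, a0, a1, a2⟩ := mem_slot.1 (slot_sup h01)
  obtain ⟨c02, b0, b1, b2⟩ := mem_slot.1 (slot_sup h02)
  obtain ⟨c12, d0, d1, d2⟩ := mem_slot.1 (slot_sup h12)
  have key : ∀ {c c' : Lin N → F}, (∀ v, v ∉ S 0 ∪ S 1 ∪ S 2 ∪ D₀ → c v = 0) →
      (∀ v, v ∉ S 0 ∪ S 1 ∪ S 2 ∪ D₀ → c' v = 0) →
      (∀ j, z (Sum.inl j) = ∑ v, c v * p v (Sum.inl j)) →
      (∀ j, z (Sum.inl j) = ∑ v, c' v * p v (Sum.inl j)) → c = c' := by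
    intro c c' h h' e e'
    have := li_total hli (c := fun v => c v - c' v) (fun v hv => by rw [h v hv, h' v hv, sub_zero])
      (fun j => by
        simp only [sub_mul, Finset.sum_sub_distrib]
        rw [← e, ← e', sub_self])
    funext v
    exact sub_eq_zero.1 (congrFun this v)
  have m0 : ∀ v, v ∉ S 0 ∪ S 1 ∪ S 2 ∪ D₀ → c01 v = 0 := fun v hv => a0 v fun h => hv (by
    simp only [Finset.mem_union] at h ⊢; tauto)
  have m1 : ∀ v, v ∉ S 0 ∪ S 1 ∪ S 2 ∪ D₀ → c02 v = 0 := fun v hv => b0 v fun h => hv (by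
    simp only [Finset.mem_union] at h ⊢; tauto)
  have m2 : ∀ v, v ∉ S 0 ∪ S 1 ∪ S 2 ∪ D₀ → c12 v = 0 := fun v hv => d0 v fun h => hv (by
    simp only [Finset.mem_union] at h ⊢; tauto)
  have e1 : c01 = c02 := key m0 m1 a1 b1
  have e2 : c01 = c12 := key m0 m2 a1 d1
  refine mem_slot.2 ⟨c01, fun v hv => ?_, a1, fun w hw => ?_⟩
  · by_cases h0 : v ∈ S 0
    · have h1 : v ∉ S 1 := Finset.disjoint_left.1 (hd 0 1 (by decide)) h0
      have h2 : v ∉ S 2 := Finset.disjoint_left.1 (hd 0 2 (by decide)) h0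
      rw [e2]
      refine d0 v fun h => ?_
      simp only [Finset.mem_union] at h
      tauto
    · by_cases h1 : v ∈ S 1
      · have h2 : v ∉ S 2 := Finset.disjoint_left.1 (hd 1 2 (by decide)) h1
        rw [e1]
        refine b0 v fun h => ?_
        simp only [Finset.mem_union] at h
        tauto
      · refine a0 v fun h => ?_
        simp only [Finset.mem_union] at h
        tauto
  · by_cases h0 : w ∈ R 0
    · have h1 : w ∉ R 1 := fun h => hw (hR 0 1 (by decide) (Finset.mem_inter.2 ⟨h0, h⟩))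
      have h2 : w ∉ R 2 := fun h => hw (hR 0 2 (by decide) (Finset.mem_inter.2 ⟨h0, h⟩))
      rw [e2]
      refine d2 w fun h => ?_
      simp only [Finset.mem_union] at h
      tauto
    · by_cases h1 : w ∈ R 1
      · have h2 : w ∉ R 2 := fun h => hw (hR 1 2 (by decide) (Finset.mem_inter.2 ⟨h1, h⟩))
        rw [e1]
        refine b2 w fun h => ?_
        simp only [Finset.mem_union] at h
        tauto
      · refine a2 w fun h => ?_
        simp only [Finset.mem_union] at h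
        tauto

end Slots

section Rep

variable {N d : ℕ} {E P Om : Type} [Fintype E] [Fintype P] [Fintype Om] [NeZero N]

/-- The rows known on the line `u` from the lines in `S`, for forms of type `a`. -/
def rws (fr : Frame N d E Om) (a : Ty N d) (S : Finset (Lin N)) (u : Lin N) : Finset Om :=
  Finset.univ.filter fun w => w ∈ fr.U a ∨ ∃ c, w ∈ fr.U c ∧ u ∈ lins c ∧ lins c ⊆ S

/-- The representation of the coefficients of a known tensor. -/
lemma slot_rep (fr : Frame N d E Om) (p : Lin N → Co E P Om → F) (h : Ext fr p)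
    (a : Ty N d) {A S : Finset (Lin N)} (hA : A ⊆ S) (ha : lins a ⊆ A)
    (hS : LinearIndependent F (fun u : S => fun j : P => p u (Sum.inl (Sum.inr j))))
    (hR : ∀ w, LinearIndependent F
      (fun u : (S ∪ rowLines fr w : Finset (Lin N)) => fun j : P => p u (Sum.inl (Sum.inr j))))
    (y : Lin N → Co E P Om → F) (hy : ∀ u, u ∉ S → y u = 0)
    (hmem : ∑ u ∈ S, smB (y u) (p u) ∈ Ga fr p h a A) :
    ∀ u ∈ S, u ∉ A → y u ∈ linsp p S ⊔ rowsp (rws fr a S u) := by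
  obtain ⟨c, x, c1, c2, c3, c4, c5⟩ := rep_of_mem fr p h a (C := S) (B := ∅) (A := A) (S := S)
    subset_rfl (Finset.empty_subset _) hA ha hS (fun w _ => hR w) y (fun _ => 0) hy
    (fun _ _ => rfl) (by simpa using hmem)
  intro u hu huA
  have hc0 : ∀ v, v ∉ S → c u v = 0 := fun v hv => by rw [c1, c2 v u hv, neg_zero]
  have hsum : ∀ j, ∑ v ∈ S, c u v * p v j = ∑ v, c u v * p v j := fun j =>
    Finset.sum_subset (Finset.subset_univ _) fun v _ hv => by rw [hc0 v hv, zero_mul]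
  refine mem_slot.2 ⟨c u, hc0, fun j => ?_, fun w hw => ?_⟩
  · have := c4 u hu huA j
    rw [Pi.zero_apply, sub_zero, hsum] at this
    exact this
  · unfold rws at hw
    rw [Finset.mem_filter] at hw
    push Not at hw
    obtain ⟨hwa, hwc⟩ := hw (Finset.mem_univ _)
    have := c5 u hu huA w hwa
    rw [Pi.zero_apply, sub_zero, hsum] at this
    rw [this]
    have h0 : ∑ b, x w b * (if u ∈ lins b then (1 : F) else 0) = 0 := by
      refine Finset.sum_eq_zero fun b _ => ?_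
      by_cases hb : u ∈ lins b
      · by_cases hx : x w b = 0
        · rw [hx, zero_mul]
        · exfalso
          obtain ⟨f1, f2⟩ := c3 w b hx
          apply hwc b f1 hb
          intro v hv
          obtain ⟨s, -, rfl⟩ := Finset.mem_image.1 hv
          exact f2 s
      · rw [if_neg hb, mul_zero]
    rw [h0, add_zero]

/-- Membership in `GA`, componentwise. -/
lemma mem_GA (fr : Frame N d E Om) (p : Lin N → Co E P Om → F) (h : Ext fr p) (a a' : Ty N d)
    (A : Finset (Lin N)) (Q : MM (Co E P Om)) :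
    Q ∈ GA fr p h a a' A ↔ Q.1 ∈ Ga fr p h a A ∧ Q.2 ∈ Ga fr p h a' A := by
  unfold GA Gp Design.N2
  rw [Submodule.prod_sup_prod]
  exact Iff.rfl

lemma GA_mono (fr : Frame N d E Om) (p : Lin N → Co E P Om → F) (h : Ext fr p) (a a' : Ty N d)
    {A A' : Finset (Lin N)} (hA : A ⊆ A') : GA fr p h a a' A ≤ GA fr p h a a' A' := by
  unfold GA Gp
  exact sup_le_sup_right (Submodule.prod_mono (Gl_mono p hA) (Gl_mono p hA)) _

lemma Gp_le_GA (fr : Frame N d E Om) (p : Lin N → Co E P Om → F) (h : Ext fr p) (a a' : Ty N d)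
    {A A' : Finset (Lin N)} (hA : A ⊆ A') : Gp p A ≤ GA fr p h a a' A' := by
  unfold GA Gp
  exact (Submodule.prod_mono (Gl_mono p hA) (Gl_mono p hA)).trans le_sup_left

lemma N2_le_GA (fr : Frame N d E Om) (p : Lin N → Co E P Om → F) (h : Ext fr p) (a a' : Ty N d)
    (A : Finset (Lin N)) : (dsg fr p h).N2 a a' ≤ GA fr p h a a' A := le_sup_right

lemma GA_sup_Gp (fr : Frame N d E Om) (p : Lin N → Co E P Om → F) (h : Ext fr p) (a a' : Ty N d)
    (A B : Finset (Lin N)) : GA fr p h a a' A ⊔ Gp p B = GA fr p h a a' (A ∪ B) := by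
  unfold GA Gp
  rw [Gl_union, ← Submodule.prod_sup_prod, sup_right_comm]

/-- the tensors of two lines -/
lemma tm_mem_Gp (p : Lin N → Co E P Om → F) (u v : Lin N) (z : Fin 4 → Co E P Om → F) :
    tm (p u) (p v) z ∈ Gp p {u, v} := by
  have hu : u ∈ ({u, v} : Finset (Lin N)) := by simp
  have hv : v ∈ ({u, v} : Finset (Lin N)) := by simp
  exact ⟨Submodule.smul_mem _ _ (Submodule.add_mem _ (smB_mem_Gl p hu _) (smB_mem_Gl p hv _)),
    Submodule.smul_mem _ _ (Submodule.add_mem _ (smB_mem_Gl p hu _) (smB_mem_Gl p hv _))⟩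

/-- two lines outside the past -/
lemma grp_rep (fr : Frame N d E Om) (p : Lin N → Co E P Om → F) (h : Ext fr p)
    (a : Ty N d) {A T : Finset (Lin N)} (hA : A ⊆ T) (ha : lins a ⊆ A)
    (hS : LinearIndependent F (fun u : T => fun j : P => p u (Sum.inl (Sum.inr j))))
    (hR : ∀ w, LinearIndependent F
      (fun u : (T ∪ rowLines fr w : Finset (Lin N)) => fun j : P => p u (Sum.inl (Sum.inr j))))
    {u v : Lin N} (huv : u ≠ v) (hu : u ∈ T) (hv : v ∈ T) (huA : u ∉ A) (hvA : v ∉ A)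
    (z z' : Co E P Om → F) (hmem : (2 : F)⁻¹ • (smB z (p u) + smB z' (p v)) ∈ Ga fr p h a A) :
    z ∈ linsp p T ⊔ rowsp (rws fr a T u) ∧ z' ∈ linsp p T ⊔ rowsp (rws fr a T v) := by
  have h1 : smB z (p u) + smB z' (p v) ∈ Ga fr p h a A := by
    have := Submodule.smul_mem _ (2 : F) hmem
    rwa [smul_smul, mul_inv_cancel₀ ann_two_ne, one_smul] at this
  set y : Lin N → Co E P Om → F := fun x => if x = u then z else if x = v then z' else 0 with hy
  have hyu : y u = z := by simp [hy]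
  have hyv : y v = z' := by simp [hy, Ne.symm huv]
  have h2 : ∑ x ∈ T, smB (y x) (p x) = smB z (p u) + smB z' (p v) := by
    rw [← Finset.sum_subset (s₁ := {u, v}) (s₂ := T)]
    · rw [Finset.sum_pair huv, hyu, hyv]
    · intro x hx
      rcases Finset.mem_insert.1 hx with rfl | hx
      · exact hu
      · rw [Finset.mem_singleton.1 hx]; exact hv
    · intro x _ hx
      simp only [Finset.mem_insert, Finset.mem_singleton, not_or] at hx
      have : y x = 0 := by simp [hy, hx.1, hx.2]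
      rw [this, map_zero, LinearMap.zero_apply]
  have h3 := slot_rep fr p h a hA ha hS hR y (fun x hx => by
    have h1 : x ≠ u := fun e => hx (e ▸ hu)
    have h2 : x ≠ v := fun e => hx (e ▸ hv)
    simp [hy, h1, h2]) (by rw [h2]; exact h1)
  exact ⟨by rw [← hyu]; exact h3 u hu huA, by rw [← hyv]; exact h3 v hv hvA⟩

/-- two types outside the past -/
lemma typ_rep (fr : Frame N d E Om) (p : Lin N → Co E P Om → F) (h : Ext fr p)
    (a b b' : Ty N d) {A T : Finset (Lin N)} (hA : A ⊆ T) (ha : lins a ⊆ A)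
    (hS : LinearIndependent F (fun u : T => fun j : P => p u (Sum.inl (Sum.inr j))))
    (hR : ∀ w, LinearIndependent F
      (fun u : (T ∪ rowLines fr w : Finset (Lin N)) => fun j : P => p u (Sum.inl (Sum.inr j))))
    (hb : lins b ⊆ T) (hb' : lins b' ⊆ T) {u v : Lin N} (hu : u ∈ lins b) (hv : v ∈ lins b')
    (hu' : u ∉ lins b') (hv' : v ∉ lins b) (huA : u ∉ A) (hvA : v ∉ A)
    (z z' : Co E P Om → F)
    (hmem : (2 : F)⁻¹ • (smB z (gv p b) + smB z' (gv p b')) ∈ Ga fr p h a A) :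
    z ∈ linsp p T ⊔ rowsp (rws fr a T u) ∧ z' ∈ linsp p T ⊔ rowsp (rws fr a T v) := by
  have h1 : smB z (gv p b) + smB z' (gv p b') ∈ Ga fr p h a A := by
    have := Submodule.smul_mem _ (2 : F) hmem
    rwa [smul_smul, mul_inv_cancel₀ ann_two_ne, one_smul] at this
  set y : Lin N → Co E P Om → F := fun x =>
    (if x ∈ lins b then z else 0) + (if x ∈ lins b' then z' else 0) with hy
  have hyu : y u = z := by simp [hy, hu, hu']
  have hyv : y v = z' := by simp [hy, hv, hv']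
  have h2 : ∑ x ∈ T, smB (y x) (p x) = smB z (gv p b) + smB z' (gv p b') := by
    have e : ∀ (c : Ty N d) (x : Co E P Om → F), lins c ⊆ T →
        smB x (gv p c) = ∑ v ∈ T, smB (if v ∈ lins c then x else 0) (p v) := by
      intro c x hc
      rw [gv_eq_sum_lins, map_sum]
      refine Finset.sum_subset_zero_on_sdiff hc (fun v hv => ?_) (fun v hv => ?_)
      · rw [if_neg (Finset.mem_sdiff.1 hv).2, map_zero, LinearMap.zero_apply]
      · rw [if_pos hv]
    rw [e b z hb, e b' z' hb', ← Finset.sum_add_distrib]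
    refine Finset.sum_congr rfl fun x _ => ?_
    rw [hy, ← LinearMap.add_apply, ← map_add]
  have h3 := slot_rep fr p h a hA ha hS hR y (fun x hx => by
    have h1 : x ∉ lins b := fun e => hx (hb e)
    have h2 : x ∉ lins b' := fun e => hx (hb' e)
    simp [hy, h1, h2]) (by rw [h2]; exact h1)
  exact ⟨by rw [← hyu]; exact h3 u (hb hu) huA, by rw [← hyv]; exact h3 v (hb' hv) hvA⟩

end Rep

section Dim

variable {K : Type} [Fintype K]

/-- The functional with given coordinates. -/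
def zi (z : Fin 4 → K → F) : Dual F (Fin 4 → K → F) where
  toFun m := ∑ i, z i ⬝ᵥ m i
  map_add' m m' := by simp only [Pi.add_apply, dotProduct_add, Finset.sum_add_distrib]
  map_smul' c m := by
    simp only [Pi.smul_apply, dotProduct_smul, ← Finset.smul_sum, RingHom.id_apply]

lemma zc_zi (z : Fin 4 → K → F) : zc (zi z) = z := by
  funext i j
  show ∑ i', z i' ⬝ᵥ (Pi.single i (Pi.single j 1) : Fin 4 → K → F) i' = z i j
  rw [Finset.sum_eq_single i]
  · rw [Pi.single_eq_same, dotProduct_single, mul_one]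
  · intro i' _ hi
    rw [Pi.single_eq_of_ne hi, dotProduct_zero]
  · intro h; exact absurd (Finset.mem_univ _) h

/-- functionals with all slots in given spaces -/
def slots (Q : Fin 4 → Submodule F (K → F)) : Submodule F (Dual F (Fin 4 → K → F)) where
  carrier := {ξ | ∀ i, zc ξ i ∈ Q i}
  zero_mem' := fun i => by rw [map_zero]; exact Submodule.zero_mem _
  add_mem' := fun h h' i => by rw [map_add]; exact Submodule.add_mem _ (h i) (h' i)
  smul_mem' := fun c _ h i => by rw [map_smul]; exact Submodule.smul_mem _ _ (h i)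

lemma mem_slots {Q : Fin 4 → Submodule F (K → F)} {ξ : Dual F (Fin 4 → K → F)} :
    ξ ∈ slots Q ↔ ∀ i, zc ξ i ∈ Q i := Iff.rfl

lemma slots_sup (Q Q' : Fin 4 → Submodule F (K → F)) :
    slots Q ⊔ slots Q' ≤ slots fun i => Q i ⊔ Q' i := by
  refine sup_le (fun ξ h i => ?_) (fun ξ h i => ?_)
  · exact Submodule.mem_sup_left (h i)
  · exact Submodule.mem_sup_right (h i)

lemma slots_sup_eq (Q Q' : Fin 4 → Submodule F (K → F)) :
    slots (fun i => Q i ⊔ Q' i) ≤ slots Q ⊔ slots Q' := by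
  intro ξ h
  choose x hx y hy hxy using fun i => Submodule.mem_sup.1 (h i)
  refine Submodule.mem_sup.2 ⟨zi x, fun i => by rw [zc_zi]; exact hx i, zi y,
    fun i => by rw [zc_zi]; exact hy i, ?_⟩
  apply zc_injective
  rw [map_add, zc_zi, zc_zi]
  funext i
  exact hxy i

lemma finrank_slots (Q : Submodule F (K → F)) : finrank F (slots fun _ => Q) ≤ 4 * finrank F Q := by
  have h1 : finrank F (Fin 4 → Q) = 4 * finrank F Q := by
    rw [Module.finrank_pi_fintype]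
    simp
  rw [← h1]
  refine LinearMap.finrank_le_finrank_of_injective (f :=
    { toFun := fun ξ i => ⟨zc ξ.1 i, ξ.2 i⟩
      map_add' := fun ξ ξ' => rfl
      map_smul' := fun c ξ => rfl }) ?_
  intro ξ ξ' h
  apply Subtype.ext
  apply zc_injective
  funext i
  exact congrArg Subtype.val (congrFun h i)

/-- The deficit grows at most by the dimension. -/
lemma D_le_add {Ω : Type*} [Fintype Ω] {V : Type*} [AddCommGroup V]
    [Module F V] [FiniteDimensional F V] (Pr : FinProb Ω) (X : Ω → Dual F V)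
    {G G' : Submodule F V} (h : G ≤ G') {s : ℕ} (hs : finrank F G' ≤ finrank F G + s) :
    Lat.D Pr X G' ≤ Lat.D Pr X G + s * Real.log 2521 := by
  have h1 := Lat.ent_mono Pr X h
  have h2 : (Nat.card F : ℝ) = 2521 := by
    rw [Nat.card_eq_fintype_card, ZMod.card]; norm_num
  unfold Lat.D
  rw [h2]
  have h3 : 0 ≤ Real.log 2521 := Real.log_nonneg (by norm_num)
  have h4 : (finrank F G' : ℝ) ≤ finrank F G + s := by exact_mod_cast hs
  nlinarith

end Dim

section Law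

variable {K : Type} [Fintype K] {T : Type*} {δ : Design K T}

lemma form_symm {a : T} {ι : Bool} {B : Matrix K K F} (hB : B ∈ δ.Form a ι) : B.IsSymm := by
  have h1 : (B - (if ι then δ.B0 a else 0)).IsSymm := hB.1.1
  have h2 : (if ι then δ.B0 a else 0 : Matrix K K F).IsSymm := by
    split_ifs
    · exact (δ.B0_mem_Com a).1
    · exact Matrix.isSymm_zero
  have h3 := h1.add h2
  rwa [sub_add_cancel] at h3

/-- Trivial tensors are constant on the forms of a type and bit. -/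
lemma pr_const {a : T} {ι : Bool} {B B' : Matrix K K F} (hB : B ∈ δ.Form a ι)
    (hB' : B' ∈ δ.Form a ι) {Q : Matrix K K F} (hQ : Q ∈ δ.Nn a)
    (hd : ∀ Q ∈ δ.Nn a, ∀ B ∈ δ.Dir a, pr Q B = 0) : pr Q B = pr Q B' := by
  have h1 : pr Q (B - (if ι then δ.B0 a else 0)) = 0 := hd Q hQ _ hB
  have h2 : pr Q (B' - (if ι then δ.B0 a else 0)) = 0 := hd Q hQ _ hB'
  have h3 : ∀ C : Matrix K K F, pr Q C = pr Q (C - (if ι then δ.B0 a else 0))
      + pr Q (if ι then δ.B0 a else 0) := by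
    intro C
    rw [← ann_pr_add_right, sub_add_cancel]
  rw [h3 B, h3 B', h1, h2]

variable {a a' : T} {ι ι' : Bool} {Λ M : ℝ} {w : Matrix K K F → Matrix K K F → ℝ}

lemma sum_prob (hw : PLaw δ a a' ι ι' Λ M w) (f : Matrix K K F → Matrix K K F → ℂ) :
    ∑ B, ∑ B', (w B B' : ℂ) * f B B'
      = ∑ ω, (hw.prob.w ω : ℂ) * f ω.val.1 ω.val.2 := by
  rw [← Fintype.sum_prod_type' (fun B B' => (w B B' : ℂ) * f B B')]
  refine (Finset.sum_bij_ne_zero (fun x _ _ => x.val) (fun _ _ _ => Finset.mem_univ _)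
      (fun x _ _ y _ _ h => Fms.val_injective h) (fun x _ hx => ?_) (fun x _ _ => rfl)).symm
  have h1 : w x.1 x.2 ≠ 0 := by
    intro h
    rw [h, Complex.ofReal_zero, zero_mul] at hx
    exact hx rfl
  exact ⟨⟨x, hw.supp _ _ h1⟩, Finset.mem_univ _, hx, rfl⟩

lemma tlaw_prob (hw : PLaw δ a a' ι ι' Λ M w) (g g' : K → F) (m : Fin 4 → K → F) :
    tlaw w g g' m = hw.prob.p (fun ω => tv g g' ω.val.1 ω.val.2) m := by
  have h := sum_prob hw (fun B B' => if tv g g' B B' = m then 1 else 0)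
  have h1 : ((tlaw w g g' m : ℝ) : ℂ)
      = ((hw.prob.p (fun ω => tv g g' ω.val.1 ω.val.2) m : ℝ) : ℂ) := by
    have e : ∀ (q : Prop) [Decidable q] (x : ℝ), ((if q then x else 0 : ℝ) : ℂ)
        = (x : ℂ) * (if q then 1 else 0) := by
      intro q _ x
      split_ifs <;> simp
    unfold tlaw FinProb.p
    simp only [Complex.ofReal_sum, e]
    convert h using 5
  exact_mod_cast h1

end Law

section Pair

/-- The one pair theorem for a general design. -/
theorem tv_pair (ψ : AddChar F ℂ) (hψ : ψ ≠ 0) {ε κ : ℝ} (hε : 0 < ε) (hκ : 0 ≤ κ) (s : ℕ) :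
    ∃ d₀ : ℝ, 0 < d₀ ∧ ∃ η₀ : ℝ, 0 < η₀ ∧
    ∀ (K T : Type) [Fintype K] (δ : Design K T) (a a' b b' : T) (ι ι' : Bool) (Λ M : ℝ)
      (w : Matrix K K F → Matrix K K F → ℝ) (hw : PLaw δ a a' ι ι' Λ M w)
      (x y : Fin 3 → K → F) (_ : x 0 + x 1 + x 2 = δ.g b) (_ : y 0 + y 1 + y 2 = δ.g b')
      (A E₁ E₂ : Fin 3 → Submodule F (MM K)) (_ : ∀ l, δ.N2 a a' ≤ A l)
      (_ : ∀ l, A l ≤ E₁ l) (_ : ∀ l, A l ≤ E₂ l)
      (_ : ∀ l z, tm (x 0) (y 0) z ∈ E₁ l) (_ : ∀ l z, tm (x 1) (y 1) z ∈ E₂ l)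
      (_ : ∀ l z, tm (x 2) (y 2) z ∈ A l) (Q : Fin 3 → Fin 4 → Submodule F (K → F))
      (_ : ∀ l z, tm (x 0) (y 0) z ∈ E₂ l → ∀ i, z i ∈ Q l i)
      (_ : ∀ l z, tm (x 1) (y 1) z ∈ E₁ l → ∀ i, z i ∈ Q l i)
      (_ : ∀ l, hw.Dd (E₁ l ⊔ E₂ l) - hw.Dd (A l) ≤ κ)
      (_ : ∀ l, hw.Dd (E₁ l ⊔ E₂ l) + hw.Dd (E₁ l ⊓ E₂ l) - hw.Dd (E₁ l) - hw.Dd (E₂ l) ≤ d₀)
      (Λ₀ : Submodule F (K → F)) (R₀ : Fin 4 → Submodule F (K → F))
      (_ : ∀ i, (Q 0 i ⊔ Q 1 i) ⊓ ((Q 0 i ⊔ Q 2 i) ⊓ (Q 1 i ⊔ Q 2 i)) ≤ Λ₀ ⊔ R₀ i)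
      (_ : ∀ z, (∀ i, z i ∈ R₀ i) → tm (δ.g b) (δ.g b') z ∈ δ.N2 a a')
      (_ : 4 * finrank F Λ₀ ≤ s)
      (A₀ A₁ : Submodule F (MM K)) (_ : δ.N2 a a' ≤ A₀) (_ : A₀ ≤ A₁)
      (_ : ∀ z, tm (δ.g b) (δ.g b') z ∈ A₁) (_ : hw.Dd A₁ - hw.Dd A₀ ≤ κ)
      (_ : ∀ z, tm (δ.g b) (δ.g b') z ∈ A₀ → ∀ i, z i ∈ Λ₀ ⊔ R₀ i),
      tdist δ a a' w (b, b') ≤ ε ∨ BadC ψ δ a a' w η₀ (b, b') := by
  have hlog : 0 ≤ Real.log 2521 := Real.log_nonneg (by norm_num)
  obtain ⟨d₀, hd₀, η₀, hη₀, main⟩ := tv_bridge.{0, 0, 0, 0} F ψ hψ hε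
    (κ := κ + s * Real.log 2521) (by positivity) s
  refine ⟨d₀, hd₀, η₀, hη₀, ?_⟩
  intro K T _ δ a a' b b' ι ι' Λ M w hw x y hx hy A E₁ E₂ hA hAE₁ hAE₂ he₁ he₂ he₃ Q hK₁ hK₂ hD hI
    Λ₀ R₀ hQ hR₀ hΛ₀ A₀ A₁ hA₀ hA₀₁ hA₁ h0 hA₀Q
  by_cases hbad : BadC ψ δ a a' w η₀ (b, b')
  · exact Or.inr hbad
  left
  have hzadd : ∀ z, tm (δ.g b) (δ.g b') z
      = tm (x 0) (y 0) z + tm (x 1) (y 1) z + tm (x 2) (y 2) z := by
    intro z
    rw [← hx, ← hy, tm_add, tm_add]
  -- the space of slots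
  set 𝓛 : Submodule F (Dual F (Fin 4 → K → F)) := slots fun _ => Λ₀ with h𝓛
  set τ : Dual F (Fin 4 → K → F) →ₗ[F] MM K := (tm (δ.g b) (δ.g b')).comp zc with hτ
  have hfin𝓛 : finrank F 𝓛 ≤ s := (finrank_slots Λ₀).trans hΛ₀
  have hslot : slots (fun i => Λ₀ ⊔ R₀ i) ≤ (δ.N2 a a').comap τ ⊔ 𝓛 := by
    refine (slots_sup_eq (fun _ => Λ₀) R₀).trans ?_
    rw [sup_comm]
    refine sup_le_sup_right ?_ _
    intro ξ hξ
    exact hR₀ (zc ξ) hξ
  have hM : ∀ (ω : Fms δ a a' ι ι') (ξ : Dual F (Fin 4 → K → F)),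
      ξ (tv (δ.g b) (δ.g b') ω.val.1 ω.val.2) = Xf ω (τ ξ) := by
    intro ω ξ
    rw [zc_spec]
    exact (tm_pr (form_symm ω.mem.1) (form_symm ω.mem.2) (δ.g b) (δ.g b') (zc ξ)).symm
  have hdist := main (Fin 4 → K → F) (Fms δ a a' ι ι') hw.prob (MM K) Xf
    (fun ω => tv (δ.g b) (δ.g b') ω.val.1 ω.val.2) τ hM (δ.N2 a a') ?_ ?_ A E₁ E₂ hA
    (fun _ => (tm (x 0) (y 0)).comp zc) (fun _ => (tm (x 1) (y 1)).comp zc)
    (fun l ξ => Submodule.mem_sup_right (he₁ l _)) (fun l ξ => Submodule.mem_sup_right (he₂ l _))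
    ?_ (fun l => slots (Q l)) ?_ ?_ ?_ ?_ ?_ (δ.Zab a a' b b') ?_ ?_
  · have h1 : tlaw w (δ.g b) (δ.g b')
        = hw.prob.p (fun ω => tv (δ.g b) (δ.g b') ω.val.1 ω.val.2) :=
      funext fun m => tlaw_prob hw _ _ m
    unfold tdist
    simp only [h1]
    exact hdist
  · intro ω ω' _ _ t ht
    show XX ω.val t = XX ω'.val t
    rw [XX_apply, XX_apply, pr_const ω.mem.1 ω'.mem.1 ht.1 (annDirect K T δ a),
      pr_const ω.mem.2 ω'.mem.2 ht.2 (annDirect K T δ a')]
  · -- unconditional deficit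
    set G : Submodule F (MM K) := LinearMap.range τ ⊔ δ.N2 a a' with hG
    have hGA₁ : G ≤ A₁ := by
      refine sup_le ?_ (hA₀.trans hA₀₁)
      rintro _ ⟨ξ, rfl⟩
      exact hA₁ _
    have h1 := Lat.D_supermodular hw.prob Xf G A₀
    have h2 : Lat.D hw.prob Xf (G ⊔ A₀) ≤ Lat.D hw.prob Xf A₁ :=
      Lat.D_mono hw.prob Xf (sup_le hGA₁ hA₀₁)
    have h3 : δ.N2 a a' ≤ G ⊓ A₀ := le_inf le_sup_right hA₀
    have h4 : G ⊓ A₀ ≤ δ.N2 a a' ⊔ 𝓛.map τ := by
      rintro t ⟨ht, htA⟩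
      obtain ⟨_, ⟨ξ, rfl⟩, n, hn, rfl⟩ := Submodule.mem_sup.1 ht
      have h5 : τ ξ ∈ A₀ := by
        have := Submodule.sub_mem _ htA (hA₀ hn)
        rwa [add_sub_cancel_right] at this
      have h6 : ξ ∈ slots (fun i => Λ₀ ⊔ R₀ i) := hA₀Q (zc ξ) h5
      obtain ⟨ξ₁, hξ₁, ξ₂, hξ₂, rfl⟩ := Submodule.mem_sup.1 (hslot h6)
      rw [map_add]
      refine Submodule.add_mem _ (Submodule.add_mem _ (Submodule.mem_sup_left hξ₁)
        (Submodule.mem_sup_right ⟨ξ₂, hξ₂, rfl⟩)) (Submodule.mem_sup_left hn)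
    have h7 : finrank F ↥(G ⊓ A₀) ≤ finrank F (δ.N2 a a') + s := by
      refine (Submodule.finrank_mono h4).trans ?_
      have h8 := Submodule.finrank_add_le_finrank_add_finrank (δ.N2 a a') (𝓛.map τ)
      have h9 := Submodule.finrank_map_le τ 𝓛
      omega
    have h10 := D_le_add hw.prob Xf h3 h7
    have h11 : hw.Dd A₁ = Lat.D hw.prob Xf A₁ := rfl
    have h12 : hw.Dd A₀ = Lat.D hw.prob Xf A₀ := rfl
    rw [h11, h12] at h0
    linarith
  · intro l ξ
    have h1 : τ ξ - (tm (x 0) (y 0)).comp zc ξ - (tm (x 1) (y 1)).comp zc ξ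
        = tm (x 2) (y 2) (zc ξ) := by
      rw [hτ, LinearMap.comp_apply, LinearMap.comp_apply, LinearMap.comp_apply, hzadd]
      abel
    rw [h1]
    exact he₃ l _
  · intro l ξ h
    rw [sup_eq_right.2 (hAE₂ l)] at h
    exact hK₁ l _ h
  · intro l ξ h
    rw [sup_eq_right.2 (hAE₁ l)] at h
    exact hK₂ l _ h
  · intro l
    rw [sup_eq_right.2 (hAE₂ l), sup_eq_right.2 (hAE₁ l)]
    have h1 := hD l
    have h2 : 0 ≤ s * Real.log 2521 := by positivity
    have h3 : hw.Dd (E₁ l ⊔ E₂ l) = Lat.D hw.prob Xf (E₁ l ⊔ E₂ l) := rfl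
    have h4 : hw.Dd (A l) = Lat.D hw.prob Xf (A l) := rfl
    rw [h3, h4] at h1
    linarith
  · intro l
    rw [sup_eq_right.2 (hAE₂ l), sup_eq_right.2 (hAE₁ l)]
    exact hI l
  · have h1 : (slots (Q 0) ⊔ slots (Q 1)) ⊓ ((slots (Q 0) ⊔ slots (Q 2)) ⊓
        (slots (Q 1) ⊔ slots (Q 2))) ≤ (δ.N2 a a').comap τ ⊔ 𝓛 := by
      refine le_trans ?_ hslot
      rintro ξ ⟨h1, h2, h3⟩ i
      exact hQ i ⟨slots_sup _ _ h1 i, slots_sup _ _ h2 i, slots_sup _ _ h3 i⟩
    refine (Submodule.finrank_mono h1).trans ?_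
    have h8 := Submodule.finrank_add_le_finrank_add_finrank ((δ.N2 a a').comap τ) 𝓛
    omega
  · -- trivial functionals kill `Zab`
    intro ξ hξ z hz
    have hT : TrivPsi δ a a' b b' (zc ξ) := by
      have h1 : (2 : F)⁻¹ • (smB (zc ξ 0) (δ.g b) + smB (zc ξ 1) (δ.g b')) ∈ δ.Nn a := hξ.1
      have h2 : (2 : F)⁻¹ • (smB (zc ξ 2) (δ.g b) + smB (zc ξ 3) (δ.g b')) ∈ δ.Nn a' := hξ.2
      have e : ∀ Q : Matrix K K F, (2 : F) • (2 : F)⁻¹ • Q = Q := fun Q => by
        rw [smul_smul, mul_inv_cancel₀ ann_two_ne, one_smul]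
      refine ⟨⟨0, 0, ?_⟩, ⟨0, 0, ?_⟩⟩
      · rw [zero_smul, zero_smul, sub_zero, sub_zero]
        have h3 := Submodule.smul_mem _ (2 : F) h1
        rw [e] at h3
        unfold smm
        rw [Fin.sum_univ_two]
        exact h3
      · rw [zero_smul, zero_smul, sub_zero, sub_zero]
        have h3 := Submodule.smul_mem _ (2 : F) h2
        rw [e] at h3
        unfold smm
        rw [Fin.sum_univ_two]
        exact h3
    rw [zc_spec]
    exact hz _ hT
  · intro ξ hξ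
    have hT : ¬ TrivPsi δ a a' b b' (zc ξ) := by
      intro hT
      apply hξ
      intro z hz
      rw [zc_spec]
      exact hz _ hT
    have h1 : ‖coefT ψ w (δ.g b) (δ.g b') (zc ξ)‖ < η₀ := by
      by_contra hcon
      exact hbad ⟨zc ξ, not_lt.1 hcon, hT⟩
    have h2 : coefT ψ w (δ.g b) (δ.g b') (zc ξ) = ∑ ω, (hw.prob.w ω : ℂ) *
        ψ (ξ (tv (δ.g b) (δ.g b') ω.val.1 ω.val.2)) := by
      unfold coefT
      rw [sum_prob hw (fun B B' => ψ (∑ i, zc ξ i ⬝ᵥ tv (δ.g b) (δ.g b') B B' i))]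
      refine Finset.sum_congr rfl fun ω _ => ?_
      rw [zc_spec ξ]
    rw [← h2]
    exact h1.le

end Pair

end TVF

end Vale.Agent.P060.HW
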