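import Vale.Agent.P060.HW.TV2
import Vale.Agent.P060.HW.T3Frame
import Vale.Agent.P060.HW.Align

/-!
# P060/HW: selection of the three pasts, in frame form
-/

open scoped Classical

noncomputable section

set_option linter.unusedSectionVars false

namespace Vale.Agent.P060.HW

namespace TVP

open Module Finset Strong

variable {N d : ℕ} {E P Om : Type} [Fintype E] [Fintype P] [Fintype Om] [NeZero N]

section Lattice

variable (fr : Frame N d E Om) (p : Lin N → Co E P Om → F) (h : Ext fr p) (a a' : Ty N d)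

lemma Ga_union (b : Ty N d) (S T : Finset (Lin N)) :
    Ga fr p h b (S ∪ T) = Gl p S ⊔ Ga fr p h b T := by
  unfold Ga
  rw [Gl_union, sup_assoc]

lemma Gaa_union (S T : Finset (Lin N)) :
    Gaa fr p h a a' (S ∪ T) = Gp p S ⊔ Gaa fr p h a a' T := by
  unfold Gaa Gp
  rw [Ga_union, Ga_union, Submodule.prod_sup_prod]

lemma Gaa_mono {S T : Finset (Lin N)} (hST : S ⊆ T) :
    Gaa fr p h a a' S ≤ Gaa fr p h a a' T :=
  Submodule.prod_mono (sup_le_sup_right (Gl_mono p hST) _) (sup_le_sup_right (Gl_mono p hST) _)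

lemma Gaa_sup (S T : Finset (Lin N)) :
    Gaa fr p h a a' S ⊔ Gaa fr p h a a' T = Gaa fr p h a a' (S ∪ T) := by
  refine le_antisymm (sup_le (Gaa_mono fr p h a a' subset_union_left)
    (Gaa_mono fr p h a a' subset_union_right)) ?_
  rw [Gaa_union]
  refine sup_le_sup_right ?_ _
  unfold Gp Gaa
  exact Submodule.prod_mono le_sup_left le_sup_left

/-- the lines of the two types -/
def Fx : Finset (Lin N) := lins a ∪ lins a'

/-- the lattice of the spaces over the lines of the two types -/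
abbrev Lt : Type _ := Set.Ici (Gaa fr p h a a' (Fx a a'))

/-- the other lines -/
abbrev Fl : Type := {u : Lin N // u ∉ Fx a a'}

/-- the lines in the lattice -/
def LL (u : Fl a a') : Lt fr p h a a' :=
  ⟨Gaa fr p h a a' (insert u.1 (Fx a a')), Gaa_mono fr p h a a' (subset_insert _ _)⟩

/-- a set of other lines as a set of lines -/
def em (A : Finset (Fl a a')) : Finset (Lin N) := A.map (Function.Embedding.subtype _)

lemma em_disj (A : Finset (Fl a a')) : Disjoint (em a a' A) (Fx a a') := by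
  rw [disjoint_left]
  intro u hu
  unfold em at hu
  rw [mem_map] at hu
  obtain ⟨v, -, rfl⟩ := hu
  exact v.2

lemma mem_em {A : Finset (Fl a a')} {u : Lin N} : u ∈ em a a' A ↔ ∃ hu : u ∉ Fx a a', ⟨u, hu⟩ ∈ A := by
  unfold em
  simp

lemma em_insert (u : Fl a a') (A : Finset (Fl a a')) :
    em a a' (insert u A) = insert u.1 (em a a' A) := by
  unfold em
  rw [map_insert]
  rfl

lemma em_union (A B : Finset (Fl a a')) : em a a' (A ∪ B) = em a a' A ∪ em a a' B := by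
  unfold em
  rw [map_union]

lemma card_em (A : Finset (Fl a a')) : (em a a' A).card = A.card := card_map _

lemma em_disjoint {A B : Finset (Fl a a')} (hAB : Disjoint A B) :
    Disjoint (em a a' A) (em a a' B) := by
  unfold em
  exact (disjoint_map _).2 hAB

lemma coe_LL (u : Fl a a') : (LL fr p h a a' u).1 = Gaa fr p h a a' (insert u.1 (Fx a a')) := rfl

lemma coe_sup (x y : Lt fr p h a a') : (x ⊔ y).1 = x.1 ⊔ y.1 := rfl

lemma coe_inf (x y : Lt fr p h a a') : (x ⊓ y).1 = x.1 ⊓ y.1 := rfl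

lemma coe_bot : (⊥ : Lt fr p h a a').1 = Gaa fr p h a a' (Fx a a') := rfl

lemma sup_LL (A : Finset (Fl a a')) :
    (A.sup (LL fr p h a a')).1 = Gaa fr p h a a' (em a a' A ∪ Fx a a') := by
  induction A using Finset.induction_on with
  | empty =>
    have e1 : em a a' ∅ = ∅ := rfl
    rw [sup_empty, coe_bot, e1, empty_union]
  | insert u A hu ih =>
    have e1 : insert u.1 (Fx a a') ∪ (em a a' A ∪ Fx a a') = em a a' (insert u A) ∪ Fx a a' := by
      rw [em_insert]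
      ext v
      simp only [mem_union, mem_insert]
      tauto
    rw [sup_insert, coe_sup, ih, coe_LL, Gaa_sup, e1]

/-- **TRI** in the form of `TV2`. -/
theorem tri {κ κ₀ : ℕ} (h1 : Ev1 p κ₀) (hr : ∀ w, κ + 6 + (rowLines fr w).card ≤ κ₀) (hr' : κ + 6 ≤ κ₀) :
    TV2.Tri (LL fr p h a a') κ := by
  intro A C B₁ B₂ hC₁ hC₂ h₁₂ hcard
  have e : ∀ B : Finset (Fl a a'), ((A ∪ B).sup (LL fr p h a a')).1 =
      Gp p (em a a' (B \ A)) ⊔ Gaa fr p h a a' (em a a' A ∪ Fx a a') := by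
    intro B
    rw [sup_LL, ← Gaa_union, ← union_assoc, ← em_union]
    congr 2
    rw [sdiff_union_self_eq_union, union_comm]
  rw [← Subtype.coe_le_coe, coe_inf, coe_inf, e, e, e, sup_LL, ← inf_assoc]
  have hcd : (em a a' (C \ A) ∪ em a a' (B₁ \ A) ∪ em a a' (B₂ \ A) ∪
      (em a a' A ∪ Fx a a')).card ≤ κ + 6 := by
    have q1 : em a a' (C \ A) ∪ em a a' (B₁ \ A) ∪ em a a' (B₂ \ A) ∪ (em a a' A ∪ Fx a a') ⊆
        em a a' (A ∪ C ∪ B₁ ∪ B₂) ∪ Fx a a' := by
      intro u hu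
      simp only [mem_union, mem_em, mem_sdiff] at hu ⊢
      rcases hu with ((⟨hu, h2⟩ | ⟨hu, h2⟩) | ⟨hu, h2⟩) | (⟨hu, h2⟩ | h2)
      · exact Or.inl ⟨hu, by tauto⟩
      · exact Or.inl ⟨hu, by tauto⟩
      · exact Or.inl ⟨hu, by tauto⟩
      · exact Or.inl ⟨hu, by tauto⟩
      · exact Or.inr h2
    refine (card_le_card q1).trans ((card_union_le _ _).trans ?_)
    rw [card_em]
    have q2 : (Fx a a').card ≤ 6 := by
      unfold Fx lins
      refine (card_union_le _ _).trans ?_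
      have r1 := card_image_le (s := (univ : Finset (Fin 3))) (f := lin a)
      have r2 := card_image_le (s := (univ : Finset (Fin 3))) (f := lin a')
      rw [card_univ, Fintype.card_fin] at r1 r2
      omega
    omega
  refine t3_pair fr p h a a' (subset_union_right.trans' subset_union_left)
    (subset_union_right.trans' subset_union_right) ?_ ?_ ?_ ?_ ?_ ?_ ?_ ?_
  · rw [disjoint_union_right]
    exact ⟨em_disjoint a a' sdiff_disjoint, em_disj a a' _⟩
  · exact em_disjoint a a' (hC₁.mono sdiff_subset sdiff_subset)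
  · exact em_disjoint a a' (hC₂.mono sdiff_subset sdiff_subset)
  · exact em_disjoint a a' (h₁₂.mono sdiff_subset sdiff_subset)
  · rw [disjoint_union_right]
    exact ⟨em_disjoint a a' sdiff_disjoint, em_disj a a' _⟩
  · rw [disjoint_union_right]
    exact ⟨em_disjoint a a' sdiff_disjoint, em_disj a a' _⟩
  · exact h1 _ (hcd.trans hr')
  · intro w
    refine h1 _ ((card_union_le _ _).trans ?_)
    have := hr w
    omega

end Lattice

section Count

variable {d : ℕ} (a a' : Ty N d)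

lemma card_lins (c : Ty N d) : (lins c).card ≤ 3 := by
  unfold lins
  have := card_image_le (s := (univ : Finset (Fin 3))) (f := lin c)
  rwa [card_univ, Fintype.card_fin] at this

lemma card_Fx : (Fx a a').card ≤ 6 := by
  unfold Fx
  have := card_union_le (lins a) (lins a')
  have := card_lins a
  have := card_lins a'
  omega

lemma card_Fl : 3 * N ≤ Fintype.card (Fl a a') + 6 ∧ Fintype.card (Fl a a') ≤ 3 * N := by
  have h1 : Fintype.card (Fl a a') + (Fx a a').card = 3 * N := by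
    have e1 : Fintype.card (Fl a a') = ((univ : Finset (Lin N)).filter (fun u => u ∉ Fx a a')).card :=
      Fintype.card_subtype _
    have e2 : (univ : Finset (Lin N)).filter (fun u => u ∉ Fx a a') = (Fx a a')ᶜ := by
      ext u
      simp
    rw [e1, e2, card_compl, Nat.sub_add_cancel (card_le_univ _), Fintype.card_prod, Fintype.card_fin,
      ZMod.card]
  have := card_Fx a a'
  omega

/-- the types which meet a set of lines -/
def Mt (W : Finset (Lin N)) : Finset (Ty N d) := univ.filter fun c => ∃ s, lin c s ∈ W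

lemma card_Mt (W : Finset (Lin N)) : (Mt (d := d) W).card ≤ W.card * d := by
  have h1 : Mt (d := d) W ⊆ W.biUnion fun u => univ.filter fun c : Ty N d => ∃ s, lin c s = u := by
    intro c hc
    unfold Mt at hc
    rw [mem_filter] at hc
    obtain ⟨-, s, hs⟩ := hc
    rw [mem_biUnion]
    exact ⟨lin c s, hs, by simp⟩
  refine (card_le_card h1).trans (card_biUnion_le.trans ?_)
  calc _ ≤ ∑ _u ∈ W, d := sum_le_sum fun u _ => Align.card_types_of_line u
    _ = _ := by simp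

/-- the lines of the types which meet the lines of `a`, `a'` -/
def Wd : Finset (Lin N) := (Mt (d := d) (Fx a a')).biUnion lins

lemma card_MtWd : (Mt (d := d) (Wd a a')).card ≤ 18 * d * d := by
  refine (card_Mt _).trans (Nat.mul_le_mul_right _ ?_)
  unfold Wd
  refine card_biUnion_le.trans ?_
  have h1 := card_Mt (d := d) (Fx a a')
  have h2 := card_Fx a a'
  calc _ ≤ ∑ _c ∈ Mt (d := d) (Fx a a'), 3 := sum_le_sum fun c _ => card_lins c
    _ = (Mt (d := d) (Fx a a')).card * 3 := by simp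
    _ ≤ (6 * d) * 3 := Nat.mul_le_mul_right _ (h1.trans (Nat.mul_le_mul_right _ h2))
    _ = 18 * d := by ring

lemma mem_lins {c : Ty N d} {u : Lin N} : u ∈ lins c ↔ ∃ s, lin c s = u := by
  unfold lins
  simp

lemma sub_Wd : Fx a a' ⊆ Wd a a' := by
  intro u hu
  unfold Wd
  rw [mem_biUnion]
  unfold Fx at hu
  rw [mem_union] at hu
  rcases hu with hu | hu
  · refine ⟨a, ?_, hu⟩
    unfold Mt
    rw [mem_filter]
    refine ⟨mem_univ _, 0, ?_⟩
    unfold Fx
    exact mem_union_left _ (mem_lins.2 ⟨0, rfl⟩)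
  · refine ⟨a', ?_, hu⟩
    unfold Mt
    rw [mem_filter]
    refine ⟨mem_univ _, 0, ?_⟩
    unfold Fx
    exact mem_union_right _ (mem_lins.2 ⟨0, rfl⟩)

/-- three lines in two types: the type is one of the two -/
lemma eq_of_lins_sub (hd : 2 * d ≤ N) {c b b' : Ty N d} (hc : lins c ⊆ lins b ∪ lins b') :
    c = b ∨ c = b' := by
  have hm : ∀ s, lin c s ∈ lins b ∨ lin c s ∈ lins b' := fun s => by
    have := hc (mem_lins.2 ⟨s, rfl⟩)
    rwa [mem_union] at this
  have key : ∀ (e : Ty N d) (s s' : Fin 3), s ≠ s' → lin c s ∈ lins e → lin c s' ∈ lins e → c = e := by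
    intro e s s' hs h1 h2
    obtain ⟨t, ht⟩ := mem_lins.1 h1
    obtain ⟨t', ht'⟩ := mem_lins.1 h2
    exact Align.lin_linear hd c e s s' t t' hs ht.symm ht'.symm
  rcases hm 0 with h0 | h0 <;> rcases hm 1 with h1 | h1 <;> rcases hm 2 with h2 | h2
  · exact Or.inl (key b 0 1 (by decide) h0 h1)
  · exact Or.inl (key b 0 1 (by decide) h0 h1)
  · exact Or.inl (key b 0 2 (by decide) h0 h2)
  · exact Or.inr (key b' 1 2 (by decide) h1 h2)
  · exact Or.inl (key b 1 2 (by decide) h1 h2)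
  · exact Or.inr (key b' 0 2 (by decide) h0 h2)
  · exact Or.inr (key b' 0 1 (by decide) h0 h1)
  · exact Or.inr (key b' 0 1 (by decide) h0 h1)

/-- outside a small set of types, `b`, `b'` have no line in common with `a`, `a'` and no third type
has its lines among the lines of the four types -/
lemma far {b b' : Ty N d} (hd : 2 * d ≤ N) (hb : b ∉ Mt (d := d) (Wd a a'))
    (hb' : b' ∉ Mt (d := d) (Wd a a')) :
    Disjoint (lins2 (b, b')) (Fx a a') ∧
    ∀ c : Ty N d, lins c ⊆ Fx a a' ∪ lins2 (b, b') → c = a ∨ c = a' ∨ c = b ∨ c = b' := by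
  have hW : ∀ u ∈ Wd a a', u ∉ lins2 (b, b') := by
    intro u hu hu'
    unfold lins2 at hu'
    rw [mem_union, mem_lins, mem_lins] at hu'
    rcases hu' with ⟨s, rfl⟩ | ⟨s, rfl⟩
    · exact hb (mem_filter.2 ⟨mem_univ _, s, hu⟩)
    · exact hb' (mem_filter.2 ⟨mem_univ _, s, hu⟩)
  refine ⟨?_, ?_⟩
  · rw [disjoint_left]
    exact fun u hu hu' => hW u (sub_Wd a a' hu') hu
  · intro c hc
    by_cases hm : c ∈ Mt (d := d) (Fx a a')
    · have h1 : lins c ⊆ Wd a a' := by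
        unfold Wd
        exact subset_biUnion_of_mem lins hm
      have h2 : lins c ⊆ lins a ∪ lins a' := by
        intro u hu
        have := hc hu
        rw [mem_union] at this
        rcases this with h3 | h3
        · exact h3
        · exact absurd h3 (hW u (h1 hu))
      rcases eq_of_lins_sub hd h2 with h3 | h3
      · exact Or.inl h3
      · exact Or.inr (Or.inl h3)
    · have h2 : lins c ⊆ lins b ∪ lins b' := by
        intro u hu
        have h3 := hc hu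
        rw [mem_union] at h3
        rcases h3 with h3 | h3
        · obtain ⟨s, rfl⟩ := mem_lins.1 hu
          exact absurd (mem_filter.2 ⟨mem_univ _, s, h3⟩) hm
        · exact h3
      rcases eq_of_lins_sub hd h2 with h3 | h3
      · exact Or.inr (Or.inr (Or.inl h3))
      · exact Or.inr (Or.inr (Or.inr h3))

/-- the mass of the pairs with a member in a set of types -/
lemma mass_le {M₀ : ℝ} {ρ : Ty N d × Ty N d → ℝ} (hρ : TCoup M₀ ρ) (B : Finset (Ty N d))
    (hd0 : 0 < d) :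
    ∑ β, (if β.1 ∈ B ∨ β.2 ∈ B then ρ β else 0) ≤ 2 * M₀ * B.card / (N * d) := by
  have hT : (Fintype.card (Ty N d) : ℝ) = N * d := by
    rw [Fintype.card_prod, ZMod.card, Fintype.card_fin]
    push_cast
    rfl
  have hN0 : (0 : ℝ) < N := by exact_mod_cast Nat.pos_of_ne_zero (NeZero.ne N)
  have hd0' : (0 : ℝ) < d := by exact_mod_cast hd0
  have hp : (0 : ℝ) < N * d := by positivity
  have h := mass_bad_le B (fun b b' => ρ (b, b')) (M₀ / (N * d)) (fun b b' => hρ.nonneg _)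
    (fun b => by
      rw [le_div_iff₀ hp, ← hT]
      exact hρ.left b)
    (fun b' => by
      rw [le_div_iff₀ hp, ← hT]
      exact hρ.right b')
  rw [Fintype.sum_prod_type]
  refine h.trans (le_of_eq ?_)
  ring

end Count

section Main

variable (fr : Frame N d E Om) (p : Lin N → Co E P Om → F) (h : Ext fr p) (a a' : Ty N d)
  (Df : Submodule F (Matrix (Co E P Om) (Co E P Om) F × Matrix (Co E P Om) (Co E P Om) F) → ℝ)

/-- the deficit of the space visible from a set of lines -/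
def DG (S : Finset (Lin N)) : ℝ := Df (Gaa fr p h a a' S)

lemma DG_mono (hDf : TV2.SupMod Df) {S T : Finset (Lin N)} (hST : S ⊆ T) :
    DG fr p h a a' Df S ≤ DG fr p h a a' Df T :=
  hDf.mono (Gaa_mono fr p h a a' hST)

/-- the deficit in the lattice over the lines of the two types -/
def Dd (x : Lt fr p h a a') : ℝ := Df x.1 - DG fr p h a a' Df ∅

lemma supMod_Dd (hDf : TV2.SupMod Df) : TV2.SupMod (Dd fr p h a a' Df) where
  mono := fun {x y} hxy => sub_le_sub_right (hDf.mono (Subtype.coe_le_coe.2 hxy)) _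
  sm := fun x y => by
    have := hDf.sm x.1 y.1
    unfold Dd
    rw [coe_sup, coe_inf]
    linarith

lemma Dd_sup (A : Finset (Fl a a')) : Dd fr p h a a' Df (A.sup (LL fr p h a a')) =
    DG fr p h a a' Df (em a a' A ∪ Fx a a') - DG fr p h a a' Df ∅ := by
  unfold Dd DG
  rw [sup_LL]

lemma grp_set (u u' : Fl a a') (A E₀ : Finset (Fl a a')) :
    insert u.1 (Fx a a') ∪ insert u'.1 (Fx a a') ∪ (em a a' (A ∪ E₀) ∪ Fx a a') =
      em a a' A ∪ Fx a a' ∪ em a a' E₀ ∪ {u.1, u'.1} := by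
  rw [em_union]
  ext w
  simp only [mem_union, mem_insert, mem_singleton]
  tauto

lemma grp_eq0 (u u' : Fl a a') (A E₀ : Finset (Fl a a')) :
    (LL fr p h a a' u ⊔ LL fr p h a a' u' ⊔ (A ∪ E₀).sup (LL fr p h a a')).1 =
      Gaa fr p h a a' (insert u.1 (Fx a a') ∪ insert u'.1 (Fx a a') ∪ (em a a' (A ∪ E₀) ∪ Fx a a')) := by
  rw [← Gaa_sup, ← Gaa_sup, ← sup_LL]
  rfl

lemma grp_eq (u u' : Fl a a') (A E₀ : Finset (Fl a a')) :
    (LL fr p h a a' u ⊔ LL fr p h a a' u' ⊔ (A ∪ E₀).sup (LL fr p h a a')).1 =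
      Gaa fr p h a a' (em a a' A ∪ Fx a a' ∪ em a a' E₀ ∪ {u.1, u'.1}) := by
  rw [grp_eq0, grp_set]

lemma grp2_set (u u' v v' : Fl a a') (A E₀ : Finset (Fl a a')) :
    em a a' A ∪ Fx a a' ∪ em a a' E₀ ∪ {u.1, u'.1} ∪
        (em a a' A ∪ Fx a a' ∪ em a a' E₀ ∪ {v.1, v'.1}) =
      em a a' A ∪ Fx a a' ∪ em a a' E₀ ∪ {u.1, u'.1} ∪ {v.1, v'.1} := by
  ext w
  simp only [mem_union, mem_insert, mem_singleton]
  tauto

lemma grp2_eq (u u' v v' : Fl a a') (A E₀ : Finset (Fl a a')) :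
    (LL fr p h a a' u ⊔ LL fr p h a a' u' ⊔ (LL fr p h a a' v ⊔ LL fr p h a a' v') ⊔
      (A ∪ E₀).sup (LL fr p h a a')).1 =
      Gaa fr p h a a' (em a a' A ∪ Fx a a' ∪ em a a' E₀ ∪ {u.1, u'.1} ∪ {v.1, v'.1}) := by
  have e1 := sup_sup_distrib_right (LL fr p h a a' u ⊔ LL fr p h a a' u')
    (LL fr p h a a' v ⊔ LL fr p h a a' v') ((A ∪ E₀).sup (LL fr p h a a'))
  have e2 := congrArg Subtype.val e1
  have e3 := coe_sup fr p h a a' (LL fr p h a a' u ⊔ LL fr p h a a' u' ⊔ (A ∪ E₀).sup (LL fr p h a a'))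
    (LL fr p h a a' v ⊔ LL fr p h a a' v' ⊔ (A ∪ E₀).sup (LL fr p h a a'))
  have e4 := grp_eq fr p h a a' u u' A E₀
  have e5 := grp_eq fr p h a a' v v' A E₀
  have e6 := Gaa_sup fr p h a a' (em a a' A ∪ Fx a a' ∪ em a a' E₀ ∪ {u.1, u'.1})
    (em a a' A ∪ Fx a a' ∪ em a a' E₀ ∪ {v.1, v'.1})
  rw [grp2_set] at e6
  rw [e4, e5, e6] at e3
  exact e2.trans e3

lemma mi_Dd (u u' v v' : Fl a a') (A E₀ : Finset (Fl a a')) :
    TV2.mi (Dd fr p h a a' Df) (LL fr p h a a' u ⊔ LL fr p h a a' u')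
      (LL fr p h a a' v ⊔ LL fr p h a a' v') ((A ∪ E₀).sup (LL fr p h a a')) =
    DG fr p h a a' Df (em a a' A ∪ Fx a a' ∪ em a a' E₀ ∪ {u.1, u'.1} ∪ {v.1, v'.1}) +
      Df (Gaa fr p h a a' (em a a' A ∪ Fx a a' ∪ em a a' E₀ ∪ {u.1, u'.1}) ⊓
        Gaa fr p h a a' (em a a' A ∪ Fx a a' ∪ em a a' E₀ ∪ {v.1, v'.1})) -
      DG fr p h a a' Df (em a a' A ∪ Fx a a' ∪ em a a' E₀ ∪ {u.1, u'.1}) -
      DG fr p h a a' Df (em a a' A ∪ Fx a a' ∪ em a a' E₀ ∪ {v.1, v'.1}) := by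
  unfold TV2.mi Dd
  rw [coe_inf, grp2_eq, grp_eq, grp_eq]
  unfold DG
  ring

/-- the strong relation on all lines -/
def SS' (s : ℕ) (θ : ℝ) (u v : Lin N) : Prop :=
  ∃ (hu : u ∉ Fx a a') (hv : v ∉ Fx a a'),
    TV2.Str (Dd fr p h a a' Df) (LL fr p h a a') s θ ⟨u, hu⟩ ⟨v, hv⟩

/-- A pair `β` is good: it is far from `a`, `a'`, its rows have bounded deficit over `a`, `a'`, and
there are an alignment and three disjoint pasts over which its rows have bounded deficit and the two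
groups of lines have small mutual information. -/
def GoodB (m : ℕ) (lam d0 : ℝ) (β : Ty N d × Ty N d) : Prop :=
  Disjoint (lins2 β) (Fx a a') ∧
  (∀ c : Ty N d, lins c ⊆ Fx a a' ∪ lins2 β → c = a ∨ c = a' ∨ c = β.1 ∨ c = β.2) ∧
  DG fr p h a a' Df (Fx a a' ∪ lins2 β) - DG fr p h a a' Df (Fx a a') ≤ lam ∧
  ∃ i j q i' j' q' : Fin 3, i ≠ j ∧ i ≠ q ∧ j ≠ q ∧ i' ≠ j' ∧ i' ≠ q' ∧ j' ≠ q' ∧
    (∀ s t, lin β.1 s = lin β.2 t → s = q ∧ t = q') ∧
    ∃ S : Fin 3 → Finset (Lin N), (∀ l, (S l).card ≤ 2 * m) ∧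
      (∀ l l', l ≠ l' → Disjoint (S l) (S l')) ∧
      (∀ l, Disjoint (S l) (Fx a a' ∪ lins2 β)) ∧
      (∀ l, DG fr p h a a' Df (S l ∪ Fx a a' ∪ lins2 β) - DG fr p h a a' Df (S l ∪ Fx a a') ≤ lam) ∧
      ∀ l,
        DG fr p h a a' Df (S l ∪ Fx a a' ∪ {lin β.1 q, lin β.2 q'} ∪ {lin β.1 i, lin β.2 i'} ∪
            {lin β.1 j, lin β.2 j'}) +
          Df (Gaa fr p h a a' (S l ∪ Fx a a' ∪ {lin β.1 q, lin β.2 q'} ∪ {lin β.1 i, lin β.2 i'}) ⊓
            Gaa fr p h a a' (S l ∪ Fx a a' ∪ {lin β.1 q, lin β.2 q'} ∪ {lin β.1 j, lin β.2 j'})) -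
          DG fr p h a a' Df (S l ∪ Fx a a' ∪ {lin β.1 q, lin β.2 q'} ∪ {lin β.1 i, lin β.2 i'}) -
          DG fr p h a a' Df (S l ∪ Fx a a' ∪ {lin β.1 q, lin β.2 q'} ∪ {lin β.1 j, lin β.2 j'}) ≤ d0

/-- the strong pairs are few -/
lemma card_SS (s : ℕ) (θ : ℝ) :
    (strongPairs (SS' fr p h a a' Df s θ)).card ≤
      ((univ : Finset (Fl a a' × Fl a a')).filter
        (fun x => TV2.Str (Dd fr p h a a' Df) (LL fr p h a a') s θ x.1 x.2)).card := by
  have h1 : strongPairs (SS' fr p h a a' Df s θ) ⊆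
      (((univ : Finset (Fl a a' × Fl a a')).filter
        (fun x => TV2.Str (Dd fr p h a a' Df) (LL fr p h a a') s θ x.1 x.2)).image
          (fun x => (x.1.1, x.2.1))) := by
    rintro ⟨u, v⟩ huv
    unfold strongPairs at huv
    rw [mem_filter] at huv
    obtain ⟨-, hu, hv, hs⟩ := huv
    rw [mem_image]
    exact ⟨(⟨u, hu⟩, ⟨v, hv⟩), mem_filter.2 ⟨mem_univ _, hs⟩, rfl⟩
  exact (card_le_card h1).trans card_image_le

/-- the pasts of size `s` over which `β` has a large deficit -/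
def BdB (s : ℕ) (lam : ℝ) (β : Ty N d × Ty N d) : Finset (Finset (Fl a a')) :=
  (powersetCard s univ).filter fun A => Disjoint (lins2 β) (em a a' A ∪ Fx a a') ∧
    lam < DG fr p h a a' Df (em a a' A ∪ Fx a a' ∪ lins2 β) -
      DG fr p h a a' Df (em a a' A ∪ Fx a a')

/-- Fubini for the deficit -/
lemma mass_BdB {s m : ℕ} (hs : s ≤ 2 * m) {lam ε₁ : ℝ} {ρ : Ty N d × Ty N d → ℝ}
    (hρ : ∀ β, 0 ≤ ρ β)
    (hK2 : ∀ A : Finset (Lin N), A.card ≤ 2 * m → Disjoint A (Fx a a') →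
      ∑ β, (if Disjoint (lins2 β) (A ∪ Fx a a') ∧
        lam < DG fr p h a a' Df (A ∪ Fx a a' ∪ lins2 β) - DG fr p h a a' Df (A ∪ Fx a a')
        then ρ β else 0) ≤ ε₁) (hc : 0 < (Fintype.card (Fl a a')).choose s) :
    ∑ β, (if (Fintype.card (Fl a a')).choose s < 12 * (BdB fr p h a a' Df s lam β).card
      then ρ β else 0) ≤ 12 * ε₁ := by
  set C := (Fintype.card (Fl a a')).choose s with hC
  have hCr : (0 : ℝ) < C := by exact_mod_cast hc
  have h1 : ∑ β, ρ β * ((BdB fr p h a a' Df s lam β).card : ℝ) ≤ C * ε₁ := by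
    have e1 : ∀ β, ρ β * ((BdB fr p h a a' Df s lam β).card : ℝ) =
        ∑ A ∈ powersetCard s (univ : Finset (Fl a a')),
          (if Disjoint (lins2 β) (em a a' A ∪ Fx a a') ∧
            lam < DG fr p h a a' Df (em a a' A ∪ Fx a a' ∪ lins2 β) -
              DG fr p h a a' Df (em a a' A ∪ Fx a a') then ρ β else 0) := by
      intro β
      rw [← sum_filter, sum_const, nsmul_eq_mul, mul_comm]
      rfl
    simp_rw [e1]
    rw [sum_comm]
    have e2 : (C : ℝ) * ε₁ = ∑ _A ∈ powersetCard s (univ : Finset (Fl a a')), ε₁ := by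
      rw [sum_const, card_powersetCard, card_univ, nsmul_eq_mul]
    rw [e2]
    refine sum_le_sum fun A hA => hK2 (em a a' A) ?_ (em_disj a a' A)
    rw [card_em, (mem_powersetCard.1 hA).2]
    exact hs
  have h2 : ∀ β, (if C < 12 * (BdB fr p h a a' Df s lam β).card then ρ β else 0) * C ≤
      12 * (ρ β * ((BdB fr p h a a' Df s lam β).card : ℝ)) := by
    intro β
    split_ifs with hlt
    · have h3 : (C : ℝ) ≤ 12 * ((BdB fr p h a a' Df s lam β).card : ℝ) := by exact_mod_cast hlt.le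
      have := mul_le_mul_of_nonneg_left h3 (hρ β)
      linarith
    · rw [zero_mul]
      exact mul_nonneg (by norm_num) (mul_nonneg (hρ β) (Nat.cast_nonneg _))
  have h3 : (∑ β, (if C < 12 * (BdB fr p h a a' Df s lam β).card then ρ β else 0)) * C ≤
      12 * ε₁ * C := by
    rw [sum_mul]
    refine (sum_le_sum fun β _ => h2 β).trans ?_
    rw [← mul_sum]
    linarith
  exact le_of_mul_le_mul_right h3 hCr

/-- **Selection of the pasts for one pair.** -/
lemma goodB_of (hDf : TV2.SupMod Df) {s m : ℕ} (hm : 0 < m) (hms : m ≤ s) (hs2 : s < 2 * m) (hd : 2 * d ≤ N)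
    (hN : 144 * m + 6 ≤ 3 * N) {θ d0 lam : ℝ} (hd0 : 0 < d0)
    (hθ : 0 ≤ θ) (h48 : 48 * ((3 * N : ℝ) / m) ^ 4 * θ ≤ d0) {Dg : ℕ} {b b' : Ty N d} (hbb : b ≠ b')
    (hb1 : b ∉ Mt (d := d) (Wd a a')) (hb1' : b' ∉ Mt (d := d) (Wd a a'))
    (hb2 : b ∉ bad (lin (N := N) (d := d)) (SS' fr p h a a' Df s θ) Dg)
    (hb2' : b' ∉ bad (lin (N := N) (d := d)) (SS' fr p h a a' Df s θ) Dg)
    (hB : 12 * (BdB fr p h a a' Df s lam (b, b')).card ≤ (Fintype.card (Fl a a')).choose s)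
    (h0 : DG fr p h a a' Df (Fx a a' ∪ lins2 (b, b')) - DG fr p h a a' Df (Fx a a') ≤ lam) :
    GoodB fr p h a a' Df m lam d0 (b, b') := by
  obtain ⟨hfar1, hfar2⟩ := far a a' hd hb1 hb1'
  refine ⟨hfar1, hfar2, h0, ?_⟩
  obtain ⟨i, j, q, i', j', q', hij, hiq, hjq, hij', hiq', hjq', hsh, n1, n2, n3, n4⟩ :=
    Align.exists_alignment hd (SS' fr p h a a' Df s θ)
      (fun u v ⟨hu, hv, huv⟩ => ⟨hv, hu, huv.symm⟩) Dg hbb hb2 hb2'
  refine ⟨i, j, q, i', j', q', hij, hiq, hjq, hij', hiq', hjq', hsh, ?_⟩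
  obtain ⟨hcard1, hcard2⟩ := card_Fl a a'
  -- the lines are not lines of `a`, `a'`
  have hnot : ∀ s, lin b s ∉ Fx a a' := fun s hs => disjoint_left.1 hfar1
    (mem_union_left _ (mem_lins.2 ⟨s, rfl⟩)) hs
  have hnot' : ∀ s, lin b' s ∉ Fx a a' := fun s hs => disjoint_left.1 hfar1
    (mem_union_right _ (mem_lins.2 ⟨s, rfl⟩)) hs
  set L1 : Fin 3 → Fl a a' := fun s => ⟨lin b s, hnot s⟩ with hL1
  set L2 : Fin 3 → Fl a a' := fun s => ⟨lin b' s, hnot' s⟩ with hL2
  have i1 : ∀ s t, L1 s = L1 t → s = t := fun s t h => Align.lin_injective b (congrArg Subtype.val h)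
  have i2 : ∀ s t, L2 s = L2 t → s = t := fun s t h => Align.lin_injective b' (congrArg Subtype.val h)
  have i12 : ∀ s t, L1 s = L2 t → s = q ∧ t = q' := fun s t h => hsh s t (congrArg Subtype.val h)
  set E₀ : Finset (Fl a a') := {L1 q, L2 q'} with hE₀
  set Z : Finset (Fl a a') := univ.image L1 ∪ univ.image L2 with hZ
  have hmZ1 : ∀ s, L1 s ∈ Z := fun s => mem_union_left _ (mem_image_of_mem _ (mem_univ s))
  have hmZ2 : ∀ s, L2 s ∈ Z := fun s => mem_union_right _ (mem_image_of_mem _ (mem_univ s))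
  have hZcard : Z.card ≤ 6 := by
    have r1 := card_image_le (s := (univ : Finset (Fin 3))) (f := L1)
    have r2 := card_image_le (s := (univ : Finset (Fin 3))) (f := L2)
    rw [card_univ, Fintype.card_fin] at r1 r2
    exact (card_union_le _ _).trans (by omega)
  have hemZ : em a a' Z = lins2 (b, b') := by
    ext u
    rw [mem_em]
    unfold lins2
    rw [mem_union, mem_lins, mem_lins]
    constructor
    · rintro ⟨hu, hu'⟩
      rw [hZ, mem_union, mem_image, mem_image] at hu'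
      rcases hu' with ⟨s, -, hs⟩ | ⟨s, -, hs⟩
      · exact Or.inl ⟨s, congrArg Subtype.val hs⟩
      · exact Or.inr ⟨s, congrArg Subtype.val hs⟩
    · rintro (⟨s, rfl⟩ | ⟨s, rfl⟩)
      · exact ⟨hnot s, hmZ1 s⟩
      · exact ⟨hnot' s, hmZ2 s⟩
  have hemE : em a a' E₀ = {lin b q, lin b' q'} := by
    rw [hE₀]
    unfold em
    rw [map_insert, map_singleton]
    rfl
  have hns : ∀ u v : Fl a a', u ≠ v → ¬ SS' fr p h a a' Df s θ u.1 v.1 →
      ∀ e < 5, TV2.wt (Dd fr p h a a' Df) (LL fr p h a a') (s + e) u v ≤ θ := by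
    intro u v huv hs
    exact TV2.not_str huv fun hstr => hs ⟨u.2, v.2, hstr⟩
  have hsymm : ∀ u v, ¬ SS' fr p h a a' Df s θ u v → ¬ SS' fr p h a a' Df s θ v u :=
    fun u v h ⟨hu, hv, huv⟩ => h ⟨hv, hu, huv.symm⟩
  have hratio : 48 * ((Fintype.card (Fl a a') : ℝ) / m) ^ 4 * θ ≤ d0 := by
    refine le_trans ?_ h48
    refine mul_le_mul_of_nonneg_right ?_ hθ
    refine mul_le_mul_of_nonneg_left ?_ (by norm_num)
    refine pow_le_pow_left₀ (by positivity) ?_ 4
    refine div_le_div_of_nonneg_right ?_ (Nat.cast_nonneg _)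
    exact_mod_cast hcard2
  obtain ⟨A, hA1, hA2, hA3, hA4, hA5⟩ := TV2.good_pasts (supMod_Dd fr p h a a' Df hDf)
    (L := LL fr p h a a') (s := s) (m := m) hm hms (by omega)
    (i := L1 i) (i' := L2 i') (j := L1 j) (j' := L2 j') (E₀ := E₀) (Z := Z)
    (by rw [hE₀]; exact card_le_two)
    (fun hh => hiq (i12 _ _ hh).1) (fun hh => hij (i1 _ _ hh)) (fun hh => hiq (i12 _ _ hh).1)
    (fun hh => hiq' (i12 _ _ hh.symm).2) (fun hh => hij' (i2 _ _ hh))
    (fun hh => hjq (i12 _ _ hh).1)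
    (by
      rw [hE₀, mem_insert, mem_singleton, not_or]
      exact ⟨fun hh => hiq (i1 _ _ hh), fun hh => hiq (i12 _ _ hh).1⟩)
    (by
      rw [hE₀, mem_insert, mem_singleton, not_or]
      exact ⟨fun hh => hiq' (i12 _ _ hh.symm).2, fun hh => hiq' (i2 _ _ hh)⟩)
    (by
      rw [hE₀, mem_insert, mem_singleton, not_or]
      exact ⟨fun hh => hjq (i1 _ _ hh), fun hh => hjq (i12 _ _ hh).1⟩)
    (by
      rw [hE₀, mem_insert, mem_singleton, not_or]
      exact ⟨fun hh => hjq' (i12 _ _ hh.symm).2, fun hh => hjq' (i2 _ _ hh)⟩)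
    (by
      intro u hu
      rw [hE₀] at hu
      simp only [mem_insert, mem_singleton] at hu
      rcases hu with rfl | rfl | rfl | rfl | rfl | rfl
      · exact hmZ1 _
      · exact hmZ2 _
      · exact hmZ1 _
      · exact hmZ2 _
      · exact hmZ1 _
      · exact hmZ2 _)
    (by
      have : Z.card * s ≤ 6 * (2 * m) := Nat.mul_le_mul hZcard hs2.le
      omega)
    hd0 hratio
    (hns _ _ (fun hh => hij (i1 _ _ hh)) n1)
    (hns _ _ (fun hh => hiq' (i12 _ _ hh.symm).2) (hsymm _ _ n4))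
    (hns _ _ (fun hh => hiq (i12 _ _ hh).1) n3)
    (hns _ _ (fun hh => hij' (i2 _ _ hh)) n2)
    (BdB fr p h a a' Df s lam (b, b'))
    (by
      refine le_trans (Nat.mul_le_mul_left _ (card_le_card inter_subset_left)) hB)
  refine ⟨fun l => em a a' (A l), ?_, ?_, ?_, ?_, ?_⟩
  · intro l
    rw [card_em, hA1]
    exact hs2.le
  · intro l l' hl
    exact em_disjoint a a' (hA5 l l' hl)
  · intro l
    rw [disjoint_union_right, ← hemZ]
    exact ⟨em_disj a a' _, em_disjoint a a' (hA2 l)⟩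
  · intro l
    by_contra hcon
    push Not at hcon
    refine hA3 l (mem_filter.2 ⟨mem_powersetCard.2 ⟨subset_univ _, hA1 l⟩, ?_, hcon⟩)
    rw [disjoint_union_right, ← hemZ]
    exact ⟨(em_disjoint a a' (hA2 l)).symm, em_disj a a' _⟩
  · intro l
    have h4 := hA4 l
    rw [mi_Dd, hemE] at h4
    exact h4

/-- a size with few strong pairs -/
lemma exists_s (hDf : TV2.SupMod Df) {κ₀ m : ℕ} (h1 : Ev1 p κ₀) (hm : 4 ≤ m)
    (hr : ∀ w, 6 * m + 6 + (rowLines fr w).card ≤ κ₀) (hr' : 6 * m + 6 ≤ κ₀)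
    (hN : 144 * m + 6 ≤ 3 * N) {Dm : ℝ}
    (hB : ∀ S, DG fr p h a a' Df S - DG fr p h a a' Df ∅ ≤ Dm) {θ s₀ : ℝ} (hθ : 0 < θ)
    (hs₀ : 225 * N * Dm ≤ s₀ * ((m : ℝ) ^ 2 * θ)) :
    ∃ s, m ≤ s ∧ s < 2 * m ∧ ((strongPairs (SS' fr p h a a' Df s θ)).card : ℝ) ≤ s₀ * N := by
  have hN0 : (0 : ℝ) < N := by exact_mod_cast Nat.pos_of_ne_zero (NeZero.ne N)
  have hm0 : (0 : ℝ) < m := by exact_mod_cast (by omega : 0 < m)
  obtain ⟨hcard1, hcard2⟩ := card_Fl a a'
  obtain ⟨s, hms, hs2, hstr⟩ := TV2.exists_size_str (supMod_Dd fr p h a a' Df hDf)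
    (tri fr p h a a' (κ := 6 * m) h1 hr hr') (Dm := Dm)
    (fun A => by
      rw [Dd_sup]
      exact ⟨sub_nonneg.2 (DG_mono fr p h a a' Df hDf (empty_subset _)), hB _⟩)
    hm le_rfl (by omega)
  refine ⟨s, hms, hs2, ?_⟩
  have hDm : 0 ≤ Dm := by
    have := hB ∅
    rwa [sub_self] at this
  have q1 := hstr θ
  have q2 : ((strongPairs (SS' fr p h a a' Df s θ)).card : ℝ) ≤
      (((univ : Finset (Fl a a' × Fl a a')).filter
        (fun x => TV2.Str (Dd fr p h a a' Df) (LL fr p h a a') s θ x.1 x.2)).card : ℝ) := by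
    exact_mod_cast card_SS fr p h a a' Df s θ
  have q3 : ((strongPairs (SS' fr p h a a' Df s θ)).card : ℝ) * θ ≤
      25 * (Fintype.card (Fl a a') : ℝ) ^ 2 * Dm / (m : ℝ) ^ 2 := by
    refine le_trans (mul_le_mul_of_nonneg_right q2 hθ.le) ?_
    convert q1
  have q4 : 25 * (Fintype.card (Fl a a') : ℝ) ^ 2 * Dm / (m : ℝ) ^ 2 ≤
      (225 * N * Dm) * N / (m : ℝ) ^ 2 := by
    refine div_le_div_of_nonneg_right ?_ (by positivity)
    have r1 : (Fintype.card (Fl a a') : ℝ) ≤ 3 * N := by exact_mod_cast hcard2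
    have r2 : (Fintype.card (Fl a a') : ℝ) ^ 2 ≤ (3 * N) ^ 2 :=
      pow_le_pow_left₀ (Nat.cast_nonneg _) r1 2
    have r3 := mul_le_mul_of_nonneg_right r2 hDm
    nlinarith
  have q5 : (225 * N * Dm) * N / (m : ℝ) ^ 2 ≤ s₀ * N * θ := by
    rw [div_le_iff₀ (by positivity)]
    have := mul_le_mul_of_nonneg_right hs₀ hN0.le
    nlinarith
  have q6 := q3.trans (q4.trans q5)
  exact le_of_mul_le_mul_right q6 hθ

omit [NeZero N] in
lemma four {r : ℝ} (hr : 0 ≤ r) {G Q₁ Q₂ Q₃ Q₄ : Prop} [Decidable G] [Decidable Q₁]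
    [Decidable Q₂] [Decidable Q₃] [Decidable Q₄]
    (hG : ¬ Q₁ → ¬ Q₂ → ¬ Q₃ → ¬ Q₄ → r ≠ 0 → G) :
    (if G then 0 else r) ≤ (if Q₁ then r else 0) + (if Q₂ then r else 0) + (if Q₃ then r else 0) +
      (if Q₄ then r else 0) := by
  by_cases hr0 : r = 0
  · rw [hr0]
    simp
  · by_cases h1 : Q₁ <;> by_cases h2 : Q₂ <;> by_cases h3 : Q₃ <;> by_cases h4 : Q₄ <;>
      by_cases g : G <;> simp only [h1, h2, h3, h4, g, if_true, if_false] <;>
      first | linarith | exact absurd (hG h1 h2 h3 h4 hr0) g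

lemma key (hDf : TV2.SupMod Df) {s m : ℕ} (hm : 0 < m) (hms : m ≤ s) (hs2 : s < 2 * m) (hd : 2 * d ≤ N)
    (hN : 144 * m + 6 ≤ 3 * N) {θ d0 lam : ℝ} (hd0 : 0 < d0)
    (hθ : 0 ≤ θ) (h48 : 48 * ((3 * N : ℝ) / m) ^ 4 * θ ≤ d0) (Dg : ℕ)
    {ρ : Ty N d × Ty N d → ℝ} (hρ : TCoup 8 ρ) (β : Ty N d × Ty N d) :
    (if GoodB fr p h a a' Df m lam d0 β then 0 else ρ β) ≤
      (if β.1 ∈ bad (lin (N := N) (d := d)) (SS' fr p h a a' Df s θ) Dg ∨
        β.2 ∈ bad (lin (N := N) (d := d)) (SS' fr p h a a' Df s θ) Dg then ρ β else 0) +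
      (if (Fintype.card (Fl a a')).choose s < 12 * (BdB fr p h a a' Df s lam β).card
        then ρ β else 0) +
      (if Disjoint (lins2 β) (∅ ∪ Fx a a') ∧
        lam < DG fr p h a a' Df (∅ ∪ Fx a a' ∪ lins2 β) - DG fr p h a a' Df (∅ ∪ Fx a a')
        then ρ β else 0) +
      (if β.1 ∈ Mt (d := d) (Wd a a') ∨ β.2 ∈ Mt (d := d) (Wd a a') then ρ β else 0) := by
  refine four (hρ.nonneg β) ?_
  intro c1 c2 c3 c4 hr0
  rw [not_or] at c1 c4
  rw [not_lt] at c2
  have hbb : β.1 ≠ β.2 := by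
    intro hbb
    have h2 := hρ.ne β.1
    rw [show (β.1, β.1) = β from Prod.ext rfl hbb] at h2
    exact hr0 h2
  obtain ⟨b, b'⟩ := β
  have hfar := far a a' hd c4.1 c4.2
  rw [empty_union] at c3
  refine goodB_of fr p h a a' Df hDf hm hms hs2 hd hN hd0 hθ h48 hbb c4.1 c4.2 c1.1 c1.2 c2 ?_
  by_contra hcon
  rw [not_le] at hcon
  exact c3 ⟨hfar.1, hcon⟩

/-- **Selection of the pasts.**  All pairs except for a small mass are good. -/
theorem exists_pasts (hDf : TV2.SupMod Df) {κ₀ m : ℕ} (h1 : Ev1 p κ₀) (hm : 4 ≤ m)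
    (hr : ∀ w, 6 * m + 6 + (rowLines fr w).card ≤ κ₀) (hr' : 6 * m + 6 ≤ κ₀)
    (hN : 144 * m + 6 ≤ 3 * N) (hd : 2 * d ≤ N) (hd1 : 0 < d) {Dm : ℝ}
    (hB : ∀ S, DG fr p h a a' Df S - DG fr p h a a' Df ∅ ≤ Dm) {θ d0 lam s₀ : ℝ} (hθ : 0 < θ)
    (hd0 : 0 < d0) (h48 : 48 * ((3 * N : ℝ) / m) ^ 4 * θ ≤ d0)
    (hs₀ : 225 * N * Dm ≤ s₀ * ((m : ℝ) ^ 2 * θ)) {Dg : ℕ} {ε₁ ε₂ : ℝ}
    {ρ : Ty N d × Ty N d → ℝ} (hρ : TCoup 8 ρ)
    (hbad : ∀ S : Lin N → Lin N → Prop, ((strongPairs S).card : ℝ) ≤ s₀ * N →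
      ∑ β, (if β.1 ∈ bad (lin (N := N) (d := d)) S Dg ∨ β.2 ∈ bad (lin (N := N) (d := d)) S Dg
        then ρ β else 0) ≤ ε₂)
    (hK2 : ∀ A : Finset (Lin N), A.card ≤ 2 * m → Disjoint A (Fx a a') →
      ∑ β, (if Disjoint (lins2 β) (A ∪ Fx a a') ∧
        lam < DG fr p h a a' Df (A ∪ Fx a a' ∪ lins2 β) - DG fr p h a a' Df (A ∪ Fx a a')
        then ρ β else 0) ≤ ε₁) :
    ∑ β, (if GoodB fr p h a a' Df m lam d0 β then 0 else ρ β) ≤ ε₂ + 13 * ε₁ + 288 * d / N := by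
  have hN0 : (0 : ℝ) < N := by exact_mod_cast Nat.pos_of_ne_zero (NeZero.ne N)
  obtain ⟨hcard1, hcard2⟩ := card_Fl a a'
  obtain ⟨s, hms, hs2, hsp⟩ := exists_s fr p h a a' Df hDf h1 hm hr hr' hN hB hθ hs₀
  have b1 := hbad _ hsp
  have hCpos : 0 < (Fintype.card (Fl a a')).choose s := Nat.choose_pos (by omega)
  have b2 := mass_BdB fr p h a a' Df hs2.le (lam := lam) hρ.nonneg hK2 hCpos
  have b3 := hK2 ∅ (by simp) (disjoint_empty_left _)
  have b4 : ∑ β, (if β.1 ∈ Mt (d := d) (Wd a a') ∨ β.2 ∈ Mt (d := d) (Wd a a') then ρ β else 0) ≤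
      288 * d / N := by
    refine (mass_le hρ _ hd1).trans ?_
    have hd0' : (0 : ℝ) < d := by exact_mod_cast hd1
    have q1 : ((Mt (d := d) (Wd a a')).card : ℝ) ≤ 18 * d * d := by exact_mod_cast card_MtWd a a'
    rw [div_le_div_iff₀ (by positivity) hN0]
    have q2 := mul_le_mul_of_nonneg_right q1 hN0.le
    nlinarith
  refine (sum_le_sum fun β _ =>
    key fr p h a a' Df hDf (by omega) hms hs2 hd hN hd0 hθ.le h48 Dg hρ β).trans ?_
  rw [sum_add_distrib, sum_add_distrib, sum_add_distrib]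
  linarith

end Main

end TVP

end Vale.Agent.P060.HW
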