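import Vale.Agent.P060.HW.TV8a

/-!
# P060/HW: triple sum (T7)

The space of the test values is the sum of the three pairwise intersections of the spaces of three
disjoint pasts.
-/

open scoped Classical

noncomputable section

set_option linter.unusedSectionVars false

namespace Vale.Agent.P060.HW

open Module

namespace TripleSumAux

/-- Prescribed pairings with independent vectors. -/
lemma exists_dot {P S : Type*} [Fintype P] {v : S → P → F} (hv : LinearIndependent F v) (t : S → F) :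
    ∃ y : P → F, ∀ u, v u ⬝ᵥ y = t u := by
  obtain ⟨g, hg⟩ := ((Basis.span hv).constr F t).exists_extend
  refine ⟨fun j => g (Pi.single j 1), fun u => ?_⟩
  have h1 : g (v u) = t u := by
    have h2 : ((Basis.span hv) u : P → F) = v u := by rw [Basis.span_apply]
    have h3 := LinearMap.congr_fun hg ((Basis.span hv) u)
    rw [Basis.constr_basis] at h3
    rw [← h3, LinearMap.comp_apply, Submodule.subtype_apply, h2]
  rw [← h1]
  conv_rhs => rw [pi_eq_sum_univ' (v u)]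
  rw [map_sum]
  refine Finset.sum_congr rfl fun j _ => ?_
  rw [map_smul, smul_eq_mul]

variable {N d : ℕ} {E P Om : Type} [Fintype E] [Fintype P] [Fintype Om] [NeZero N]

lemma mem_lins_iff {c : Ty N d} {u : Lin N} : u ∈ lins c ↔ ∃ s, lin c s = u := by
  rw [lins, Finset.mem_image]
  simp

/-- No type is known from two disjoint pasts. -/
lemma blk_false (fr : Frame N d E Om) {A A' : Finset (Lin N)} {b b' b₀ c : Ty N d}
    (hA : Disjoint A A') (hb : b₀ = b ∨ b₀ = b') (h : Blk A b b' b₀ c) (h' : Blk A' b b' b₀ c) :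
    False := by
  have key : ∀ x y z : Ty N d, lins z ⊆ lins x ∪ lins y → z ≠ x →
      (∃ s, lin z s ∈ lins x ∧ ¬ lin z s ∈ lins y) → False := by
    rintro x y z hz hzx ⟨s, hs, hs'⟩
    have hx : ∀ s', s' ≠ s → lin z s' ∈ lins y := by
      intro s' hss
      have h1 := hz (mem_lins_iff.2 ⟨s', rfl⟩)
      rcases Finset.mem_union.1 h1 with h1 | h1
      · exfalso
        obtain ⟨r, hr⟩ := mem_lins_iff.1 hs
        obtain ⟨r', hr'⟩ := mem_lins_iff.1 h1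
        have e1 : r = s := congrArg Prod.fst hr
        have e2 : r' = s' := congrArg Prod.fst hr'
        subst e1
        subst e2
        exact hzx (fr.share_two z x r r' (Ne.symm hss) (congrArg Prod.snd hr).symm
          (congrArg Prod.snd hr').symm)
      · exact h1
    have hy : z = y := by
      have hst : ∀ s' : Fin 3, s' ≠ s → ln z s' = ln y s' := by
        intro s' hss
        obtain ⟨r, hr⟩ := mem_lins_iff.1 (hx s' hss)
        have e1 : r = s' := congrArg Prod.fst hr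
        subst e1
        exact (congrArg Prod.snd hr).symm
      have h3 : ∀ s : Fin 3, ∃ s1 s2 : Fin 3, s1 ≠ s2 ∧ s1 ≠ s ∧ s2 ≠ s := by decide
      obtain ⟨s1, s2, h12, h1, h2⟩ := h3 s
      exact fr.share_two z y s1 s2 h12 (hst s1 h1) (hst s2 h2)
    subst hy
    exact hs' (mem_lins_iff.2 ⟨s, rfl⟩)
  have hsub : lins c ⊆ lins b ∪ lins b' := by
    intro u hu
    rcases Finset.mem_union.1 (h.1 hu) with h1 | h1
    · rcases Finset.mem_union.1 (h'.1 hu) with h2 | h2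
      · exact absurd h2 (Finset.disjoint_left.1 hA h1)
      · exact h2
    · exact h1
  obtain ⟨-, hc, s, hs, hs'⟩ := h
  rcases hb with rfl | rfl
  · exact key _ _ c hsub hc ⟨s, hs, fun h => hs' ⟨hs, h⟩⟩
  · exact key _ _ c (by rwa [Finset.union_comm] at hsub) hc ⟨s, hs, fun h => hs' ⟨h, hs⟩⟩

/-- the known rows of different pasts are disjoint -/
lemma blk_rows (fr : Frame N d E Om) {A A' : Finset (Lin N)} {b b' b₀ c c' : Ty N d}
    (hA : Disjoint A A') (hb : b₀ = b ∨ b₀ = b') (h : Blk A b b' b₀ c) (h' : Blk A' b b' b₀ c')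
    {w : Om} (hw : w ∈ fr.U c) (hw' : w ∈ fr.U c') : False := by
  by_cases hcc : c = c'
  · subst hcc
    exact blk_false fr hA hb h h'
  · obtain ⟨-, -, s, hs, -⟩ := h
    obtain ⟨-, -, s', hs', -⟩ := h'
    obtain ⟨r, hr⟩ := mem_lins_iff.1 hs
    obtain ⟨r', hr'⟩ := mem_lins_iff.1 hs'
    have e1 : r = s := congrArg Prod.fst hr
    have e2 : r' = s' := congrArg Prod.fst hr'
    subst e1
    subst e2
    exact Finset.disjoint_left.1 (fr.star_disj b₀ c c' r r' hcc (congrArg Prod.snd hr)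
      (congrArg Prod.snd hr')) hw hw'

/-- A vector with prescribed pairings and prescribed rows. -/
lemma exists_part (p : Lin N → Co E P Om → F) (B C S : Finset (Lin N)) (hBS : B ⊆ S) (hCS : C ⊆ S)
    (hBC : Disjoint B C)
    (hind : LinearIndependent F (fun u : S => fun j : P => p u (Sum.inl (Sum.inr j))))
    (m : Co E P Om → F) (V : Om → Prop) :
    ∃ y : Co E P Om → F, (∀ w, y (Sum.inr w) = if V w then m (Sum.inr w) else 0) ∧
      (∀ u ∈ B, p u ⬝ᵥ y = p u ⬝ᵥ m) ∧ ∀ u ∈ C, p u ⬝ᵥ y = 0 := by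
  obtain ⟨z, hz⟩ := exists_dot hind (fun u => (if u.1 ∈ B then p u ⬝ᵥ m else 0) -
    ∑ w : Om, p u (Sum.inr w) * (if V w then m (Sum.inr w) else 0))
  have key : ∀ u ∈ S, p u ⬝ᵥ (Sum.elim (Sum.elim (fun _ => 0) z)
      (fun w => if V w then m (Sum.inr w) else 0) : Co E P Om → F) =
      if u ∈ B then p u ⬝ᵥ m else 0 := by
    intro u hu
    have h1 := hz ⟨u, hu⟩
    simp only [dotProduct] at h1 ⊢
    rw [Fintype.sum_sum_type, Fintype.sum_sum_type]
    simp only [Sum.elim_inl, Sum.elim_inr, mul_zero, Finset.sum_const_zero, zero_add]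
    rw [h1, sub_add_cancel]
  refine ⟨Sum.elim (Sum.elim (fun _ => 0) z) (fun w => if V w then m (Sum.inr w) else 0),
    fun w => rfl, fun u hu => ?_, fun u hu => ?_⟩
  · rw [key u (hBS hu), if_pos hu]
  · rw [key u (hCS hu), if_neg fun h => Finset.disjoint_left.1 hBC h hu]

lemma gv_dot (p : Lin N → Co E P Om → F) (c : Ty N d) (y : Co E P Om → F)
    (h : ∀ u ∈ lins c, p u ⬝ᵥ y = 0) : gv p c ⬝ᵥ y = 0 := by
  rw [gv, sum_dotProduct]
  exact Finset.sum_eq_zero fun s _ => h _ (mem_lins_iff.2 ⟨s, rfl⟩)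

/-- The conditions in a slot. -/
def Sl (fr : Frame N d E Om) (p : Lin N → Co E P Om → F) (b b' a₀ b₀ : Ty N d)
    (A : Finset (Lin N)) (m : Co E P Om → F) : Prop :=
  ((∀ w, w ∈ fr.U a₀ ∨ w ∈ fr.U b₀ → m (Sum.inr w) = 0) ∧ gv p a₀ ⬝ᵥ m = 0) ∧
    (∀ u ∈ A, p u ⬝ᵥ m = 0) ∧ ∀ c, Blk A b b' b₀ c → ∀ w ∈ fr.U c, m (Sum.inr w) = 0

lemma slot (fr : Frame N d E Om) (p : Lin N → Co E P Om → F) (b b' a₀ b₀ : Ty N d)
    (L : Finset (Lin N)) (A : Fin 3 → Finset (Lin N)) (hb : b₀ = b ∨ b₀ = b') (ha : lins a₀ ⊆ L)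
    (hA : ∀ l l', l ≠ l' → Disjoint (A l) (A l')) (hL : ∀ l, Disjoint (A l) L)
    (hind : LinearIndependent F (fun u : (A 0 ∪ A 1 ∪ A 2 ∪ L : Finset (Lin N)) =>
      fun j : P => p u (Sum.inl (Sum.inr j)))) (m : Co E P Om → F)
    (h0 : ∀ w, w ∈ fr.U a₀ ∨ w ∈ fr.U b₀ → m (Sum.inr w) = 0) (hg : gv p a₀ ⬝ᵥ m = 0) :
    ∃ x y z : Co E P Om → F, x + (y + z) = m ∧
      Sl fr p b b' a₀ b₀ (A 0) x ∧ Sl fr p b b' a₀ b₀ (A 1) x ∧
      Sl fr p b b' a₀ b₀ (A 0) y ∧ Sl fr p b b' a₀ b₀ (A 2) y ∧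
      Sl fr p b b' a₀ b₀ (A 1) z ∧ Sl fr p b b' a₀ b₀ (A 2) z := by
  have hs0 : A 0 ⊆ A 0 ∪ A 1 ∪ A 2 ∪ L := fun u hu => by simp [hu]
  have hs1 : A 1 ⊆ A 0 ∪ A 1 ∪ A 2 ∪ L := fun u hu => by simp [hu]
  have hs2 : A 2 ⊆ A 0 ∪ A 1 ∪ A 2 ∪ L := fun u hu => by simp [hu]
  have hs3 : L ⊆ A 0 ∪ A 1 ∪ A 2 ∪ L := fun u hu => by simp [hu]
  have h01 := hA 0 1 (by decide)
  have h02 := hA 0 2 (by decide)
  have h12 := hA 1 2 (by decide)
  have h10 := hA 1 0 (by decide)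
  have h20 := hA 2 0 (by decide)
  have h21 := hA 2 1 (by decide)
  obtain ⟨y, hy0, hy1, hy2⟩ := exists_part p (A 1) (A 0 ∪ A 2 ∪ L) _ hs1
    (Finset.union_subset (Finset.union_subset hs0 hs2) hs3)
    (Finset.disjoint_union_right.2 ⟨Finset.disjoint_union_right.2 ⟨h10, h12⟩, hL 1⟩) hind m
    (fun w => ∃ c, Blk (A 1) b b' b₀ c ∧ w ∈ fr.U c)
  obtain ⟨z, hz0, hz1, hz2⟩ := exists_part p (A 0) (A 1 ∪ A 2 ∪ L) _ hs0
    (Finset.union_subset (Finset.union_subset hs1 hs2) hs3)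
    (Finset.disjoint_union_right.2 ⟨Finset.disjoint_union_right.2 ⟨h01, h02⟩, hL 0⟩) hind m
    (fun w => ∃ c, Blk (A 0) b b' b₀ c ∧ w ∈ fr.U c)
  have gy : gv p a₀ ⬝ᵥ y = 0 := gv_dot p a₀ y fun u hu => hy2 u (by simp [ha hu])
  have gz : gv p a₀ ⬝ᵥ z = 0 := gv_dot p a₀ z fun u hu => hz2 u (by simp [ha hu])
  have wy : ∀ w, w ∈ fr.U a₀ ∨ w ∈ fr.U b₀ → y (Sum.inr w) = 0 := by
    intro w hw
    rw [hy0, h0 w hw, ite_self]
  have wz : ∀ w, w ∈ fr.U a₀ ∨ w ∈ fr.U b₀ → z (Sum.inr w) = 0 := by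
    intro w hw
    rw [hz0, h0 w hw, ite_self]
  refine ⟨m - y - z, y, z, by abel, ⟨⟨fun w hw => ?_, ?_⟩, fun u hu => ?_, fun c hc w hw => ?_⟩,
    ⟨⟨fun w hw => ?_, ?_⟩, fun u hu => ?_, fun c hc w hw => ?_⟩,
    ⟨⟨wy, gy⟩, fun u hu => hy2 u (by simp [hu]), fun c hc w hw => ?_⟩,
    ⟨⟨wy, gy⟩, fun u hu => hy2 u (by simp [hu]), fun c hc w hw => ?_⟩,
    ⟨⟨wz, gz⟩, fun u hu => hz2 u (by simp [hu]), fun c hc w hw => ?_⟩,
    ⟨⟨wz, gz⟩, fun u hu => hz2 u (by simp [hu]), fun c hc w hw => ?_⟩⟩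
  · rw [Pi.sub_apply, Pi.sub_apply, wy w hw, wz w hw, h0 w hw, sub_zero, sub_zero]
  · rw [dotProduct_sub, dotProduct_sub, gy, gz, hg, sub_zero, sub_zero]
  · rw [dotProduct_sub, dotProduct_sub, hy2 u (by simp [hu]), hz1 u hu, sub_zero, sub_self]
  · have e1 : y (Sum.inr w) = 0 := by
      rw [hy0, if_neg]
      rintro ⟨c', hc', hw'⟩
      exact blk_rows fr h01 hb hc hc' hw hw'
    have e2 : z (Sum.inr w) = m (Sum.inr w) := by rw [hz0, if_pos ⟨c, hc, hw⟩]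
    rw [Pi.sub_apply, Pi.sub_apply, e1, e2, sub_zero, sub_self]
  · rw [Pi.sub_apply, Pi.sub_apply, wy w hw, wz w hw, h0 w hw, sub_zero, sub_zero]
  · rw [dotProduct_sub, dotProduct_sub, gy, gz, hg, sub_zero, sub_zero]
  · rw [dotProduct_sub, dotProduct_sub, hz2 u (by simp [hu]), hy1 u hu, sub_zero, sub_self]
  · have e1 : z (Sum.inr w) = 0 := by
      rw [hz0, if_neg]
      rintro ⟨c', hc', hw'⟩
      exact blk_rows fr h10 hb hc hc' hw hw'
    have e2 : y (Sum.inr w) = m (Sum.inr w) := by rw [hy0, if_pos ⟨c, hc, hw⟩]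
    rw [Pi.sub_apply, Pi.sub_apply, e1, e2, sub_self, sub_zero]
  · rw [hy0, if_neg]
    rintro ⟨c', hc', hw'⟩
    exact blk_rows fr h01 hb hc hc' hw hw'
  · rw [hy0, if_neg]
    rintro ⟨c', hc', hw'⟩
    exact blk_rows fr h21 hb hc hc' hw hw'
  · rw [hz0, if_neg]
    rintro ⟨c', hc', hw'⟩
    exact blk_rows fr h10 hb hc hc' hw hw'
  · rw [hz0, if_neg]
    rintro ⟨c', hc', hw'⟩
    exact blk_rows fr h20 hb hc hc' hw hw'

end TripleSumAux

open TripleSumAux in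
/-- (T7) TRIPLE SUM. -/
theorem triple_sum : TripleSum := by
  intro N d E P Om _ _ _ _ fr p a a' b b' A _ _ hA _ hL hind m hm
  have hb : ∀ i, sb b b' i = b ∨ sb b b' i = b' := by
    intro i
    fin_cases i <;> simp [sb]
  have ha : ∀ i, lins (sa a a' i) ⊆ lins2 (a, a') := by
    intro i
    fin_cases i <;> simp [sa, lins2]
  choose x y z h using fun i => slot fr p b b' (sa a a' i) (sb b b' i) (lins2 (a, a')) A (hb i) (ha i)
    hA hL hind (m i) (hm i).1 (hm i).2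
  refine Submodule.mem_sup.2 ⟨x, ⟨?_, ?_⟩, y + z, Submodule.mem_sup.2 ⟨y, ⟨?_, ?_⟩, z, ⟨?_, ?_⟩, rfl⟩,
    funext fun i => (h i).1⟩
  · exact ⟨fun i => (h i).2.1.1, fun i => (h i).2.1.2⟩
  · exact ⟨fun i => (h i).2.2.1.1, fun i => (h i).2.2.1.2⟩
  · exact ⟨fun i => (h i).2.2.2.1.1, fun i => (h i).2.2.2.1.2⟩
  · exact ⟨fun i => (h i).2.2.2.2.1.1, fun i => (h i).2.2.2.2.1.2⟩
  · exact ⟨fun i => (h i).2.2.2.2.2.1.1, fun i => (h i).2.2.2.2.2.1.2⟩
  · exact ⟨fun i => (h i).2.2.2.2.2.2.1, fun i => (h i).2.2.2.2.2.2.2⟩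

end Vale.Agent.P060.HW
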